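import Crest.Agent.R214.ZoneCert
import Crest.Agent.R214.SlabCorner

-- ▼ part R214/ZoneLin
section

/-!
# Row 214: two zones, the first zone with a calibration linear in `t`

`mono_sub_phi`: monotone substitution in the outer zone, a given odd `C¹` periodic calibration `φ`
in the inner zone.  `mono_sub_lin`: `φ t = D * t` on the inner zone.
-/

set_option autoImplicit false

open MeasureTheory Set Filter Topology Crest.Agent.R214.MS

namespace Crest.Agent.R214.ZC

/-- Monotone substitution in the outer zone, `φ` in the inner zone `|t| ≤ h`. -/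
theorem mono_sub_phi {s l : ℝ → ℝ} (hs : BP s) (hl : BP l) (hse : ∀ t, s (-t) = s t)
    {P : ℝ} (H : DualIneq s l P) {T₁ φ : ℝ → ℝ} (hT₁ : Continuous T₁)
    (hφ : ContDiff ℝ 1 φ) (hφp : Function.Periodic φ 1) (hφo : ∀ t, φ (-t) = -φ t)
    (hφb : ∀ t, |φ t| ≤ 1)
    (hT₁b : ∀ σ, |T₁ σ| ≤ 1) {h A B σ : ℝ} (hh0 : 0 < h)
    (hh1 : h < 1 / 2) (hA : Tendsto s (𝓝[>] 0) (𝓝 A)) (hB : Tendsto s (𝓝[<] (1 / 2)) (𝓝 B))
    (hσ : Tendsto s (𝓝[>] h) (𝓝 σ)) :
    (∫ t in (0:ℝ)..1, Real.sqrt (1 - (if Real.cos (2 * Real.pi * h) ≤ Real.cos (2 * Real.pi * t)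
        then φ t else T₁ (s t)) ^ 2) * l t)
      + 2 * (((∫ t in (0:ℝ)..h, deriv φ t * s t) - φ h * σ) + ∫ x in B..σ, T₁ x) ≤ P := by
  obtain ⟨C, hC⟩ := hl.bdd
  obtain ⟨D, hD⟩ := hs.bdd
  have hD0 : 0 ≤ D := (abs_nonneg _).trans (hD 0)
  set G₁ : ℝ → ℝ := fun x => ∫ y in (0:ℝ)..x, T₁ y with hG₁
  have hG₁c : Continuous G₁ :=
    intervalIntegral.continuous_primitive (fun a b => hT₁.intervalIntegrable a b) 0
  have gb : ∀ (T : ℝ → ℝ), (∀ σ, |T σ| ≤ 1) → ∀ x, |∫ σ in (0:ℝ)..x, T σ| ≤ |x| := by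
    intro T hT x
    have := intervalIntegral.norm_integral_le_of_norm_le_const (a := (0:ℝ)) (b := x) (C := 1)
      (f := T) (fun σ _ => by simpa using hT σ)
    simpa using this
  have hg1m : Measurable fun t => G₁ (s t) := hG₁c.measurable.comp hs.meas
  have hg1b : ∀ t, |G₁ (s t)| ≤ D := fun t => (gb T₁ hT₁b _).trans (hD t)
  have hφc : Continuous φ := hφ.continuous
  have hdφ : Continuous (deriv φ) := hφ.continuous_deriv le_rfl
  have bint : ∀ (f g : ℝ → ℝ), Continuous f → Measurable g → (∀ t, |g t| ≤ D) → ∀ a b : ℝ,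
      IntervalIntegrable (fun t => f t * g t) volume a b := by
    intro f g hf hg hgD a b
    have h1 := (hf.intervalIntegrable (μ := volume) a b).norm.mul_const D
    refine h1.mono_fun (hf.aestronglyMeasurable.mul hg.aestronglyMeasurable)
      (Eventually.of_forall fun t => ?_)
    dsimp only
    rw [norm_mul, norm_mul, norm_norm, Real.norm_eq_abs D, abs_of_nonneg hD0]
    exact mul_le_mul_of_nonneg_left (hgD t) (norm_nonneg _)
  -- inequality for n, m
  have hnm : ∀ m n, (∫ t in (0:ℝ)..1, Real.sqrt (1 - ((chi n t * (1 - theta h m t)) * T₁ (s t)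
        + (theta h m t * φ t)) ^ 2) * l t)
      + 2 * ((∫ t in (0:ℝ)..(1 / 2), deriv (fun t => chi n t * (1 - theta h m t)) t * G₁ (s t))
        + ∫ t in (0:ℝ)..(1 / 2), deriv (fun t => theta h m t * φ t) t * s t) ≤ P := by
    intro m n
    have c1 : ContDiff ℝ 1 (fun t => chi n t * (1 - theta h m t)) :=
      (chi_contDiff n).mul (contDiff_const.sub (theta_contDiff h m))
    have c2 : ContDiff ℝ 1 (fun t => theta h m t * φ t) :=
      (theta_contDiff h m).mul hφ
    have p1 : Function.Periodic (fun t => chi n t * (1 - theta h m t)) 1 := fun t => by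
      simp only [chi_per n t, theta_per h m t]
    have p2 : Function.Periodic (fun t => theta h m t * φ t) 1 := fun t => by
      simp only [hφp t, theta_per h m t]
    have h1 := key_bound hs hl H (T₂ := fun _ => 1) c1 c2 p1 p2 (fun t => by
      rw [abs_mul, abs_mul, abs_of_nonneg (theta_nonneg h m t),
        abs_of_nonneg (sub_nonneg.2 (theta_le_one h m t))]
      have e1 := mul_le_mul_of_nonneg_right (abs_chi_le n t)
        (sub_nonneg.2 (theta_le_one h m t))
      have e2 := mul_le_mul_of_nonneg_left (hφb t) (theta_nonneg h m t)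
      linarith) hT₁ continuous_const hT₁b (by simp)
    have dper : ∀ f : ℝ → ℝ, Function.Periodic f 1 → Function.Periodic (deriv f) 1 := by
      intro f hf t
      have h := deriv_comp_add_const f 1 t
      rw [← h]; congr 1; ext x; exact hf x
    have deven : ∀ f : ℝ → ℝ, (∀ t, f (-t) = -f t) → ∀ t, deriv f (-t) = deriv f t := by
      intro f hf t
      have h := deriv_comp_neg f t
      have h2 : (fun x => f (-x)) = fun x => -f x := by ext x; exact hf x
      rw [h2, deriv.fun_neg] at h
      linarith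
    have i1 := bint _ _ (c1.continuous_deriv le_rfl) hg1m hg1b
    have i2 := bint _ _ (c2.continuous_deriv le_rfl) hs.meas hD
    have e1 : ∫ t in (0:ℝ)..1, (deriv (fun t => chi n t * (1 - theta h m t)) t * G₁ (s t)
          + deriv (fun t => theta h m t * φ t) t * s t)
        = 2 * ((∫ t in (0:ℝ)..(1 / 2), deriv (fun t => chi n t * (1 - theta h m t)) t * G₁ (s t))
        + ∫ t in (0:ℝ)..(1 / 2), deriv (fun t => theta h m t * φ t) t * s t) := by
      rw [intervalIntegral.integral_add (i1 _ _) (i2 _ _), half_int (i1 _ _), half_int (i2 _ _),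
        mul_add]
      · exact (dper _ p2).mul hs.per
      · intro t
        rw [deven _ (fun t => by rw [hφo, theta_even]; ring) t, hse]
      · exact (dper _ p1).mul (fun t => by simp only [hs.per t])
      · intro t
        rw [deven _ (fun t => by rw [chi_odd, theta_even]; ring) t, hse]
    have e2 : (∫ t in (0:ℝ)..1, (deriv (fun t => chi n t * (1 - theta h m t)) t *
          (∫ σ in (0:ℝ)..(s t), T₁ σ)
          + deriv (fun t => theta h m t * φ t) t * (∫ _ in (0:ℝ)..(s t), (1:ℝ)))) =
        ∫ t in (0:ℝ)..1, (deriv (fun t => chi n t * (1 - theta h m t)) t * G₁ (s t)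
          + deriv (fun t => theta h m t * φ t) t * s t) := by
      refine intervalIntegral.integral_congr fun t _ => ?_
      simp only [intervalIntegral.integral_const, sub_zero, smul_eq_mul, mul_one, hG₁]
    rw [e2, e1] at h1
    simp only [mul_one] at h1
    exact h1
  have sqb : ∀ (x : ℝ) (y : ℝ), |y| ≤ C → ‖Real.sqrt (1 - x ^ 2) * y‖ ≤ C := by
    intro x y hy
    rw [norm_mul, Real.norm_eq_abs, Real.norm_eq_abs, abs_of_nonneg (Real.sqrt_nonneg _)]
    have : Real.sqrt (1 - x ^ 2) ≤ 1 := Real.sqrt_le_one.2 (by nlinarith [sq_nonneg x])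
    calc Real.sqrt (1 - x ^ 2) * |y| ≤ 1 * C :=
          mul_le_mul this hy (abs_nonneg _) zero_le_one
      _ = C := one_mul C
  have nn : ∀ᵐ t : ℝ, t ≠ 1 / 2 ∧ t ≠ 1 := by
    filter_upwards [ae_ne (1 / 2), ae_ne 1] with t a b using ⟨a, b⟩
  have sgm : Measurable fun t : ℝ => if t < 1 / 2 then (1:ℝ) else -1 :=
    Measurable.ite (measurableSet_lt measurable_id measurable_const) measurable_const
      measurable_const
  -- n → ∞
  have hm : ∀ m, (∫ t in (0:ℝ)..1, Real.sqrt (1 - ((if t < 1 / 2 then (1:ℝ) else -1) *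
          ((1 - theta h m t) * T₁ (s t)) + theta h m t * φ t) ^ 2) * l t)
      + 2 * (((1 - theta h m 0) * G₁ A - (1 - theta h m (1 / 2)) * G₁ B
          + ∫ t in (0:ℝ)..(1 / 2), deriv (fun t => 1 - theta h m t) t * G₁ (s t))
        + ∫ t in (0:ℝ)..(1 / 2), deriv (fun t => theta h m t * φ t) t * s t) ≤ P := by
    intro m
    have t1 := lim_chi (ψ := fun t => 1 - theta h m t) (contDiff_const.sub (theta_contDiff h m))
      (fun t => by
        rw [abs_of_nonneg (sub_nonneg.2 (theta_le_one h m t))]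
        linarith [theta_nonneg h m t]) hg1m hg1b ((hG₁c.tendsto A).comp hA)
      ((hG₁c.tendsto B).comp hB)
    have t3 : Tendsto (fun n => ∫ t in (0:ℝ)..1,
        Real.sqrt (1 - ((chi n t * (1 - theta h m t)) * T₁ (s t)
          + (theta h m t * φ t)) ^ 2) * l t) atTop
        (𝓝 (∫ t in (0:ℝ)..1, Real.sqrt (1 - ((if t < 1 / 2 then (1:ℝ) else -1) *
          ((1 - theta h m t) * T₁ (s t)) + theta h m t * φ t) ^ 2) * l t)) := by
      have hms : ∀ (f : ℝ → ℝ), Measurable f → Measurable (fun t => Real.sqrt (1 - f t ^ 2) * l t) :=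
        fun f hf => ((measurable_const.sub (hf.pow_const 2)).sqrt).mul hl.meas
      refine intervalIntegral.tendsto_integral_filter_of_dominated_convergence
        (fun _ => C) (Eventually.of_forall fun n => ?_) (Eventually.of_forall fun n => ?_) ?_ ?_
      · refine (hms (fun t => (chi n t * (1 - theta h m t)) * T₁ (s t)
          + (theta h m t * φ t)) ?_).aestronglyMeasurable
        exact (((chi_contDiff n).continuous.measurable.mul
          (measurable_const.sub (theta_contDiff h m).continuous.measurable)).mul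
            (hT₁.measurable.comp hs.meas)).add
          ((theta_contDiff h m).continuous.measurable.mul hφc.measurable)
      · exact Eventually.of_forall fun t _ => sqb _ _ (hC t)
      · exact intervalIntegrable_const
      · filter_upwards [nn] with t ht1 ht2
        rw [uIoc_of_le zero_le_one] at ht2
        have hsq : Tendsto (fun n => chi n t) atTop (𝓝 (if t < 1 / 2 then (1:ℝ) else -1)) := by
          rcases lt_or_gt_of_ne ht1.1 with h4 | h4
          · rw [if_pos h4]
            exact chi_tendsto ht2.1 h4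
          · rw [if_neg (not_lt.2 h4.le)]
            have h5 : ∀ n, chi n t = - chi n (1 - t) := fun n => by
              rw [← chi_odd, ← chi_per n (-(1 - t))]; congr 1; ring
            have h6 : Tendsto (fun n => chi n (1 - t)) atTop (𝓝 1) :=
              chi_tendsto (by
                have := lt_of_le_of_ne ht2.2 ht1.2
                linarith) (by linarith)
            simp_rw [h5]
            exact h6.neg
        have e : ∀ n, Real.sqrt (1 - ((chi n t * (1 - theta h m t)) * T₁ (s t)
            + (theta h m t * φ t)) ^ 2) * l t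
            = Real.sqrt (1 - (chi n t * ((1 - theta h m t) * T₁ (s t))
            + theta h m t * φ t) ^ 2) * l t := fun n => by
          congr 3; ring
        simp_rw [e]
        exact (((tendsto_const_nhds (x := (1:ℝ))).sub (((hsq.mul_const
          ((1 - theta h m t) * T₁ (s t))).add_const (theta h m t * φ t)).pow 2)).sqrt).mul_const
            (l t)
    exact le_of_tendsto (t3.add ((t1.add tendsto_const_nhds).const_mul 2))
      (Eventually.of_forall (hnm m))
  -- m → ∞
  have z0 : ∀ m, theta h m 0 = 1 := fun m => theta_eq_one m (by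
    rw [mul_zero, Real.cos_zero]; exact Real.cos_le_one _)
  have z1 : ∀ᶠ m in atTop, theta h m (1 / 2) = 0 :=
    theta_eventually_zero (cos_lt_cos_iff' hh0.le le_rfl hh1)
  have u1 := lim_theta hh0 hh1 hg1m hg1b ((hG₁c.tendsto σ).comp hσ)
  have hφsb : ∀ t, |φ t * s t| ≤ D := fun t => by
    rw [abs_mul]
    calc |φ t| * |s t| ≤ 1 * D := mul_le_mul (hφb t) (hD t) (abs_nonneg _) zero_le_one
      _ = D := one_mul D
  have u2 := lim_theta hh0 hh1 (hφc.measurable.mul hs.meas) hφsb
    (((hφc.tendsto h).mono_left nhdsWithin_le_nhds).mul hσ)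
  have u3 : Tendsto (fun m => ∫ t in (0:ℝ)..1, Real.sqrt (1 - ((if t < 1 / 2 then (1:ℝ) else -1) *
          ((1 - theta h m t) * T₁ (s t)) + theta h m t * φ t) ^ 2) * l t) atTop
      (𝓝 (∫ t in (0:ℝ)..1, Real.sqrt (1 - (if Real.cos (2 * Real.pi * h) ≤
        Real.cos (2 * Real.pi * t) then φ t else T₁ (s t)) ^ 2) * l t)) := by
    refine intervalIntegral.tendsto_integral_filter_of_dominated_convergence
        (fun _ => C) (Eventually.of_forall fun m => ?_) (Eventually.of_forall fun m => ?_) ?_ ?_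
    · refine Measurable.aestronglyMeasurable ?_
      refine ((measurable_const.sub (Measurable.pow_const ?_ 2)).sqrt).mul hl.meas
      exact (sgm.mul ((measurable_const.sub (theta_contDiff h m).continuous.measurable).mul
            (hT₁.measurable.comp hs.meas))).add
          ((theta_contDiff h m).continuous.measurable.mul hφc.measurable)
    · exact Eventually.of_forall fun t _ => sqb _ _ (hC t)
    · exact intervalIntegrable_const
    · refine Eventually.of_forall fun t _ => ?_
      refine tendsto_const_nhds.congr' ?_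
      by_cases hc : Real.cos (2 * Real.pi * h) ≤ Real.cos (2 * Real.pi * t)
      · refine Eventually.of_forall fun m => ?_
        rw [if_pos hc]
        dsimp only
        rw [theta_eq_one m hc]
        congr 3; ring
      · rw [if_neg hc]
        filter_upwards [theta_eventually_zero (not_le.1 hc)] with m hm'
        rw [hm']
        congr 2
        split_ifs <;> ring
  have u5 : Tendsto (fun m => ∫ t in (0:ℝ)..(1 / 2), theta h m t * (deriv φ t * s t)) atTop
      (𝓝 (∫ t in (0:ℝ)..h, deriv φ t * s t)) := by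
    have e : ∫ t in (0:ℝ)..h, deriv φ t * s t =
        ∫ t in (0:ℝ)..(1 / 2), (if t ≤ h then deriv φ t * s t else 0) := by
      have i0 : ∀ a b : ℝ, IntervalIntegrable (fun t => if t ≤ h then deriv φ t * s t else 0)
          volume a b := by
        intro a b
        refine (bint _ _ hdφ hs.meas hD a b).norm.mono_fun (Measurable.aestronglyMeasurable
          (Measurable.ite (measurableSet_le measurable_id measurable_const)
            (hdφ.measurable.mul hs.meas) measurable_const)) (Eventually.of_forall fun t => ?_)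
        dsimp only
        split_ifs
        · rw [norm_norm]
        · rw [norm_zero]
          exact norm_nonneg _
      rw [← intervalIntegral.integral_add_adjacent_intervals (i0 0 h) (i0 h (1 / 2))]
      have e1 : ∫ t in (0:ℝ)..h, (if t ≤ h then deriv φ t * s t else 0) =
          ∫ t in (0:ℝ)..h, deriv φ t * s t := by
        refine intervalIntegral.integral_congr fun t ht => ?_
        rw [uIcc_of_le hh0.le] at ht
        simp only [if_pos ht.2]
      have e2 : ∫ t in h..(1 / 2), (if t ≤ h then deriv φ t * s t else 0) = 0 := by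
        have : ∫ t in h..(1 / 2), (if t ≤ h then deriv φ t * s t else 0) =
            ∫ t in h..(1 / 2), (0:ℝ) := by
          refine intervalIntegral.integral_congr_ae (Eventually.of_forall fun t ht => ?_)
          rw [uIoc_of_le hh1.le] at ht
          simp only [if_neg (not_le.2 ht.1)]
        rw [this]; simp
      rw [e1, e2, add_zero]
    rw [e]
    refine intervalIntegral.tendsto_integral_filter_of_dominated_convergence
      (fun t => |deriv φ t * s t|) (Eventually.of_forall fun m => ?_)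
      (Eventually.of_forall fun m => ?_) ?_ ?_
    · exact ((theta_contDiff h m).continuous.measurable.mul
        (hdφ.measurable.mul hs.meas)).aestronglyMeasurable
    · refine Eventually.of_forall fun t _ => ?_
      rw [norm_mul, Real.norm_eq_abs, Real.norm_eq_abs, abs_of_nonneg (theta_nonneg h m t)]
      exact mul_le_of_le_one_left (abs_nonneg _) (theta_le_one h m t)
    · exact (bint _ _ hdφ hs.meas hD 0 (1 / 2)).abs
    · refine Eventually.of_forall fun t ht => ?_
      rw [uIoc_of_le (by norm_num)] at ht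
      refine tendsto_const_nhds.congr' ?_
      by_cases hc : t ≤ h
      · refine Eventually.of_forall fun m => ?_
        have h1 : |t| ≤ 1 / 2 := by rw [abs_of_pos ht.1]; exact ht.2
        have h2 := (abs_lt_iff_cos hh0 hh1 h1).2 (by rw [abs_of_pos ht.1]; exact hc)
        simp only [if_pos hc]
        rw [theta_eq_one m h2, one_mul]
      · have h1 : |t| ≤ 1 / 2 := by rw [abs_of_pos ht.1]; exact ht.2
        have h2 : ¬ Real.cos (2 * Real.pi * h) ≤ Real.cos (2 * Real.pi * t) := fun h3 =>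
          hc (by have := (abs_lt_iff_cos hh0 hh1 h1).1 h3; rwa [abs_of_pos ht.1] at this)
        simp only [if_neg hc]
        filter_upwards [theta_eventually_zero (not_le.1 h2)] with m hm'
        rw [hm', zero_mul]
  have u4 : Tendsto (fun m => 2 * (((1 - theta h m 0) * G₁ A - (1 - theta h m (1 / 2)) * G₁ B
          + ∫ t in (0:ℝ)..(1 / 2), deriv (fun t => 1 - theta h m t) t * G₁ (s t))
        + ∫ t in (0:ℝ)..(1 / 2), deriv (fun t => theta h m t * φ t) t * s t)) atTop
      (𝓝 (2 * ((-G₁ B + G₁ σ) + (-(φ h * σ) + ∫ t in (0:ℝ)..h, deriv φ t * s t)))) := by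
    have e1 : ∀ m, ∫ t in (0:ℝ)..(1 / 2), deriv (fun t => 1 - theta h m t) t * G₁ (s t)
        = -∫ t in (0:ℝ)..(1 / 2), deriv (theta h m) t * G₁ (s t) := fun m => by
      rw [← intervalIntegral.integral_neg]
      refine intervalIntegral.integral_congr fun t _ => ?_
      simp only [deriv_const_sub]
      ring
    have e2 : ∀ m, ∫ t in (0:ℝ)..(1 / 2), deriv (fun t => theta h m t * φ t) t * s t =
        (∫ t in (0:ℝ)..(1 / 2), deriv (theta h m) t * (φ t * s t)) +
        ∫ t in (0:ℝ)..(1 / 2), theta h m t * (deriv φ t * s t) := fun m => by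
      have i1 : IntervalIntegrable (fun t => deriv (theta h m) t * (φ t * s t)) volume 0
          (1 / 2) :=
        bint _ _ ((theta_contDiff h m).continuous_deriv le_rfl) (hφc.measurable.mul hs.meas)
          hφsb _ _
      have i2 : IntervalIntegrable (fun t => theta h m t * (deriv φ t * s t)) volume 0
          (1 / 2) := by
        have := bint (fun t => theta h m t * deriv φ t) s
          ((theta_contDiff h m).continuous.mul hdφ) hs.meas hD 0 (1 / 2)
        refine this.congr ?_
        exact fun t _ => by ring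
      rw [← intervalIntegral.integral_add i1 i2]
      refine intervalIntegral.integral_congr fun t _ => ?_
      have hder : deriv (fun t => theta h m t * φ t) t =
          deriv (theta h m) t * φ t + theta h m t * deriv φ t :=
        ((((theta_contDiff h m).differentiable one_ne_zero t).hasDerivAt).mul
          ((hφ.differentiable one_ne_zero t).hasDerivAt)).deriv
      simp only [hder]
      ring
    have v1 : Tendsto (fun m => (-G₁ B
          - ∫ t in (0:ℝ)..(1 / 2), deriv (theta h m) t * G₁ (s t))) atTop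
        (𝓝 (-G₁ B - (-G₁ σ))) := tendsto_const_nhds.sub u1
    have v3 := (v1.add (u2.add u5)).const_mul 2
    rw [sub_neg_eq_add] at v3
    refine v3.congr' ?_
    filter_upwards [z1] with m hm'
    rw [z0, hm', e1, e2]
    simp only [Pi.mul_apply]
    ring
  have hfin := le_of_tendsto (u3.add u4) (Eventually.of_forall hm)
  have e3 : (∫ x in B..σ, T₁ x) = G₁ σ - G₁ B := by
    rw [hG₁]
    simp only
    rw [intervalIntegral.integral_interval_sub_left (hT₁.intervalIntegrable _ _)
      (hT₁.intervalIntegrable _ _)]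
  rw [e3]
  linarith

/-- the clamped triangle wave -/
noncomputable def Phi (D : ℝ) (t : ℝ) : ℝ :=
  max (-1) (min 1 (D * (Real.arcsin (Real.sin (2 * Real.pi * t)) / (2 * Real.pi))))

theorem Phi_continuous (D : ℝ) : Continuous (Phi D) := by
  unfold Phi
  refine continuous_const.max (continuous_const.min (continuous_const.mul
    (Continuous.div_const ?_ _)))
  exact Real.continuous_arcsin.comp (Real.continuous_sin.comp (by fun_prop))

theorem Phi_per (D : ℝ) : Function.Periodic (Phi D) 1 := fun t => by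
  unfold Phi
  rw [show 2 * Real.pi * (t + 1) = 2 * Real.pi * t + 2 * Real.pi by ring, Real.sin_add_two_pi]

theorem Phi_odd (D : ℝ) (t : ℝ) : Phi D (-t) = -Phi D t := by
  unfold Phi
  rw [mul_neg, Real.sin_neg, Real.arcsin_neg, neg_div, mul_neg]
  set y := D * (Real.arcsin (Real.sin (2 * Real.pi * t)) / (2 * Real.pi))
  rcases le_total y 1 with h1 | h1 <;> rcases le_total (-1) y with h2 | h2
  · rw [min_eq_right h1, max_eq_right h2, min_eq_right (by linarith : -y ≤ 1),
      max_eq_right (by linarith : -1 ≤ -y)]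
  · rw [min_eq_right h1, max_eq_left h2, min_eq_left (by linarith : 1 ≤ -y),
      max_eq_right (by norm_num : (-1:ℝ) ≤ 1)]
    norm_num
  · rw [min_eq_left h1, max_eq_right (by norm_num : (-1:ℝ) ≤ 1),
      min_eq_right (by linarith : -y ≤ 1), max_eq_left (by linarith : -y ≤ -1)]
  · linarith

theorem Phi_abs_le (D t : ℝ) : |Phi D t| ≤ 1 := by
  unfold Phi
  rw [abs_le]
  exact ⟨le_max_left _ _, max_le (by norm_num) (min_le_left _ _)⟩

theorem Phi_eq {D t : ℝ} (ht : |t| ≤ 1 / 4) (hD : D * |t| ≤ 1) (hD0 : 0 ≤ D) :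
    Phi D t = D * t := by
  have hpi := Real.pi_pos
  have h1 := abs_le.1 ht
  unfold Phi
  rw [Real.arcsin_sin (by nlinarith) (by nlinarith)]
  have e : D * (2 * Real.pi * t / (2 * Real.pi)) = D * t := by field_simp
  rw [e]
  have h2 : |D * t| ≤ 1 := by rw [abs_mul, abs_of_nonneg hD0]; exact hD
  have h3 := abs_le.1 h2
  rw [min_eq_right h3.2, max_eq_right h3.1]

theorem exists_phi {D r : ℝ} (hD0 : 0 ≤ D) (hr0 : 0 < r) (hr1 : r < 1 / 4) (hDr : D * r < 1) :
    ∃ φ : ℝ → ℝ, ContDiff ℝ 1 φ ∧ Function.Periodic φ 1 ∧ (∀ t, φ (-t) = -φ t) ∧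
      (∀ t, |φ t| ≤ 1) ∧ ∀ t, |t| ≤ r → φ t = D * t ∧ deriv φ t = D := by
  obtain ⟨η, hη0, hη1, hη2⟩ : ∃ η : ℝ, 0 < η ∧ r + 2 * η ≤ 1 / 4 ∧ D * (r + 2 * η) ≤ 1 := by
    refine ⟨min ((1 / 4 - r) / 2) ((1 - D * r) / (2 * (D + 1))), lt_min (by linarith)
      (by apply div_pos <;> linarith), ?_, ?_⟩
    · have := min_le_left ((1 / 4 - r) / 2) ((1 - D * r) / (2 * (D + 1)))
      linarith
    · have h1 := min_le_right ((1 / 4 - r) / 2) ((1 - D * r) / (2 * (D + 1)))
      have h2 : D * ((1 - D * r) / (2 * (D + 1))) ≤ (1 - D * r) / 2 := by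
        have e : D * ((1 - D * r) / (2 * (D + 1))) = (D / (D + 1)) * ((1 - D * r) / 2) := by
          field_simp
        rw [e]
        refine mul_le_of_le_one_left (by linarith) ?_
        rw [div_le_one (by linarith)]
        linarith
      have h3 := mul_le_mul_of_nonneg_left h1 hD0
      linarith
  obtain ⟨k, hk⟩ : ∃ k, (bmp k).rOut < η :=
    ((rOut_tendsto.eventually (gt_mem_nhds hη0)).exists)
  have hBP : BP (Phi D) := BP.of_continuous (Phi_continuous D) (Phi_per D)
  have hrc : Continuous (rho k) := (rho_contDiff k (n := 0)).continuous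
  have hin : ∀ t, |t| < r + η → av (rho k) (Phi D) t = D * t := by
    intro t ht
    rw [av_apply]
    have e1 : ∀ u, rho k u * Phi D (t - u) = rho k u * (D * t) - D * (rho k u * u) := by
      intro u
      by_cases hu : |u| < (bmp k).rOut
      · have h1 : |t - u| ≤ r + 2 * η := by
          calc |t - u| ≤ |t| + |u| := abs_sub _ _
            _ ≤ _ := by linarith
        rw [Phi_eq (h1.trans hη1) ((mul_le_mul_of_nonneg_left h1 hD0).trans hη2) hD0]
        ring
      · have h1 : rho k u = 0 := by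
          have h2 : u ∉ Function.support ((bmp k).normed volume) := by
            rw [(bmp k).support_normed_eq]
            simpa [Real.dist_eq] using hu
          simpa [rho] using h2
        rw [h1]
        ring
    simp_rw [e1]
    have i1 : Integrable (fun u => rho k u * (D * t)) :=
      (hrc.integrable_of_hasCompactSupport (rho_compact k)).mul_const _
    have i2 : Integrable (fun u => rho k u * u) :=
      (hrc.mul continuous_id).integrable_of_hasCompactSupport (rho_compact k).mul_right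
    rw [integral_sub i1 (i2.const_mul D), integral_mul_const, rho_int, one_mul,
      integral_const_mul]
    have h0 : ∫ u, rho k u * u = 0 := by
      have h1 : ∫ u, rho k (-u) * (-u) = ∫ u, rho k u * u :=
        integral_neg_eq_self (fun u => rho k u * u) volume
      have h2 : ∫ u, rho k (-u) * (-u) = -∫ u, rho k u * u := by
        rw [← integral_neg]
        congr 1; ext u
        rw [rho_neg]; ring
      linarith
    rw [h0]; ring
  refine ⟨av (rho k) (Phi D), av_contDiff (n := 1) (rho_contDiff k) (rho_compact k) hBP,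
    av_periodic hBP, ?_, ?_, ?_⟩
  · intro t
    rw [av_apply, av_apply, ← integral_neg]
    rw [← integral_neg_eq_self (fun u => rho k u * Phi D (-t - u)) volume]
    congr 1; ext u
    rw [rho_neg, show -t - -u = -(t - u) by ring, Phi_odd]
    ring
  · intro t
    rw [abs_le]
    exact ⟨le_av hrc (rho_compact k) (rho_nonneg k) (rho_int k) hBP
        (fun t => (abs_le.1 (Phi_abs_le D t)).1) t,
      av_le hrc (rho_compact k) (rho_nonneg k) (rho_int k) hBP
        (fun t => (abs_le.1 (Phi_abs_le D t)).2) t⟩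
  · intro t ht
    refine ⟨hin t (by linarith), ?_⟩
    have h1 : av (rho k) (Phi D) =ᶠ[𝓝 t] fun x => D * x := by
      have h2 : ∀ᶠ x in 𝓝 t, |x| < r + η :=
        (continuous_abs.tendsto t).eventually (gt_mem_nhds (by linarith))
      filter_upwards [h2] with x hx using hin x hx
    rw [h1.deriv_eq]
    simp

/-- **Monotone substitution with a linear calibration in the inner zone** `|t| ≤ r`. -/
theorem mono_sub_lin {s l : ℝ → ℝ} (hs : BP s) (hl : BP l) (hse : ∀ t, s (-t) = s t)
    {P : ℝ} (H : DualIneq s l P) {T₁ : ℝ → ℝ} (hT₁ : Continuous T₁)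
    (hT₁b : ∀ σ, |T₁ σ| ≤ 1) {D r A B σ : ℝ} (hD0 : 0 ≤ D) (hr0 : 0 < r)
    (hr1 : r < 1 / 4) (hDr : D * r < 1)
    (hA : Tendsto s (𝓝[>] 0) (𝓝 A)) (hB : Tendsto s (𝓝[<] (1 / 2)) (𝓝 B))
    (hσ : Tendsto s (𝓝[>] r) (𝓝 σ)) :
    (∫ t in (-(1 / 2 : ℝ))..(1 / 2), Real.sqrt (1 - (if |t| ≤ r
        then D * t else T₁ (s t)) ^ 2) * l t)
      + 2 * (D * (∫ t in (0:ℝ)..r, s t) - D * r * σ + ∫ x in B..σ, T₁ x) ≤ P := by
  obtain ⟨φ, hφ, hφp, hφo, hφb, hφD⟩ := exists_phi hD0 hr0 hr1 hDr
  have h1 := mono_sub_phi hs hl hse H hT₁ hφ hφp hφo hφb hT₁b hr0 (by linarith) hA hB hσ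
  have hr : |r| ≤ r := (abs_of_pos hr0).le
  rw [(hφD r hr).1] at h1
  have e1 : ∫ t in (0:ℝ)..r, deriv φ t * s t = D * ∫ t in (0:ℝ)..r, s t := by
    rw [← intervalIntegral.integral_const_mul]
    refine intervalIntegral.integral_congr fun t ht => ?_
    rw [uIcc_of_le hr0.le] at ht
    have : |t| ≤ r := by rw [abs_of_nonneg ht.1]; exact ht.2
    simp only [(hφD t this).2]
  rw [e1] at h1
  have e2 : (∫ t in (0:ℝ)..1, Real.sqrt (1 - (if Real.cos (2 * Real.pi * r) ≤
        Real.cos (2 * Real.pi * t) then φ t else T₁ (s t)) ^ 2) * l t) =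
      ∫ t in (-(1 / 2 : ℝ))..(1 / 2), Real.sqrt (1 - (if |t| ≤ r
        then D * t else T₁ (s t)) ^ 2) * l t := by
    rw [int_centred]
    · refine intervalIntegral.integral_congr fun t ht => ?_
      rw [uIcc_of_le (by norm_num)] at ht
      have h2 : |t| ≤ 1 / 2 := abs_le.2 ht
      have h3 := abs_lt_iff_cos hr0 (by linarith) h2
      by_cases h4 : |t| ≤ r
      · simp only [if_pos h4, if_pos (h3.2 h4), (hφD t h4).1]
      · simp only [if_neg h4, if_neg (fun h5 => h4 (h3.1 h5))]
    · intro t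
      simp only [hφp t, hs.per t, hl.per t]
      rw [show 2 * Real.pi * (t + 1) = 2 * Real.pi * t + 2 * Real.pi by ring,
        Real.cos_add_two_pi]
  rw [e2] at h1
  exact h1

/-- **Two-zone certificate, linear calibration in the first zone.**  `h` is the total width of the
first zone, `x = 2 |t|`. -/
theorem cert_lin {s l : ℝ → ℝ} (hs : BP s) (hl : BP l) (hse : ∀ t, s (-t) = s t)
    (hanti : AntitoneOn s (Ioo 0 (1 / 2))) {P : ℝ} (H : DualIneq s l P) {h A B G : ℝ}
    (hh0 : 0 < h) (hh1 : h < 1 / 2)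
    (hA : Tendsto s (𝓝[>] 0) (𝓝 A)) (hB : Tendsto s (𝓝[<] (1 / 2)) (𝓝 B))
    (hG : Tendsto s (𝓝[>] (h / 2)) (𝓝 G))
    {g L : ℝ → ℝ} {p lam D : ℝ} (hD0 : 0 ≤ D) (hDh : D * h < 1) (hg : ContinuousOn g (Icc B G))
    (hw0 : ∀ x ∈ Icc B G, 0 ≤ p + lam * x) (hw : ∀ x ∈ Icc B G, (p + lam * x) ^ 2 ≤ g x)
    (hlL : ∀ᵐ t, |t| < h / 2 → 2 * L (s t) ≤ l t)
    (hL : ∀ x ∈ Icc G A, ∀ c ∈ Icc (0:ℝ) 1,
      c * L G + (D - lam) * G ≤ c * L x + (D - lam) * x)
    (hlg : ∀ᵐ t, h / 2 < |t| → |t| < 1 / 2 → 2 * Real.sqrt (g (s t)) ≤ l t) :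
    lam * (∫ t in (0:ℝ)..1, s t) + (1 - h) * p +
      (∫ x in B..G, Real.sqrt (1 - (p + lam * x) ^ 2 / g x)) +
      L G * (∫ x in (0:ℝ)..h, Real.sqrt (1 - (D * x) ^ 2)) - lam * (h * G) ≤ P / 2 := by
  obtain ⟨G', hG', hGle, hGge⟩ := exists_right_lim hs hanti (h := h / 2) (by linarith)
    (by linarith)
  obtain rfl : G = G' := tendsto_nhds_unique hG hG'
  have hgt : ∀ t ∈ Ioo (h / 2) (1 / 2), s t ∈ Icc B G := fun t ht =>
    ⟨(range_mem hs hanti hA hB ⟨by linarith [ht.1], ht.2⟩).1, hGle t ht⟩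
  have hlt : ∀ t ∈ Ioc 0 (h / 2), s t ∈ Icc G A := fun t ht =>
    ⟨hGge t ht.1 ht.2, (range_mem hs hanti hA hB ⟨ht.1, by linarith [ht.2]⟩).2⟩
  have hBG : B ≤ G := by
    have := hgt (h / 4 + 1 / 4) ⟨by linarith, by linarith⟩
    exact this.1.trans this.2
  refine le_of_forall_pos_le_add fun ε hε => ?_
  obtain ⟨T, hTc, hT1, hTle, hTl, hT0⟩ := exists_T hBG hg hw0 hw hε
  have h1 := mono_sub_lin hs hl hse H hTc hT1 (D := 2 * D) (r := h / 2) (by linarith)
    (by linarith) (by linarith) (by linarith) hA hB hG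
  have h2 := int_le_int_T hBG hTc hT0 hTle
  -- the integrand
  set c : ℝ → ℝ := fun t => Real.sqrt (1 - (2 * D * t) ^ 2) with hc
  have hc1 : ∀ t, c t ∈ Icc (0:ℝ) 1 := fun t => ⟨Real.sqrt_nonneg _, sqrt_le_one' (sq_nonneg _)⟩
  have hcc : Continuous c := by
    refine Real.continuous_sqrt.comp ?_
    fun_prop
  obtain ⟨E, hE⟩ := hs.bdd
  obtain ⟨C, hC⟩ := hl.bdd
  have hE0 : 0 ≤ E := (abs_nonneg _).trans (hE 0)
  have hC0 : 0 ≤ C := (abs_nonneg _).trans (hC 0)
  -- bounded measurable functions are integrable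
  have bi : ∀ (F : ℝ → ℝ) (K : ℝ), Measurable F → (∀ t, |F t| ≤ K) → ∀ a b : ℝ,
      IntervalIntegrable F volume a b := by
    intro F K hF hK a b
    refine (intervalIntegrable_const (c := K)).mono_fun hF.aestronglyMeasurable
      (Eventually.of_forall fun t => ?_)
    simp only [Real.norm_eq_abs]
    exact (hK t).trans (le_abs_self _)
  set Φ : ℝ → ℝ := fun t => Real.sqrt (1 - (if |t| ≤ h / 2 then 2 * D * t else T (s t)) ^ 2) * l t
    with hΦ
  have hΦm : Measurable Φ := by
    refine (Real.continuous_sqrt.measurable.comp (measurable_const.sub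
        (Measurable.pow_const ?_ 2))).mul hl.meas
    exact Measurable.ite (measurableSet_le continuous_abs.measurable measurable_const)
      (measurable_const.mul measurable_id) (hTc.measurable.comp hs.meas)
  have hΦb : ∀ t, |Φ t| ≤ C := by
    intro t
    simp only [hΦ]
    rw [abs_mul, abs_of_nonneg (Real.sqrt_nonneg _)]
    calc _ ≤ 1 * C := mul_le_mul (sqrt_le_one' (sq_nonneg _)) (hC t) (abs_nonneg _) zero_le_one
      _ = C := one_mul C
  have hΦi := bi Φ C hΦm hΦb
  set Ψ : ℝ → ℝ := fun t => if |t| ≤ h / 2 then 2 * D * s t else 0 with hΨ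
  have hΨm : Measurable Ψ :=
    Measurable.ite (measurableSet_le continuous_abs.measurable measurable_const)
      (measurable_const.mul hs.meas) measurable_const
  have hΨb : ∀ t, |Ψ t| ≤ 2 * D * E := by
    intro t
    simp only [hΨ]
    split_ifs
    · rw [abs_mul, abs_of_nonneg (by linarith : (0:ℝ) ≤ 2 * D)]
      exact mul_le_mul_of_nonneg_left (hE t) (by linarith)
    · rw [abs_zero]; positivity
  have hΨi := bi Ψ _ hΨm hΨb
  set F : ℝ → ℝ := fun t => if |t| ≤ h / 2 then
    2 * (c t * L G + (D - lam) * G + lam * s t) else 2 * (p + lam * s t - ε) with hF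
  have hFm : Measurable F := by
    refine Measurable.ite (measurableSet_le continuous_abs.measurable measurable_const) ?_ ?_
    · exact measurable_const.mul (((hcc.measurable.mul measurable_const).add
        measurable_const).add (measurable_const.mul hs.meas))
    · exact measurable_const.mul (((measurable_const.add (measurable_const.mul hs.meas))).sub
        measurable_const)
  have hFb : ∀ t, |F t| ≤ 2 * (|L G| + |(D - lam) * G| + |lam| * E) +
      2 * (|p| + |lam| * E + ε) := by
    intro t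
    have h3 : |lam * s t| ≤ |lam| * E := by
      rw [abs_mul]; exact mul_le_mul_of_nonneg_left (hE t) (abs_nonneg _)
    have h4 : |c t * L G| ≤ |L G| := by
      rw [abs_mul, abs_of_nonneg (hc1 t).1]
      exact mul_le_of_le_one_left (abs_nonneg _) (hc1 t).2
    have e1 : 0 ≤ 2 * (|L G| + |(D - lam) * G| + |lam| * E) := by positivity
    have e2 : 0 ≤ 2 * (|p| + |lam| * E + ε) := by positivity
    simp only [hF]
    split_ifs
    · rw [abs_mul, abs_of_pos (by norm_num : (0:ℝ) < 2)]
      have h5 : |c t * L G + (D - lam) * G + lam * s t| ≤ |L G| + |(D - lam) * G| + |lam| * E := by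
        refine (abs_add_le _ _).trans (add_le_add ((abs_add_le _ _).trans (add_le_add h4 le_rfl)) h3)
      linarith
    · rw [abs_mul, abs_of_pos (by norm_num : (0:ℝ) < 2)]
      have h5 : |p + lam * s t - ε| ≤ |p| + |lam| * E + ε := by
        refine (abs_sub _ _).trans (add_le_add ((abs_add_le _ _).trans (add_le_add le_rfl h3)) ?_)
        rw [abs_of_pos hε]
      linarith
  have hFi := bi F _ hFm hFb
  have h3 : ∫ t in (-(1 / 2 : ℝ))..(1 / 2), F t ≤
      ∫ t in (-(1 / 2 : ℝ))..(1 / 2), (Φ t + Ψ t) := by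
    refine intervalIntegral.integral_mono_ae_restrict (by norm_num) (hFi _ _)
      ((hΦi _ _).add (hΨi _ _)) ?_
    refine (ae_restrict_iff' measurableSet_Icc).2 ?_
    filter_upwards [hlL, hlg, ae_ne (1 / 2), ae_ne (-(1 / 2)), ae_ne (h / 2), ae_ne (-(h / 2)),
      ae_ne 0] with t ht1 ht2 h5 h6 h7 h8 h0 htI
    have h9 : |t| < 1 / 2 := by
      rw [abs_lt]
      exact ⟨lt_of_le_of_ne htI.1 (Ne.symm h6), lt_of_le_of_ne htI.2 h5⟩
    simp only [hF, hΦ, hΨ]
    by_cases h11 : |t| ≤ h / 2
    · rw [if_pos h11, if_pos h11, if_pos h11]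
      have h12 : |t| < h / 2 := by
        refine lt_of_le_of_ne h11 fun h13 => ?_
        rcases abs_cases t with ⟨h3, -⟩ | ⟨h3, -⟩
        · exact h7 (by linarith)
        · exact h8 (by linarith)
      have h13 : s t ∈ Icc G A := even_mem hse (a := 0) (b := h / 2)
        (fun t ht => hlt t ⟨ht.1, ht.2.le⟩) (abs_pos.2 h0) h12
      have h14 := hL (s t) h13 (c t) (hc1 t)
      have h15 := mul_le_mul_of_nonneg_left (ht1 h12) (hc1 t).1
      simp only [hc] at h14 h15 ⊢
      linarith
    · rw [if_neg h11, if_neg h11, if_neg h11, add_zero]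
      rw [not_le] at h11
      exact hTl (s t) (even_mem hse hgt h11 h9) (l t) (ht2 h11 h9)
  rw [intervalIntegral.integral_add (hΦi _ _) (hΨi _ _)] at h3
  -- evaluate the integral of Ψ
  have hΨ2 : ∫ t in (-(1 / 2 : ℝ))..(1 / 2), Ψ t = 2 * (2 * D * ∫ t in (0:ℝ)..(h / 2), s t) := by
    rw [even_int (hΨi _ _) (fun t => by simp only [hΨ, abs_neg, hse])]
    rw [← intervalIntegral.integral_add_adjacent_intervals (hΨi 0 (h / 2)) (hΨi (h / 2) (1 / 2))]
    have e1 : ∫ t in (0:ℝ)..(h / 2), Ψ t = 2 * D * ∫ t in (0:ℝ)..(h / 2), s t := by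
      rw [← intervalIntegral.integral_const_mul]
      refine intervalIntegral.integral_congr fun t ht => ?_
      rw [uIcc_of_le (by linarith)] at ht
      simp only [hΨ]
      rw [if_pos]
      rw [abs_of_nonneg ht.1]; exact ht.2
    have e2 : ∫ t in (h / 2)..(1 / 2), Ψ t = 0 := by
      have : ∫ t in (h / 2)..(1 / 2), Ψ t = ∫ t in (h / 2)..(1 / 2), (0:ℝ) := by
        refine intervalIntegral.integral_congr_ae (Eventually.of_forall fun t ht => ?_)
        rw [uIoc_of_le (by linarith)] at ht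
        simp only [hΨ]
        rw [if_neg]
        rw [not_le, abs_of_nonneg (by linarith [ht.1])]; exact ht.1
      rw [this]; simp
    rw [e1, e2, add_zero]
  have h4 : ∫ t in (-(1 / 2 : ℝ))..(1 / 2), F t =
      2 * ∫ t in (0:ℝ)..(1 / 2), F t := by
    refine even_int (hFi _ _) fun t => ?_
    simp only [hF, abs_neg, hse, hc, mul_neg, neg_sq]
  have h5 : ∫ t in (0:ℝ)..(1 / 2), F t = (∫ t in (0:ℝ)..(h / 2), F t) +
      ∫ t in (h / 2)..(1 / 2), F t :=
    (intervalIntegral.integral_add_adjacent_intervals (hFi _ _) (hFi _ _)).symm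
  have hci : ∀ a b : ℝ, IntervalIntegrable c volume a b := fun a b => hcc.intervalIntegrable a b
  have hcx : ∫ t in (0:ℝ)..(h / 2), c t =
      (1 / 2) * ∫ x in (0:ℝ)..h, Real.sqrt (1 - (D * x) ^ 2) := by
    have e := intervalIntegral.integral_comp_mul_left (a := 0) (b := h / 2)
      (fun x => Real.sqrt (1 - (D * x) ^ 2)) (two_ne_zero (α := ℝ))
    rw [mul_zero, show 2 * (h / 2) = h by ring, smul_eq_mul] at e
    rw [show (1 / 2 : ℝ) = 2⁻¹ by norm_num, ← e]
    refine intervalIntegral.integral_congr fun t _ => ?_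
    simp only [hc]
    congr 3; ring
  have h6 : ∫ t in (0:ℝ)..(h / 2), F t =
      L G * (∫ x in (0:ℝ)..h, Real.sqrt (1 - (D * x) ^ 2)) + h * ((D - lam) * G) +
      2 * lam * ∫ t in (0:ℝ)..(h / 2), s t := by
    have : ∫ t in (0:ℝ)..(h / 2), F t = ∫ t in (0:ℝ)..(h / 2),
        ((2 * L G) * c t + 2 * ((D - lam) * G) + 2 * lam * s t) := by
      refine intervalIntegral.integral_congr fun t ht => ?_
      rw [uIcc_of_le (by linarith)] at ht
      simp only [hF]
      rw [if_pos]
      · ring
      · rw [abs_of_nonneg ht.1]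
        exact ht.2
    rw [this, intervalIntegral.integral_add (((hci _ _).const_mul _).add intervalIntegrable_const)
      ((hs.intervalIntegrable _ _).const_mul _),
      intervalIntegral.integral_add ((hci _ _).const_mul _) intervalIntegrable_const,
      intervalIntegral.integral_const_mul (2 * L G), intervalIntegral.integral_const_mul (2 * lam),
      intervalIntegral.integral_const, hcx, smul_eq_mul]
    ring
  have h7 : ∫ t in (h / 2)..(1 / 2), F t =
      (1 - h) * (p - ε) + 2 * lam * ∫ t in (h / 2)..(1 / 2), s t := by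
    have : ∫ t in (h / 2)..(1 / 2), F t = ∫ t in (h / 2)..(1 / 2), (2 * (p - ε) + 2 * lam * s t) := by
      refine intervalIntegral.integral_congr_ae ?_
      filter_upwards [] with t ht
      rw [uIoc_of_le (by linarith)] at ht
      simp only [hF]
      rw [if_neg]
      · ring
      · rw [not_le, abs_of_nonneg (by linarith [ht.1])]
        exact ht.1
    rw [this, intervalIntegral.integral_add intervalIntegrable_const
      ((hs.intervalIntegrable _ _).const_mul _), intervalIntegral.integral_const,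
      intervalIntegral.integral_const_mul, smul_eq_mul]
    ring
  have h8 : ∫ t in (0:ℝ)..1, s t = 2 * ((∫ t in (0:ℝ)..(h / 2), s t) +
      ∫ t in (h / 2)..(1 / 2), s t) := by
    rw [half_int (hs.intervalIntegrable _ _) hs.per hse,
      intervalIntegral.integral_add_adjacent_intervals (hs.intervalIntegrable _ _)
        (hs.intervalIntegrable _ _)]
  have h12 : (1 - h) * ε ≤ ε := by nlinarith
  rw [h8]
  rw [h4, h5, h6, h7, hΨ2] at h3
  set I1 := ∫ t in (0:ℝ)..(h / 2), s t with hI1
  set I2 := ∫ t in (h / 2)..(1 / 2), s t with hI2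
  set I3 := ∫ x in B..G, Real.sqrt (1 - (p + lam * x) ^ 2 / g x) with hI3
  set I4 := ∫ x in B..G, T x with hI4
  set I5 := L G * ∫ x in (0:ℝ)..h, Real.sqrt (1 - (D * x) ^ 2) with hI5
  have e1 : 2 * D * (h / 2) * G = h * (D * G) := by ring
  have e2 : h * ((D - lam) * G) = h * (D * G) - lam * (h * G) := by ring
  rw [e1] at h1
  rw [e2] at h3
  linarith

end Crest.Agent.R214.ZC
end

-- ▼ part R214/Assembly

/-!
# Row 214: from scalar certificates to the strict inequality for the slice profile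
-/

set_option autoImplicit false

open MeasureTheory Set Filter Topology Crest.Agent.R214.MS

namespace Crest.Agent.R214.ZC

/-- One-zone certificate at `(B, A)` for the lower bound `J` of the half slice perimeter. -/
def CertOne (J : ℝ → ℝ) (B A : ℝ) : Prop :=
  ∃ (lam p M : ℝ) (g : ℝ → ℝ), LegOK lam M ∧ ContinuousOn g (Icc B A) ∧
    (∀ x ∈ Icc B A, 0 ≤ p + lam * x ∧ (p + lam * x) ^ 2 ≤ g x ∧ g x ≤ J x ^ 2) ∧
    M < p + ∫ x in B..A, Real.sqrt (1 - (p + lam * x) ^ 2 / g x)


/-- range of the limits -/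
theorem lims_mem {s : ℝ → ℝ} (hs01 : ∀ t, s t ∈ Icc (0:ℝ) 1) {A : ℝ} {F : Filter ℝ} [F.NeBot]
    (hA : Tendsto s F (𝓝 A)) : A ∈ Icc (0:ℝ) 1 :=
  isClosed_Icc.mem_of_tendsto hA (Eventually.of_forall hs01)

theorem vol_mem {s : ℝ → ℝ} (_hs : BP s) (hs01 : ∀ t, s t ∈ Icc (0:ℝ) 1) :
    0 ≤ ∫ t in (0:ℝ)..1, s t :=
  intervalIntegral.integral_nonneg zero_le_one fun t _ => (hs01 t).1

theorem sqrt_le_of_le_sq {a b : ℝ} (hb : 0 ≤ b) (h : a ≤ b ^ 2) : Real.sqrt a ≤ b :=
  Real.sqrt_le_iff.2 ⟨hb, h⟩

/-- **One zone.** -/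
theorem lt_of_certOne {s l : ℝ → ℝ} (hs : BP s) (hl : BP l) (hse : ∀ t, s (-t) = s t)
    (hanti : AntitoneOn s (Ioo 0 (1 / 2))) (hs01 : ∀ t, s t ∈ Icc (0:ℝ) 1)
    {P : ℝ} (H : DualIneq s l P) {A B : ℝ}
    (hA : Tendsto s (𝓝[>] 0) (𝓝 A)) (hB : Tendsto s (𝓝[<] (1 / 2)) (𝓝 B))
    (hv : ∫ t in (0:ℝ)..1, s t ≤ 1 / 2)
    {J : ℝ → ℝ} (hJ : ∀ x ∈ Icc (0:ℝ) 1, 0 ≤ J x)
    (hlJ : ∀ᵐ t, |t| < 1 / 2 → 2 * J (s t) ≤ l t) (hC : CertOne J B A) :
    min (m0 (∫ t in (0:ℝ)..1, s t)) 1 < P / 2 := by
  obtain ⟨lam, p, M, g, hM, hg, hw, hlt⟩ := hC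
  have h1 := cert_one hs hl hse hanti H hA hB hg (fun x hx => (hw x hx).1)
    (fun x hx => (hw x hx).2.1) (by
      filter_upwards [hlJ, ae_ne 0] with t ht h0 htI
      have hm : s t ∈ Icc B A := even_mem hse (a := 0) (b := 1 / 2)
        (fun t ht => range_mem hs hanti hA hB ht) (abs_pos.2 h0) htI
      have := sqrt_le_of_le_sq (hJ _ (hs01 t)) (hw _ hm).2.2
      have := ht htI
      linarith)
  have h2 := legendre (vol_mem hs hs01) hv hM
  linarith


/-- **The corner near the slab.** -/
theorem corner_le {s l : ℝ → ℝ} (hs : BP s) (hl : BP l) (hse : ∀ t, s (-t) = s t)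
    (hanti : AntitoneOn s (Ioo 0 (1 / 2))) (hs01 : ∀ t, s t ∈ Icc (0:ℝ) 1)
    {P : ℝ} (H : DualIneq s l P) {A B : ℝ}
    (hA : Tendsto s (𝓝[>] 0) (𝓝 A)) (hB : Tendsto s (𝓝[<] (1 / 2)) (𝓝 B))
    (hv : ∫ t in (0:ℝ)..1, s t ≤ 1 / 2)
    (hlJ : ∀ᵐ t, |t| < 1 / 2 → 2 * Real.sqrt (Real.pi * (s t * (1 - s t))) ≤ l t)
    (hB1 : B ≤ 1 / 50) (hA1 : 49 / 50 ≤ A) :
    min (m0 (∫ t in (0:ℝ)..1, s t)) 1 ≤ P / 2 ∧
      ((B ≠ 0 ∨ A ≠ 1) → min (m0 (∫ t in (0:ℝ)..1, s t)) 1 < P / 2) := by
  have hpi := Real.pi_pos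
  have hA01 := lims_mem hs01 hA
  have hB01 := lims_mem hs01 hB
  set v := ∫ t in (0:ℝ)..1, s t with hvdef
  have hv0 : 0 ≤ v := vol_mem hs hs01
  set g : ℝ → ℝ := fun x => Real.pi * (x * (1 - x)) with hgdef
  have hg : ∀ S : Set ℝ, ContinuousOn g S := fun S => by
    apply Continuous.continuousOn
    simp only [hgdef]
    fun_prop
  rcases le_total (28 / 100) v with h28 | h28
  · obtain ⟨lam, mu, h1, h2, h3⟩ := Corner.corner hB01.1 hB1 hA1 hA01.2 h28 hv
    have h4 := cert_one hs hl hse hanti H hA hB (hg _) (p := mu) (lam := lam)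
      (fun x hx => by have := (h1 x hx).1; linarith)
      (fun x hx => by
        have h5 := (h1 x hx).2
        have hx0 : 0 ≤ x * (1 - x) :=
          mul_nonneg (hB01.1.trans hx.1) (by linarith [hx.2, hA01.2])
        have e : (mu + lam * x) ^ 2 = (lam * x + mu) ^ 2 := by ring
        simp only [hgdef]
        rw [e]
        nlinarith [mul_nonneg hpi.le hx0])
      hlJ
    have e : (∫ x in B..A, Real.sqrt (1 - (mu + lam * x) ^ 2 / g x)) =
        ∫ x in B..A, Real.sqrt (1 - (lam * x + mu) ^ 2 / (Real.pi * (x * (1 - x)))) := by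
      refine intervalIntegral.integral_congr fun x _ => ?_
      simp only [hgdef]
      rw [add_comm mu (lam * x)]
    rw [e] at h4
    refine ⟨(min_le_right _ _).trans (by linarith), fun h => ?_⟩
    have := h3 h
    exact lt_of_le_of_lt (min_le_right _ _) (by linarith)
  · have h4 := cert_one hs hl hse hanti H hA hB (hg _) (p := 0) (lam := 0)
      (fun x hx => by norm_num)
      (fun x hx => by
        have hx0 : 0 ≤ x * (1 - x) :=
          mul_nonneg (hB01.1.trans hx.1) (by linarith [hx.2, hA01.2])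
        simp only [hgdef]
        norm_num
        positivity)
      hlJ
    have e : (∫ x in B..A, Real.sqrt (1 - (0 + 0 * x) ^ 2 / g x)) = A - B := by
      simp
    rw [e] at h4
    have h5 : m0 v ≤ 938 / 1000 := by
      refine (min_le_right _ _).trans ?_
      rw [Real.sqrt_le_left (by norm_num)]
      have := Real.pi_lt_d4
      nlinarith
    have h6 : min (m0 v) 1 < P / 2 := lt_of_le_of_lt (min_le_left _ _) (by linarith)
    exact ⟨h6.le, fun _ => h6⟩

/-- **The exact region**: the slice bound is `2 √(π s)` on the whole range. -/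
theorem exact_le {s l : ℝ → ℝ} (hs : BP s) (hl : BP l) (hse : ∀ t, s (-t) = s t)
    (hanti : AntitoneOn s (Ioo 0 (1 / 2))) (hs01 : ∀ t, s t ∈ Icc (0:ℝ) 1)
    {P : ℝ} (H : DualIneq s l P) {A B : ℝ}
    (hA : Tendsto s (𝓝[>] 0) (𝓝 A)) (hB : Tendsto s (𝓝[<] (1 / 2)) (𝓝 B))
    (hlJ : ∀ᵐ t, |t| < 1 / 2 → 2 * Real.sqrt (Real.pi * s t) ≤ l t) (hA0 : 0 < A) :
    m0 (∫ t in (0:ℝ)..1, s t) ≤ P / 2 ∧
      (P / 2 ≤ m0 (∫ t in (0:ℝ)..1, s t) → B < A →
        B = 0 ∧ (∫ t in (0:ℝ)..1, s t) = 4 * Real.sqrt A ^ 3 / (3 * Real.sqrt Real.pi) ∧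
          (∫ t in (0:ℝ)..1, s t) ≤ 4 * Real.pi / 81) := by
  have hpi := Real.pi_pos
  have hA01 := lims_mem hs01 hA
  have hB01 := lims_mem hs01 hB
  have hBA := le_of_lims hs hanti hA hB
  set v := ∫ t in (0:ℝ)..1, s t with hvdef
  have hv0 : 0 ≤ v := vol_mem hs hs01
  set a := Real.sqrt A with ha
  set b := Real.sqrt B with hb
  have ha0 : 0 < a := Real.sqrt_pos.2 hA0
  have hb0 : 0 ≤ b := Real.sqrt_nonneg _
  have hab : b ≤ a := Real.sqrt_le_sqrt hBA
  have ha2 : a ^ 2 = A := Real.sq_sqrt hA01.1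
  have hb2 : b ^ 2 = B := Real.sq_sqrt hB01.1
  have hS : 0 < a + b := by linarith
  have hsq : Real.sqrt Real.pi ^ 2 = Real.pi := Real.sq_sqrt hpi.le
  set g : ℝ → ℝ := fun x => Real.pi * x with hgdef
  have hg : ContinuousOn g (Icc B A) := by
    apply Continuous.continuousOn
    simp only [hgdef]
    fun_prop
  set p := Real.sqrt Real.pi * (a * b) / (a + b) with hp
  set lam := Real.sqrt Real.pi / (a + b) with hlam
  have hw : ∀ x, p + lam * x = Real.sqrt Real.pi * (x + a * b) / (a + b) := by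
    intro x
    rw [hp, hlam]
    field_simp
    ring
  have hwsq : ∀ x, (p + lam * x) ^ 2 = Real.pi * ((x + a * b) ^ 2 / (a + b) ^ 2) := by
    intro x
    rw [hw, div_pow, mul_pow, hsq]
    ring
  have h4 := cert_one hs hl hse hanti H hA hB hg (p := p) (lam := lam)
    (fun x hx => by
      have hx0 : 0 ≤ x := hB01.1.trans hx.1
      rw [hw]; positivity)
    (fun x hx => by
      rw [hwsq]
      simp only [hgdef]
      refine mul_le_mul_of_nonneg_left ?_ hpi.le
      rw [div_le_iff₀ (by positivity)]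
      have h5 : (x - b ^ 2) * (a ^ 2 - x) ≥ 0 :=
        mul_nonneg (by rw [hb2]; linarith [hx.1]) (by rw [ha2]; linarith [hx.2])
      nlinarith)
    hlJ
  have e : (∫ x in B..A, Real.sqrt (1 - (p + lam * x) ^ 2 / g x)) =
      ∫ x in (b ^ 2)..(a ^ 2), Real.sqrt (1 - (x + a * b) ^ 2 / ((a + b) ^ 2 * x)) := by
    rw [ha2, hb2]
    refine intervalIntegral.integral_congr fun x _ => ?_
    simp only [hgdef]
    rw [hwsq]
    congr 2
    rw [mul_div_mul_left _ _ hpi.ne', div_div]
  rw [e] at h4
  have e2 : lam * v + p = Real.sqrt Real.pi * (v + a * b) / (a + b) := by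
    rw [add_comm]; exact hw v
  rw [e2] at h4
  have h5 := exact_E3 hb0 hab ha0 hv0
  refine ⟨h5.trans h4, fun h6 h7 => ?_⟩
  have h8 : m0 v = Real.sqrt Real.pi * (v + a * b) / (a + b) +
      ∫ x in (b ^ 2)..(a ^ 2), Real.sqrt (1 - (x + a * b) ^ 2 / ((a + b) ^ 2 * x)) := by
    linarith
  obtain ⟨h9, h10, h11⟩ := exact_E4 hb0 (Real.sqrt_lt_sqrt hB01.1 h7) hv0 h8
  refine ⟨?_, h10, h11⟩
  rw [← hb2, h9]
  norm_num

end Crest.Agent.R214.ZC
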