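import Mathlib

-- ▼ part R214/Exact
section

/-!
Row 214, EXACT PART of the one-dimensional inequality (captain's note 6340).
Units: `m0 v = min ((9π/2)^(1/3) v^(2/3)) (√(π v))` (half of the torus perimeter profile).
-/

set_option autoImplicit false

open MeasureTheory intervalIntegral Set

namespace Crest.Agent.R214

noncomputable section

/-- sphere/cylinder part of the (half) profile -/
def m0 (v : ℝ) : ℝ := min ((9 * Real.pi / 2) ^ ((1:ℝ)/3) * v ^ ((2:ℝ)/3)) (Real.sqrt (Real.pi * v))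

/-- the pointwise Cauchy–Schwarz minorant, `x = t - b`, `y = a - t`. -/
lemma exact_pointwise {b x y : ℝ} (hb : 0 ≤ b) (hx : 0 ≤ x) (hy : 0 ≤ y) (hD : 0 < x + y) :
    4 * b * x * y / (x + y) + x * Real.sqrt (y * ((x + y) + x)) ≤
      Real.sqrt (y * x * ((2 * b + x) * (2 * b + (x + y) + x))) := by
  have h1 : 4 * b * x * y / (x + y) ≤ 2 * b * Real.sqrt (x * y) := by
    rw [div_le_iff₀ hD]
    have h2 : Real.sqrt (x * y) * Real.sqrt (x * y) = x * y := Real.mul_self_sqrt (by positivity)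
    have h3 : 2 * Real.sqrt (x * y) ≤ x + y := by
      have : Real.sqrt (x * y) = Real.sqrt x * Real.sqrt y := Real.sqrt_mul hx y
      rw [this]
      nlinarith [sq_nonneg (Real.sqrt x - Real.sqrt y), Real.sq_sqrt hx, Real.sq_sqrt hy]
    have h0 : 0 ≤ Real.sqrt (x * y) := Real.sqrt_nonneg _
    have : 4 * b * x * y = 2 * b * (2 * (Real.sqrt (x * y) * Real.sqrt (x * y))) := by
      rw [h2]; ring
    rw [this]
    have h5 : 2 * (Real.sqrt (x * y) * Real.sqrt (x * y)) ≤ Real.sqrt (x * y) * (x + y) := by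
      nlinarith
    calc 2 * b * (2 * (Real.sqrt (x * y) * Real.sqrt (x * y)))
        ≤ 2 * b * (Real.sqrt (x * y) * (x + y)) := by
          apply mul_le_mul_of_nonneg_left h5; positivity
      _ = 2 * b * Real.sqrt (x * y) * (x + y) := by ring
  have h2 : x * Real.sqrt (y * ((x + y) + x)) =
      Real.sqrt (x * y) * Real.sqrt (x * ((x + y) + x)) := by
    rw [← Real.sqrt_mul (by positivity)]
    have : x * y * (x * (x + y + x)) = x ^ 2 * (y * ((x + y) + x)) := by ring
    rw [this, Real.sqrt_mul (show (0:ℝ) ≤ x ^ 2 by positivity), Real.sqrt_sq hx]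
  have h3 : Real.sqrt (y * x * ((2 * b + x) * (2 * b + (x + y) + x))) =
      Real.sqrt (x * y) * Real.sqrt ((2 * b + x) * (2 * b + (x + y) + x)) := by
    rw [← Real.sqrt_mul (by positivity)]; ring_nf
  have h4 : 2 * b + Real.sqrt (x * ((x + y) + x)) ≤
      Real.sqrt ((2 * b + x) * (2 * b + (x + y) + x)) := by
    apply Real.le_sqrt_of_sq_le
    have h5 : 2 * Real.sqrt (x * ((x + y) + x)) ≤ x + ((x + y) + x) := by
      have : Real.sqrt (x * ((x + y) + x)) = Real.sqrt x * Real.sqrt ((x + y) + x) :=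
        Real.sqrt_mul hx _
      rw [this]
      have hz : 0 ≤ (x + y) + x := by positivity
      nlinarith [sq_nonneg (Real.sqrt x - Real.sqrt ((x + y) + x)), Real.sq_sqrt hx,
        Real.sq_sqrt hz]
    have h6 : Real.sqrt (x * ((x + y) + x)) ^ 2 = x * ((x + y) + x) :=
      Real.sq_sqrt (by positivity)
    nlinarith [mul_le_mul_of_nonneg_left h5 hb]
  calc 4 * b * x * y / (x + y) + x * Real.sqrt (y * ((x + y) + x))
      ≤ 2 * b * Real.sqrt (x * y) + Real.sqrt (x * y) * Real.sqrt (x * ((x + y) + x)) := by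
        rw [h2]; linarith
    _ = Real.sqrt (x * y) * (2 * b + Real.sqrt (x * ((x + y) + x))) := by ring
    _ ≤ Real.sqrt (x * y) * Real.sqrt ((2 * b + x) * (2 * b + (x + y) + x)) :=
        mul_le_mul_of_nonneg_left h4 (Real.sqrt_nonneg _)
    _ = _ := h3.symm

/-- strict version at points with `x ≠ y`, `b > 0`. -/
lemma exact_pointwise_strict {b x y : ℝ} (hb : 0 < b) (hx : 0 < x) (hy : 0 < y) (hxy : x ≠ y) :
    4 * b * x * y / (x + y) + x * Real.sqrt (y * ((x + y) + x)) <
      Real.sqrt (y * x * ((2 * b + x) * (2 * b + (x + y) + x))) := by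
  have hD : 0 < x + y := by positivity
  have h1 : 4 * b * x * y / (x + y) < 2 * b * Real.sqrt (x * y) := by
    rw [div_lt_iff₀ hD]
    have h2 : Real.sqrt (x * y) * Real.sqrt (x * y) = x * y := Real.mul_self_sqrt (by positivity)
    have h3 : 2 * Real.sqrt (x * y) < x + y := by
      have : Real.sqrt (x * y) = Real.sqrt x * Real.sqrt y := Real.sqrt_mul hx.le y
      rw [this]
      have hne : Real.sqrt x - Real.sqrt y ≠ 0 := by
        intro h
        apply hxy
        have h' : Real.sqrt x = Real.sqrt y := by linarith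
        have := congrArg (fun t => t ^ 2) h'
        simpa [Real.sq_sqrt hx.le, Real.sq_sqrt hy.le] using this
      have := sq_pos_of_ne_zero hne
      nlinarith [Real.sq_sqrt hx.le, Real.sq_sqrt hy.le]
    have h0 : 0 < Real.sqrt (x * y) := Real.sqrt_pos.mpr (by positivity)
    have : 4 * b * x * y = 2 * b * (2 * (Real.sqrt (x * y) * Real.sqrt (x * y))) := by
      rw [h2]; ring
    rw [this]
    have h5 : 2 * (Real.sqrt (x * y) * Real.sqrt (x * y)) < Real.sqrt (x * y) * (x + y) := by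
      nlinarith
    calc 2 * b * (2 * (Real.sqrt (x * y) * Real.sqrt (x * y)))
        < 2 * b * (Real.sqrt (x * y) * (x + y)) := by
          apply mul_lt_mul_of_pos_left h5; positivity
      _ = 2 * b * Real.sqrt (x * y) * (x + y) := by ring
  have h2 : x * Real.sqrt (y * ((x + y) + x)) =
      Real.sqrt (x * y) * Real.sqrt (x * ((x + y) + x)) := by
    rw [← Real.sqrt_mul (by positivity)]
    have : x * y * (x * (x + y + x)) = x ^ 2 * (y * ((x + y) + x)) := by ring
    rw [this, Real.sqrt_mul (show (0:ℝ) ≤ x ^ 2 by positivity), Real.sqrt_sq hx.le]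
  have h3 : Real.sqrt (y * x * ((2 * b + x) * (2 * b + (x + y) + x))) =
      Real.sqrt (x * y) * Real.sqrt ((2 * b + x) * (2 * b + (x + y) + x)) := by
    rw [← Real.sqrt_mul (by positivity)]; ring_nf
  have h4 : 2 * b + Real.sqrt (x * ((x + y) + x)) ≤
      Real.sqrt ((2 * b + x) * (2 * b + (x + y) + x)) := by
    apply Real.le_sqrt_of_sq_le
    have h5 : 2 * Real.sqrt (x * ((x + y) + x)) ≤ x + ((x + y) + x) := by
      have : Real.sqrt (x * ((x + y) + x)) = Real.sqrt x * Real.sqrt ((x + y) + x) :=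
        Real.sqrt_mul hx.le _
      rw [this]
      have hz : 0 ≤ (x + y) + x := by positivity
      nlinarith [sq_nonneg (Real.sqrt x - Real.sqrt ((x + y) + x)), Real.sq_sqrt hx.le,
        Real.sq_sqrt hz]
    have h6 : Real.sqrt (x * ((x + y) + x)) ^ 2 = x * ((x + y) + x) :=
      Real.sq_sqrt (by positivity)
    nlinarith [mul_le_mul_of_nonneg_left h5 hb.le]
  calc 4 * b * x * y / (x + y) + x * Real.sqrt (y * ((x + y) + x))
      < 2 * b * Real.sqrt (x * y) + Real.sqrt (x * y) * Real.sqrt (x * ((x + y) + x)) := by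
        rw [h2]; linarith
    _ = Real.sqrt (x * y) * (2 * b + Real.sqrt (x * ((x + y) + x))) := by ring
    _ ≤ Real.sqrt (x * y) * Real.sqrt ((2 * b + x) * (2 * b + (x + y) + x)) :=
        mul_le_mul_of_nonneg_left h4 (Real.sqrt_nonneg _)
    _ = _ := h3.symm

/-- the elementary minorant integrated. -/
lemma integral_minorant {a b : ℝ} (hab : b < a) :
    ∫ t in b..a, (4 * b * (t - b) * (a - t) / (a - b) +
      (t - b) * Real.sqrt ((a - t) * ((a - b) + (t - b)))) =
      2 * b / 3 * (a - b) ^ 2 + (a - b) ^ 3 / 3 := by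
  have hD : 0 < a - b := by linarith
  have h1 : ∀ t ∈ Set.uIcc b a, HasDerivAt (fun t => 4 * b / (a - b) * ((a - b) * (t - b) ^ 2 / 2 - (t - b) ^ 3 / 3)
      - (1/3) * ((a - b) ^ 2 - (t - b) ^ 2) ^ ((3:ℝ)/2))
      (4 * b * (t - b) * (a - t) / (a - b) + (t - b) * Real.sqrt ((a - t) * ((a - b) + (t - b)))) t := by
    intro t _
    have e1 : HasDerivAt (fun t => 4 * b / (a - b) * ((a - b) * (t - b) ^ 2 / 2 - (t - b) ^ 3 / 3))
        (4 * b / (a - b) * ((a - b) * (2 * (t - b)) / 2 - (3 * (t - b) ^ 2) / 3)) t := by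
      have h0 : HasDerivAt (fun t => t - b) 1 t := (hasDerivAt_id t).sub_const b
      have h2 := (h0.pow 2)
      have h3 := (h0.pow 3)
      have := ((h2.const_mul (a - b)).div_const 2).sub (h3.div_const 3)
      have := this.const_mul (4 * b / (a - b))
      refine this.congr_deriv ?_
      simp
    have e2 : HasDerivAt (fun t => (1/3) * ((a - b) ^ 2 - (t - b) ^ 2) ^ ((3:ℝ)/2))
        (-((t - b) * Real.sqrt ((a - t) * ((a - b) + (t - b))))) t := by
      have h0 : HasDerivAt (fun t => (a - b) ^ 2 - (t - b) ^ 2) (-(2 * (t - b))) t := by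
        have h0 : HasDerivAt (fun t => t - b) 1 t := (hasDerivAt_id t).sub_const b
        refine ((h0.pow 2).const_sub ((a - b) ^ 2)).congr_deriv ?_
        simp
      have h1 := (h0.rpow_const (p := (3:ℝ)/2) (Or.inr (by norm_num))).const_mul (1/3 : ℝ)
      refine h1.congr_deriv ?_
      have : (a - b) ^ 2 - (t - b) ^ 2 = (a - t) * ((a - b) + (t - b)) := by ring
      rw [this, Real.sqrt_eq_rpow]
      norm_num
      ring
    have := e1.sub e2
    refine this.congr_deriv ?_
    field_simp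
    ring
  rw [intervalIntegral.integral_eq_sub_of_hasDerivAt h1]
  · have hz : (0:ℝ) ^ ((3:ℝ)/2) = 0 := Real.zero_rpow (by norm_num)
    have h32 : ((a - b) ^ 2) ^ ((3:ℝ)/2) = (a - b) ^ 3 := by
      rw [← Real.rpow_natCast, ← Real.rpow_mul hD.le, ← Real.rpow_natCast]
      norm_num
    simp only [sub_self]
    rw [hz]
    norm_num
    rw [h32]
    field_simp
    ring
  · apply Continuous.intervalIntegrable
    fun_prop

/-- (E1) -/
theorem exact_E1 {a b : ℝ} (hb : 0 ≤ b) (hab : b ≤ a) :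
    (a - b) ^ 2 * (a + b) / 3 ≤ ∫ t in b..a, Real.sqrt ((a ^ 2 - t ^ 2) * (t ^ 2 - b ^ 2)) := by
  rcases hab.eq_or_lt with rfl | hlt
  · simp
  have hI := integral_minorant hlt
  have : (a - b) ^ 2 * (a + b) / 3 = 2 * b / 3 * (a - b) ^ 2 + (a - b) ^ 3 / 3 := by ring
  rw [this, ← hI]
  apply intervalIntegral.integral_mono_on hab
  · apply Continuous.intervalIntegrable
    fun_prop
  · apply Continuous.intervalIntegrable
    fun_prop
  · intro t ht
    have := exact_pointwise hb (x := t - b) (y := a - t) (by linarith [ht.1]) (by linarith [ht.2])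
      (by linarith)
    have e1 : t - b + (a - t) = a - b := by ring
    rw [e1] at this
    have e2 : (a - t) * (t - b) * ((2 * b + (t - b)) * (2 * b + (a - b) + (t - b))) =
      (a ^ 2 - t ^ 2) * (t ^ 2 - b ^ 2) := by ring
    rw [e2] at this
    exact this

/-- (E1) strict -/
theorem exact_E1_strict {a b : ℝ} (hb : 0 < b) (hlt : b < a) :
    (a - b) ^ 2 * (a + b) / 3 < ∫ t in b..a, Real.sqrt ((a ^ 2 - t ^ 2) * (t ^ 2 - b ^ 2)) := by
  have hI := integral_minorant hlt
  have : (a - b) ^ 2 * (a + b) / 3 = 2 * b / 3 * (a - b) ^ 2 + (a - b) ^ 3 / 3 := by ring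
  rw [this, ← hI]
  apply intervalIntegral.integral_lt_integral_of_continuousOn_of_le_of_exists_lt hlt
  · apply Continuous.continuousOn
    fun_prop
  · apply Continuous.continuousOn
    fun_prop
  · intro t ht
    have := exact_pointwise hb.le (x := t - b) (y := a - t) (by linarith [ht.1]) (by linarith [ht.2])
      (by linarith)
    have e1 : t - b + (a - t) = a - b := by ring
    rw [e1] at this
    have e2 : (a - t) * (t - b) * ((2 * b + (t - b)) * (2 * b + (a - b) + (t - b))) =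
      (a ^ 2 - t ^ 2) * (t ^ 2 - b ^ 2) := by ring
    rw [e2] at this
    exact this
  · refine ⟨b + (a - b) / 4, ⟨by linarith, by linarith⟩, ?_⟩
    have := exact_pointwise_strict hb (x := (a - b) / 4) (y := a - (b + (a - b) / 4))
      (by linarith) (by linarith) (by intro h; linarith)
    have e1 : (a - b) / 4 + (a - (b + (a - b) / 4)) = a - b := by ring
    rw [e1] at this
    have e0 : b + (a - b) / 4 - b = (a - b) / 4 := by ring
    rw [e0]
    set t := b + (a - b) / 4
    have e3 : (a - b) / 4 = t - b := by simp [t]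
    have e2 : (a - t) * ((a - b) / 4) * ((2 * b + (a - b) / 4) * (2 * b + (a - b) + (a - b) / 4)) =
      (a ^ 2 - t ^ 2) * (t ^ 2 - b ^ 2) := by rw [e3]; ring
    rw [e2] at this
    exact this

/-- (E1) equality for `b = 0`. -/
theorem exact_E1_zero {a : ℝ} (ha : 0 ≤ a) :
    ∫ t in (0:ℝ)..a, Real.sqrt ((a ^ 2 - t ^ 2) * (t ^ 2 - 0 ^ 2)) = a ^ 3 / 3 := by
  rcases ha.eq_or_lt with rfl | hlt
  · simp
  have hI := integral_minorant hlt
  have e : ∫ t in (0:ℝ)..a, Real.sqrt ((a ^ 2 - t ^ 2) * (t ^ 2 - 0 ^ 2)) =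
      ∫ t in (0:ℝ)..a, (4 * 0 * (t - 0) * (a - t) / (a - 0) +
      (t - 0) * Real.sqrt ((a - t) * ((a - 0) + (t - 0)))) := by
    apply intervalIntegral.integral_congr
    intro t ht
    rw [Set.uIcc_of_le ha] at ht
    have ht0 : 0 ≤ t := ht.1
    have : (a ^ 2 - t ^ 2) * (t ^ 2 - 0 ^ 2) = t ^ 2 * ((a - t) * ((a - 0) + (t - 0))) := by ring
    simp only []
    rw [this, Real.sqrt_mul (by positivity), Real.sqrt_sq ht0]
    ring
  rw [e, hI]
  ring

/-- the integrand of (E2) is continuous on `[b^2, a^2]`. -/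
lemma exact_continuousOn {a b : ℝ} (hb : 0 ≤ b) (ha : 0 < a) :
    ContinuousOn (fun s => Real.sqrt (1 - (s + a * b) ^ 2 / ((a + b) ^ 2 * s))) (Set.Icc (b ^ 2) (a ^ 2)) := by
  rcases hb.eq_or_lt with h0 | h0
  · subst h0
    have : ContinuousOn (fun s => Real.sqrt (1 - s / a ^ 2)) (Set.Icc ((0:ℝ) ^ 2) (a ^ 2)) := by
      fun_prop
    refine this.congr ?_
    intro s _
    simp only []
    congr 2
    by_cases hs : s = 0
    · simp [hs]
    · simp only [mul_zero, add_zero]
      field_simp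
  · intro s hs
    have hs' : 0 < s := lt_of_lt_of_le (by positivity) hs.1
    apply ContinuousAt.continuousWithinAt
    have : (a + b) ^ 2 * s ≠ 0 := by positivity
    fun_prop (disch := exact this)

/-- (E2) substitution `s = t^2`. -/
theorem exact_E2 {a b : ℝ} (hb : 0 ≤ b) (hab : b ≤ a) (ha : 0 < a) :
    ∫ s in (b ^ 2)..(a ^ 2), Real.sqrt (1 - (s + a * b) ^ 2 / ((a + b) ^ 2 * s)) =
      2 / (a + b) * ∫ t in b..a, Real.sqrt ((a ^ 2 - t ^ 2) * (t ^ 2 - b ^ 2)) := by
  have hS : 0 < a + b := by linarith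
  have hsub : ∫ t in b..a, ((fun s => Real.sqrt (1 - (s + a * b) ^ 2 / ((a + b) ^ 2 * s))) ∘ fun t => t ^ 2) t * (2 * t) =
      ∫ s in (b ^ 2)..(a ^ 2), Real.sqrt (1 - (s + a * b) ^ 2 / ((a + b) ^ 2 * s)) := by
    apply intervalIntegral.integral_comp_mul_deriv'' (f := fun t => t ^ 2) (f' := fun t => 2 * t)
    · fun_prop
    · intro t _
      have := (hasDerivAt_pow 2 t)
      simpa using this.hasDerivWithinAt
    · fun_prop
    · refine (exact_continuousOn hb ha).mono ?_
      rintro _ ⟨t, ht, rfl⟩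
      rw [Set.uIcc_of_le hab] at ht
      exact ⟨pow_le_pow_left₀ hb ht.1 2, pow_le_pow_left₀ (hb.trans ht.1) ht.2 2⟩
  rw [← hsub, ← intervalIntegral.integral_const_mul]
  apply intervalIntegral.integral_congr
  intro t ht
  rw [Set.uIcc_of_le hab] at ht
  have ht0 : 0 ≤ t := le_trans hb ht.1
  rcases ht0.eq_or_lt with h0 | h0
  · have hb0 : b = 0 := le_antisymm (h0 ▸ ht.1) hb
    simp [← h0, hb0]
  · simp only [Function.comp]
    have e : 1 - (t ^ 2 + a * b) ^ 2 / ((a + b) ^ 2 * t ^ 2) =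
        ((a ^ 2 - t ^ 2) * (t ^ 2 - b ^ 2)) / ((a + b) * t) ^ 2 := by
      field_simp
      ring
    rw [e, Real.sqrt_div' _ (by positivity), Real.sqrt_sq (by positivity)]
    field_simp

/-- tangent line for the sphere term: `K v^(2/3) ≤ σ v + (2π/3)/σ²`, `K = (9π/2)^(1/3)`. -/
lemma sphere_tangent {v σ : ℝ} (hv : 0 ≤ v) (hσ : 0 < σ) :
    (9 * Real.pi / 2) ^ ((1:ℝ)/3) * v ^ ((2:ℝ)/3) ≤ σ * v + 2 * Real.pi / (3 * σ ^ 2) ∧
    ((9 * Real.pi / 2) ^ ((1:ℝ)/3) * v ^ ((2:ℝ)/3) = σ * v + 2 * Real.pi / (3 * σ ^ 2) →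
      v = 4 * Real.pi / (3 * σ ^ 3)) := by
  have hpi := Real.pi_pos
  set K : ℝ := (9 * Real.pi / 2) ^ ((1:ℝ)/3) with hK
  set y : ℝ := v ^ ((1:ℝ)/3) with hy
  have hK0 : 0 < K := by positivity
  have hy0 : 0 ≤ y := by positivity
  have hK3 : K ^ 3 = 9 * Real.pi / 2 := by
    rw [hK, ← Real.rpow_natCast, ← Real.rpow_mul (by positivity)]; norm_num
  have hy3 : y ^ 3 = v := by
    rw [hy, ← Real.rpow_natCast, ← Real.rpow_mul hv]; norm_num
  have hy2 : v ^ ((2:ℝ)/3) = y ^ 2 := by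
    rw [hy, ← Real.rpow_natCast, ← Real.rpow_mul hv]; norm_num
  rw [hy2]
  have hid : σ * v + 2 * Real.pi / (3 * σ ^ 2) - K * y ^ 2 =
      σ * (y - 2 * K / (3 * σ)) ^ 2 * (y + K / (3 * σ)) := by
    have : 2 * Real.pi / (3 * σ ^ 2) = 4 * K ^ 3 / (27 * σ ^ 2) := by
      rw [hK3]; field_simp; ring
    rw [this, ← hy3]
    field_simp
    ring
  refine ⟨?_, ?_⟩
  · have : 0 ≤ σ * (y - 2 * K / (3 * σ)) ^ 2 * (y + K / (3 * σ)) := by positivity
    linarith
  · intro h
    have h0 : σ * (y - 2 * K / (3 * σ)) ^ 2 * (y + K / (3 * σ)) = 0 := by linarith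
    have h1 : y + K / (3 * σ) ≠ 0 := by positivity
    have h2 : (y - 2 * K / (3 * σ)) ^ 2 = 0 := by
      rcases mul_eq_zero.mp h0 with h3 | h3
      · rcases mul_eq_zero.mp h3 with h4 | h4
        · exact absurd h4 hσ.ne'
        · exact h4
      · exact absurd h3 h1
    have h3 : y = 2 * K / (3 * σ) := by
      have := pow_eq_zero_iff (n := 2) (by norm_num) |>.mp h2
      linarith
    rw [← hy3, h3, div_pow, mul_pow, hK3]
    field_simp
    ring

/-- tangent line for the cylinder term. -/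
lemma cyl_tangent {v τ : ℝ} (hv : 0 ≤ v) (hτ : 0 < τ) :
    Real.sqrt (Real.pi * v) ≤ Real.sqrt Real.pi * (v + τ ^ 2) / (2 * τ) := by
  rw [Real.sqrt_mul Real.pi_pos.le, mul_div_assoc]
  apply mul_le_mul_of_nonneg_left _ (Real.sqrt_nonneg _)
  rw [le_div_iff₀ (by positivity)]
  nlinarith [sq_nonneg (Real.sqrt v - τ), Real.sq_sqrt hv, Real.sqrt_nonneg v]

lemma sqrt_pi_sq : Real.sqrt Real.pi ^ 2 = Real.pi := Real.sq_sqrt Real.pi_pos.le

/-- elimination of `v`. -/
lemma m0_le_tangent {a b v : ℝ} (hb : 0 ≤ b) (_hab : b ≤ a) (ha : 0 < a) (hv : 0 ≤ v) :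
    m0 v ≤ Real.sqrt Real.pi * (v + a * b) / (a + b) + 2 / 3 * (a - b) ^ 2 := by
  have hpi := Real.pi_pos
  have hsp : 0 < Real.sqrt Real.pi := Real.sqrt_pos.mpr hpi
  have hS : 0 < a + b := by linarith
  have hsq := sqrt_pi_sq
  rcases le_total (a + b) (3 * Real.sqrt Real.pi / 8) with h | h
  · refine (min_le_left _ _).trans ?_
    refine (sphere_tangent hv (σ := Real.sqrt Real.pi / (a + b)) (by positivity)).1.trans ?_
    have e : 2 * Real.pi / (3 * (Real.sqrt Real.pi / (a + b)) ^ 2) = 2 / 3 * (a + b) ^ 2 := by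
      rw [div_pow, hsq]; field_simp
    rw [e]
    have h1 : 8 / 3 * (a * b) ≤ Real.sqrt Real.pi * (a * b) / (a + b) := by
      rw [le_div_iff₀ hS]
      have : 0 ≤ a * b := by positivity
      nlinarith
    have e2 : Real.sqrt Real.pi * (v + a * b) / (a + b) =
      Real.sqrt Real.pi / (a + b) * v + Real.sqrt Real.pi * (a * b) / (a + b) := by ring
    rw [e2]
    nlinarith
  · refine (min_le_right _ _).trans ?_
    refine (cyl_tangent hv (τ := (a + b) / 2) (by positivity)).trans ?_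
    have e2 : Real.sqrt Real.pi * (v + ((a + b) / 2) ^ 2) / (2 * ((a + b) / 2)) =
      Real.sqrt Real.pi * (v + a * b) / (a + b) + Real.sqrt Real.pi * (a - b) ^ 2 / (4 * (a + b)) := by
      field_simp; ring
    rw [e2]
    have : Real.sqrt Real.pi * (a - b) ^ 2 / (4 * (a + b)) ≤ 2 / 3 * (a - b) ^ 2 := by
      rw [div_le_iff₀ (by positivity)]
      have h2 : Real.sqrt Real.pi ≤ 8 / 3 * (a + b) := by linarith
      nlinarith [mul_le_mul_of_nonneg_left h2 (sq_nonneg (a - b))]
    linarith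

/-- (E3) the exact part. -/
theorem exact_E3 {a b v : ℝ} (hb : 0 ≤ b) (hab : b ≤ a) (ha : 0 < a) (hv : 0 ≤ v) :
    m0 v ≤ Real.sqrt Real.pi * (v + a * b) / (a + b) +
      ∫ s in (b ^ 2)..(a ^ 2), Real.sqrt (1 - (s + a * b) ^ 2 / ((a + b) ^ 2 * s)) := by
  have hS : 0 < a + b := by linarith
  rw [exact_E2 hb hab ha]
  have h1 := exact_E1 hb hab
  have h2 := m0_le_tangent hb hab ha hv
  have h3 : 2 / 3 * (a - b) ^ 2 = 2 / (a + b) * ((a - b) ^ 2 * (a + b) / 3) := by
    field_simp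
  rw [h3] at h2
  have := mul_le_mul_of_nonneg_left h1 (show 0 ≤ 2 / (a + b) by positivity)
  linarith

/-- (E4) equality case of the exact part when `b < a`: the ball. -/
theorem exact_E4 {a b v : ℝ} (hb : 0 ≤ b) (hab : b < a) (hv : 0 ≤ v)
    (heq : m0 v = Real.sqrt Real.pi * (v + a * b) / (a + b) +
      ∫ s in (b ^ 2)..(a ^ 2), Real.sqrt (1 - (s + a * b) ^ 2 / ((a + b) ^ 2 * s))) :
    b = 0 ∧ v = 4 * a ^ 3 / (3 * Real.sqrt Real.pi) ∧ v ≤ 4 * Real.pi / 81 := by
  have ha : 0 < a := by linarith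
  have hpi := Real.pi_pos
  have hsp : 0 < Real.sqrt Real.pi := Real.sqrt_pos.mpr hpi
  have hS : 0 < a + b := by linarith
  have hsq := sqrt_pi_sq
  have h2 := m0_le_tangent hb hab.le ha hv
  have hb0 : b = 0 := by
    by_contra hne
    have hbpos : 0 < b := lt_of_le_of_ne hb (Ne.symm hne)
    have h1 := exact_E1_strict hbpos hab
    rw [exact_E2 hb hab.le ha] at heq
    have h3 : 2 / 3 * (a - b) ^ 2 = 2 / (a + b) * ((a - b) ^ 2 * (a + b) / 3) := by
      field_simp
    rw [h3] at h2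
    have := mul_lt_mul_of_pos_left h1 (show 0 < 2 / (a + b) by positivity)
    linarith
  subst hb0
  rw [exact_E2 le_rfl hab.le ha, exact_E1_zero ha.le] at heq
  simp only [mul_zero, add_zero] at heq
  have heq' : m0 v = Real.sqrt Real.pi / a * v + 2 / 3 * a ^ 2 := by
    rw [heq]; field_simp
  have h4 := (sphere_tangent hv (σ := Real.sqrt Real.pi / a) (by positivity))
  have e : 2 * Real.pi / (3 * (Real.sqrt Real.pi / a) ^ 2) = 2 / 3 * a ^ 2 := by
    rw [div_pow, hsq]; field_simp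
  rw [e] at h4
  have h5 : (9 * Real.pi / 2) ^ ((1:ℝ)/3) * v ^ ((2:ℝ)/3) = Real.sqrt Real.pi / a * v + 2 / 3 * a ^ 2 :=
    le_antisymm h4.1 (heq' ▸ min_le_left _ _)
  have h6 := h4.2 h5
  have h7 : v = 4 * a ^ 3 / (3 * Real.sqrt Real.pi) := by
    rw [h6, div_pow]
    have : Real.sqrt Real.pi ^ 3 = Real.sqrt Real.pi * Real.pi := by
      rw [pow_succ, hsq]; ring
    rw [this]
    field_simp
  refine ⟨rfl, h7, ?_⟩
  -- the sphere term is at most the cylinder term
  have h8 : Real.sqrt Real.pi / a * v + 2 / 3 * a ^ 2 ≤ Real.sqrt (Real.pi * v) :=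
    heq' ▸ min_le_right _ _
  have h9 : Real.sqrt Real.pi / a * v + 2 / 3 * a ^ 2 = 2 * a ^ 2 := by
    rw [h7]; field_simp; ring
  rw [h9] at h8
  have h10 : (2 * a ^ 2) ^ 2 ≤ Real.pi * v := by
    have := pow_le_pow_left₀ (by positivity) h8 2
    rwa [Real.sq_sqrt (by positivity)] at this
  -- 4 a^4 ≤ π v = 4 √π a^3 / 3  →  a ≤ √π / 3
  have h11 : 3 * a ≤ Real.sqrt Real.pi := by
    have e1 : Real.pi * v = 4 * Real.sqrt Real.pi * a ^ 3 / 3 := by
      rw [h7]
      nth_rewrite 1 [← hsq]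
      field_simp
    rw [e1] at h10
    have ha3 : 0 < a ^ 3 := by positivity
    by_contra hcon
    rw [not_le] at hcon
    nlinarith [mul_pos ha3 (sub_pos.mpr hcon)]
  have h12 : a ^ 3 ≤ Real.sqrt Real.pi ^ 3 / 27 := by
    have := pow_le_pow_left₀ (by positivity) h11 3
    nlinarith
  rw [h7, div_le_div_iff₀ (by positivity) (by norm_num)]
  have e3 : Real.sqrt Real.pi ^ 3 = Real.sqrt Real.pi * Real.pi := by
    rw [pow_succ, hsq]; ring
  rw [e3] at h12
  nlinarith

end

end Crest.Agent.R214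
end

-- ▼ part R214/Legendre

/-!
# Row 214: the Legendre bound of the (half) profile `min (m0 v) 1`

Every line `lam * v + M` with `LegOK lam M` lies above the profile on `[0, 1/2]`.
-/

set_option autoImplicit false

open Real

namespace Crest.Agent.R214

/-- Sufficient conditions for `min (m0 v) 1 ≤ lam * v + M` on `[0, 1/2]`. -/
def LegOK (lam M : ℝ) : Prop :=
  (lam ≤ 0 ∧ 1 - lam / 2 ≤ M) ∨
  (0 ≤ lam ∧ lam ≤ π / 2 ∧ 1 - lam / π ≤ M) ∨
  (0 < lam ∧ π / (4 * lam) ≤ M) ∨
  (9 / 4 ≤ lam ∧ lam ≤ 3 ∧ 2 * π / 9 - 4 * π * lam / 81 ≤ M) ∨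
  (0 < lam ∧ 2 * π / (3 * lam ^ 2) ≤ M)

theorem m0_le_cyl {v lam : ℝ} (hv : 0 ≤ v) (hl : 0 < lam) : m0 v ≤ lam * v + π / (4 * lam) := by
  have hpi := Real.pi_pos
  have hsp : 0 < √π := Real.sqrt_pos.2 hpi
  have hsq : √π ^ 2 = π := Real.sq_sqrt hpi.le
  refine (min_le_right _ _).trans ?_
  refine (cyl_tangent hv (τ := √π / (2 * lam)) (by positivity)).trans (le_of_eq ?_)
  field_simp
  rw [hsq]
  ring

theorem m0_le_sphere {v lam : ℝ} (hv : 0 ≤ v) (hl : 0 < lam) :
    m0 v ≤ lam * v + 2 * π / (3 * lam ^ 2) :=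
  (min_le_left _ _).trans (sphere_tangent hv hl).1

/-- The Legendre bound. -/
theorem legendre {lam M v : ℝ} (hv0 : 0 ≤ v) (hv1 : v ≤ 1 / 2) (h : LegOK lam M) :
    min (m0 v) 1 ≤ lam * v + M := by
  have hpi := Real.pi_pos
  rcases h with ⟨h1, h2⟩ | ⟨h1, h2, h3⟩ | ⟨h1, h2⟩ | ⟨h1, h2, h3⟩ | ⟨h1, h2⟩
  · refine (min_le_right _ _).trans ?_
    nlinarith
  · have e : lam * v + (1 - lam / π) = 1 + lam * (v - 1 / π) := by ring
    rcases le_total (1 / π) v with hv | hv
    · refine (min_le_right _ _).trans ?_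
      have : 0 ≤ lam * (v - 1 / π) := mul_nonneg h1 (by linarith)
      linarith
    · refine (min_le_left _ _).trans ?_
      have h4 := m0_le_cyl (v := v) (lam := π / 2) hv0 (by positivity)
      have h5 : π / 2 * v + π / (4 * (π / 2)) = 1 + π / 2 * (v - 1 / π) := by
        field_simp
        ring
      have h6 : π / 2 * (v - 1 / π) ≤ lam * (v - 1 / π) :=
        mul_le_mul_of_nonpos_right h2 (by linarith)
      linarith
  · exact (min_le_left _ _).trans ((m0_le_cyl hv0 h1).trans (by linarith))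
  · refine (min_le_left _ _).trans ?_
    have e : lam * v + (2 * π / 9 - 4 * π * lam / 81) = 2 * π / 9 + lam * (v - 4 * π / 81) := by
      ring
    rcases le_total (4 * π / 81) v with hv | hv
    · have h4 := m0_le_cyl (v := v) (lam := 9 / 4) hv0 (by norm_num)
      have h5 : 9 / 4 * (v - 4 * π / 81) ≤ lam * (v - 4 * π / 81) :=
        mul_le_mul_of_nonneg_right h1 (by linarith)
      have h6 : 9 / 4 * v + π / (4 * (9 / 4)) = 2 * π / 9 + 9 / 4 * (v - 4 * π / 81) := by ring
      linarith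
    · have h4 := m0_le_sphere (v := v) (lam := 3) hv0 (by norm_num)
      have h5 : 3 * (v - 4 * π / 81) ≤ lam * (v - 4 * π / 81) :=
        mul_le_mul_of_nonpos_right h2 (by linarith)
      have h6 : 3 * v + 2 * π / (3 * 3 ^ 2) = 2 * π / 9 + 3 * (v - 4 * π / 81) := by ring
      linarith
  · exact (min_le_left _ _).trans ((m0_le_sphere hv0 h1).trans (by linarith))


end Crest.Agent.R214
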