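import Mathlib
import Crest.Prelude.Def_PeriodicPerimeter
import Crest.Agent.R214.Mollify

/-!
# R214: bounded measurable periodic functions on the unit cell
-/

open MeasureTheory Crest.GeometryTopology.PeriodicPerimeter
open scoped Pointwise

namespace Crest.Agent.R214

variable {n : ℕ}

/-- bounded measurable periodic functions -/
structure BMP (f : EuclideanSpace ℝ (Fin n) → ℝ) : Prop where
  meas : Measurable f
  bdd : ∃ C, ∀ x, |f x| ≤ C
  per : ∀ v, HasIntegerCoords v → ∀ x, f (x + v) = f x

theorem BMP.integrableOn {f : EuclideanSpace ℝ (Fin n) → ℝ} (hf : BMP f) :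
    IntegrableOn f (unitCell n) := by
  obtain ⟨C, hC⟩ := hf.bdd
  exact Integrable.of_bound hf.meas.aestronglyMeasurable C
    (Filter.Eventually.of_forall fun x => by simpa using hC x)

theorem BMP.integral_translate {f : EuclideanSpace ℝ (Fin n) → ℝ} (hf : BMP f)
    (w : EuclideanSpace ℝ (Fin n)) :
    ∫ x in unitCell n, f (x + w) = ∫ x in unitCell n, f x :=
  integral_cell_add hf.per w

theorem BMP.translate {f : EuclideanSpace ℝ (Fin n) → ℝ} (hf : BMP f)
    (w : EuclideanSpace ℝ (Fin n)) : BMP (fun x => f (x + w)) where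
  meas := hf.meas.comp (measurable_add_const w)
  bdd := by obtain ⟨C, hC⟩ := hf.bdd; exact ⟨C, fun x => hC _⟩
  per := fun v hv x => by
    rw [show x + v + w = (x + w) + v by abel]; exact hf.per v hv _

theorem BMP.sub {f g : EuclideanSpace ℝ (Fin n) → ℝ} (hf : BMP f) (hg : BMP g) :
    BMP (fun x => f x - g x) where
  meas := hf.meas.sub hg.meas
  bdd := by
    obtain ⟨C, hC⟩ := hf.bdd
    obtain ⟨D, hD⟩ := hg.bdd
    exact ⟨C + D, fun x => (abs_sub _ _).trans (add_le_add (hC x) (hD x))⟩
  per := fun v hv x => by rw [hf.per v hv, hg.per v hv]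

theorem BMP.add {f g : EuclideanSpace ℝ (Fin n) → ℝ} (hf : BMP f) (hg : BMP g) :
    BMP (fun x => f x + g x) where
  meas := hf.meas.add hg.meas
  bdd := by
    obtain ⟨C, hC⟩ := hf.bdd
    obtain ⟨D, hD⟩ := hg.bdd
    exact ⟨C + D, fun x => (abs_add_le _ _).trans (add_le_add (hC x) (hD x))⟩
  per := fun v hv x => by rw [hf.per v hv, hg.per v hv]

theorem BMP.mul {f g : EuclideanSpace ℝ (Fin n) → ℝ} (hf : BMP f) (hg : BMP g) :
    BMP (fun x => f x * g x) where
  meas := hf.meas.mul hg.meas
  bdd := by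
    obtain ⟨C, hC⟩ := hf.bdd
    obtain ⟨D, hD⟩ := hg.bdd
    refine ⟨C * D, fun x => ?_⟩
    rw [abs_mul]
    exact mul_le_mul (hC x) (hD x) (abs_nonneg _) ((abs_nonneg _).trans (hC x))
  per := fun v hv x => by rw [hf.per v hv, hg.per v hv]

theorem BMP.abs {f : EuclideanSpace ℝ (Fin n) → ℝ} (hf : BMP f) :
    BMP (fun x => |f x|) where
  meas := by have := hf.meas; fun_prop
  bdd := by
    obtain ⟨C, hC⟩ := hf.bdd
    exact ⟨C, fun x => by rw [abs_abs]; exact hC x⟩
  per := fun v hv x => by rw [hf.per v hv]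

theorem chi_bmp {S : Set (EuclideanSpace ℝ (Fin n))} (hS : MeasurableSet S)
    (hper : IsLatticePeriodic S) : BMP (chi S) where
  meas := measurable_chi hS
  bdd := ⟨1, fun x => by rw [abs_of_nonneg (chi_nonneg S x)]; exact chi_le_one S x⟩
  per := fun v hv x => by
    unfold chi
    by_cases h : x ∈ S
    · rw [Set.indicator_of_mem h, Set.indicator_of_mem ((hper v hv x).2 h)]
    · rw [Set.indicator_of_notMem h, Set.indicator_of_notMem (fun h' => h ((hper v hv x).1 h'))]

/-- a continuous periodic function is bounded -/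
theorem bounded_of_continuous_periodic {F : Type*} [NormedAddCommGroup F]
    {f : EuclideanSpace ℝ (Fin n) → F} (hc : Continuous f)
    (hf : ∀ v, HasIntegerCoords v → ∀ x, f (x + v) = f x) : ∃ C, ∀ x, ‖f x‖ ≤ C := by
  have hcomp : IsCompact (Metric.closedBall (0 : EuclideanSpace ℝ (Fin n)) (Real.sqrt n)) :=
    isCompact_closedBall _ _
  obtain ⟨C, hC⟩ := hcomp.exists_bound_of_continuousOn hc.continuousOn
  refine ⟨C, fun x => ?_⟩
  let v : EuclideanSpace ℝ (Fin n) := WithLp.toLp 2 (fun i => -(⌊x i⌋ : ℝ))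
  have hv : HasIntegerCoords v := fun i => ⟨-⌊x i⌋, by simp [v]⟩
  rw [← hf v hv x]
  apply hC
  rw [mem_closedBall_zero_iff, EuclideanSpace.norm_eq]
  apply Real.sqrt_le_sqrt
  have : ∀ i ∈ Finset.univ, ‖(x + v) i‖ ^ 2 ≤ (1 : ℝ) := by
    intro i _
    have h1 := Int.floor_le (x i)
    have h2 := Int.lt_floor_add_one (x i)
    have h3 : (x + v) i = x i - ⌊x i⌋ := by simp [v, sub_eq_add_neg]
    rw [h3, Real.norm_eq_abs, sq_abs]
    nlinarith
  calc ∑ i, ‖(x + v) i‖ ^ 2 ≤ ∑ i : Fin n, (1 : ℝ) := Finset.sum_le_sum this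
    _ = n := by simp

theorem BMP.of_continuous {f : EuclideanSpace ℝ (Fin n) → ℝ} (hc : Continuous f)
    (hf : ∀ v, HasIntegerCoords v → ∀ x, f (x + v) = f x) : BMP f where
  meas := hc.measurable
  bdd := by simpa using bounded_of_continuous_periodic hc hf
  per := hf

theorem fderiv_periodic {F : Type*} [NormedAddCommGroup F] [NormedSpace ℝ F]
    {f : EuclideanSpace ℝ (Fin n) → F}
    (hf : ∀ v, HasIntegerCoords v → ∀ x, f (x + v) = f x) :
    ∀ v, HasIntegerCoords v → ∀ x, fderiv ℝ f (x + v) = fderiv ℝ f x := by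
  intro v hv x
  have h : (fun y => f (y + v)) = f := funext fun y => hf v hv y
  rw [← fderiv_comp_add_right v (f := f) (x := x), h]

/-- the integral of a directional derivative (in an integer direction) of a periodic function
vanishes -/
theorem integral_fderiv_single_eq_zero {f : EuclideanSpace ℝ (Fin n) → ℝ}
    (hf1 : ContDiff ℝ 1 f) (hf : ∀ v, HasIntegerCoords v → ∀ x, f (x + v) = f x) (i : Fin n) :
    ∫ x in unitCell n, fderiv ℝ f x (EuclideanSpace.single i 1) = 0 := by
  set e : EuclideanSpace ℝ (Fin n) := EuclideanSpace.single i 1 with he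
  have hei : HasIntegerCoords e := by
    intro j
    by_cases h : j = i
    · subst h; exact ⟨1, by simp [e]⟩
    · exact ⟨0, by simp [e, h]⟩
  set g : EuclideanSpace ℝ (Fin n) → ℝ := fun x => fderiv ℝ f x e with hg
  have hgc : Continuous g := (hf1.continuous_fderiv (by norm_num)).clm_apply continuous_const
  have hgp : ∀ v, HasIntegerCoords v → ∀ x, g (x + v) = g x := by
    intro v hv x; simp only [hg]; rw [fderiv_periodic hf v hv x]
  obtain ⟨C, hC⟩ := bounded_of_continuous_periodic hgc hgp
  have h1 : ∀ t : ℝ, ∫ x in unitCell n, g (x + t • e) = ∫ x in unitCell n, g x :=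
    fun t => integral_cell_add hgp (t • e)
  have h2 : ∫ x in unitCell n, g x
      = ∫ t in Set.Ioc (0:ℝ) 1, ∫ x in unitCell n, g (x + t • e) := by
    simp_rw [h1]
    simp
  rw [h2, integral_integral_swap]
  · have h3 : ∀ x : EuclideanSpace ℝ (Fin n), ∫ t in Set.Ioc (0:ℝ) 1, g (x + t • e)
        = f (x + e) - f x := by
      intro x
      have hd : ∀ t : ℝ, HasDerivAt (fun t : ℝ => f (x + t • e)) (g (x + t • e)) t := by
        intro t
        have h4 := (hf1.differentiable (by norm_num) (x + t • e)).hasFDerivAt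
        have h5 : HasDerivAt (fun t : ℝ => x + t • e) e t := by
          simpa using ((hasDerivAt_id t).smul_const e).const_add x
        exact h4.comp_hasDerivAt t h5
      rw [← intervalIntegral.integral_of_le zero_le_one]
      rw [intervalIntegral.integral_eq_sub_of_hasDerivAt (fun t _ => hd t)]
      · simp
      · apply Continuous.intervalIntegrable
        fun_prop
    simp_rw [h3, hf e hei, sub_self]
    simp
  · apply Integrable.of_bound (C := C)
    · apply Continuous.aestronglyMeasurable
      fun_prop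
    · exact Filter.Eventually.of_forall fun p => hC _


end Crest.Agent.R214
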