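import Mathlib
import Crest.Prelude.Def_PeriodicPerimeter
import Crest.Agent.R214.PerBasic
import Crest.Agent.R214.Mollify

-- ▼ part R214/Fiber
section

/-!
# R214: fibres in a coordinate direction, Steiner symmetrisation (structure)
-/

open MeasureTheory Crest.GeometryTopology.PeriodicPerimeter
open scoped Pointwise

namespace Crest.Agent.R214

variable {n : ℕ}

/-- coordinate vector -/
noncomputable def ev (i : Fin n) : EuclideanSpace ℝ (Fin n) := EuclideanSpace.single i 1

@[simp] theorem ev_self (i : Fin n) : ev i i = 1 := by simp [ev]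

@[simp] theorem ev_ne {i j : Fin n} (h : j ≠ i) : ev i j = 0 := by simp [ev, h]

theorem ev_apply (i j : Fin n) : ev i j = if j = i then 1 else 0 := by
  by_cases h : j = i
  · subst h; simp
  · simp [h]

theorem norm_ev (i : Fin n) : ‖ev i‖ = 1 := by simp [ev]

theorem hasIntegerCoords_ev (i : Fin n) : HasIntegerCoords (ev i) := by
  intro j
  by_cases h : j = i
  · subst h; exact ⟨1, by simp⟩
  · exact ⟨0, by simp [h]⟩

theorem hasIntegerCoords_int_smul_ev (i : Fin n) (m : ℤ) : HasIntegerCoords ((m : ℝ) • ev i) := by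
  intro j
  by_cases h : j = i
  · subst h; exact ⟨m, by simp⟩
  · exact ⟨0, by simp [h]⟩

/-- projection killing the `i`-th coordinate -/
noncomputable def pr (i : Fin n) (x : EuclideanSpace ℝ (Fin n)) : EuclideanSpace ℝ (Fin n) :=
  x - x i • ev i

theorem continuous_pr (i : Fin n) : Continuous (pr i) := by
  unfold pr; fun_prop

@[simp] theorem pr_apply_self (i : Fin n) (x : EuclideanSpace ℝ (Fin n)) : pr i x i = 0 := by
  simp [pr]

@[simp] theorem pr_apply_ne {i j : Fin n} (h : j ≠ i) (x : EuclideanSpace ℝ (Fin n)) :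
    pr i x j = x j := by
  simp [pr, h]

theorem pr_add_smul_ev (i : Fin n) (x : EuclideanSpace ℝ (Fin n)) (t : ℝ) :
    pr i (x + t • ev i) = pr i x := by
  ext j
  by_cases h : j = i
  · subst h; simp
  · simp [h]

theorem pr_add_smul_ev_ne {i j : Fin n} (h : j ≠ i) (x : EuclideanSpace ℝ (Fin n)) (t : ℝ) :
    pr i (x + t • ev j) = pr i x + t • ev j := by
  ext k
  by_cases hk : k = i
  · subst hk; simp [ev_ne h.symm]
  · simp [hk]

theorem add_smul_eq_pr (i : Fin n) (x : EuclideanSpace ℝ (Fin n)) (t : ℝ) :
    x + t • ev i = pr i x + (x i + t) • ev i := by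
  unfold pr; rw [add_smul]; abel

/-- average over fibres -/
theorem cell_avg {f : EuclideanSpace ℝ (Fin n) → ℝ} (hf : BMP f) (i : Fin n) :
    ∫ x in unitCell n, f x = ∫ x in unitCell n, ∫ t in (0:ℝ)..1, f (x + t • ev i) := by
  obtain ⟨C, hC⟩ := hf.bdd
  have h1 : ∀ t : ℝ, ∫ x in unitCell n, f (x + t • ev i) = ∫ x in unitCell n, f x :=
    fun t => hf.integral_translate (t • ev i)
  have h2 : ∫ x in unitCell n, f x
      = ∫ t in Set.Ioc (0:ℝ) 1, ∫ x in unitCell n, f (x + t • ev i) := by
    simp_rw [h1]
    simp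
  rw [h2, integral_integral_swap]
  · simp_rw [intervalIntegral.integral_of_le (zero_le_one' ℝ)]
  · apply Integrable.of_bound (C := C)
    · apply Measurable.aestronglyMeasurable
      have := hf.meas
      have h3 : Measurable fun p : ℝ × EuclideanSpace ℝ (Fin n) => p.2 + p.1 • ev i := by fun_prop
      exact hf.meas.comp h3
    · exact Filter.Eventually.of_forall fun p => hC _

theorem measurable_fiber_integral {f : EuclideanSpace ℝ (Fin n) → ℝ} (hf : Measurable f)
    (i : Fin n) (a b : ℝ) (hab : a ≤ b) : Measurable fun x => ∫ t in a..b, f (x + t • ev i) := by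
  have h3 : Measurable fun p : EuclideanSpace ℝ (Fin n) × ℝ => f (p.1 + p.2 • ev i) :=
    hf.comp (by fun_prop)
  simp_rw [intervalIntegral.integral_of_le hab]
  exact (h3.stronglyMeasurable.integral_prod_right').measurable

/-- periodic function restricted to a fibre -/
theorem fiber_periodic {F : Type*} {f : EuclideanSpace ℝ (Fin n) → F}
    (hf : ∀ v, HasIntegerCoords v → ∀ x, f (x + v) = f x) (i : Fin n)
    (x : EuclideanSpace ℝ (Fin n)) : Function.Periodic (fun t : ℝ => f (x + t • ev i)) 1 := by
  intro t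
  simp only
  rw [add_smul, one_smul, ← add_assoc, hf _ (hasIntegerCoords_ev i)]

/-- invariance along the `i`-th direction -/
def FInv (i : Fin n) {F : Type*} (f : EuclideanSpace ℝ (Fin n) → F) : Prop :=
  ∀ x (t : ℝ), f (x + t • ev i) = f x

theorem FInv.pr {i : Fin n} {F : Type*} {f : EuclideanSpace ℝ (Fin n) → F} (hf : FInv i f) (x) :
    f (pr i x) = f x := by
  have := hf x (-x i)
  rw [← this]; congr 1; unfold R214.pr; rw [neg_smul, sub_eq_add_neg]

theorem FInv.congr {i : Fin n} {F : Type*} {f : EuclideanSpace ℝ (Fin n) → F} (hf : FInv i f)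
    {x y : EuclideanSpace ℝ (Fin n)} (h : ∀ j, j ≠ i → x j = y j) : f x = f y := by
  rw [← hf.pr x, ← hf.pr y]
  congr 1
  ext j
  by_cases hj : j = i
  · subst hj; simp
  · simp [hj, h j hj]

theorem avg_inv {f : EuclideanSpace ℝ (Fin n) → ℝ}
    (hf : ∀ v, HasIntegerCoords v → ∀ x, f (x + v) = f x) (i : Fin n) :
    FInv i (fun x => ∫ t in (0:ℝ)..1, f (x + t • ev i)) := by
  intro x s
  simp only
  have h1 : ∀ t : ℝ, x + s • ev i + t • ev i = x + (t + s) • ev i := by
    intro t; rw [add_smul]; abel
  simp_rw [h1]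
  rw [intervalIntegral.integral_comp_add_right (fun t => f (x + t • ev i)) s]
  have := (fiber_periodic hf i x).intervalIntegral_add_eq 0 s
  simp only [zero_add] at this ⊢
  rw [this, add_comm]

theorem round_of_mem {τ : ℝ} (h : τ ∈ Set.Ico (-(1/2 : ℝ)) (1/2)) : round τ = 0 := by
  rw [round_eq, Int.floor_eq_iff]
  constructor
  · push_cast; linarith [h.1]
  · push_cast; linarith [h.2]

theorem round_add_one' (τ : ℝ) : |τ + 1 - round (τ + 1)| = |τ - round τ| := by
  rw [round_add_one]; push_cast; congr 1; ring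

/-- the region which is a centred arc of length `u x` in each fibre -/
def region (i : Fin n) (u : EuclideanSpace ℝ (Fin n) → ℝ) : Set (EuclideanSpace ℝ (Fin n)) :=
  {x : EuclideanSpace ℝ (Fin n) | |x i - ((round (x i) : ℤ) : ℝ)| < u x / 2}

theorem mem_region {i : Fin n} {u : EuclideanSpace ℝ (Fin n) → ℝ} {x : EuclideanSpace ℝ (Fin n)} :
    x ∈ region i u ↔ |x i - ((round (x i) : ℤ) : ℝ)| < u x / 2 := Iff.rfl

theorem measurable_abs_sub_round (i : Fin n) :
    Measurable fun x : EuclideanSpace ℝ (Fin n) => |x i - ((round (x i) : ℤ) : ℝ)| := by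
  have : Measurable fun y : ℝ => |y - ((round y : ℤ) : ℝ)| := by
    simp_rw [round_eq]
    fun_prop
  exact this.comp (by fun_prop)

theorem measurableSet_region (i : Fin n) {u : EuclideanSpace ℝ (Fin n) → ℝ} (hu : Measurable u) :
    MeasurableSet (region i u) :=
  measurableSet_lt (measurable_abs_sub_round i) (hu.div_const 2)

theorem region_periodic (i : Fin n) {u : EuclideanSpace ℝ (Fin n) → ℝ}
    (hu : ∀ v, HasIntegerCoords v → ∀ x, u (x + v) = u x) : IsLatticePeriodic (region i u) := by
  intro v hv x
  obtain ⟨m, hm⟩ := hv i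
  rw [mem_region, mem_region, hu v hv, PiLp.add_apply, hm, round_add_intCast]
  push_cast
  rw [show x i + (m:ℝ) - (round (x i) + m) = x i - round (x i) by ring]

/-- integral over a region which is a centred interval in each fibre -/
theorem region_integral {g u : EuclideanSpace ℝ (Fin n) → ℝ} (hg : BMP g) (i : Fin n)
    (hu : BMP u) (hinv : FInv i u) (h0 : ∀ x, 0 ≤ u x) (h1 : ∀ x, u x ≤ 1) :
    ∫ x in unitCell n, Set.indicator (region i u) g x
      = ∫ x in unitCell n, ∫ τ in (-u x / 2)..(u x / 2), g (pr i x + τ • ev i) := by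
  have hms := measurableSet_region i hu.meas
  have hper := region_periodic i hu.per
  have hbmp : BMP (Set.indicator (region i u) g) := by
    refine ⟨hg.meas.indicator hms, ?_, ?_⟩
    · obtain ⟨C, hC⟩ := hg.bdd
      refine ⟨C, fun x => ?_⟩
      unfold Set.indicator
      split_ifs
      · exact hC x
      · simpa using (abs_nonneg _).trans (hC x)
    · intro v hv x
      unfold Set.indicator
      by_cases h : x ∈ region i u
      · rw [if_pos h, if_pos ((hper v hv x).2 h), hg.per v hv]
      · rw [if_neg h, if_neg (fun h' => h ((hper v hv x).1 h'))]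
  rw [cell_avg hbmp i]
  congr 1
  ext x
  set G : ℝ → ℝ := fun τ => if |τ - round τ| < u x / 2 then g (pr i x + τ • ev i) else 0 with hG
  have hGp : Function.Periodic G 1 := by
    intro τ
    simp only [hG]
    have h5 : g (pr i x + (τ + 1) • ev i) = g (pr i x + τ • ev i) :=
      fiber_periodic hg.per i (pr i x) τ
    rw [round_add_one', h5]
  have e1 : ∀ t : ℝ, Set.indicator (region i u) g (x + t • ev i)
      = G (t + x i) := by
    intro t
    simp only [hG, Set.indicator, mem_region]
    have a1 : (x + t • ev i) i = t + x i := by simp [add_comm]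
    rw [a1, hinv x t, add_smul_eq_pr, add_comm (x i) t]
  simp_rw [e1]
  rw [intervalIntegral.integral_comp_add_right G]
  have e2 := hGp.intervalIntegral_add_eq (0 + x i) (-(1/2))
  rw [show (1:ℝ) + x i = 0 + x i + 1 by ring, e2]
  rw [intervalIntegral.integral_of_le (by norm_num), intervalIntegral.integral_of_le (by
    linarith [h0 x])]
  have e3 : ∀ τ ∈ Set.Ioo (-(1/2:ℝ)) (1/2),
      G τ = Set.indicator (Set.Ioo (-u x / 2) (u x / 2)) (fun τ => g (pr i x + τ • ev i)) τ := by
    intro τ hτ
    simp only [hG, round_of_mem ⟨hτ.1.le, hτ.2⟩, Int.cast_zero, sub_zero, Set.indicator,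
      Set.mem_Ioo, abs_lt]
    rw [show -(u x / 2) = -u x / 2 by ring]
  rw [show -(1/2 : ℝ) + 1 = 1/2 by norm_num, integral_Ioc_eq_integral_Ioo,
    setIntegral_congr_fun measurableSet_Ioo e3, integral_Ioc_eq_integral_Ioo,
    setIntegral_indicator measurableSet_Ioo]
  congr 2
  ext τ
  simp only [Set.mem_inter_iff, Set.mem_Ioo]
  constructor
  · rintro ⟨_, h⟩; exact h
  · rintro ⟨h, h'⟩
    refine ⟨⟨?_, ?_⟩, h, h'⟩ <;> linarith [h1 x]

/-- fibre length of a set -/
noncomputable def flen (i : Fin n) (S : Set (EuclideanSpace ℝ (Fin n)))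
    (x : EuclideanSpace ℝ (Fin n)) : ℝ :=
  ∫ t in (0:ℝ)..1, chi S (x + t • ev i)

/-- Steiner symmetrisation in direction `i` (periodic) -/
def steiner (i : Fin n) (S : Set (EuclideanSpace ℝ (Fin n))) :
    Set (EuclideanSpace ℝ (Fin n)) :=
  region i (flen i S)

theorem flen_nonneg (i : Fin n) (S : Set (EuclideanSpace ℝ (Fin n))) (x) : 0 ≤ flen i S x :=
  intervalIntegral.integral_nonneg zero_le_one fun _ _ => chi_nonneg S _

theorem chi_fiber_intervalIntegrable {S : Set (EuclideanSpace ℝ (Fin n))} (hS : MeasurableSet S)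
    (x y : EuclideanSpace ℝ (Fin n)) (a b : ℝ) :
    IntervalIntegrable (fun t : ℝ => chi S (x + t • y)) volume a b := by
  have h : Measurable fun t : ℝ => chi S (x + t • y) :=
    (measurable_const.indicator hS).comp (by fun_prop)
  rw [intervalIntegrable_iff]
  refine Measure.integrableOn_of_bounded (M := 1) ?_ h.aestronglyMeasurable ?_
  · simp
  · exact Filter.Eventually.of_forall fun t => by
      rw [Real.norm_eq_abs, abs_of_nonneg (chi_nonneg S _)]; exact chi_le_one S _

theorem flen_le_one (i : Fin n) {S : Set (EuclideanSpace ℝ (Fin n))} (hS : MeasurableSet S) (x) :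
    flen i S x ≤ 1 := by
  have h := intervalIntegral.integral_mono_on (zero_le_one' ℝ)
    (chi_fiber_intervalIntegrable hS x (ev i) 0 1)
    (_root_.intervalIntegrable_const (c := (1:ℝ))) (fun t _ => chi_le_one S (x + t • ev i))
  simpa [flen] using h

theorem flen_inv (i : Fin n) {S : Set (EuclideanSpace ℝ (Fin n))} (hS : MeasurableSet S)
    (hper : IsLatticePeriodic S) : FInv i (flen i S) := avg_inv (chi_bmp hS hper).per i

theorem flen_bmp (i : Fin n) {S : Set (EuclideanSpace ℝ (Fin n))} (hS : MeasurableSet S)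
    (hper : IsLatticePeriodic S) : BMP (flen i S) where
  meas := measurable_fiber_integral (chi_bmp hS hper).meas i 0 1 zero_le_one
  bdd := ⟨1, fun x => by rw [abs_of_nonneg (flen_nonneg i S x)]; exact flen_le_one i hS x⟩
  per := fun v hv x => by
    unfold flen
    congr 1
    ext t
    rw [show x + v + t • ev i = (x + t • ev i) + v by abel, (chi_bmp hS hper).per v hv]

theorem measurableSet_steiner (i : Fin n) {S : Set (EuclideanSpace ℝ (Fin n))}
    (hS : MeasurableSet S) (hper : IsLatticePeriodic S) : MeasurableSet (steiner i S) :=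
  measurableSet_region i (flen_bmp i hS hper).meas

theorem steiner_periodic (i : Fin n) {S : Set (EuclideanSpace ℝ (Fin n))}
    (hS : MeasurableSet S) (hper : IsLatticePeriodic S) : IsLatticePeriodic (steiner i S) :=
  region_periodic i (flen_bmp i hS hper).per

/-- volume of a periodic set as an integral -/
theorem integral_chi {S : Set (EuclideanSpace ℝ (Fin n))} (hS : MeasurableSet S) :
    ∫ x in unitCell n, chi S x = periodicVolume S := by
  unfold chi periodicVolume
  rw [integral_indicator hS]
  simp [Measure.real, Measure.restrict_apply, hS]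

theorem integral_flen (i : Fin n) {S : Set (EuclideanSpace ℝ (Fin n))} (hS : MeasurableSet S)
    (hper : IsLatticePeriodic S) : ∫ x in unitCell n, flen i S x = periodicVolume S := by
  rw [← integral_chi hS, cell_avg (chi_bmp hS hper) i]
  rfl

/-- Steiner symmetrisation preserves the volume -/
theorem periodicVolume_steiner (i : Fin n) {S : Set (EuclideanSpace ℝ (Fin n))}
    (hS : MeasurableSet S) (hper : IsLatticePeriodic S) :
    periodicVolume (steiner i S) = periodicVolume S := by
  rw [← integral_chi (measurableSet_steiner i hS hper), ← integral_flen i hS hper]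
  have h1 : BMP (fun _ : EuclideanSpace ℝ (Fin n) => (1:ℝ)) :=
    ⟨measurable_const, ⟨1, fun x => by simp⟩, fun _ _ _ => rfl⟩
  have := region_integral h1 i (flen_bmp i hS hper) (flen_inv i hS hper) (flen_nonneg i S)
    (flen_le_one i hS)
  have h2 : ∀ x, Set.indicator (region i (flen i S)) (fun _ => (1:ℝ)) x
      = chi (steiner i S) x := fun x => rfl
  simp_rw [h2] at this
  rw [this]
  congr 1
  ext x
  simp
  ring


theorem flen_mono (i : Fin n) {S : Set (EuclideanSpace ℝ (Fin n))} (hS : MeasurableSet S)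
    {x y : EuclideanSpace ℝ (Fin n)}
    (h : ∀ t : ℝ, x + t • ev i ∈ S → y + t • ev i ∈ S) : flen i S x ≤ flen i S y := by
  unfold flen
  apply intervalIntegral.integral_mono_on zero_le_one
    (chi_fiber_intervalIntegrable hS x (ev i) 0 1) (chi_fiber_intervalIntegrable hS y (ev i) 0 1)
  intro t _
  unfold chi Set.indicator
  by_cases h1 : x + t • ev i ∈ S
  · rw [if_pos h1, if_pos (h t h1)]
  · rw [if_neg h1]; split_ifs <;> simp

/-- `S` is symmetric decreasing (on the circle) in the `j`-th coordinate -/
def SymDecAt (j : Fin n) (S : Set (EuclideanSpace ℝ (Fin n))) : Prop :=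
  ∀ x ∈ S, ∀ y : EuclideanSpace ℝ (Fin n), (∀ k, k ≠ j → y k = x k) →
    |y j - ((round (y j) : ℤ) : ℝ)| ≤ |x j - ((round (x j) : ℤ) : ℝ)| → y ∈ S

theorem symDecAt_region (i : Fin n) {u : EuclideanSpace ℝ (Fin n) → ℝ} (hu : FInv i u) :
    SymDecAt i (region i u) := by
  intro x hx y hk hj
  rw [mem_region] at hx ⊢
  rw [hu.congr (x := y) (y := x) hk]
  exact hj.trans_lt hx

theorem symDecAt_steiner_self (i : Fin n) {S : Set (EuclideanSpace ℝ (Fin n))}
    (hS : MeasurableSet S) (hper : IsLatticePeriodic S) : SymDecAt i (steiner i S) :=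
  symDecAt_region i (flen_inv i hS hper)

/-- Steiner symmetrisation in direction `i` preserves `SymDecAt j` -/
theorem symDecAt_steiner (i j : Fin n) (hij : j ≠ i) {S : Set (EuclideanSpace ℝ (Fin n))}
    (hS : MeasurableSet S) (hper : IsLatticePeriodic S) (h : SymDecAt j S) :
    SymDecAt j (steiner i S) := by
  intro x hx y hk hj
  have hx' : |x i - ((round (x i) : ℤ) : ℝ)| < flen i S x / 2 := hx
  show |y i - ((round (y i) : ℤ) : ℝ)| < flen i S y / 2
  rw [hk i hij.symm]
  refine hx'.trans_le ?_
  gcongr
  apply flen_mono i hS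
  intro t ht
  refine h _ ht _ ?_ ?_
  · intro k hkj
    simp [hk k hkj]
  · simpa [hij] using hj

/-- fibre lengths of a region -/
theorem flen_region (i : Fin n) {u : EuclideanSpace ℝ (Fin n) → ℝ} (hu : BMP u)
    (hinv : FInv i u) (h0 : ∀ x, 0 ≤ u x) (h1 : ∀ x, u x ≤ 1) (x : EuclideanSpace ℝ (Fin n)) :
    flen i (region i u) x = u x := by
  unfold flen
  set G : ℝ → ℝ := fun τ => if |τ - round τ| < u x / 2 then 1 else 0 with hG
  have hGp : Function.Periodic G 1 := by
    intro τ
    simp only [hG]
    rw [round_add_one']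
  have e1 : ∀ t : ℝ, chi (region i u) (x + t • ev i) = G (t + x i) := by
    intro t
    simp only [hG, chi, Set.indicator, mem_region]
    have a1 : (x + t • ev i) i = t + x i := by simp [add_comm]
    rw [a1, hinv x t]
  simp_rw [e1]
  rw [intervalIntegral.integral_comp_add_right G]
  have e2 := hGp.intervalIntegral_add_eq (0 + x i) (-(1/2))
  rw [show (1:ℝ) + x i = 0 + x i + 1 by ring, e2]
  rw [intervalIntegral.integral_of_le (by norm_num)]
  have e3 : ∀ τ ∈ Set.Ioo (-(1/2:ℝ)) (1/2),
      G τ = Set.indicator (Set.Ioo (-u x / 2) (u x / 2)) (fun τ => 1) τ := by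
    intro τ hτ
    simp only [hG, round_of_mem ⟨hτ.1.le, hτ.2⟩, Int.cast_zero, sub_zero, Set.indicator,
      Set.mem_Ioo, abs_lt]
    rw [show -(u x / 2) = -u x / 2 by ring]
  rw [show -(1/2 : ℝ) + 1 = 1/2 by norm_num, integral_Ioc_eq_integral_Ioo,
    setIntegral_congr_fun measurableSet_Ioo e3,
    setIntegral_indicator measurableSet_Ioo]
  have e4 : Set.Ioo (-(1 / 2 : ℝ)) (1 / 2) ∩ Set.Ioo (-u x / 2) (u x / 2)
      = Set.Ioo (-u x / 2) (u x / 2) := by
    ext τ
    simp only [Set.mem_inter_iff, Set.mem_Ioo]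
    constructor
    · rintro ⟨_, h⟩; exact h
    · rintro ⟨h, h'⟩
      refine ⟨⟨?_, ?_⟩, h, h'⟩ <;> linarith [h1 x]
  rw [e4]
  simp only [integral_const, MeasurableSet.univ, measureReal_restrict_apply, Set.univ_inter,
    Real.volume_real_Ioo, smul_eq_mul, mul_one]
  rw [max_eq_left (by linarith [h0 x])]
  ring

/-- fibre lengths are preserved by Steiner symmetrisation -/
theorem flen_steiner (i : Fin n) {S : Set (EuclideanSpace ℝ (Fin n))} (hS : MeasurableSet S)
    (hper : IsLatticePeriodic S) (x) : flen i (steiner i S) x = flen i S x :=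
  flen_region i (flen_bmp i hS hper) (flen_inv i hS hper) (flen_nonneg i S) (flen_le_one i hS) x

end Crest.Agent.R214
end

-- ▼ part R214/SteinerPer

/-!
# R214: the Steiner inequality `periodicPerimeter (steiner i S) ≤ periodicPerimeter S`
-/

open MeasureTheory Crest.GeometryTopology.PeriodicPerimeter Filter Topology
open scoped Pointwise

namespace Crest.Agent.R214

variable {n : ℕ}

/-- differentiation under an interval integral, continuous data -/
theorem hasDerivAt_param {F F' : ℝ → ℝ → ℝ} (hF : Continuous (Function.uncurry F))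
    (hF' : Continuous (Function.uncurry F'))
    (hd : ∀ s t, HasDerivAt (fun s => F s t) (F' s t) s) (a b s : ℝ) :
    HasDerivAt (fun s => ∫ t in a..b, F s t) (∫ t in a..b, F' s t) s := by
  obtain ⟨C, hC⟩ := ((isCompact_closedBall s 1).prod (isCompact_uIcc (a := a) (b := b)))
    |>.exists_bound_of_continuousOn hF'.continuousOn
  have hFs : ∀ s, Continuous (F s) := fun s => by
    have := hF.comp (Continuous.prodMk_right s)
    exact this
  have hFs' : ∀ s, Continuous (F' s) := fun s => by
    have := hF'.comp (Continuous.prodMk_right s)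
    exact this
  refine (intervalIntegral.hasDerivAt_integral_of_dominated_loc_of_deriv_le (bound := fun _ => C)
    (Metric.closedBall_mem_nhds s zero_lt_one) ?_ ?_ ?_ ?_ ?_ ?_).2
  · exact Eventually.of_forall fun s => (hFs s).aestronglyMeasurable
  · exact (hFs s).intervalIntegrable _ _
  · exact (hFs' s).aestronglyMeasurable
  · exact Eventually.of_forall fun t ht x hx => hC (x, t) ⟨hx, Set.uIoc_subset_uIcc ht⟩
  · exact _root_.intervalIntegrable_const
  · exact Eventually.of_forall fun t _ x _ => hd x t

/-- the integral of a directional derivative in a coordinate direction vanishes -/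
theorem integral_eq_zero_of_hasDerivAt {f g : EuclideanSpace ℝ (Fin n) → ℝ} (i : Fin n)
    (hf : ∀ v, HasIntegerCoords v → ∀ x, f (x + v) = f x) (hgc : Continuous g)
    (hg : ∀ v, HasIntegerCoords v → ∀ x, g (x + v) = g x)
    (hd : ∀ x (t : ℝ), HasDerivAt (fun t : ℝ => f (x + t • ev i)) (g (x + t • ev i)) t) :
    ∫ x in unitCell n, g x = 0 := by
  rw [cell_avg (BMP.of_continuous hgc hg) i]
  have h3 : ∀ x : EuclideanSpace ℝ (Fin n), ∫ t in (0:ℝ)..1, g (x + t • ev i) = 0 := by
    intro x
    rw [intervalIntegral.integral_eq_sub_of_hasDerivAt (fun t _ => hd x t)]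
    · have := hf _ (hasIntegerCoords_ev i) x
      simp [this]
    · apply Continuous.intervalIntegrable
      fun_prop
  simp_rw [h3]
  simp

/-- fderiv along coordinates of a composition with a line -/
theorem hasDerivAt_line {g : EuclideanSpace ℝ (Fin n) → ℝ} (hg : ContDiff ℝ 1 g)
    {c : ℝ → EuclideanSpace ℝ (Fin n)} {c' : EuclideanSpace ℝ (Fin n)} {t : ℝ}
    (hc : HasDerivAt c c' t) : HasDerivAt (fun t => g (c t)) (fderiv ℝ g (c t) c') t :=
  ((hg.differentiable (by norm_num) (c t)).hasFDerivAt).comp_hasDerivAt t hc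

/-- Leibniz rule, integrated -/
theorem leibniz_integral {g u du : EuclideanSpace ℝ (Fin n) → ℝ} {i j : Fin n} (hij : j ≠ i)
    (hg : ContDiff ℝ 1 g) (hgp : ∀ v, HasIntegerCoords v → ∀ x, g (x + v) = g x)
    (huc : Continuous u) (hup : ∀ v, HasIntegerCoords v → ∀ x, u (x + v) = u x)
    (hdc : Continuous du) (hdp : ∀ v, HasIntegerCoords v → ∀ x, du (x + v) = du x)
    (hd : ∀ x (t : ℝ), HasDerivAt (fun t : ℝ => u (x + t • ev j)) (du (x + t • ev j)) t) :
    ∫ x in unitCell n, ((∫ τ in (-u x / 2)..(u x / 2), fderiv ℝ g (pr i x + τ • ev i) (ev j))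
      + du x / 2 * (g (pr i x + (u x / 2) • ev i) + g (pr i x + (-u x / 2) • ev i))) = 0 := by
  have hgc : Continuous g := hg.continuous
  have hfc : Continuous (fderiv ℝ g) := hg.continuous_fderiv (by norm_num)
  have hprc := continuous_pr (n := n) i
  set Ψ : EuclideanSpace ℝ (Fin n) → ℝ := fun x =>
    u x * ∫ σ in (-(1/2:ℝ))..(1/2), g (pr i x + (u x * σ) • ev i) with hΨ
  set G : EuclideanSpace ℝ (Fin n) → ℝ := fun x =>
    du x * (∫ σ in (-(1/2:ℝ))..(1/2), g (pr i x + (u x * σ) • ev i))
      + u x * (∫ σ in (-(1/2:ℝ))..(1/2),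
        fderiv ℝ g (pr i x + (u x * σ) • ev i) (ev j + (du x * σ) • ev i)) with hG
  have hprp : ∀ v, HasIntegerCoords v → ∀ x : EuclideanSpace ℝ (Fin n), ∀ t : ℝ,
      ∃ w, HasIntegerCoords w ∧ pr i (x + v) + t • ev i = pr i x + t • ev i + w := by
    intro v hv x t
    refine ⟨pr i v, ?_, ?_⟩
    · intro k
      by_cases hk : k = i
      · subst hk; exact ⟨0, by simp⟩
      · obtain ⟨m, hm⟩ := hv k
        exact ⟨m, by simp [hk, hm]⟩
    · unfold pr
      simp only [PiLp.add_apply, add_smul]
      abel
  have hΨp : ∀ v, HasIntegerCoords v → ∀ x, Ψ (x + v) = Ψ x := by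
    intro v hv x
    simp only [hΨ, hup v hv]
    congr 2
    ext σ
    obtain ⟨w, hw, e⟩ := hprp v hv x (u x * σ)
    rw [e, hgp w hw]
  have hGp : ∀ v, HasIntegerCoords v → ∀ x, G (x + v) = G x := by
    intro v hv x
    simp only [hG, hup v hv, hdp v hv]
    congr 2
    · congr 1
      ext σ
      obtain ⟨w, hw, e⟩ := hprp v hv x (u x * σ)
      rw [e, hgp w hw]
    · congr 1
      ext σ
      obtain ⟨w, hw, e⟩ := hprp v hv x (u x * σ)
      rw [e, fderiv_periodic hgp w hw]
  have hGc : Continuous G := by
    simp only [hG]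
    refine (hdc.mul ?_).add (huc.mul ?_)
    · apply intervalIntegral.continuous_parametric_intervalIntegral_of_continuous'
      exact hgc.comp (by fun_prop)
    · apply intervalIntegral.continuous_parametric_intervalIntegral_of_continuous'
      refine (hfc.comp ?_).clm_apply ?_ <;> fun_prop
  have hΨd : ∀ x (t : ℝ), HasDerivAt (fun t : ℝ => Ψ (x + t • ev j)) (G (x + t • ev j)) t := by
    intro x t
    simp only [hΨ, hG]
    refine (hd x t).mul ?_
    have key := hasDerivAt_param
      (F := fun t σ => g (pr i (x + t • ev j) + (u (x + t • ev j) * σ) • ev i))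
      (F' := fun t σ => fderiv ℝ g (pr i (x + t • ev j) + (u (x + t • ev j) * σ) • ev i)
        (ev j + (du (x + t • ev j) * σ) • ev i)) ?_ ?_ ?_ (-(1/2)) (1/2) t
    · exact key
    · simp only [Function.uncurry_def]
      exact hgc.comp (by fun_prop)
    · simp only [Function.uncurry_def]
      refine (hfc.comp ?_).clm_apply ?_ <;> fun_prop
    · intro s σ
      apply hasDerivAt_line hg
      have h1 : HasDerivAt (fun t : ℝ => pr i (x + t • ev j)) (ev j) s := by
        simp_rw [pr_add_smul_ev_ne hij]
        simpa using ((hasDerivAt_id s).smul_const (ev j)).const_add (pr i x)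
      exact h1.add (((hd x s).mul_const σ).smul_const (ev i))
  have hzero := integral_eq_zero_of_hasDerivAt j hΨp hGc hGp hΨd
  rw [← hzero]
  congr 1
  ext x
  simp only [hG]
  -- split the fderiv
  have e1 : (∫ σ in (-(1/2:ℝ))..(1/2),
        fderiv ℝ g (pr i x + (u x * σ) • ev i) (ev j + (du x * σ) • ev i))
      = (∫ σ in (-(1/2:ℝ))..(1/2), fderiv ℝ g (pr i x + (u x * σ) • ev i) (ev j))
        + du x * ∫ σ in (-(1/2:ℝ))..(1/2),
          σ * fderiv ℝ g (pr i x + (u x * σ) • ev i) (ev i) := by
    rw [← intervalIntegral.integral_const_mul, ← intervalIntegral.integral_add]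
    · congr 1; ext σ
      rw [map_add, map_smul, smul_eq_mul]; ring
    · apply Continuous.intervalIntegrable
      refine (hfc.comp ?_).clm_apply ?_ <;> fun_prop
    · apply Continuous.intervalIntegrable
      refine continuous_const.mul (continuous_id.mul ?_)
      refine (hfc.comp ?_).clm_apply ?_ <;> fun_prop
  have e2 : u x * (∫ σ in (-(1/2:ℝ))..(1/2),
          σ * fderiv ℝ g (pr i x + (u x * σ) • ev i) (ev i))
      = 1/2 * (g (pr i x + (u x / 2) • ev i) + g (pr i x + (-u x / 2) • ev i))
        - ∫ σ in (-(1/2:ℝ))..(1/2), g (pr i x + (u x * σ) • ev i) := by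
    have hder : ∀ σ : ℝ, HasDerivAt (fun σ : ℝ => σ * g (pr i x + (u x * σ) • ev i))
        (1 * g (pr i x + (u x * σ) • ev i)
          + σ * fderiv ℝ g (pr i x + (u x * σ) • ev i) (u x • ev i)) σ := by
      intro σ
      refine (hasDerivAt_id σ).mul ?_
      apply hasDerivAt_line hg
      have : HasDerivAt (fun σ : ℝ => (u x * σ) • ev i) (u x • ev i) σ := by
        simpa using ((hasDerivAt_id σ).const_mul (u x)).smul_const (ev i)
      simpa using this.const_add (pr i x)
    have hint := intervalIntegral.integral_eq_sub_of_hasDerivAt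
      (a := -(1/2:ℝ)) (b := 1/2) (fun σ _ => hder σ) (by
        apply Continuous.intervalIntegrable
        refine (continuous_const.mul (hgc.comp (by fun_prop))).add
          (continuous_id.mul ?_)
        refine (hfc.comp ?_).clm_apply ?_ <;> fun_prop)
    rw [intervalIntegral.integral_add] at hint
    · simp only [one_mul, map_smul, smul_eq_mul] at hint
      have h5 : ∫ σ in (-(1/2:ℝ))..(1/2),
          σ * (u x * fderiv ℝ g (pr i x + (u x * σ) • ev i) (ev i))
          = u x * ∫ σ in (-(1/2:ℝ))..(1/2),
          σ * fderiv ℝ g (pr i x + (u x * σ) • ev i) (ev i) := by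
        rw [← intervalIntegral.integral_const_mul]
        congr 1; ext σ; ring
      rw [h5] at hint
      rw [show u x / 2 = u x * (1/2) by ring, show -u x / 2 = u x * (-(1/2)) by ring]
      linarith
    · apply Continuous.intervalIntegrable
      exact continuous_const.mul (hgc.comp (by fun_prop))
    · apply Continuous.intervalIntegrable
      refine (continuous_id.mul ?_)
      refine (hfc.comp ?_).clm_apply ?_ <;> fun_prop
  have e3 : u x * (∫ σ in (-(1/2:ℝ))..(1/2), fderiv ℝ g (pr i x + (u x * σ) • ev i) (ev j))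
      = ∫ τ in (-u x / 2)..(u x / 2), fderiv ℝ g (pr i x + τ • ev i) (ev j) := by
    rw [intervalIntegral.mul_integral_comp_mul_left
      (f := fun τ => fderiv ℝ g (pr i x + τ • ev i) (ev j))]
    congr 1 <;> ring
  rw [e1]
  linear_combination -e3 - du x * e2


/-- fibre average -/
noncomputable def fav (i : Fin n) (f : EuclideanSpace ℝ (Fin n) → ℝ)
    (x : EuclideanSpace ℝ (Fin n)) : ℝ := ∫ t in (0:ℝ)..1, f (x + t • ev i)

theorem fav_per (i : Fin n) {f : EuclideanSpace ℝ (Fin n) → ℝ}
    (hf : ∀ v, HasIntegerCoords v → ∀ x, f (x + v) = f x) :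
    ∀ v, HasIntegerCoords v → ∀ x, fav i f (x + v) = fav i f x := by
  intro v hv x
  unfold fav
  congr 1
  ext t
  rw [show x + v + t • ev i = (x + t • ev i) + v by abel, hf v hv]

theorem fav_inv (i : Fin n) {f : EuclideanSpace ℝ (Fin n) → ℝ}
    (hf : ∀ v, HasIntegerCoords v → ∀ x, f (x + v) = f x) : FInv i (fav i f) := avg_inv hf i

theorem continuous_fav (i : Fin n) {f : EuclideanSpace ℝ (Fin n) → ℝ} (hf : Continuous f) :
    Continuous (fav i f) := by
  unfold fav
  apply intervalIntegral.continuous_parametric_intervalIntegral_of_continuous'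
  exact hf.comp (by fun_prop)

theorem fav_mono (i : Fin n) {f g : EuclideanSpace ℝ (Fin n) → ℝ} (hf : Continuous f)
    (hg : Continuous g) (h : ∀ x, f x ≤ g x) (x) : fav i f x ≤ fav i g x := by
  unfold fav
  apply intervalIntegral.integral_mono_on zero_le_one
  · apply Continuous.intervalIntegrable; exact hf.comp (by fun_prop)
  · apply Continuous.intervalIntegrable; exact hg.comp (by fun_prop)
  · intro t _; exact h _

theorem fav_const (i : Fin n) (c : ℝ) (x) : fav i (fun _ => c) x = c := by
  simp [fav]

theorem fav_hasDerivAt (i j : Fin n) {f : EuclideanSpace ℝ (Fin n) → ℝ} (hf : ContDiff ℝ 1 f)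
    (x) (t : ℝ) : HasDerivAt (fun t : ℝ => fav i f (x + t • ev j))
      (fav i (fun y => fderiv ℝ f y (ev j)) (x + t • ev j)) t := by
  have hfc : Continuous (fderiv ℝ f) := hf.continuous_fderiv (by norm_num)
  unfold fav
  refine hasDerivAt_param (F := fun t s => f (x + t • ev j + s • ev i))
    (F' := fun t s => fderiv ℝ f (x + t • ev j + s • ev i) (ev j)) ?_ ?_ ?_ 0 1 t
  · simp only [Function.uncurry_def]
    exact hf.continuous.comp (by fun_prop)
  · simp only [Function.uncurry_def]
    refine (hfc.comp ?_).clm_apply ?_ <;> fun_prop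
  · intro s σ
    apply hasDerivAt_line hf
    have : HasDerivAt (fun t : ℝ => x + t • ev j) (ev j) s := by
      simpa using ((hasDerivAt_id s).smul_const (ev j)).const_add x
    exact this.add_const _

theorem fderiv_coord {φ : EuclideanSpace ℝ (Fin n) → EuclideanSpace ℝ (Fin n)}
    (h1 : ContDiff ℝ 1 φ) (j : Fin n) (x v) :
    fderiv ℝ (fun x => φ x j) x v = fderiv ℝ φ x v j := by
  have h3 := (h1.differentiable (by norm_num) x).hasFDerivAt
  have h4 := (EuclideanSpace.proj (𝕜 := ℝ) j : EuclideanSpace ℝ (Fin n) →L[ℝ] ℝ).hasFDerivAt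
    (x := φ x)
  have h5 := h4.comp x h3
  have h6 : fderiv ℝ (fun x => φ x j) x = _ := h5.fderiv
  rw [h6]; rfl

theorem divergence_eq_sum {φ : EuclideanSpace ℝ (Fin n) → EuclideanSpace ℝ (Fin n)}
    (h1 : ContDiff ℝ 1 φ) (x) :
    divergence φ x = ∑ j, fderiv ℝ (fun x => φ x j) x (ev j) := by
  unfold divergence
  refine Finset.sum_congr rfl fun j _ => ?_
  rw [fderiv_coord h1]; rfl

/-- continuity of a fibre integral with symmetric variable limits -/
theorem continuous_sym_integral {g u : EuclideanSpace ℝ (Fin n) → ℝ} (i : Fin n)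
    (hg : Continuous g) (hu : Continuous u) :
    Continuous fun x => ∫ τ in (-u x / 2)..(u x / 2), g (pr i x + τ • ev i) := by
  have hprc := continuous_pr (n := n) i
  have hc : Continuous (Function.uncurry fun (x : EuclideanSpace ℝ (Fin n)) (τ : ℝ) =>
      g (pr i x + τ • ev i)) := by
    simp only [Function.uncurry_def]
    exact hg.comp (by fun_prop)
  have h1 := intervalIntegral.continuous_parametric_intervalIntegral_of_continuous (μ := volume)
    (a₀ := (0:ℝ)) hc (s := fun x => u x / 2) (by fun_prop)
  have h2 := intervalIntegral.continuous_parametric_intervalIntegral_of_continuous (μ := volume)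
    (a₀ := (0:ℝ)) hc (s := fun x => -u x / 2) (by fun_prop)
  have h3 : (fun x => ∫ τ in (-u x / 2)..(u x / 2), g (pr i x + τ • ev i))
      = fun x => (∫ τ in (0:ℝ)..(u x / 2), g (pr i x + τ • ev i))
        - ∫ τ in (0:ℝ)..(-u x / 2), g (pr i x + τ • ev i) := by
    ext x
    have hi : ∀ a b : ℝ, IntervalIntegrable (fun τ => g (pr i x + τ • ev i)) volume a b := by
      intro a b
      apply Continuous.intervalIntegrable
      exact hg.comp (by fun_prop)
    rw [← intervalIntegral.integral_interval_sub_left (hi 0 (u x / 2)) (hi 0 (-u x / 2))]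
  rw [h3]
  exact h1.sub h2

theorem pr_shift_per {i : Fin n} {F : Type*} {g : EuclideanSpace ℝ (Fin n) → F}
    (hg : ∀ v, HasIntegerCoords v → ∀ x, g (x + v) = g x) (v) (hv : HasIntegerCoords v) (x)
    (t : ℝ) : g (pr i (x + v) + t • ev i) = g (pr i x + t • ev i) := by
  have : pr i (x + v) + t • ev i = pr i x + t • ev i + pr i v := by
    unfold pr
    simp only [PiLp.add_apply, add_smul]
    abel
  rw [this, hg]
  intro k
  by_cases hk : k = i
  · subst hk; exact ⟨0, by simp⟩
  · obtain ⟨m, hm⟩ := hv k
    exact ⟨m, by simp [hk, hm]⟩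

/-- the divergence of an admissible field over the region of arcs of length `u` -/
theorem region_divergence {φ : EuclideanSpace ℝ (Fin n) → EuclideanSpace ℝ (Fin n)}
    (h1 : ContDiff ℝ 1 φ) (h2 : ∀ v, HasIntegerCoords v → ∀ x, φ (x + v) = φ x) (i : Fin n)
    {u : EuclideanSpace ℝ (Fin n) → ℝ} {du : Fin n → EuclideanSpace ℝ (Fin n) → ℝ}
    (huc : Continuous u) (hup : ∀ v, HasIntegerCoords v → ∀ x, u (x + v) = u x)
    (hdc : ∀ j, Continuous (du j))
    (hdp : ∀ j, ∀ v, HasIntegerCoords v → ∀ x, du j (x + v) = du j x)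
    (hd : ∀ j x (t : ℝ), HasDerivAt (fun t : ℝ => u (x + t • ev j)) (du j (x + t • ev j)) t) :
    ∫ x in unitCell n, (∫ τ in (-u x / 2)..(u x / 2), divergence φ (pr i x + τ • ev i))
      = ∫ x in unitCell n, ∑ j, (if j = i then
          φ (pr i x + (u x / 2) • ev i) i - φ (pr i x + (-u x / 2) • ev i) i
        else -(du j x / 2 * (φ (pr i x + (u x / 2) • ev i) j
          + φ (pr i x + (-u x / 2) • ev i) j))) := by
  have hprc := continuous_pr (n := n) i
  have hcomp : ∀ j, ContDiff ℝ 1 (fun x => φ x j) := by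
    intro j; fun_prop
  have hcompc : ∀ j, Continuous (fun x => φ x j) := fun j => (hcomp j).continuous
  have hcper : ∀ j, ∀ v, HasIntegerCoords v → ∀ x, φ (x + v) j = φ x j := by
    intro j v hv x; rw [h2 v hv]
  have hcd : ∀ j, Continuous fun x => fderiv ℝ (fun x => φ x j) x (ev j) := fun j =>
    ((hcomp j).continuous_fderiv (by norm_num)).clm_apply continuous_const
  set T : Fin n → EuclideanSpace ℝ (Fin n) → ℝ := fun j x =>
    ∫ τ in (-u x / 2)..(u x / 2), fderiv ℝ (fun x => φ x j) (pr i x + τ • ev i) (ev j) with hT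
  have hTc : ∀ j, Continuous (T j) := fun j => continuous_sym_integral i (hcd j) huc
  have hTp : ∀ j, ∀ v, HasIntegerCoords v → ∀ x, T j (x + v) = T j x := by
    intro j v hv x
    simp only [hT, hup v hv]
    congr 1
    ext τ
    exact pr_shift_per (g := fun x => fderiv ℝ (fun x => φ x j) x (ev j)) (fun v hv x => by
      rw [fderiv_periodic (hcper j) v hv x]) v hv x τ
  have e1 : ∀ x, (∫ τ in (-u x / 2)..(u x / 2), divergence φ (pr i x + τ • ev i))
      = ∑ j, T j x := by
    intro x
    simp_rw [divergence_eq_sum h1]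
    rw [intervalIntegral.integral_finsetSum]
    intro j _
    apply Continuous.intervalIntegrable
    exact (hcd j).comp (by fun_prop)
  simp_rw [e1]
  rw [integral_finsetSum _ fun j _ => (BMP.of_continuous (hTc j) (hTp j)).integrableOn]
  rw [integral_finsetSum]
  · refine Finset.sum_congr rfl fun j _ => ?_
    by_cases hj : j = i
    · subst hj
      simp only [if_true]
      congr 1
      ext x
      simp only [hT]
      have hder : ∀ τ : ℝ, HasDerivAt (fun τ : ℝ => φ (pr j x + τ • ev j) j)
          (fderiv ℝ (fun x => φ x j) (pr j x + τ • ev j) (ev j)) τ := by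
        intro τ
        apply hasDerivAt_line (hcomp j)
        simpa using ((hasDerivAt_id τ).smul_const (ev j)).const_add (pr j x)
      rw [intervalIntegral.integral_eq_sub_of_hasDerivAt (fun τ _ => hder τ)]
      apply Continuous.intervalIntegrable
      exact (hcd j).comp (by fun_prop)
    · simp only [if_neg hj]
      have h3 := leibniz_integral hj (hcomp j) (hcper j) huc hup (hdc j) (hdp j) (hd j)
      rw [integral_add] at h3
      · rw [integral_neg]
        linarith
      · exact (BMP.of_continuous (hTc j) (hTp j)).integrableOn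
      · refine (BMP.of_continuous ?_ ?_).integrableOn
        · have := hdc j
          have h5 := hcompc j
          exact (this.div_const 2).mul ((h5.comp (by fun_prop)).add (h5.comp (by fun_prop)))
        · intro v hv x
          have q := fun t => pr_shift_per (i := i) h2 v hv x t
          rw [hdp j v hv, hup v hv, q, q]
  · intro j _
    refine (BMP.of_continuous ?_ ?_).integrableOn
    · by_cases hj : j = i
      · simp only [if_pos hj]
        have h5 := hcompc i
        exact (h5.comp (by fun_prop)).sub (h5.comp (by fun_prop))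
      · simp only [if_neg hj]
        have := hdc j
        have h5 := hcompc j
        exact ((this.div_const 2).mul ((h5.comp (by fun_prop)).add (h5.comp (by fun_prop)))).neg
    · intro v hv x
      have q := fun t => pr_shift_per (i := i) h2 v hv x t
      rw [hdp j v hv, hup v hv, q, q]

end Crest.Agent.R214
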