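import Mathlib
import Crest.Prelude.Def_PeriodicPerimeter
import Crest.Agent.R214.Mollify
import Crest.Agent.R214.PerBasic
import Crest.Agent.R214.SteinerPer

/-!
# R214: the Steiner inequality `periodicPerimeter (steiner i S) ≤ periodicPerimeter S`
-/

open MeasureTheory Crest.GeometryTopology.PeriodicPerimeter Filter Topology
open scoped Pointwise ContDiff

namespace Crest.Agent.R214

variable {n : ℕ}

theorem integral_mul_fav (i : Fin n) {a g : EuclideanSpace ℝ (Fin n) → ℝ}
    (ha : Continuous a) (hap : ∀ v, HasIntegerCoords v → ∀ x, a (x + v) = a x) (hai : FInv i a)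
    (hg : Continuous g) (hgp : ∀ v, HasIntegerCoords v → ∀ x, g (x + v) = g x) :
    ∫ x in unitCell n, a x * g x = ∫ x in unitCell n, a x * fav i g x := by
  rw [cell_avg ((BMP.of_continuous ha hap).mul (BMP.of_continuous hg hgp)) i]
  congr 1
  ext x
  unfold fav
  rw [← intervalIntegral.integral_const_mul]
  congr 1
  ext t
  rw [hai x t]

theorem fderiv_eq_sum (f : EuclideanSpace ℝ (Fin n) → ℝ) (x v : EuclideanSpace ℝ (Fin n)) :
    fderiv ℝ f x v = ∑ j, v j * fderiv ℝ f x (ev j) := by
  have hv : v = ∑ j, v j • ev j := by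
    ext k
    simp [ev_apply, Finset.sum_apply]
  conv_lhs => rw [hv]
  rw [map_sum]
  simp

/-- total variation along a fibre dominates twice the oscillation -/
theorem two_mul_le_fav_abs (i : Fin n) {f : EuclideanSpace ℝ (Fin n) → ℝ} (hf : ContDiff ℝ 1 f)
    (hp : ∀ v, HasIntegerCoords v → ∀ x, f (x + v) = f x) (x) {t₁ t₂ : ℝ}
    (h₁ : t₁ ∈ Set.Ioc (0:ℝ) 1) (h₂ : t₂ ∈ Set.Ioc (0:ℝ) 1) :
    2 * |f (x + t₁ • ev i) - f (x + t₂ • ev i)|
      ≤ fav i (fun y => |fderiv ℝ f y (ev i)|) x := by
  wlog h12 : t₁ ≤ t₂ generalizing t₁ t₂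
  · rw [abs_sub_comm]
    exact this h₂ h₁ (le_of_not_ge h12)
  have hfc : Continuous (fderiv ℝ f) := hf.continuous_fderiv (by norm_num)
  set g : ℝ → ℝ := fun t => fderiv ℝ f (x + t • ev i) (ev i) with hg
  have hgc : Continuous g := (hfc.comp (by fun_prop)).clm_apply continuous_const
  have hder : ∀ t : ℝ, HasDerivAt (fun t : ℝ => f (x + t • ev i)) (g t) t := by
    intro t
    apply hasDerivAt_line hf
    simpa using ((hasDerivAt_id t).smul_const (ev i)).const_add x
  have hFTC : ∀ a b : ℝ, ∫ t in a..b, g t = f (x + b • ev i) - f (x + a • ev i) := fun a b =>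
    intervalIntegral.integral_eq_sub_of_hasDerivAt (fun t _ => hder t)
      (hgc.intervalIntegrable _ _)
  have hle : ∀ a b : ℝ, a ≤ b → |f (x + b • ev i) - f (x + a • ev i)| ≤ ∫ t in a..b, |g t| := by
    intro a b hab
    rw [← hFTC]
    exact intervalIntegral.abs_integral_le_integral_abs hab
  have hgp : Function.Periodic (fun t => |g t|) 1 := by
    intro t
    simp only [hg]
    have := fiber_periodic (f := fun y => fderiv ℝ f y (ev i)) (fun v hv x => by
      rw [fderiv_periodic hp v hv x]) i x t
    simp only at this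
    rw [this]
  have e1 : fav i (fun y => |fderiv ℝ f y (ev i)|) x = ∫ t in (0:ℝ)..1, |g t| := rfl
  have e2 : ∫ t in (0:ℝ)..1, |g t| = ∫ t in t₁..(t₁ + 1), |g t| := by
    have := hgp.intervalIntegral_add_eq 0 t₁
    simpa using this
  have e3 : ∫ t in t₁..(t₁ + 1), |g t| = (∫ t in t₁..t₂, |g t|) + ∫ t in t₂..(t₁ + 1), |g t| :=
    (intervalIntegral.integral_add_adjacent_intervals (hgc.abs.intervalIntegrable _ _)
      (hgc.abs.intervalIntegrable _ _)).symm
  have e4 := hle t₁ t₂ h12
  have e5 := hle t₂ (t₁ + 1) (by linarith [h₁.1, h₂.2])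
  have e6 : f (x + (t₁ + 1) • ev i) = f (x + t₁ • ev i) := fiber_periodic hp i x t₁
  rw [e6] at e5
  rw [e1, e2, e3]
  rw [abs_sub_comm] at e4
  linarith

/-- sign -/
noncomputable def sg (a : ℝ) : ℝ := if 0 ≤ a then 1 else -1

theorem sg_mul_self (a : ℝ) : sg a * a = |a| := by
  unfold sg
  split_ifs with h
  · rw [one_mul, abs_of_nonneg h]
  · rw [neg_one_mul, abs_of_neg (not_le.1 h)]

theorem sg_sq (a : ℝ) : sg a ^ 2 = 1 := by
  unfold sg; split_ifs <;> norm_num


/-- jump of the normal component -/
noncomputable def jmp (i : Fin n) (φ : EuclideanSpace ℝ (Fin n) → EuclideanSpace ℝ (Fin n))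
    (u : EuclideanSpace ℝ (Fin n) → ℝ) (x : EuclideanSpace ℝ (Fin n)) : ℝ :=
  φ (pr i x + (u x / 2) • ev i) i - φ (pr i x + (-u x / 2) • ev i) i

theorem main_ineq {φ : EuclideanSpace ℝ (Fin n) → EuclideanSpace ℝ (Fin n)}
    (h1 : ContDiff ℝ 1 φ) (h2 : ∀ v, HasIntegerCoords v → ∀ x, φ (x + v) = φ x)
    (h3 : ∀ x, ‖φ x‖ ≤ 1) (i : Fin n) {f : EuclideanSpace ℝ (Fin n) → ℝ} (hf : ContDiff ℝ ∞ f)
    (hp : ∀ v, HasIntegerCoords v → ∀ x, f (x + v) = f x) {P : ℝ}
    (hP : ∫ x in unitCell n, ‖fderiv ℝ f x‖ ≤ P) :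
    ∫ x in unitCell n, (∫ τ in (-fav i f x / 2)..(fav i f x / 2),
        divergence φ (pr i x + τ • ev i))
      ≤ P + ∫ x in unitCell n, max (jmp i φ (fav i f) x) 0
          * max (1 - fav i (fun y => |fderiv ℝ f y (ev i)|) x / 2) 0 := by
  have hf1 : ContDiff ℝ 1 f := hf.of_le (by norm_cast)
  have hφc : Continuous φ := h1.continuous
  have hfc : Continuous (fderiv ℝ f) := hf1.continuous_fderiv (by norm_num)
  have hprc := continuous_pr (n := n) i
  have hdjc : ∀ j, Continuous fun y => fderiv ℝ f y (ev j) := fun j =>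
    hfc.clm_apply continuous_const
  have hdjp : ∀ j, ∀ v, HasIntegerCoords v → ∀ x,
      fderiv ℝ f (x + v) (ev j) = fderiv ℝ f x (ev j) := fun j v hv x => by
    rw [fderiv_periodic hp v hv x]
  set u := fav i f with hu
  have huc : Continuous u := continuous_fav i hf1.continuous
  have hup : ∀ v, HasIntegerCoords v → ∀ x, u (x + v) = u x := fav_per i hp
  have hui : FInv i u := fav_inv i hp
  have huc' := huc
  set D : Fin n → EuclideanSpace ℝ (Fin n) → ℝ := fun j => fav i (fun y => fderiv ℝ f y (ev j))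
    with hD
  have hDc : ∀ j, Continuous (D j) := fun j => continuous_fav i (hdjc j)
  have hDp : ∀ j, ∀ v, HasIntegerCoords v → ∀ x, D j (x + v) = D j x := fun j =>
    fav_per i (hdjp j)
  have hDd : ∀ j x (t : ℝ), HasDerivAt (fun t : ℝ => u (x + t • ev j)) (D j (x + t • ev j)) t :=
    fun j x t => fav_hasDerivAt i j hf1 x t
  rw [region_divergence h1 h2 i huc hup hDc hDp hDd]
  set A := jmp i φ u with hA
  set B : Fin n → EuclideanSpace ℝ (Fin n) → ℝ := fun j x =>
    (φ (pr i x + (u x / 2) • ev i) j + φ (pr i x + (-u x / 2) • ev i) j) / 2 with hB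
  set TV := fav i (fun y => |fderiv ℝ f y (ev i)|) with hTV
  have hTVc : Continuous TV := continuous_fav i (hdjc i).abs
  have hTVp : ∀ v, HasIntegerCoords v → ∀ x, TV (x + v) = TV x :=
    fav_per i (fun v hv x => by rw [hdjp i v hv x])
  have hcoord : ∀ j, Continuous fun y => φ y j := fun j => by fun_prop
  have hAc : Continuous A := by
    simp only [hA]
    unfold jmp
    exact ((hcoord i).comp (by fun_prop)).sub ((hcoord i).comp (by fun_prop))
  have hBc : ∀ j, Continuous (B j) := fun j => by
    simp only [hB]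
    exact (((hcoord j).comp (by fun_prop)).add ((hcoord j).comp (by fun_prop))).div_const 2
  have hAp : ∀ v, HasIntegerCoords v → ∀ x, A (x + v) = A x := by
    intro v hv x
    have q := fun t => pr_shift_per (i := i) h2 v hv x t
    simp only [hA]
    unfold jmp
    rw [hup v hv, q, q]
  have hBp : ∀ j, ∀ v, HasIntegerCoords v → ∀ x, B j (x + v) = B j x := by
    intro j v hv x
    have q := fun t => pr_shift_per (i := i) h2 v hv x t
    simp only [hB]
    rw [hup v hv, q, q]
  have hAi : FInv i A := by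
    intro x t
    simp only [hA]
    unfold jmp
    rw [hui x t, pr_add_smul_ev]
  have hBi : ∀ j, FInv i (B j) := by
    intro j x t
    simp only [hB]
    rw [hui x t, pr_add_smul_ev]
  -- the test field
  set Φ : EuclideanSpace ℝ (Fin n) → EuclideanSpace ℝ (Fin n) := fun x =>
    WithLp.toLp 2 (fun j => if j = i then -(max (A x) 0 / 2) * sg (fderiv ℝ f x (ev i)) else B j x)
    with hΦ
  have hΦn : ∀ x, ‖Φ x‖ ≤ 1 := by
    intro x
    rw [EuclideanSpace.norm_eq]
    apply Real.sqrt_le_one.2
    have ha := h3 (pr i x + (u x / 2) • ev i)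
    have hb := h3 (pr i x + (-u x / 2) • ev i)
    rw [EuclideanSpace.norm_eq] at ha hb
    have ha' := Real.sqrt_le_one.1 ha
    have hb' := Real.sqrt_le_one.1 hb
    have hle : ∀ j ∈ Finset.univ, ‖(Φ x) j‖ ^ 2 ≤
        (‖φ (pr i x + (u x / 2) • ev i) j‖ ^ 2 + ‖φ (pr i x + (-u x / 2) • ev i) j‖ ^ 2) / 2 := by
      intro j _
      have e : (Φ x) j = if j = i then -(max (A x) 0 / 2) * sg (fderiv ℝ f x (ev i))
        else B j x := rfl
      rw [e]
      simp only [Real.norm_eq_abs, sq_abs]
      by_cases hj : j = i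
      · subst hj
        rw [if_pos rfl, mul_pow, sg_sq, mul_one]
        have h5 : max (A x) 0 ^ 2 ≤ (A x) ^ 2 := by
          rcases le_total (A x) 0 with h | h
          · rw [max_eq_right h]; simpa using sq_nonneg (A x)
          · rw [max_eq_left h]
        have h6 : A x ^ 2
            = (φ (pr j x + (u x / 2) • ev j) j - φ (pr j x + (-u x / 2) • ev j) j) ^ 2 := rfl
        nlinarith [sq_nonneg (φ (pr j x + (u x / 2) • ev j) j + φ (pr j x + (-u x / 2) • ev j) j)]
      · rw [if_neg hj]
        simp only [hB]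
        nlinarith [sq_nonneg (φ (pr i x + (u x / 2) • ev i) j - φ (pr i x + (-u x / 2) • ev i) j)]
    calc ∑ j, ‖(Φ x) j‖ ^ 2 ≤ ∑ j, (‖φ (pr i x + (u x / 2) • ev i) j‖ ^ 2
          + ‖φ (pr i x + (-u x / 2) • ev i) j‖ ^ 2) / 2 := Finset.sum_le_sum hle
      _ = ((∑ j, ‖φ (pr i x + (u x / 2) • ev i) j‖ ^ 2)
          + ∑ j, ‖φ (pr i x + (-u x / 2) • ev i) j‖ ^ 2) / 2 := by
        rw [← Finset.sum_div, Finset.sum_add_distrib]
      _ ≤ 1 := by linarith
  have hmain := neg_integral_fderiv_apply_le hf hp hP hΦn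
  have hApc : Continuous fun x => max (A x) 0 / 2 := by fun_prop
  have hApp : ∀ v, HasIntegerCoords v → ∀ x, max (A (x + v)) 0 / 2 = max (A x) 0 / 2 :=
    fun v hv x => by rw [hAp v hv]
  have hApi : FInv i fun x => max (A x) 0 / 2 := fun x t => by
    show max (A (x + t • ev i)) 0 / 2 = max (A x) 0 / 2
    rw [hAi x t]
  have e1 : -∫ x in unitCell n, fderiv ℝ f x (Φ x)
      = ∫ x in unitCell n, ∑ j, (if j = i then max (A x) 0 / 2 * TV x else -(B j x * D j x)) := by
    rw [← integral_neg]
    have e2 : ∀ x, -fderiv ℝ f x (Φ x) = ∑ j, (if j = i then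
        max (A x) 0 / 2 * |fderiv ℝ f x (ev i)| else -(B j x * fderiv ℝ f x (ev j))) := by
      intro x
      rw [fderiv_eq_sum, ← Finset.sum_neg_distrib]
      refine Finset.sum_congr rfl fun j _ => ?_
      have e : (Φ x) j = if j = i then -(max (A x) 0 / 2) * sg (fderiv ℝ f x (ev i))
        else B j x := rfl
      rw [e]
      by_cases hj : j = i
      · subst hj
        rw [if_pos rfl, if_pos rfl, ← sg_mul_self]
        ring
      · rw [if_neg hj, if_neg hj]
    simp_rw [e2]
    rw [integral_finsetSum, integral_finsetSum]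
    · refine Finset.sum_congr rfl fun j _ => ?_
      by_cases hj : j = i
      · subst hj
        simp only [if_true]
        exact integral_mul_fav j hApc hApp hApi (hdjc j).abs (fun v hv x => by rw [hdjp j v hv x])
      · simp only [if_neg hj]
        rw [integral_neg, integral_neg]
        congr 1
        exact integral_mul_fav i (hBc j) (hBp j) (hBi j) (hdjc j) (hdjp j)
    · intro j _
      refine (BMP.of_continuous ?_ ?_).integrableOn
      · by_cases hj : j = i
        · simp only [if_pos hj]
          exact hApc.mul hTVc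
        · simp only [if_neg hj]
          exact ((hBc j).mul (hDc j)).neg
      · intro v hv x
        rw [hAp v hv, hTVp v hv, hBp j v hv, hDp j v hv]
    · intro j _
      refine (BMP.of_continuous ?_ ?_).integrableOn
      · by_cases hj : j = i
        · simp only [if_pos hj]
          exact hApc.mul (hdjc i).abs
        · simp only [if_neg hj]
          exact ((hBc j).mul (hdjc j)).neg
      · intro v hv x
        rw [hAp v hv, hdjp i v hv, hBp j v hv, hdjp j v hv]
  rw [e1] at hmain
  have hW1 : BMP fun x => ∑ j, (if j = i then max (A x) 0 / 2 * TV x else -(B j x * D j x)) := by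
    refine BMP.of_continuous ?_ ?_
    · refine continuous_finsetSum _ fun j _ => ?_
      by_cases hj : j = i
      · simp only [if_pos hj]
        exact hApc.mul hTVc
      · simp only [if_neg hj]
        exact ((hBc j).mul (hDc j)).neg
    · intro v hv x
      simp_rw [hAp v hv, hTVp v hv, fun j => hBp j v hv, fun j => hDp j v hv]
  have hW2 : BMP fun x => max (A x) 0 * max (1 - TV x / 2) 0 := by
    refine BMP.of_continuous ?_ ?_
    · fun_prop
    · intro v hv x
      rw [hAp v hv, hTVp v hv]
  refine le_trans ?_ (add_le_add_left hmain _)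
  rw [← integral_add hW1.integrableOn hW2.integrableOn]
  apply integral_mono
  · refine (BMP.of_continuous ?_ ?_).integrableOn
    · refine continuous_finsetSum _ fun j _ => ?_
      by_cases hj : j = i
      · simp only [if_pos hj]
        exact ((hcoord i).comp (by fun_prop)).sub ((hcoord i).comp (by fun_prop))
      · simp only [if_neg hj]
        have := hDc j
        exact ((this.div_const 2).mul (((hcoord j).comp (by fun_prop)).add
          ((hcoord j).comp (by fun_prop)))).neg
    · intro v hv x
      have q := fun t => pr_shift_per (i := i) h2 v hv x t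
      simp_rw [hup v hv, q, fun j => hDp j v hv]
  · exact (hW1.add hW2).integrableOn
  · intro x
    have hsum : ∑ j, (if j = i then
          φ (pr i x + (u x / 2) • ev i) i - φ (pr i x + (-u x / 2) • ev i) i
        else -(D j x / 2 * (φ (pr i x + (u x / 2) • ev i) j
          + φ (pr i x + (-u x / 2) • ev i) j)))
        - ∑ j, (if j = i then max (A x) 0 / 2 * TV x else -(B j x * D j x))
        = A x - max (A x) 0 / 2 * TV x := by
      rw [← Finset.sum_sub_distrib]
      have : ∀ j ∈ Finset.univ, ((if j = i then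
          φ (pr i x + (u x / 2) • ev i) i - φ (pr i x + (-u x / 2) • ev i) i
        else -(D j x / 2 * (φ (pr i x + (u x / 2) • ev i) j
          + φ (pr i x + (-u x / 2) • ev i) j)))
          - (if j = i then max (A x) 0 / 2 * TV x else -(B j x * D j x)))
          = if j = i then (A x - max (A x) 0 / 2 * TV x) else 0 := by
        intro j _
        by_cases hj : j = i
        · subst hj; simp only [if_true]; rfl
        · simp only [if_neg hj, hB]; ring
      rw [Finset.sum_congr rfl this]
      simp
    have h5 : max (A x) 0 * (1 - TV x / 2) ≤ max (A x) 0 * max (1 - TV x / 2) 0 :=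
      mul_le_mul_of_nonneg_left (le_max_left _ _) (le_max_right _ _)
    have h6 : A x ≤ max (A x) 0 := le_max_left _ _
    linarith

end Crest.Agent.R214
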