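import Mathlib
import Crest.Prelude.Def_PeriodicPerimeter
import Crest.Agent.R214.Mollify
import Crest.Agent.R214.PerBasic
import Crest.Agent.R214.SteinerPer
import Crest.Agent.R214.SteinerIneq
import Crest.Agent.R214.InvPer

-- ▼ part R214/FieldIneq
section

/-!
# R214: the calibration ("field") inequality in a plane spanned by two coordinate directions

For a measurable periodic set `S`, `i ≠ j`, `0 ≤ a`, `a ^ 2 + b ^ 2 ≤ 1`:
`∫_cell (2 a(xᵢ) 1_{0 < |S_x^j| < 1} + b'(xᵢ) |S_x^j|) ≤ Per S`.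
-/

open MeasureTheory Crest.GeometryTopology.PeriodicPerimeter Filter Topology
open scoped Pointwise ContDiff

namespace Crest.Agent.R214

variable {n : ℕ}

/-- almost every fibre is good (copy of `ae_fiber`, to keep this file independent) -/
theorem ae_fiber_field (i : Fin n) {p : EuclideanSpace ℝ (Fin n) → Prop}
    (h : ∀ᵐ y : EuclideanSpace ℝ (Fin n), p y) :
    ∀ᵐ x : EuclideanSpace ℝ (Fin n), ∀ᵐ t : ℝ, p (x + t • ev i) := by
  have hq : Measure.QuasiMeasurePreserving
      (fun z : EuclideanSpace ℝ (Fin n) × ℝ => z.1 + z.2 • ev i)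
      ((volume : Measure (EuclideanSpace ℝ (Fin n))).prod (volume : Measure ℝ)) volume := by
    refine ⟨by fun_prop, ?_⟩
    refine Measure.AbsolutelyContinuous.mk fun s hs h0 => ?_
    rw [Measure.map_apply (by fun_prop) hs, Measure.prod_apply_symm (by
      exact (by fun_prop : Measurable fun z : EuclideanSpace ℝ (Fin n) × ℝ =>
        z.1 + z.2 • ev i) hs)]
    rw [lintegral_eq_zero_iff]
    · refine Eventually.of_forall fun t => ?_
      have e : (fun x : EuclideanSpace ℝ (Fin n) => (x, t)) ⁻¹'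
          ((fun z : EuclideanSpace ℝ (Fin n) × ℝ => z.1 + z.2 • ev i) ⁻¹' s)
          = (fun x => x + t • ev i) ⁻¹' s := rfl
      show volume ((fun x : EuclideanSpace ℝ (Fin n) => (x, t)) ⁻¹'
          ((fun z : EuclideanSpace ℝ (Fin n) × ℝ => z.1 + z.2 • ev i) ⁻¹' s)) = 0
      rw [e, measure_preimage_add_right, h0]
    · apply measurable_measure_prodMk_right
      exact (by fun_prop : Measurable fun z : EuclideanSpace ℝ (Fin n) × ℝ =>
        z.1 + z.2 • ev i) hs
  exact Measure.ae_ae_of_ae_prod (hq.ae h)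

/-- on a nontrivial fibre the total variation of the mollifications is asymptotically at least 2 -/
theorem fiber_tv_tendsto (i : Fin n) {S : Set (EuclideanSpace ℝ (Fin n))}
    {f : ℕ → EuclideanSpace ℝ (Fin n) → ℝ} (hf : ∀ k, ContDiff ℝ 1 (f k))
    (hfp : ∀ k, ∀ v, HasIntegerCoords v → ∀ x, f k (x + v) = f k x)
    {x : EuclideanSpace ℝ (Fin n)}
    (hx : ∀ᵐ t : ℝ, Tendsto (fun k => f k (x + t • ev i)) atTop (𝓝 (chi S (x + t • ev i))))
    (h0 : flen i S x ≠ 0) (h1 : flen i S x ≠ 1) :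
    Tendsto (fun k => max (1 - fav i (fun y => |fderiv ℝ (f k) y (ev i)|) x / 2) 0) atTop
      (𝓝 0) := by
  have hex1 : ∃ t ∈ Set.Ioc (0:ℝ) 1, Tendsto (fun k => f k (x + t • ev i)) atTop
      (𝓝 (1:ℝ)) := by
    by_contra hcon
    push Not at hcon
    apply h0
    unfold flen
    rw [intervalIntegral.integral_of_le zero_le_one]
    apply integral_eq_zero_of_ae
    rw [Filter.EventuallyEq, ae_restrict_iff' measurableSet_Ioc]
    filter_upwards [hx] with t ht htm
    have h7 := hcon t htm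
    unfold chi at ht ⊢
    by_cases hm : x + t • ev i ∈ S
    · rw [Set.indicator_of_mem hm] at ht
      exact absurd ht h7
    · rw [Set.indicator_of_notMem hm]; rfl
  have hex0 : ∃ t ∈ Set.Ioc (0:ℝ) 1, Tendsto (fun k => f k (x + t • ev i)) atTop
      (𝓝 (0:ℝ)) := by
    by_contra hcon
    push Not at hcon
    apply h1
    unfold flen
    rw [intervalIntegral.integral_of_le zero_le_one]
    have : ∫ t in Set.Ioc (0:ℝ) 1, chi S (x + t • ev i) = ∫ t in Set.Ioc (0:ℝ) 1, (1:ℝ) := by
      apply integral_congr_ae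
      rw [Filter.EventuallyEq, ae_restrict_iff' measurableSet_Ioc]
      filter_upwards [hx] with t ht htm
      have h7 := hcon t htm
      unfold chi at ht ⊢
      by_cases hm : x + t • ev i ∈ S
      · rw [Set.indicator_of_mem hm]
      · rw [Set.indicator_of_notMem hm] at ht
        exact absurd ht h7
    rw [this]
    simp
  obtain ⟨t₁, ht₁, hl₁⟩ := hex1
  obtain ⟨t₂, ht₂, hl₂⟩ := hex0
  have hosc : Tendsto (fun k => 1 - |f k (x + t₁ • ev i) - f k (x + t₂ • ev i)|) atTop
      (𝓝 0) := by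
    have := (tendsto_const_nhds (x := (1:ℝ))).sub ((hl₁.sub hl₂).abs)
    simpa using this
  have hosc' : Tendsto (fun k => max (1 - |f k (x + t₁ • ev i) - f k (x + t₂ • ev i)|) 0)
      atTop (𝓝 0) := by
    have := (hosc.max (tendsto_const_nhds (x := (0:ℝ))))
    simpa using this
  refine squeeze_zero (fun k => le_max_right _ _) (fun k => ?_) hosc'
  have b2 := two_mul_le_fav_abs i (hf k) (hfp k) x ht₁ ht₂
  exact max_le_max (by linarith) le_rfl

/-- the representative of `t` modulo `1` in `[-1/2, 1/2)` -/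
noncomputable def cr (t : ℝ) : ℝ := t - ((round t : ℤ) : ℝ)

theorem measurable_cr : Measurable cr := by
  unfold cr
  simp_rw [round_eq]
  fun_prop

theorem cr_add_one (t : ℝ) : cr (t + 1) = cr t := by
  unfold cr
  rw [round_add_one]; push_cast; ring

theorem cr_add_int (t : ℝ) (m : ℤ) : cr (t + m) = cr t := by
  unfold cr
  rw [round_add_intCast]; push_cast; ring

theorem cr_of_mem {t : ℝ} (h : t ∈ Set.Ico (-(1/2 : ℝ)) (1/2)) : cr t = t := by
  unfold cr
  rw [round_of_mem h]; simp

theorem abs_cr_le (t : ℝ) : |cr t| ≤ 1 / 2 := abs_sub_round t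

/-- the integral over the cell as an integral of centred fibre integrals -/
theorem cell_avg_centred {G : EuclideanSpace ℝ (Fin n) → ℝ} (hG : BMP G) (i : Fin n) :
    ∫ x in unitCell n, G x
      = ∫ x in unitCell n, ∫ τ in (-(1/2) : ℝ)..(1/2), G (pr i x + τ • ev i) := by
  rw [cell_avg hG i]
  congr 1
  ext x
  have e1 : ∀ t : ℝ, G (x + t • ev i) = G (pr i x + (t + x i) • ev i) := by
    intro t
    rw [add_smul_eq_pr, add_comm (x i) t]
  simp_rw [e1]
  rw [intervalIntegral.integral_comp_add_right (fun τ => G (pr i x + τ • ev i))]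
  have e2 := (fiber_periodic hG.per i (pr i x)).intervalIntegral_add_eq (0 + x i) (-(1/2))
  rw [show (1:ℝ) + x i = 0 + x i + 1 by ring, e2]
  norm_num

/-- functions of a single coordinate in the plane -/
theorem cell_integral_plane {G : EuclideanSpace ℝ (Fin 2) → ℝ} (hG : BMP G) {i j : Fin 2}
    (hij : i ≠ j) (hinv : FInv j G) :
    ∫ x in unitCell 2, G x = ∫ τ in (-(1/2) : ℝ)..(1/2), G (τ • ev i) := by
  rw [cell_avg_centred hG i]
  have h : ∀ x : EuclideanSpace ℝ (Fin 2), ∀ τ : ℝ, G (pr i x + τ • ev i) = G (τ • ev i) := by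
    intro x τ
    refine hinv.congr ?_
    intro k hk
    have : k = i := by omega
    subst this
    simp
  simp_rw [h]
  simp

section field

variable {a b b' : ℝ → ℝ}

theorem bmp_comp_cr {c : ℝ → ℝ} (hc : Measurable c) {C : ℝ} (hC : ∀ t, |t| ≤ 1 / 2 → |c t| ≤ C)
    (i : Fin n) :
    BMP (fun x : EuclideanSpace ℝ (Fin n) => c (cr (x i))) where
  meas := hc.comp (measurable_cr.comp (by fun_prop))
  bdd := ⟨C, fun x => hC _ (abs_cr_le _)⟩
  per := fun v hv x => by
    obtain ⟨m, hm⟩ := hv i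
    have : (x + v) i = x i + m := by simp [hm]
    rw [this, cr_add_int]

theorem cr_coord_fiber (i : Fin n) (x : EuclideanSpace ℝ (Fin n)) {τ : ℝ}
    (hτ : τ ∈ Set.Ico (-(1/2 : ℝ)) (1/2)) : cr ((pr i x + τ • ev i) i) = τ := by
  have : (pr i x + τ • ev i) i = τ := by simp
  rw [this, cr_of_mem hτ]

/-- integration by parts against a function of one coordinate with countably many kinks -/
theorem integral_coord_mul_fderiv (i : Fin n) (hb : Continuous b) (hb2 : b (-(1/2)) = b (1/2))
    {c : Set ℝ} (hc : c.Countable)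
    (hder : ∀ t ∈ Set.Ioo (-(1/2) : ℝ) (1/2) \ c, HasDerivAt b (b' t) t)
    (hbm' : Measurable b') {C : ℝ} (hC : ∀ t, |b' t| ≤ C) {C2 : ℝ}
    (hC2 : ∀ t, |t| ≤ 1 / 2 → |b t| ≤ C2)
    {f : EuclideanSpace ℝ (Fin n) → ℝ} (hf : ContDiff ℝ 1 f)
    (hfp : ∀ v, HasIntegerCoords v → ∀ x, f (x + v) = f x) :
    ∫ x in unitCell n, b (cr (x i)) * fderiv ℝ f x (ev i)
      = - ∫ x in unitCell n, b' (cr (x i)) * f x := by
  have hfc : Continuous (fderiv ℝ f) := hf.continuous_fderiv (by norm_num)
  have hB1 : BMP (fun x : EuclideanSpace ℝ (Fin n) => b (cr (x i)) * fderiv ℝ f x (ev i)) :=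
    (bmp_comp_cr hb.measurable hC2 i).mul (BMP.of_continuous (hfc.clm_apply continuous_const)
      (fun v hv x => by rw [fderiv_periodic hfp v hv x]))
  have hB2 : BMP (fun x : EuclideanSpace ℝ (Fin n) => b' (cr (x i)) * f x) :=
    (bmp_comp_cr hbm' (fun t _ => hC t) i).mul (BMP.of_continuous hf.continuous hfp)
  have key : ∫ x in unitCell n, (b (cr (x i)) * fderiv ℝ f x (ev i) + b' (cr (x i)) * f x)
      = 0 := by
    rw [cell_avg_centred (hB1.add hB2) i]
    have : ∀ x : EuclideanSpace ℝ (Fin n), ∫ τ in (-(1/2) : ℝ)..(1/2),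
        (b (cr ((pr i x + τ • ev i) i)) * fderiv ℝ f (pr i x + τ • ev i) (ev i)
          + b' (cr ((pr i x + τ • ev i) i)) * f (pr i x + τ • ev i)) = 0 := by
      intro x
      have e1 : ∫ τ in (-(1/2) : ℝ)..(1/2),
          (b (cr ((pr i x + τ • ev i) i)) * fderiv ℝ f (pr i x + τ • ev i) (ev i)
            + b' (cr ((pr i x + τ • ev i) i)) * f (pr i x + τ • ev i))
          = ∫ τ in (-(1/2) : ℝ)..(1/2),
          (b' τ * f (pr i x + τ • ev i) + b τ * fderiv ℝ f (pr i x + τ • ev i) (ev i)) := by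
        rw [intervalIntegral.integral_of_le (by norm_num),
          intervalIntegral.integral_of_le (by norm_num), integral_Ioc_eq_integral_Ioo,
          integral_Ioc_eq_integral_Ioo]
        refine setIntegral_congr_fun measurableSet_Ioo ?_
        intro τ hτ
        simp only
        rw [cr_coord_fiber i x ⟨hτ.1.le, hτ.2⟩]
        ring
      rw [e1]
      have hder2 : ∀ τ : ℝ, HasDerivAt (fun τ : ℝ => f (pr i x + τ • ev i))
          (fderiv ℝ f (pr i x + τ • ev i) (ev i)) τ := by
        intro τ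
        apply hasDerivAt_line hf
        simpa using ((hasDerivAt_id τ).smul_const (ev i)).const_add (pr i x)
      have hcf : Continuous fun τ : ℝ => f (pr i x + τ • ev i) :=
        hf.continuous.comp (by fun_prop)
      rw [MeasureTheory.integral_eq_of_hasDerivAt_off_countable
        (fun τ => b τ * f (pr i x + τ • ev i))
        (fun τ => b' τ * f (pr i x + τ • ev i) + b τ * fderiv ℝ f (pr i x + τ • ev i) (ev i))
        hc (hb.mul hcf).continuousOn]
      · have := fiber_periodic hfp i (pr i x) (-(1/2))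
        simp only at this
        rw [show (-(1/2) + 1 : ℝ) = 1/2 by norm_num] at this
        rw [this, hb2]; ring
      · intro τ hτ
        rw [min_eq_left (by norm_num), max_eq_right (by norm_num)] at hτ
        exact (hder τ hτ).mul (hder2 τ)
      · have i1 : Measurable fun τ : ℝ => b' τ * f (pr i x + τ • ev i)
            + b τ * fderiv ℝ f (pr i x + τ • ev i) (ev i) := by
          have m1 : Measurable fun τ : ℝ => fderiv ℝ f (pr i x + τ • ev i) (ev i) := by
            have : Continuous fun τ : ℝ => fderiv ℝ f (pr i x + τ • ev i) (ev i) :=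
              (hfc.comp (by fun_prop)).clm_apply continuous_const
            exact this.measurable
          exact (hbm'.mul hcf.measurable).add (hb.measurable.mul m1)
        obtain ⟨D1, hD1⟩ := bounded_of_continuous_periodic hf.continuous hfp
        obtain ⟨D2, hD2⟩ := bounded_of_continuous_periodic hfc (fderiv_periodic hfp)
        rw [intervalIntegrable_iff]
        refine Measure.integrableOn_of_bounded (M := C * D1 + C2 * D2) ?_
          i1.aestronglyMeasurable ?_
        · simp
        · rw [Set.uIoc_of_le (by norm_num), ae_restrict_iff' measurableSet_Ioc]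
          refine Filter.Eventually.of_forall fun t ht => ?_
          have ht' : |t| ≤ 1 / 2 := abs_le.2 ⟨by linarith [ht.1], ht.2⟩
          have n1 := hD1 (pr i x + t • ev i)
          have n2 : ‖fderiv ℝ f (pr i x + t • ev i) (ev i)‖ ≤ D2 := by
            have := (fderiv ℝ f (pr i x + t • ev i)).le_opNorm (ev i)
            rw [norm_ev, mul_one] at this
            exact this.trans (hD2 _)
          refine (norm_add_le _ _).trans ?_
          rw [norm_mul, norm_mul]
          refine add_le_add ?_ ?_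
          · exact mul_le_mul (hC t) n1 (norm_nonneg _) ((abs_nonneg _).trans (hC t))
          · exact mul_le_mul (hC2 t ht') n2 (norm_nonneg _) ((abs_nonneg _).trans (hC2 t ht'))
    simp_rw [this]
    simp
  rw [integral_add hB1.integrableOn hB2.integrableOn] at key
  linarith

/-- the norm of a plane vector built on two coordinate directions -/
theorem norm_two_ev_le {i j : Fin n} (hij : i ≠ j) {α β : ℝ} (h : α ^ 2 + β ^ 2 ≤ 1) :
    ‖α • ev i + β • ev j‖ ≤ 1 := by
  rw [EuclideanSpace.norm_eq]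
  rw [Real.sqrt_le_one]
  have : ∀ k : Fin n, ‖(α • ev i + β • ev j) k‖ ^ 2
      = (if k = i then α ^ 2 else 0) + (if k = j then β ^ 2 else 0) := by
    intro k
    rw [Real.norm_eq_abs, sq_abs]
    by_cases h1 : k = i
    · subst h1
      simp [hij]
    · by_cases h2 : k = j
      · subst h2; simp [h1]
      · simp [h1, h2]
  simp_rw [this]
  rw [Finset.sum_add_distrib]
  simpa using h

/-- **the field inequality** -/
theorem field_ineq {i j : Fin n} (hij : i ≠ j) {S : Set (EuclideanSpace ℝ (Fin n))}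
    (hS : MeasurableSet S) (hper : IsLatticePeriodic S) (hP : periodicPerimeter S ≠ ⊤)
    (ha : Measurable a) (ha0 : ∀ t, 0 ≤ a t)
    (hb : Continuous b) (hb2 : b (-(1/2)) = b (1/2))
    {c : Set ℝ} (hc : c.Countable)
    (hder : ∀ t ∈ Set.Ioo (-(1/2) : ℝ) (1/2) \ c, HasDerivAt b (b' t) t)
    (hbm' : Measurable b') {C : ℝ} (hC : ∀ t, |b' t| ≤ C)
    (hab : ∀ t, |t| ≤ 1 / 2 → a t ^ 2 + b t ^ 2 ≤ 1) :
    ∫ x in unitCell n, (2 * a (cr (x i)) *
        (if flen j S x ≠ 0 ∧ flen j S x ≠ 1 then (1:ℝ) else 0) + b' (cr (x i)) * flen j S x)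
      ≤ (periodicPerimeter S).toReal := by
  obtain ⟨f, hf, hfp, hf0, hf1, hfl, hfP⟩ := exists_mollification hS hper hP
  set P := (periodicPerimeter S).toReal with hPdef
  have hfc : ∀ k, Continuous (f k) := fun k => (hf k).continuous
  have hfc1 : ∀ k, ContDiff ℝ 1 (f k) := fun k => (hf k).of_le (by norm_cast)
  have hfd : ∀ k, Continuous (fderiv ℝ (f k)) := fun k =>
    (hfc1 k).continuous_fderiv (by norm_num)
  have hba : ∀ t, |t| ≤ 1 / 2 → |a t| ≤ 1 := fun t ht => by
    rw [abs_le_one_iff_mul_self_le_one]; nlinarith [hab t ht, sq_nonneg (b t)]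
  have hbb : ∀ t, |t| ≤ 1 / 2 → |b t| ≤ 1 := fun t ht => by
    rw [abs_le_one_iff_mul_self_le_one]; nlinarith [hab t ht, sq_nonneg (a t)]
  have hB_a : BMP (fun x : EuclideanSpace ℝ (Fin n) => a (cr (x i))) := bmp_comp_cr ha hba i
  have hB_b : BMP (fun x : EuclideanSpace ℝ (Fin n) => b (cr (x i))) :=
    bmp_comp_cr hb.measurable hbb i
  have hB_b' : BMP (fun x : EuclideanSpace ℝ (Fin n) => b' (cr (x i))) :=
    bmp_comp_cr hbm' (fun t _ => hC t) i
  have hB_d : ∀ k (m : Fin n), BMP (fun x => fderiv ℝ (f k) x (ev m)) := fun k m =>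
    BMP.of_continuous ((hfd k).clm_apply continuous_const)
      (fun v hv x => by rw [fderiv_periodic (hfp k) v hv x])
  have hB_f : ∀ k, BMP (f k) := fun k => BMP.of_continuous (hfc k) (hfp k)
  have hfib := ae_fiber_field j hfl
  -- the calibration inequality for the mollifications
  have hcal : ∀ k, (∫ x in unitCell n, a (cr (x i)) * |fderiv ℝ (f k) x (ev j)|)
      - ∫ x in unitCell n, b (cr (x i)) * fderiv ℝ (f k) x (ev i) ≤ P := by
    intro k
    have h1 := neg_integral_fderiv_apply_le (hf k) (hfp k) (hfP k)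
      (Φ := fun x => (b (cr (x i))) • ev i
        + (-(a (cr (x i)) * sg (fderiv ℝ (f k) x (ev j)))) • ev j) (fun x => by
        refine norm_two_ev_le hij ?_
        have := hab (cr (x i)) (abs_cr_le _)
        have h2 := sg_sq (fderiv ℝ (f k) x (ev j))
        calc b (cr (x i)) ^ 2 + (-(a (cr (x i)) * sg (fderiv ℝ (f k) x (ev j)))) ^ 2
            = b (cr (x i)) ^ 2 + a (cr (x i)) ^ 2 * sg (fderiv ℝ (f k) x (ev j)) ^ 2 := by ring
          _ ≤ 1 := by rw [h2]; linarith)
    refine le_trans (le_of_eq ?_) h1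
    rw [← integral_neg, ← integral_sub (hB_a.mul (hB_d k j).abs).integrableOn
      (hB_b.mul (hB_d k i)).integrableOn]
    congr 1
    ext x
    rw [map_add, map_smul, map_smul, smul_eq_mul, smul_eq_mul, ← sg_mul_self]
    ring
  have hcal2 : ∀ k, (∫ x in unitCell n, a (cr (x i)) * fav j (fun y =>
      |fderiv ℝ (f k) y (ev j)|) x) + ∫ x in unitCell n, b' (cr (x i)) * f k x ≤ P := by
    intro k
    have h1 := hcal k
    rw [integral_coord_mul_fderiv i hb hb2 hc hder hbm' hC hbb (hfc1 k) (hfp k)] at h1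
    have h2 : ∫ x in unitCell n, a (cr (x i)) * |fderiv ℝ (f k) x (ev j)|
        = ∫ x in unitCell n, a (cr (x i)) * fav j (fun y => |fderiv ℝ (f k) y (ev j)|) x := by
      rw [cell_avg (hB_a.mul (hB_d k j).abs) j]
      congr 1
      ext x
      unfold fav
      rw [← intervalIntegral.integral_const_mul]
      congr 1
      ext t
      have : (x + t • ev j) i = x i := by simp [hij]
      rw [this]
    rw [h2] at h1
    linarith
  -- indicator of nontrivial fibres
  set χ : EuclideanSpace ℝ (Fin n) → ℝ :=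
    fun x => if flen j S x ≠ 0 ∧ flen j S x ≠ 1 then (1:ℝ) else 0 with hχ
  have hχ0 : ∀ x, 0 ≤ χ x := fun x => by simp only [hχ]; split_ifs <;> norm_num
  have hχ1 : ∀ x, χ x ≤ 1 := fun x => by simp only [hχ]; split_ifs <;> norm_num
  have hBflen := flen_bmp j hS hper
  have hBχ : BMP χ := by
    refine ⟨?_, ⟨1, fun x => by rw [abs_of_nonneg (hχ0 x)]; exact hχ1 x⟩, ?_⟩
    · refine Measurable.ite ?_ measurable_const measurable_const
      exact (((measurableSet_singleton (0:ℝ)).preimage hBflen.meas).compl).inter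
        (((measurableSet_singleton (1:ℝ)).preimage hBflen.meas).compl)
    · intro v hv x
      simp only [hχ, hBflen.per v hv]
  have hTVc : ∀ k, Continuous fun x => fav j (fun y => |fderiv ℝ (f k) y (ev j)|) x := fun k =>
    continuous_fav j (((hfd k).clm_apply continuous_const).abs)
  have hTV0 : ∀ k x, 0 ≤ fav j (fun y => |fderiv ℝ (f k) y (ev j)|) x := fun k x => by
    have := fav_mono j (continuous_const (y := (0:ℝ)))
      (((hfd k).clm_apply continuous_const).abs) (fun x => abs_nonneg _) x (g := fun y =>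
        |fderiv ℝ (f k) y (ev j)|)
    rwa [fav_const] at this
  have hTVp : ∀ k, ∀ v, HasIntegerCoords v → ∀ x, fav j (fun y => |fderiv ℝ (f k) y (ev j)|) (x + v)
      = fav j (fun y => |fderiv ℝ (f k) y (ev j)|) x := fun k =>
    fav_per j (fun v hv x => by rw [fderiv_periodic (hfp k) v hv x])
  -- the error term
  have hRB : ∀ k, BMP (fun x => 2 * (a (cr (x i)) * (χ x *
      max (1 - fav j (fun y => |fderiv ℝ (f k) y (ev j)|) x / 2) 0))) := by
    intro k
    have q1 : BMP (fun x => max (1 - fav j (fun y => |fderiv ℝ (f k) y (ev j)|) x / 2) 0) := by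
      have := hTVc k
      refine BMP.of_continuous (by fun_prop) ?_
      intro v hv x
      rw [hTVp k v hv]
    have q2 : BMP (fun _ : EuclideanSpace ℝ (Fin n) => (2:ℝ)) :=
      ⟨measurable_const, ⟨2, fun _ => by norm_num⟩, fun _ _ _ => rfl⟩
    exact q2.mul (hB_a.mul (hBχ.mul q1))
  have hR : Tendsto (fun k => ∫ x in unitCell n, 2 * (a (cr (x i)) * (χ x *
      max (1 - fav j (fun y => |fderiv ℝ (f k) y (ev j)|) x / 2) 0))) atTop (𝓝 0) := by
    have : Tendsto (fun k => ∫ x in unitCell n, 2 * (a (cr (x i)) * (χ x *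
      max (1 - fav j (fun y => |fderiv ℝ (f k) y (ev j)|) x / 2) 0))) atTop
      (𝓝 (∫ x in unitCell n, (0:ℝ))) := by
      apply tendsto_integral_of_dominated_convergence (fun _ => (2:ℝ))
      · intro k
        exact (hRB k).meas.aestronglyMeasurable
      · exact integrable_const _
      · intro k
        refine Eventually.of_forall fun x => ?_
        have m1 : max (1 - fav j (fun y => |fderiv ℝ (f k) y (ev j)|) x / 2) 0 ≤ 1 :=
          max_le (by linarith [hTV0 k x]) zero_le_one
        have m0 : 0 ≤ max (1 - fav j (fun y => |fderiv ℝ (f k) y (ev j)|) x / 2) 0 :=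
          le_max_right _ _
        have m2 : χ x * max (1 - fav j (fun y => |fderiv ℝ (f k) y (ev j)|) x / 2) 0 ≤ 1 := by
          calc _ ≤ (1:ℝ) * 1 := mul_le_mul (hχ1 x) m1 m0 zero_le_one
            _ = 1 := one_mul 1
        have m3 : 0 ≤ χ x * max (1 - fav j (fun y => |fderiv ℝ (f k) y (ev j)|) x / 2) 0 :=
          mul_nonneg (hχ0 x) m0
        have m4 := ha0 (cr (x i))
        have m5 : a (cr (x i)) ≤ 1 := (le_abs_self _).trans (hba _ (abs_cr_le _))
        rw [Real.norm_eq_abs, abs_of_nonneg (by positivity)]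
        nlinarith
      · refine ae_restrict_of_ae ?_
        filter_upwards [hfib] with x hx
        by_cases hcase : flen j S x ≠ 0 ∧ flen j S x ≠ 1
        · have := fiber_tv_tendsto j hfc1 hfp hx hcase.1 hcase.2
          have h2 := ((this.const_mul (χ x)).const_mul (a (cr (x i)))).const_mul 2
          simpa using h2
        · have : χ x = 0 := by simp only [hχ]; rw [if_neg hcase]
          simp [this]
    simpa using this
  -- convergence of the volume term
  have hV : Tendsto (fun k => ∫ x in unitCell n, b' (cr (x i)) * f k x) atTop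
      (𝓝 (∫ x in unitCell n, b' (cr (x i)) * chi S x)) := by
    apply tendsto_integral_of_dominated_convergence (fun _ => C)
    · intro k; exact (hB_b'.mul (hB_f k)).meas.aestronglyMeasurable
    · exact integrable_const _
    · intro k
      refine Eventually.of_forall fun x => ?_
      rw [norm_mul, Real.norm_eq_abs, Real.norm_eq_abs, abs_of_nonneg (hf0 k x)]
      have hC0 : 0 ≤ C := (abs_nonneg _).trans (hC 0)
      calc |b' (cr (x i))| * f k x ≤ C * 1 := mul_le_mul (hC _) (hf1 k x) (hf0 k x) hC0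
        _ = C := mul_one _
    · refine ae_restrict_of_ae ?_
      filter_upwards [hfl] with x hx
      exact hx.const_mul _
  have hVeq : ∫ x in unitCell n, b' (cr (x i)) * chi S x
      = ∫ x in unitCell n, b' (cr (x i)) * flen j S x := by
    rw [cell_avg (hB_b'.mul (chi_bmp hS hper)) j]
    congr 1
    ext x
    unfold flen
    rw [← intervalIntegral.integral_const_mul]
    congr 1
    ext t
    have : (x + t • ev j) i = x i := by simp [hij]
    rw [this]
  have hB2 : BMP (fun x => 2 * a (cr (x i)) * χ x) := by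
    have q2 : BMP (fun _ : EuclideanSpace ℝ (Fin n) => (2:ℝ)) :=
      ⟨measurable_const, ⟨2, fun _ => by norm_num⟩, fun _ _ _ => rfl⟩
    exact (q2.mul hB_a).mul hBχ
  have hmain : ∀ k, (∫ x in unitCell n, 2 * a (cr (x i)) * χ x)
      + (∫ x in unitCell n, b' (cr (x i)) * f k x)
      - (∫ x in unitCell n, 2 * (a (cr (x i)) * (χ x *
          max (1 - fav j (fun y => |fderiv ℝ (f k) y (ev j)|) x / 2) 0))) ≤ P := by
    intro k
    refine le_trans ?_ (hcal2 k)
    have : (∫ x in unitCell n, 2 * a (cr (x i)) * χ x)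
        - (∫ x in unitCell n, 2 * (a (cr (x i)) * (χ x *
          max (1 - fav j (fun y => |fderiv ℝ (f k) y (ev j)|) x / 2) 0)))
        ≤ ∫ x in unitCell n, a (cr (x i)) * fav j (fun y => |fderiv ℝ (f k) y (ev j)|) x := by
      rw [← integral_sub hB2.integrableOn (hRB k).integrableOn]
      have hBT : BMP (fun x => fav j (fun y => |fderiv ℝ (f k) y (ev j)|) x) :=
        BMP.of_continuous (hTVc k) (hTVp k)
      refine integral_mono (hB2.sub (hRB k)).integrableOn (hB_a.mul hBT).integrableOn ?_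
      intro x
      simp only
      have m4 := ha0 (cr (x i))
      have m6 := le_max_left (1 - fav j (fun y => |fderiv ℝ (f k) y (ev j)|) x / 2) 0
      have m7 : χ x * (1 - max (1 - fav j (fun y => |fderiv ℝ (f k) y (ev j)|) x / 2) 0)
          ≤ fav j (fun y => |fderiv ℝ (f k) y (ev j)|) x / 2 := by
        by_cases hz : 0 ≤ 1 - max (1 - fav j (fun y => |fderiv ℝ (f k) y (ev j)|) x / 2) 0
        · calc _ ≤ 1 * (1 - max (1 - fav j (fun y => |fderiv ℝ (f k) y (ev j)|) x / 2) 0) :=
                mul_le_mul_of_nonneg_right (hχ1 x) hz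
            _ ≤ _ := by linarith
        · have := hTV0 k x
          have h3 := hχ0 x
          push Not at hz
          nlinarith
      have m8 := mul_le_mul_of_nonneg_left m7 m4
      nlinarith
    linarith
  have hlim : Tendsto (fun k => (∫ x in unitCell n, 2 * a (cr (x i)) * χ x)
      + (∫ x in unitCell n, b' (cr (x i)) * f k x)
      - (∫ x in unitCell n, 2 * (a (cr (x i)) * (χ x *
          max (1 - fav j (fun y => |fderiv ℝ (f k) y (ev j)|) x / 2) 0)))) atTop
      (𝓝 ((∫ x in unitCell n, 2 * a (cr (x i)) * χ x)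
      + (∫ x in unitCell n, b' (cr (x i)) * chi S x) - 0)) :=
    (hV.const_add _).sub hR
  have hle := le_of_tendsto' hlim hmain
  rw [sub_zero, hVeq] at hle
  rwa [integral_add hB2.integrableOn (hB_b'.mul hBflen).integrableOn]

end field

end Crest.Agent.R214
end

-- ▼ part R214/Types
section

/-!
# R214: sharp lower bounds for the perimeter of symmetric decreasing plane periodic sets
-/

open MeasureTheory Crest.GeometryTopology.PeriodicPerimeter Filter Topology
open scoped Pointwise ContDiff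

namespace Crest.Agent.R214

section plane

variable {i j : Fin 2} {S : Set (EuclideanSpace ℝ (Fin 2))}

/-- length of the fibre in direction `j` above the point `τ` of the `i`-th axis -/
noncomputable def gf (i j : Fin 2) (S : Set (EuclideanSpace ℝ (Fin 2))) (τ : ℝ) : ℝ :=
  flen j S (τ • ev i)

theorem gf_nonneg (τ : ℝ) : 0 ≤ gf i j S τ := flen_nonneg _ _ _

theorem gf_le_one (hS : MeasurableSet S) (τ : ℝ) : gf i j S τ ≤ 1 := flen_le_one _ hS _

theorem measurable_gf (hS : MeasurableSet S) (hper : IsLatticePeriodic S) :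
    Measurable (gf i j S) := by
  unfold gf
  exact (flen_bmp j hS hper).meas.comp (by fun_prop)

theorem gf_intervalIntegrable (hS : MeasurableSet S) (hper : IsLatticePeriodic S) (a b : ℝ) :
    IntervalIntegrable (gf i j S) volume a b := by
  rw [intervalIntegrable_iff]
  refine Measure.integrableOn_of_bounded (M := 1) ?_ (measurable_gf hS hper).aestronglyMeasurable ?_
  · simp
  · exact Filter.Eventually.of_forall fun t => by
      rw [Real.norm_eq_abs, abs_of_nonneg (gf_nonneg _)]; exact gf_le_one hS _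

/-- the volume is the integral of the fibre lengths -/
theorem integral_gf (hij : i ≠ j) (hS : MeasurableSet S) (hper : IsLatticePeriodic S) :
    ∫ τ in (-(1/2) : ℝ)..(1/2), gf i j S τ = periodicVolume S := by
  rw [← integral_flen j hS hper, cell_integral_plane (flen_bmp j hS hper) hij
    (flen_inv j hS hper)]
  rfl

/-- the field inequality in the plane -/
theorem field_ineq_plane (hij : i ≠ j)
    (hS : MeasurableSet S) (hper : IsLatticePeriodic S) (hP : periodicPerimeter S ≠ ⊤)
    {a b b' : ℝ → ℝ} (ha : Measurable a) (ha0 : ∀ t, 0 ≤ a t)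
    (hb : Continuous b) (hb2 : b (-(1/2)) = b (1/2))
    {c : Set ℝ} (hc : c.Countable)
    (hder : ∀ t ∈ Set.Ioo (-(1/2) : ℝ) (1/2) \ c, HasDerivAt b (b' t) t)
    (hbm' : Measurable b') {C : ℝ} (hC : ∀ t, |b' t| ≤ C)
    (hab : ∀ t, |t| ≤ 1 / 2 → a t ^ 2 + b t ^ 2 ≤ 1) :
    ∫ τ in (-(1/2) : ℝ)..(1/2), (2 * a τ *
        (if gf i j S τ ≠ 0 ∧ gf i j S τ ≠ 1 then (1:ℝ) else 0) + b' τ * gf i j S τ)
      ≤ (periodicPerimeter S).toReal := by
  refine le_trans (le_of_eq ?_) (field_ineq hij hS hper hP ha ha0 hb hb2 hc hder hbm' hC hab)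
  have hBflen := flen_bmp j hS hper
  have hinv := flen_inv j hS hper
  have hba : ∀ t, |t| ≤ 1 / 2 → |a t| ≤ 1 := fun t ht => by
    rw [abs_le_one_iff_mul_self_le_one]; nlinarith [hab t ht, sq_nonneg (b t)]
  have hBχ : BMP (fun x => if flen j S x ≠ 0 ∧ flen j S x ≠ 1 then (1:ℝ) else 0) := by
    refine ⟨?_, ⟨1, fun x => by split_ifs <;> simp⟩, ?_⟩
    · refine Measurable.ite ?_ measurable_const measurable_const
      exact (((measurableSet_singleton (0:ℝ)).preimage hBflen.meas).compl).inter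
        (((measurableSet_singleton (1:ℝ)).preimage hBflen.meas).compl)
    · intro v hv x
      simp only [hBflen.per v hv]
  have q2 : BMP (fun _ : EuclideanSpace ℝ (Fin 2) => (2:ℝ)) :=
    ⟨measurable_const, ⟨2, fun _ => by norm_num⟩, fun _ _ _ => rfl⟩
  have hcoord : ∀ (x : EuclideanSpace ℝ (Fin 2)) (t : ℝ), (x + t • ev j) i = x i := by
    intro x t; simp [hij]
  rw [cell_integral_plane (G := fun x => 2 * a (cr (x i)) *
    (if flen j S x ≠ 0 ∧ flen j S x ≠ 1 then (1:ℝ) else 0) + b' (cr (x i)) * flen j S x)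
    (((q2.mul (bmp_comp_cr ha hba i)).mul hBχ).add
      ((bmp_comp_cr hbm' (fun t _ => hC t) i).mul hBflen)) hij ?_]
  · rw [intervalIntegral.integral_of_le (by norm_num),
      intervalIntegral.integral_of_le (by norm_num), integral_Ioc_eq_integral_Ioo,
      integral_Ioc_eq_integral_Ioo]
    refine setIntegral_congr_fun measurableSet_Ioo ?_
    intro τ hτ
    have h1 : (τ • ev i : EuclideanSpace ℝ (Fin 2)) i = τ := by simp
    simp only [h1, cr_of_mem (t := τ) ⟨hτ.1.le, hτ.2⟩]
    rfl
  · intro x t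
    simp only [hcoord, hinv x t]

/-- **core inequality**: `ρ` = inner half width, `κ` = bound of the fibre lengths outside -/
theorem core_ineq (hij : i ≠ j)
    (hS : MeasurableSet S) (hper : IsLatticePeriodic S) (hP : periodicPerimeter S ≠ ⊤)
    {ρ R κ : ℝ} (hρ : 0 < ρ) (hρ2 : ρ < 1 / 2) (hR : ρ ≤ R)
    (h1 : ∀ τ : ℝ, 0 < |τ| → |τ| < ρ → gf i j S τ ≠ 0 ∧ gf i j S τ ≠ 1)
    (h2 : ∀ τ : ℝ, ρ < |τ| → |τ| < 1 / 2 → gf i j S τ ≤ κ) :
    (1 / R) * (∫ τ in (-ρ)..ρ, gf i j S τ) - 2 * ρ / R * κ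
      + 2 * ∫ τ in (-ρ)..ρ, Real.sqrt (1 - (τ / R) ^ 2) ≤ (periodicPerimeter S).toReal := by
  have hR0 : 0 < R := hρ.trans_le hR
  have hd : 0 < 1 / 2 - ρ := by linarith
  obtain ⟨m, hm0, hmd⟩ : ∃ m : ℝ, 0 < m ∧ m * (1 / 2 - ρ) = ρ / R := by
    refine ⟨ρ / R / (1 / 2 - ρ), by positivity, ?_⟩
    exact div_mul_cancel₀ _ hd.ne'
  set c : ℝ := 1 / R + m with hcm
  set b : ℝ → ℝ := fun τ => τ / R - c * (max (τ - ρ) 0 - max (-τ - ρ) 0) with hb
  set b' : ℝ → ℝ := fun τ => if |τ| < ρ then 1 / R else -m with hb'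
  set a : ℝ → ℝ := fun τ => Real.sqrt (1 - b τ ^ 2) with ha
  have hbc : Continuous b := by simp only [hb]; fun_prop
  have hbin : ∀ τ, |τ| ≤ ρ → b τ = τ / R := by
    intro τ hτ
    have := abs_le.1 hτ
    simp only [hb]
    rw [max_eq_right (by linarith), max_eq_right (by linarith)]; ring
  have hbr : ∀ τ, ρ ≤ τ → b τ = m * (1 / 2 - τ) := by
    intro τ hτ
    simp only [hb]
    rw [max_eq_left (by linarith), max_eq_right (by linarith), hcm]
    have e1 : 1 / R * ρ = ρ / R := by ring
    have e2 : τ / R = 1 / R * τ := by ring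
    rw [e2]
    linear_combination e1 - hmd
  have hbl : ∀ τ, τ ≤ -ρ → b τ = - (m * (1 / 2 + τ)) := by
    intro τ hτ
    simp only [hb]
    rw [max_eq_right (by linarith), max_eq_left (by linarith), hcm]
    have e1 : 1 / R * ρ = ρ / R := by ring
    have e2 : τ / R = 1 / R * τ := by ring
    rw [e2]
    linear_combination -e1 + hmd
  have hmρ : m * (1 / 2 - ρ) ≤ 1 := by
    rw [hmd, div_le_one hR0]; exact hR
  have hbabs : ∀ τ, |τ| ≤ 1 / 2 → b τ ^ 2 ≤ 1 := by
    intro τ hτ
    have hτ' := abs_le.1 hτ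
    rw [← sq_abs]
    have : |b τ| ≤ 1 := by
      rcases le_total |τ| ρ with h | h
      · rw [hbin τ h, abs_div, abs_of_pos hR0, div_le_one hR0]
        exact h.trans hR
      · rcases le_abs'.1 h with h' | h'
        · rw [hbl τ h', abs_neg, abs_of_nonneg (mul_nonneg hm0.le (by linarith))]
          refine le_trans ?_ hmρ
          exact mul_le_mul_of_nonneg_left (by linarith) hm0.le
        · rw [hbr τ h', abs_of_nonneg (mul_nonneg hm0.le (by linarith))]
          refine le_trans ?_ hmρ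
          exact mul_le_mul_of_nonneg_left (by linarith) hm0.le
    nlinarith [abs_nonneg (b τ)]
  have hder : ∀ t ∈ Set.Ioo (-(1/2) : ℝ) (1/2) \ {-ρ, ρ}, HasDerivAt b (b' t) t := by
    intro t ht
    have hne1 : t ≠ -ρ := fun h => ht.2 (by simp [h])
    have hne2 : t ≠ ρ := fun h => ht.2 (by simp [h])
    rcases lt_trichotomy t (-ρ) with h | h | h
    · have hb't : b' t = -m := by
        simp only [hb']; rw [if_neg]; rw [not_lt, abs_of_neg (by linarith)]; linarith
      rw [hb't]
      have e1 : HasDerivAt (fun τ : ℝ => -(m * (1 / 2 + τ))) (-m) t := by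
        have := (((hasDerivAt_id t).const_add (1/2)).const_mul m).neg
        rw [mul_one] at this
        exact this
      refine e1.congr_of_eventuallyEq ?_
      filter_upwards [Iio_mem_nhds h] with τ hτ
      exact hbl τ (le_of_lt hτ)
    · exact absurd h hne1
    · rcases lt_trichotomy t ρ with h' | h' | h'
      · have hlt : |t| < ρ := abs_lt.2 ⟨h, h'⟩
        have hb't : b' t = 1 / R := by simp only [hb']; rw [if_pos hlt]
        rw [hb't]
        have e1 : HasDerivAt (fun τ : ℝ => τ / R) (1 / R) t := (hasDerivAt_id t).div_const R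
        refine e1.congr_of_eventuallyEq ?_
        filter_upwards [Ioo_mem_nhds h h'] with τ hτ
        exact hbin τ (abs_le.2 ⟨hτ.1.le, hτ.2.le⟩)
      · exact absurd h' hne2
      · have hb't : b' t = -m := by
          simp only [hb']; rw [if_neg]; rw [not_lt, abs_of_pos (by linarith)]; exact h'.le
        rw [hb't]
        have e1 : HasDerivAt (fun τ : ℝ => m * (1 / 2 - τ)) (-m) t := by
          have := ((hasDerivAt_id t).const_sub (1/2)).const_mul m
          simpa using this
        refine e1.congr_of_eventuallyEq ?_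
        filter_upwards [Ioi_mem_nhds h'] with τ hτ
        exact hbr τ (le_of_lt hτ)
  have hbm' : Measurable b' := by
    refine Measurable.ite ?_ measurable_const measurable_const
    exact measurableSet_lt measurable_id.abs measurable_const
  have hC : ∀ t, |b' t| ≤ max (1 / R) m := by
    intro t
    simp only [hb']
    split_ifs
    · rw [abs_of_pos (by positivity)]; exact le_max_left _ _
    · rw [abs_neg, abs_of_pos hm0]; exact le_max_right _ _
  have hfield := field_ineq_plane hij hS hper hP (a := a) (b := b) (b' := b')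
    (by simp only [ha]; exact (Real.continuous_sqrt.comp (by fun_prop)).measurable)
    (fun t => Real.sqrt_nonneg _) hbc (by
      rw [hbl _ (by linarith), hbr _ (by linarith)]; norm_num)
    (c := {-ρ, ρ}) ((Set.countable_singleton ρ).insert _) hder hbm' hC (by
      intro t ht
      simp only [ha]
      rw [Real.sq_sqrt (by linarith [hbabs t ht])]
      linarith)
  refine le_trans ?_ hfield
  -- lower bound of the integrand
  have hgi := gf_intervalIntegrable (i := i) (j := j) hS hper
  have hint : ∀ u v : ℝ, -(1/2) ≤ u → u ≤ v → v ≤ 1/2 → IntervalIntegrable (fun τ => 2 * a τ *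
        (if gf i j S τ ≠ 0 ∧ gf i j S τ ≠ 1 then (1:ℝ) else 0) + b' τ * gf i j S τ) volume u v := by
    intro u v hu huv hv
    have hgm := measurable_gf (i := i) (j := j) hS hper
    have ham : Measurable a := by
      simp only [ha]; exact (Real.continuous_sqrt.comp (by fun_prop)).measurable
    have hm1 : Measurable (fun τ => 2 * a τ *
        (if gf i j S τ ≠ 0 ∧ gf i j S τ ≠ 1 then (1:ℝ) else 0) + b' τ * gf i j S τ) := by
      refine ((measurable_const.mul ham).mul ?_).add (hbm'.mul hgm)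
      refine Measurable.ite ?_ measurable_const measurable_const
      exact (((measurableSet_singleton (0:ℝ)).preimage hgm).compl).inter
        (((measurableSet_singleton (1:ℝ)).preimage hgm).compl)
    rw [intervalIntegrable_iff]
    refine Measure.integrableOn_of_bounded (M := 2 + max (1 / R) m) ?_ hm1.aestronglyMeasurable ?_
    · simp
    · refine Filter.Eventually.of_forall fun t => ?_
      refine (norm_add_le _ _).trans (add_le_add ?_ ?_)
      · rw [norm_mul, norm_mul, Real.norm_eq_abs, Real.norm_eq_abs, Real.norm_eq_abs]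
        have q1 : |a t| ≤ 1 := by
          simp only [ha]
          rw [abs_of_nonneg (Real.sqrt_nonneg _), Real.sqrt_le_one]
          nlinarith [sq_nonneg (b t)]
        have q2 : |(if gf i j S t ≠ 0 ∧ gf i j S t ≠ 1 then (1:ℝ) else 0)| ≤ 1 := by
          split_ifs <;> simp
        have q3 : |(2:ℝ)| = 2 := by norm_num
        rw [q3]
        have := mul_le_mul q1 q2 (abs_nonneg _) zero_le_one
        nlinarith [abs_nonneg (a t)]
      · rw [norm_mul, Real.norm_eq_abs, Real.norm_eq_abs, abs_of_nonneg (gf_nonneg t)]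
        have := mul_le_mul (hC t) (gf_le_one hS t) (gf_nonneg (i := i) (j := j) (S := S) t)
          ((abs_nonneg _).trans (hC t))
        simpa using this
  have hsplit : ∫ τ in (-(1/2) : ℝ)..(1/2), (2 * a τ *
        (if gf i j S τ ≠ 0 ∧ gf i j S τ ≠ 1 then (1:ℝ) else 0) + b' τ * gf i j S τ)
      = (∫ τ in (-(1/2) : ℝ)..(-ρ), (2 * a τ *
        (if gf i j S τ ≠ 0 ∧ gf i j S τ ≠ 1 then (1:ℝ) else 0) + b' τ * gf i j S τ))
      + (∫ τ in (-ρ)..ρ, (2 * a τ *
        (if gf i j S τ ≠ 0 ∧ gf i j S τ ≠ 1 then (1:ℝ) else 0) + b' τ * gf i j S τ))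
      + (∫ τ in ρ..(1/2), (2 * a τ *
        (if gf i j S τ ≠ 0 ∧ gf i j S τ ≠ 1 then (1:ℝ) else 0) + b' τ * gf i j S τ)) := by
    rw [intervalIntegral.integral_add_adjacent_intervals, 
      intervalIntegral.integral_add_adjacent_intervals]
    · exact hint _ _ (by linarith) (by linarith) (by linarith)
    · exact hint _ _ (by linarith) (by linarith) (by linarith)
    · exact hint _ _ (by linarith) (by linarith) (by linarith)
    · exact hint _ _ (by linarith) (by linarith) (by linarith)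
  rw [hsplit]
  have hout : ∀ u v : ℝ, u ≤ v → (∀ τ ∈ Set.Ioo u v, ρ < |τ| ∧ |τ| < 1 / 2) → -(1/2) ≤ u → v ≤ 1/2 →
      -(m * κ) * (v - u) ≤ ∫ τ in u..v, (2 * a τ *
        (if gf i j S τ ≠ 0 ∧ gf i j S τ ≠ 1 then (1:ℝ) else 0) + b' τ * gf i j S τ) := by
    intro u v huv hτ hu hv
    have : -(m * κ) * (v - u) = ∫ τ in u..v, -(m * κ) := by
      rw [intervalIntegral.integral_const, smul_eq_mul]; ring
    rw [this]
    refine intervalIntegral.integral_mono_on_of_le_Ioo huv ?_ (hint u v hu huv hv) ?_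
    · exact _root_.intervalIntegrable_const
    · intro τ hτm
      have h3 := hτ τ hτm
      have h4 := h2 τ h3.1 h3.2
      have h5 : b' τ = -m := by simp only [hb']; rw [if_neg (not_lt.2 h3.1.le)]
      rw [h5]
      have h6 : 0 ≤ 2 * a τ * (if gf i j S τ ≠ 0 ∧ gf i j S τ ≠ 1 then (1:ℝ) else 0) := by
        have : 0 ≤ a τ := Real.sqrt_nonneg _
        split_ifs <;> positivity
      nlinarith
  have hin : (1 / R) * (∫ τ in (-ρ)..ρ, gf i j S τ) + 2 * ∫ τ in (-ρ)..ρ, Real.sqrt (1 - (τ / R) ^ 2)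
      ≤ ∫ τ in (-ρ)..ρ, (2 * a τ *
        (if gf i j S τ ≠ 0 ∧ gf i j S τ ≠ 1 then (1:ℝ) else 0) + b' τ * gf i j S τ) := by
    have hsc : Continuous fun τ : ℝ => Real.sqrt (1 - (τ / R) ^ 2) :=
      Real.continuous_sqrt.comp (by fun_prop)
    rw [← intervalIntegral.integral_const_mul, ← intervalIntegral.integral_const_mul,
      ← intervalIntegral.integral_add ((hgi _ _).const_mul _)
        ((hsc.intervalIntegrable _ _).const_mul _)]
    refine le_of_eq ?_
    rw [intervalIntegral.integral_of_le (by linarith),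
      intervalIntegral.integral_of_le (by linarith), integral_Ioc_eq_integral_Ioo,
      integral_Ioc_eq_integral_Ioo]
    refine setIntegral_congr_ae measurableSet_Ioo ?_
    have h0 : ∀ᵐ τ : ℝ, τ ≠ 0 := by
      rw [ae_iff]; simp
    filter_upwards [h0] with τ hτ0 hτ
    have hτlt : |τ| < ρ := abs_lt.2 ⟨hτ.1, hτ.2⟩
    have h5 : b' τ = 1 / R := by simp only [hb']; rw [if_pos hτlt]
    have h6 := h1 τ (abs_pos.2 hτ0) hτlt
    have h7 : a τ = Real.sqrt (1 - (τ / R) ^ 2) := by
      simp only [ha]; rw [hbin τ hτlt.le]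
    rw [if_pos h6, h5, h7]; ring
  have ho1 := hout (-(1/2)) (-ρ) (by linarith) (by
    intro τ hτ
    have : τ < 0 := by linarith [hτ.2]
    rw [abs_of_neg this]
    constructor <;> linarith [hτ.1, hτ.2]) (by linarith) (by linarith)
  have ho2 := hout ρ (1/2) (by linarith) (by
    intro τ hτ
    have : 0 < τ := by linarith [hτ.1]
    rw [abs_of_pos this]
    exact ⟨hτ.1, hτ.2⟩) (by linarith) (by linarith)
  have hmκ : m * κ * (1 / 2 - ρ) = ρ / R * κ := by
    rw [← hmd]; ring
  have : 2 * ρ / R * κ = 2 * (m * κ * (1 / 2 - ρ)) := by rw [hmκ]; ring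
  rw [this]
  nlinarith

/-! ### fibre lengths of symmetric decreasing sets -/

theorem flen_centred {n : ℕ} {S : Set (EuclideanSpace ℝ (Fin n))} (hper : IsLatticePeriodic S)
    (j : Fin n) (x : EuclideanSpace ℝ (Fin n)) :
    flen j S x = ∫ τ in (-(1/2) : ℝ)..(1/2), chi S (pr j x + τ • ev j) := by
  unfold flen
  have e1 : ∀ t : ℝ, chi S (x + t • ev j) = chi S (pr j x + (t + x j) • ev j) := by
    intro t
    rw [add_smul_eq_pr, add_comm (x j) t]
  simp_rw [e1]
  rw [intervalIntegral.integral_comp_add_right (fun τ => chi S (pr j x + τ • ev j))]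
  have e2 := (fiber_periodic (chi_per hper) j (pr j x)).intervalIntegral_add_eq (0 + x j) (-(1/2))
  rw [show (1:ℝ) + x j = 0 + x j + 1 by ring, e2]
  norm_num

theorem abs_cr_of_le {t : ℝ} (h : |t| ≤ 1 / 2) : |cr t| = |t| := by
  rcases (abs_le.1 h).2.lt_or_eq with h1 | h1
  · rw [cr_of_mem ⟨(abs_le.1 h).1, h1⟩]
  · subst h1
    have : cr (1 / 2) = -(1 / 2) := by
      have := cr_add_one (-(1 / 2))
      rw [show (-(1 / 2) + 1 : ℝ) = 1 / 2 by norm_num] at this
      rw [this]
      exact cr_of_mem ⟨le_rfl, by norm_num⟩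
    rw [this, abs_neg]

theorem flen_le_of_notMem {n : ℕ} {S : Set (EuclideanSpace ℝ (Fin n))}
    (hS : MeasurableSet S) (hper : IsLatticePeriodic S) {j : Fin n} (hd : SymDecAt j S)
    {x : EuclideanSpace ℝ (Fin n)} {t : ℝ} (ht0 : 0 ≤ t) (ht : t ≤ 1 / 2)
    (hx : pr j x + t • ev j ∉ S) : flen j S x ≤ 2 * t := by
  rw [flen_centred hper]
  have h1 : ∫ τ in (-(1/2) : ℝ)..(1/2), chi S (pr j x + τ • ev j)
      ≤ ∫ τ in (-(1/2) : ℝ)..(1/2), Set.indicator (Set.Ioo (-t) t) (fun _ => (1:ℝ)) τ := by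
    refine intervalIntegral.integral_mono_on_of_le_Ioo (by norm_num)
      (chi_fiber_intervalIntegrable hS _ _ _ _) ?_ ?_
    · rw [intervalIntegrable_iff]
      exact (integrableOn_const (by simp)).indicator measurableSet_Ioo
    · intro τ hτ
      by_cases hm : τ ∈ Set.Ioo (-t) t
      · rw [Set.indicator_of_mem hm]; exact chi_le_one S _
      · rw [Set.indicator_of_notMem hm]
        refine le_of_eq ?_
        unfold chi
        rw [Set.indicator_of_notMem]
        intro hmem
        apply hx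
        refine hd _ hmem _ ?_ ?_
        · intro k hk
          simp [hk]
        · have e1 : (pr j x + t • ev j) j = t := by simp
          have e2 : (pr j x + τ • ev j) j = τ := by simp
          rw [e1, e2]
          change |cr t| ≤ |cr τ|
          have hτ2 : |τ| ≤ 1 / 2 := abs_le.2 ⟨hτ.1.le, hτ.2.le⟩
          rw [abs_cr_of_le hτ2, abs_cr_of_le (by rw [abs_of_nonneg ht0]; exact ht),
            abs_of_nonneg ht0]
          by_contra hc
          push Not at hc
          exact hm (abs_lt.1 hc)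
  refine h1.trans ?_
  rw [intervalIntegral.integral_of_le (by norm_num), integral_indicator measurableSet_Ioo,
    Measure.restrict_restrict measurableSet_Ioo]
  simp only [integral_const, smul_eq_mul, mul_one]
  rw [measureReal_restrict_apply_univ]
  calc volume.real (Set.Ioo (-t) t ∩ Set.Ioc (-(1/2)) (1/2)) ≤ volume.real (Set.Ioo (-t) t) :=
        measureReal_mono Set.inter_subset_left (by simp)
    _ = 2 * t := by
        rw [Real.volume_real_Ioo_of_le (by linarith)]; ring

theorem le_flen_of_mem {n : ℕ} {S : Set (EuclideanSpace ℝ (Fin n))}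
    (hS : MeasurableSet S) (hper : IsLatticePeriodic S) {j : Fin n} (hd : SymDecAt j S)
    {x : EuclideanSpace ℝ (Fin n)} {t : ℝ} (ht0 : 0 ≤ t) (ht : t ≤ 1 / 2)
    (hx : pr j x + t • ev j ∈ S) : 2 * t ≤ flen j S x := by
  rw [flen_centred hper]
  have h1 : ∫ τ in (-(1/2) : ℝ)..(1/2), Set.indicator (Set.Ioo (-t) t) (fun _ => (1:ℝ)) τ
      ≤ ∫ τ in (-(1/2) : ℝ)..(1/2), chi S (pr j x + τ • ev j) := by
    refine intervalIntegral.integral_mono_on_of_le_Ioo (by norm_num) ?_
      (chi_fiber_intervalIntegrable hS _ _ _ _) ?_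
    · rw [intervalIntegrable_iff]
      exact (integrableOn_const (by simp)).indicator measurableSet_Ioo
    · intro τ hτ
      by_cases hm : τ ∈ Set.Ioo (-t) t
      · rw [Set.indicator_of_mem hm]
        refine le_of_eq ?_
        unfold chi
        rw [Set.indicator_of_mem]
        refine hd _ hx _ ?_ ?_
        · intro k hk
          simp [hk]
        · have e1 : (pr j x + t • ev j) j = t := by simp
          have e2 : (pr j x + τ • ev j) j = τ := by simp
          rw [e1, e2]
          change |cr τ| ≤ |cr t|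
          have hτ2 : |τ| ≤ 1 / 2 := abs_le.2 ⟨hτ.1.le, hτ.2.le⟩
          rw [abs_cr_of_le hτ2, abs_cr_of_le (by rw [abs_of_nonneg ht0]; exact ht),
            abs_of_nonneg ht0]
          exact (abs_lt.2 hm).le
      · rw [Set.indicator_of_notMem hm]; exact chi_nonneg S _
  refine le_trans ?_ h1
  rw [intervalIntegral.integral_of_le (by norm_num), integral_indicator measurableSet_Ioo,
    Measure.restrict_restrict measurableSet_Ioo]
  simp only [integral_const, smul_eq_mul, mul_one]
  rw [measureReal_restrict_apply_univ]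
  have : Set.Ioo (-t) t ∩ Set.Ioc (-(1/2)) (1/2) = Set.Ioo (-t) t := by
    refine Set.inter_eq_left.2 fun τ hτ => ⟨by linarith [hτ.1], by linarith [hτ.2]⟩
  rw [this, Real.volume_real_Ioo_of_le (by linarith)]
  linarith

theorem gf_anti (hS : MeasurableSet S) (hij : i ≠ j) (hd : SymDecAt i S) {τ τ' : ℝ}
    (h : |τ| ≤ |τ'|) (h' : |τ'| ≤ 1 / 2) : gf i j S τ' ≤ gf i j S τ := by
  unfold gf
  apply flen_mono j hS
  intro t ht
  refine hd _ ht _ ?_ ?_
  · intro k hk
    have : k = j := by omega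
    subst this
    simp [hij.symm]
  · have e1 : (τ • ev i + t • ev j : EuclideanSpace ℝ (Fin 2)) i = τ := by simp [hij]
    have e2 : (τ' • ev i + t • ev j : EuclideanSpace ℝ (Fin 2)) i = τ' := by simp [hij]
    rw [e1, e2]
    change |cr τ| ≤ |cr τ'|
    rw [abs_cr_of_le (h.trans h'), abs_cr_of_le h']
    exact h

/-- `S` contains the (open) arm in direction `i` at height `h` -/
def Arm (i j : Fin 2) (S : Set (EuclideanSpace ℝ (Fin 2))) (h : ℝ) : Prop :=
  ∀ t : ℝ, 0 ≤ t → t < 1 / 2 → t • ev i + h • ev j ∈ S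

/-- `S` touches the far side in direction `i` -/
def Touch (i j : Fin 2) (S : Set (EuclideanSpace ℝ (Fin 2))) : Prop :=
  ∃ h : ℝ, 0 < h ∧ h ≤ 1 / 2 ∧ Arm i j S h

theorem pr_smul_ev (hij : i ≠ j) (τ : ℝ) :
    pr j (τ • ev i : EuclideanSpace ℝ (Fin 2)) = τ • ev i := by
  unfold pr
  simp [hij.symm]

theorem exists_gf_le_of_not_arm (hij : i ≠ j) (hS : MeasurableSet S) (hper : IsLatticePeriodic S)
    (hd : SymDecAt j S) {h : ℝ} (h0 : 0 ≤ h) (h1 : h ≤ 1 / 2) (hA : ¬ Arm i j S h) :
    ∃ t : ℝ, 0 ≤ t ∧ t < 1 / 2 ∧ gf i j S t ≤ 2 * h := by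
  unfold Arm at hA
  push Not at hA
  obtain ⟨t, ht0, ht1, ht⟩ := hA
  refine ⟨t, ht0, ht1, ?_⟩
  unfold gf
  refine flen_le_of_notMem hS hper hd h0 h1 ?_
  rwa [pr_smul_ev hij]

theorem le_gf_of_arm (hij : i ≠ j) (hS : MeasurableSet S) (hper : IsLatticePeriodic S)
    (hdi : SymDecAt i S) (hd : SymDecAt j S) {h : ℝ} (h0 : 0 ≤ h) (h1 : h ≤ 1 / 2)
    (hA : Arm i j S h) {τ : ℝ} (hτ : |τ| < 1 / 2) : 2 * h ≤ gf i j S τ := by
  refine le_trans ?_ (gf_anti hS hij hdi (τ := τ) (τ' := |τ|) (by simp) (by simpa using hτ.le))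
  unfold gf
  refine le_flen_of_mem hS hper hd h0 h1 ?_
  rw [pr_smul_ev hij]
  exact hA _ (abs_nonneg _) hτ

/-- if `S` does not touch the far side in direction `j`, no fibre in direction `j` is full -/
theorem gf_lt_one_of_not_touch (hij : i ≠ j) (hS : MeasurableSet S) (hper : IsLatticePeriodic S)
    (hdi : SymDecAt i S) (hd : SymDecAt j S) (hA : ¬ Touch j i S) {τ : ℝ} (hτ0 : 0 < |τ|)
    (hτ : |τ| ≤ 1 / 2) : gf i j S τ < 1 := by
  have hna : ¬ Arm j i S |τ| := fun h => hA ⟨|τ|, hτ0, hτ, h⟩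
  unfold Arm at hna
  push Not at hna
  obtain ⟨t, ht0, ht1, ht⟩ := hna
  have h1 := gf_anti hS hij hdi (τ := |τ|) (τ' := τ) (by simp) hτ (j := j)
  have h2 : gf i j S |τ| ≤ 2 * t := by
    unfold gf
    refine flen_le_of_notMem hS hper hd ht0 ht1.le ?_
    rw [pr_smul_ev hij, add_comm]
    exact ht
  linarith

/-- full extent with positive far trace or at least positive fibres everywhere -/
theorem bound_full (hij : i ≠ j)
    (hS : MeasurableSet S) (hper : IsLatticePeriodic S) (hP : periodicPerimeter S ≠ ⊤)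
    (hdi : SymDecAt i S)
    (hnt : ∀ τ : ℝ, 0 < |τ| → |τ| < 1 / 2 → gf i j S τ < 1)
    (hpos : ∀ τ : ℝ, |τ| < 1 / 2 → 0 < gf i j S τ)
    {q R : ℝ} (hq : ∃ t : ℝ, 0 ≤ t ∧ t < 1 / 2 ∧ gf i j S t ≤ q) (hR : 1 / 2 ≤ R) :
    (1 / R) * (periodicVolume S - q)
      + 2 * (∫ τ in (-(1/2) : ℝ)..(1/2), Real.sqrt (1 - (τ / R) ^ 2))
      ≤ (periodicPerimeter S).toReal := by
  obtain ⟨t, ht0, ht1, ht⟩ := hq
  have hgi := gf_intervalIntegrable (i := i) (j := j) hS hper
  have hsc : Continuous fun τ : ℝ => Real.sqrt (1 - (τ / R) ^ 2) :=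
    Real.continuous_sqrt.comp (by fun_prop)
  set Φ : ℝ → ℝ := fun ρ => (1 / R) * (∫ τ in (-ρ)..ρ, gf i j S τ) - 2 * ρ / R * q
      + 2 * ∫ τ in (-ρ)..ρ, Real.sqrt (1 - (τ / R) ^ 2) with hΦ
  have hΦc : Continuous Φ := by
    have c1 : Continuous fun ρ : ℝ => ∫ τ in (-ρ)..ρ, gf i j S τ := by
      have h6 : (fun ρ : ℝ => ∫ τ in (-ρ)..ρ, gf i j S τ)
          = fun ρ => (∫ τ in (0:ℝ)..ρ, gf i j S τ) - ∫ τ in (0:ℝ)..(-ρ), gf i j S τ := by
        ext ρ
        rw [← intervalIntegral.integral_interval_sub_left (hgi _ _) (hgi _ _)]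
      rw [h6]
      have hp := intervalIntegral.continuous_primitive (μ := volume) (fun a b => hgi a b) 0
      exact hp.sub (hp.comp continuous_neg)
    have c2 : Continuous fun ρ : ℝ => ∫ τ in (-ρ)..ρ, Real.sqrt (1 - (τ / R) ^ 2) := by
      have h6 : (fun ρ : ℝ => ∫ τ in (-ρ)..ρ, Real.sqrt (1 - (τ / R) ^ 2))
          = fun ρ => (∫ τ in (0:ℝ)..ρ, Real.sqrt (1 - (τ / R) ^ 2))
            - ∫ τ in (0:ℝ)..(-ρ), Real.sqrt (1 - (τ / R) ^ 2) := by
        ext ρ
        rw [← intervalIntegral.integral_interval_sub_left (hsc.intervalIntegrable _ _)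
          (hsc.intervalIntegrable _ _)]
      rw [h6]
      have hp := intervalIntegral.continuous_primitive (μ := volume)
        (fun a b => hsc.intervalIntegrable a b) 0
      exact hp.sub (hp.comp continuous_neg)
    simp only [hΦ]
    fun_prop
  have hlim : Φ (1/2) ≤ (periodicPerimeter S).toReal := by
    have h1 : Tendsto Φ (𝓝[<] (1/2)) (𝓝 (Φ (1/2))) :=
      (hΦc.tendsto _).mono_left nhdsWithin_le_nhds
    refine le_of_tendsto h1 ?_
    have h2 : ∀ᶠ ρ in 𝓝[<] (1/2 : ℝ), ρ ∈ Set.Ioo t (1/2) :=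
      Ioo_mem_nhdsLT ht1
    filter_upwards [h2] with ρ hρ
    refine core_ineq hij hS hper hP (by linarith [hρ.1]) hρ.2 (hρ.2.le.trans hR) ?_ ?_
    · intro τ h3 h4
      exact ⟨(hpos τ (h4.trans hρ.2)).ne', (hnt τ h3 (h4.trans hρ.2)).ne⟩
    · intro τ h3 h4
      refine le_trans (gf_anti hS hij hdi (τ := t) (τ' := τ) ?_ h4.le) ht
      rw [abs_of_nonneg ht0]
      exact (hρ.1.trans h3).le
  refine le_trans (le_of_eq ?_) hlim
  simp only [hΦ]
  rw [integral_gf hij hS hper]
  ring

/-- extent less than full -/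
theorem bound_extent (hij : i ≠ j)
    (hS : MeasurableSet S) (hper : IsLatticePeriodic S) (hP : periodicPerimeter S ≠ ⊤)
    {ρ R : ℝ} (hρ : 0 < ρ) (hρ2 : ρ < 1 / 2) (hR : ρ ≤ R)
    (h1 : ∀ τ : ℝ, 0 < |τ| → |τ| < ρ → gf i j S τ ≠ 0 ∧ gf i j S τ ≠ 1)
    (h2 : ∀ τ : ℝ, ρ < |τ| → |τ| < 1 / 2 → gf i j S τ = 0) :
    (1 / R) * periodicVolume S + 2 * ∫ τ in (-ρ)..ρ, Real.sqrt (1 - (τ / R) ^ 2)
      ≤ (periodicPerimeter S).toReal := by
  have h := core_ineq hij hS hper hP hρ hρ2 hR h1 (κ := 0) (fun τ h3 h4 => (h2 τ h3 h4).le)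
  have hgi := gf_intervalIntegrable (i := i) (j := j) hS hper
  have e : periodicVolume S = ∫ τ in (-ρ)..ρ, gf i j S τ := by
    rw [← integral_gf hij hS hper,
      ← intervalIntegral.integral_add_adjacent_intervals (hgi (-(1/2)) (-ρ)) (hgi (-ρ) (1/2)),
      ← intervalIntegral.integral_add_adjacent_intervals (hgi (-ρ) ρ) (hgi ρ (1/2))]
    have z1 : ∫ τ in (-(1/2) : ℝ)..(-ρ), gf i j S τ = 0 := by
      rw [intervalIntegral.integral_of_le (by linarith), integral_Ioc_eq_integral_Ioo]
      refine setIntegral_eq_zero_of_forall_eq_zero fun τ hτ => ?_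
      have : τ < 0 := by linarith [hτ.2]
      exact h2 τ (by rw [abs_of_neg this]; linarith [hτ.2]) (by rw [abs_of_neg this]; linarith [hτ.1])
    have z2 : ∫ τ in ρ..(1/2), gf i j S τ = 0 := by
      rw [intervalIntegral.integral_of_le (by linarith), integral_Ioc_eq_integral_Ioo]
      refine setIntegral_eq_zero_of_forall_eq_zero fun τ hτ => ?_
      have : 0 < τ := by linarith [hτ.1]
      exact h2 τ (by rw [abs_of_pos this]; exact hτ.1) (by rw [abs_of_pos this]; exact hτ.2)
    rw [z1, z2]; ring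
  rw [e]
  linarith

end plane

end Crest.Agent.R214
end

-- ▼ part R214/Types2

/-!
# R214: sharp lower bounds for the perimeter of symmetric decreasing plane periodic sets, II
-/

open MeasureTheory Crest.GeometryTopology.PeriodicPerimeter Filter Topology
open scoped Pointwise ContDiff

namespace Crest.Agent.R214

/-- relative isoperimetric bound of a quarter with extent `≤ e` (unit scaling) -/
noncomputable def Ufun (s e : ℝ) : ℝ :=
  if Real.pi * e ^ 2 ≤ 4 * s then s / e + Real.pi * e / 4 else Real.sqrt (Real.pi * s)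

/-- the integral `∫₀¹ √(1 - (x / R)²) dx` -/
noncomputable def Ifun (R : ℝ) : ℝ := ∫ x in (0:ℝ)..1, Real.sqrt (1 - (x / R) ^ 2)

theorem integral_sqrt_disc {ρ : ℝ} (hρ : 0 < ρ) :
    ∫ τ in (-ρ)..ρ, Real.sqrt (1 - (τ / ρ) ^ 2) = Real.pi * ρ / 2 := by
  rw [intervalIntegral.integral_comp_div (fun y => Real.sqrt (1 - y ^ 2)) hρ.ne']
  rw [neg_div, div_self hρ.ne', integral_sqrt_one_sub_sq, smul_eq_mul]
  ring

theorem integral_sqrt_half {R : ℝ} :
    ∫ τ in (-(1/2) : ℝ)..(1/2), Real.sqrt (1 - (τ / (R / 2)) ^ 2) = Ifun R := by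
  unfold Ifun
  have e1 : ∀ τ : ℝ, Real.sqrt (1 - (τ / (R / 2)) ^ 2) = Real.sqrt (1 - ((2 * τ) / R) ^ 2) := by
    intro τ
    congr 2
    rcases eq_or_ne R 0 with h | h
    · subst h; simp
    · congr 1
      field_simp
  simp_rw [e1]
  rw [intervalIntegral.integral_comp_mul_left (fun y => Real.sqrt (1 - (y / R) ^ 2))
    (by norm_num : (2:ℝ) ≠ 0)]
  have hsc : Continuous fun τ : ℝ => Real.sqrt (1 - (τ / R) ^ 2) :=
    Real.continuous_sqrt.comp (by fun_prop)
  have e2 : ∫ x in (2 * -(1/2) : ℝ)..(2 * (1/2)), Real.sqrt (1 - (x / R) ^ 2)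
      = 2 * ∫ x in (0:ℝ)..1, Real.sqrt (1 - (x / R) ^ 2) := by
    rw [show (2 * -(1/2) : ℝ) = -1 by norm_num, show (2 * (1/2) : ℝ) = 1 by norm_num,
      ← intervalIntegral.integral_add_adjacent_intervals (hsc.intervalIntegrable (-1) 0)
        (hsc.intervalIntegrable 0 1)]
    have e3 := intervalIntegral.integral_comp_neg (a := 0) (b := 1)
      (fun x => Real.sqrt (1 - (x / R) ^ 2))
    simp only [neg_zero] at e3
    rw [← e3]
    have e4 : ∀ x : ℝ, Real.sqrt (1 - (-x / R) ^ 2) = Real.sqrt (1 - (x / R) ^ 2) := by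
      intro x; congr 2; ring
    simp_rw [e4]
    ring
  rw [e2, smul_eq_mul]
  ring


theorem amgm_disc {s r : ℝ} (hs : 0 ≤ s) (hr : 0 < r) :
    2 * Real.sqrt (Real.pi * s) ≤ s / r + Real.pi * r := by
  have h1 : Real.sqrt (Real.pi * s) = Real.sqrt (Real.pi * r) * Real.sqrt (s / r) := by
    rw [← Real.sqrt_mul (by positivity)]
    congr 1
    field_simp
  rw [h1]
  have h2 := Real.sq_sqrt (show 0 ≤ Real.pi * r by positivity)
  have h3 := Real.sq_sqrt (show 0 ≤ s / r by positivity)
  nlinarith [sq_nonneg (Real.sqrt (Real.pi * r) - Real.sqrt (s / r))]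

theorem sqrt_le_Ufun {s e : ℝ} (hs : 0 ≤ s) (he : 0 < e) :
    Real.sqrt (Real.pi * s) ≤ Ufun s e := by
  unfold Ufun
  split_ifs with h
  · have := amgm_disc hs (half_pos he)
    have e1 : s / (e / 2) + Real.pi * (e / 2) = 2 * (s / e + Real.pi * e / 4) := by
      field_simp; ring
    rw [e1] at this
    linarith
  · exact le_rfl

theorem Ufun_le {s e e' : ℝ} (hs : 0 ≤ s) (he' : 0 < e') (hee : e' ≤ e) :
    Ufun s e ≤ s / e' + Real.pi * e' / 4 := by
  have he : 0 < e := he'.trans_le hee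
  unfold Ufun
  split_ifs with h
  · have h1 : s / e' + Real.pi * e' / 4 - (s / e + Real.pi * e / 4)
        = (e - e') * (4 * s - Real.pi * e * e') / (4 * e * e') := by
      field_simp; ring
    have h2 : 0 ≤ (e - e') * (4 * s - Real.pi * e * e') / (4 * e * e') := by
      apply div_nonneg _ (by positivity)
      apply mul_nonneg (by linarith)
      have : Real.pi * e * e' ≤ Real.pi * e ^ 2 := by
        rw [mul_assoc, sq]
        exact mul_le_mul_of_nonneg_left (mul_le_mul_of_nonneg_left hee he.le) Real.pi_pos.le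
      linarith
    linarith
  · have := amgm_disc hs (half_pos he')
    have e1 : s / (e' / 2) + Real.pi * (e' / 2) = 2 * (s / e' + Real.pi * e' / 4) := by
      field_simp; ring
    rw [e1] at this
    linarith

section plane

variable {i j : Fin 2} {S : Set (EuclideanSpace ℝ (Fin 2))}

theorem exists_extent (hij : i ≠ j) (hS : MeasurableSet S) (hdi : SymDecAt i S) :
    ∃ ρ : ℝ, 0 ≤ ρ ∧ ρ ≤ 1 / 2 ∧ (∀ τ : ℝ, |τ| < ρ → 0 < gf i j S τ) ∧
      (∀ τ : ℝ, ρ < |τ| → |τ| ≤ 1 / 2 → gf i j S τ = 0) := by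
  set A : Set ℝ := {u | 0 ≤ u ∧ u ≤ 1 / 2 ∧ (u = 0 ∨ 0 < gf i j S u)} with hA
  have h0 : (0:ℝ) ∈ A := ⟨le_rfl, by norm_num, Or.inl rfl⟩
  have hbdd : BddAbove A := ⟨1/2, fun u hu => hu.2.1⟩
  refine ⟨sSup A, le_csSup hbdd h0, csSup_le ⟨0, h0⟩ fun u hu => hu.2.1, ?_, ?_⟩
  · intro τ hτ
    obtain ⟨u, hu, hτu⟩ := exists_lt_of_lt_csSup ⟨0, h0⟩ hτ
    have hu0 : 0 < u := (abs_nonneg τ).trans_lt hτu
    have hgu : 0 < gf i j S u := by
      rcases hu.2.2 with h | h
      · exact absurd h hu0.ne'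
      · exact h
    refine hgu.trans_le (gf_anti hS hij hdi ?_ ?_)
    · rw [abs_of_pos hu0]; exact hτu.le
    · rw [abs_of_pos hu0]; exact hu.2.1
  · intro τ hτ hτ2
    by_contra hne
    have hpos : 0 < gf i j S τ := lt_of_le_of_ne (gf_nonneg _) (Ne.symm hne)
    have hpos' : 0 < gf i j S |τ| := hpos.trans_le (gf_anti hS hij hdi (by simp) hτ2)
    exact absurd (le_csSup hbdd (show |τ| ∈ A from ⟨abs_nonneg _, hτ2, Or.inr hpos'⟩)) (not_le.2 hτ)

/-- positive fibres everywhere, none of them full: the perimeter is at least `2` -/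
theorem two_le_of_full (hij : i ≠ j)
    (hS : MeasurableSet S) (hper : IsLatticePeriodic S) (hP : periodicPerimeter S ≠ ⊤)
    (hnt : ∀ τ : ℝ, 0 < |τ| → |τ| < 1 / 2 → gf i j S τ < 1)
    (hpos : ∀ τ : ℝ, |τ| < 1 / 2 → 0 < gf i j S τ) :
    2 ≤ (periodicPerimeter S).toReal := by
  have h := field_ineq_plane hij hS hper hP (a := fun _ => 1) (b := fun _ => 0) (b' := fun _ => 0)
    measurable_const (fun _ => zero_le_one) continuous_const rfl (c := ∅) Set.countable_empty
    (fun t _ => hasDerivAt_const _ _) measurable_const (C := 0) (fun t => by simp)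
    (fun t _ => by norm_num)
  refine le_trans (le_of_eq ?_) h
  have e1 : ∫ τ in (-(1/2) : ℝ)..(1/2), (2 * (1:ℝ) *
        (if gf i j S τ ≠ 0 ∧ gf i j S τ ≠ 1 then (1:ℝ) else 0) + 0 * gf i j S τ)
      = ∫ τ in (-(1/2) : ℝ)..(1/2), (2:ℝ) := by
    rw [intervalIntegral.integral_of_le (by norm_num),
      intervalIntegral.integral_of_le (by norm_num), integral_Ioc_eq_integral_Ioo,
      integral_Ioc_eq_integral_Ioo]
    refine setIntegral_congr_ae measurableSet_Ioo ?_
    have h0 : ∀ᵐ τ : ℝ, τ ≠ 0 := by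
      rw [ae_iff]; simp
    filter_upwards [h0] with τ hτ0 hτ
    have hτlt : |τ| < 1 / 2 := abs_lt.2 ⟨hτ.1, hτ.2⟩
    rw [if_pos ⟨(hpos τ hτlt).ne', (hnt τ (abs_pos.2 hτ0) hτlt).ne⟩]
    ring
  rw [e1]
  simp
  norm_num

/-- **type 0 bound** (with extent): no full fibre, and either not full extent or zero trace -/
theorem type0_bound (hij : i ≠ j)
    (hS : MeasurableSet S) (hper : IsLatticePeriodic S) (hP : periodicPerimeter S ≠ ⊤)
    (hdi : SymDecAt i S)
    (hnt : ∀ τ : ℝ, 0 < |τ| → |τ| < 1 / 2 → gf i j S τ < 1)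
    (hz : ∀ ε : ℝ, 0 < ε → ∃ t : ℝ, 0 ≤ t ∧ t < 1 / 2 ∧ gf i j S t ≤ ε)
    {e : ℝ} (he : 0 < e) (hee : e ≤ 1)
    (hext : ∀ τ : ℝ, e / 2 < |τ| → |τ| < 1 / 2 → gf i j S τ = 0) :
    2 * Ufun (periodicVolume S) e ≤ (periodicPerimeter S).toReal := by
  set s := periodicVolume S with hs
  have hs0 : 0 ≤ s := Inv.periodicVolume_nonneg S
  obtain ⟨ρ, hρ0, hρ1, hin, hout⟩ := exists_extent hij hS hdi (S := S)
  rcases hρ0.eq_or_lt with h | hρpos
  · -- empty
    have : s = 0 := by
      rw [hs, ← integral_gf hij hS hper]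
      rw [intervalIntegral.integral_of_le (by norm_num), integral_Ioc_eq_integral_Ioo]
      have : ∫ t in Set.Ioo (-(1/2) : ℝ) (1/2), gf i j S t
          = ∫ t in Set.Ioo (-(1/2) : ℝ) (1/2), (0:ℝ) := by
        refine setIntegral_congr_ae measurableSet_Ioo ?_
        have h0 : ∀ᵐ τ : ℝ, τ ≠ 0 := by
          rw [ae_iff]; simp
        filter_upwards [h0] with τ hτ0 hτ
        exact hout τ (by rw [← h]; exact abs_pos.2 hτ0) (abs_le.2 ⟨hτ.1.le, hτ.2.le⟩)
      rw [this]; simp
    rw [this]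
    have h1 : Ufun 0 e = 0 := by
      unfold Ufun
      rw [if_neg]
      · simp
      · have := Real.pi_pos
        have : 0 < Real.pi * e ^ 2 := by positivity
        linarith
    rw [h1]; simp
  rcases hρ1.eq_or_lt with h | hρlt
  · -- full extent
    have he1 : e = 1 := by
      by_contra hne
      have hlt : e < 1 := lt_of_le_of_ne hee hne
      have h3 : (e / 2 + 1 / 2) / 2 < 1 / 2 := by linarith
      have h4 : |(e / 2 + 1 / 2) / 2| = (e / 2 + 1 / 2) / 2 := abs_of_pos (by linarith)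
      have h1 := hin ((e / 2 + 1 / 2) / 2) (by rw [h4, h]; exact h3)
      have h2 := hext ((e / 2 + 1 / 2) / 2) (by rw [h4]; linarith) (by rw [h4]; exact h3)
      linarith
    subst he1
    have key : ∀ ε : ℝ, 0 < ε → 2 * (s + Real.pi / 4) ≤ (periodicPerimeter S).toReal + 2 * ε := by
      intro ε hε
      have h1 := bound_full hij hS hper hP hdi hnt (fun τ hτ => hin τ (by rw [h]; exact hτ))
        (hz ε hε) (le_refl (1/2 : ℝ))
      rw [integral_sqrt_disc (by norm_num : (0:ℝ) < 1/2), ← hs] at h1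
      have : 1 / (1 / 2 : ℝ) = 2 := by norm_num
      rw [this] at h1
      linarith
    have h2 : 2 * (s + Real.pi / 4) ≤ (periodicPerimeter S).toReal := by
      refine le_of_forall_pos_le_add fun ε hε => ?_
      have := key (ε / 2) (half_pos hε)
      linarith
    have h3 := Ufun_le hs0 (zero_lt_one) (le_refl (1:ℝ))
    have h4 : s / 1 + Real.pi * 1 / 4 = s + Real.pi / 4 := by ring
    rw [h4] at h3
    linarith
  · have hρe : 2 * ρ ≤ e := by
      by_contra hc
      push Not at hc
      have h4 : |(e / 2 + ρ) / 2| = (e / 2 + ρ) / 2 := abs_of_pos (by linarith)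
      have h1 := hin ((e / 2 + ρ) / 2) (by rw [h4]; linarith)
      have h2 := hext ((e / 2 + ρ) / 2) (by rw [h4]; linarith) (by rw [h4]; linarith)
      linarith
    have h1 := bound_extent hij hS hper hP hρpos hρlt le_rfl (fun τ h3 h4 =>
      ⟨(hin τ h4).ne', (hnt τ h3 (h4.trans hρlt)).ne⟩) (fun τ h3 h4 => hout τ h3 h4.le)
    rw [integral_sqrt_disc hρpos, ← hs] at h1
    have h2 := Ufun_le hs0 (by linarith : 0 < 2 * ρ) hρe
    have h3 : s / (2 * ρ) + Real.pi * (2 * ρ) / 4 = (1 / ρ * s + 2 * (Real.pi * ρ / 2)) / 2 := by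
      field_simp; ring
    rw [h3] at h2
    linarith

/-- **type 1 bound** -/
theorem type1_bound (hij : i ≠ j)
    (hS : MeasurableSet S) (hper : IsLatticePeriodic S) (hP : periodicPerimeter S ≠ ⊤)
    (hdi : SymDecAt i S)
    (hnt : ∀ τ : ℝ, 0 < |τ| → |τ| < 1 / 2 → gf i j S τ < 1)
    (hpos : ∀ τ : ℝ, |τ| < 1 / 2 → 0 < gf i j S τ)
    {q : ℝ} (hq : ∀ q' : ℝ, q < q' → ∃ t : ℝ, 0 ≤ t ∧ t < 1 / 2 ∧ gf i j S t ≤ q')
    {R : ℝ} (hR : 1 ≤ R) :
    2 * (Ifun R + (periodicVolume S - q) / R) ≤ (periodicPerimeter S).toReal := by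
  have hR0 : 0 < R := by linarith
  refine le_of_forall_pos_le_add fun ε hε => ?_
  have h1 := bound_full hij hS hper hP hdi hnt hpos (hq (q + ε * R / 2) (by
    have : 0 < ε * R / 2 := by positivity
    linarith)) (by linarith : (1:ℝ) / 2 ≤ R / 2)
  rw [integral_sqrt_half] at h1
  have h2 : 1 / (R / 2) * (periodicVolume S - (q + ε * R / 2))
      = 2 * ((periodicVolume S - q) / R) - ε := by
    field_simp; ring
  rw [h2] at h1
  linarith

end plane

end Crest.Agent.R214
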