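import Mathlib
import Crest.Prelude.Def_PeriodicPerimeter
import Crest.Agent.R214.Types2
import Crest.Agent.R214.SliceDefs

-- ▼ part R214/Types3
section

/-!
# R214: sharp lower bounds for the perimeter of symmetric decreasing plane periodic sets, III:
type 2 sets through the complement, and the summary in terms of arms
-/

open MeasureTheory Crest.GeometryTopology.PeriodicPerimeter Filter Topology
open scoped Pointwise ContDiff

namespace Crest.Agent.R214

/-- the complement translated by the half diagonal -/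
def dualSet {n : ℕ} (S : Set (EuclideanSpace ℝ (Fin n))) : Set (EuclideanSpace ℝ (Fin n)) :=
  {x | x + WithLp.toLp 2 (fun _ => (1/2 : ℝ)) ∉ S}

theorem dualSet_eq_image {n : ℕ} (S : Set (EuclideanSpace ℝ (Fin n))) :
    dualSet S = (fun x => x + WithLp.toLp 2 (fun _ => -(1/2 : ℝ))) '' Sᶜ := by
  ext x
  constructor
  · intro hx
    refine ⟨x + WithLp.toLp 2 (fun _ => (1/2 : ℝ)), hx, ?_⟩
    ext k; simp
  · rintro ⟨y, hy, rfl⟩
    show y + WithLp.toLp 2 (fun _ => -(1/2 : ℝ)) + WithLp.toLp 2 (fun _ => (1/2 : ℝ)) ∉ S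
    have : y + WithLp.toLp 2 (fun _ => -(1/2 : ℝ)) + WithLp.toLp 2 (fun _ => (1/2 : ℝ)) = y := by
      ext k; simp
    rwa [this]

variable {n : ℕ} {S : Set (EuclideanSpace ℝ (Fin n))}

theorem measurableSet_dualSet (hS : MeasurableSet S) : MeasurableSet (dualSet S) :=
  (measurable_add_const _ hS).compl

theorem dualSet_periodic (hper : IsLatticePeriodic S) : IsLatticePeriodic (dualSet S) := by
  intro v hv x
  show x + v + _ ∉ S ↔ x + _ ∉ S
  rw [show x + v + WithLp.toLp 2 (fun _ => (1/2 : ℝ))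
    = (x + WithLp.toLp 2 (fun _ => (1/2 : ℝ))) + v by abel, hper v hv]

theorem periodicPerimeter_dualSet (hS : MeasurableSet S) (hper : IsLatticePeriodic S) :
    periodicPerimeter (dualSet S) = periodicPerimeter S := by
  rw [dualSet_eq_image, Inv.cubic_periodicPerimeter_image (Inv.isCubicIsometry_add _) hS.compl
    (Inv.periodic_compl hper), Inv.periodicPerimeter_compl hS]

theorem periodicVolume_dualSet (hS : MeasurableSet S) (hper : IsLatticePeriodic S) :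
    periodicVolume (dualSet S) = 1 - periodicVolume S := by
  rw [dualSet_eq_image, Inv.cubic_periodicVolume_image (Inv.isCubicIsometry_add _) hS.compl
    (Inv.periodic_compl hper), Inv.periodicVolume_compl hS]

theorem abs_cr_neg (t : ℝ) : |cr (-t)| = |cr t| := by
  unfold cr
  rcases abs_cr_le t with h
  by_cases h1 : t - round t = -(1/2)
  · -- boundary case
    have h2 : ((round t : ℤ) : ℝ) = t + 1/2 := by linarith
    have h3 : round (-t) = -(round t) + 1 := by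
      rw [round_eq, Int.floor_eq_iff]
      push_cast
      rw [h2]
      constructor <;> linarith
    rw [h3]; push_cast; rw [h2]
    ring_nf
  · have h4 := abs_sub_round t
    rw [abs_le] at h4
    have h5 : -(1/2) < t - round t := lt_of_le_of_ne h4.1 (Ne.symm h1)
    by_cases h6 : t - round t = 1/2
    · exfalso
      have h7 : round t = round t + 1 := by
        conv_lhs => rw [round_eq, Int.floor_eq_iff.2 (show ((round t + 1 : ℤ) : ℝ) ≤ t + 1/2 ∧
          t + 1/2 < ((round t + 1 : ℤ) : ℝ) + 1 by push_cast; constructor <;> linarith)]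
      omega
    have h8 : t - round t < 1/2 := lt_of_le_of_ne h4.2 h6
    have h3 : round (-t) = -(round t) := by
      rw [round_eq, Int.floor_eq_iff]
      push_cast
      constructor <;> linarith
    rw [h3]; push_cast
    rw [← abs_neg]; ring_nf

theorem abs_cr_add_half (t : ℝ) : |cr (t + 1/2)| = 1/2 - |cr t| := by
  have h1 : t = cr t + ((round t : ℤ) : ℝ) := by unfold cr; ring
  have h2 : cr (t + 1/2) = cr (cr t + 1/2) := by
    conv_lhs => rw [h1]
    rw [show cr t + ((round t : ℤ) : ℝ) + 1/2 = (cr t + 1/2) + ((round t : ℤ) : ℝ) by ring,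
      cr_add_int]
  rw [h2]
  have h3 := abs_cr_le t
  rw [abs_le] at h3
  rcases lt_or_ge (cr t) 0 with h | h
  · rw [cr_of_mem ⟨by linarith, by linarith⟩, abs_of_neg h, abs_of_nonneg (by linarith)]
    ring
  · have h4 : cr (cr t + 1/2) = cr (cr t - 1/2) := by
      rw [← cr_add_one (cr t - 1/2)]; congr 1; ring
    rw [h4, cr_of_mem ⟨by linarith, ?_⟩, abs_of_nonneg h]
    · rcases eq_or_lt_of_le h3.2 with h5 | h5
      · rw [h5]; norm_num
      · rw [abs_of_neg (by linarith)]; ring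
    · linarith

theorem symDecAt_dualSet {j : Fin n} (hd : SymDecAt j S) : SymDecAt j (dualSet S) := by
  intro x hx y hk hj
  intro hy
  apply hx
  refine hd _ hy _ ?_ ?_
  · intro k hkj
    simp [hk k hkj]
  · have e1 : ∀ z : EuclideanSpace ℝ (Fin n),
        (z + (WithLp.toLp 2 (fun _ => (1/2 : ℝ)) : EuclideanSpace ℝ (Fin n))) j = z j + 1/2 := by
      intro z; simp
    rw [e1, e1]
    change |cr (x j + 1/2)| ≤ |cr (y j + 1/2)|
    change |cr (y j)| ≤ |cr (x j)| at hj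
    rw [abs_cr_add_half, abs_cr_add_half]
    linarith

theorem flen_dualSet (hS : MeasurableSet S) (j : Fin n) (x : EuclideanSpace ℝ (Fin n)) :
    flen j (dualSet S) x = 1 - flen j S (x + WithLp.toLp 2 (fun _ => (1/2 : ℝ))) := by
  unfold flen
  have e1 : ∀ t : ℝ, chi (dualSet S) (x + t • ev j)
      = 1 - chi S (x + WithLp.toLp 2 (fun _ => (1/2 : ℝ)) + t • ev j) := by
    intro t
    have : (x + t • ev j ∈ dualSet S) ↔ ¬ (x + WithLp.toLp 2 (fun _ => (1/2 : ℝ)) + t • ev j ∈ S) := by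
      show x + t • ev j + WithLp.toLp 2 (fun _ => (1/2 : ℝ)) ∉ S ↔ _
      rw [show x + t • ev j + WithLp.toLp 2 (fun _ => (1/2 : ℝ))
        = x + WithLp.toLp 2 (fun _ => (1/2 : ℝ)) + t • ev j by abel]
    unfold chi
    by_cases h : x + WithLp.toLp 2 (fun _ => (1/2 : ℝ)) + t • ev j ∈ S
    · rw [Set.indicator_of_notMem (by rw [this]; simpa using h), Set.indicator_of_mem h]; norm_num
    · rw [Set.indicator_of_mem (by rw [this]; exact h), Set.indicator_of_notMem h]; norm_num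
  simp_rw [e1]
  rw [intervalIntegral.integral_sub _root_.intervalIntegrable_const
    (chi_fiber_intervalIntegrable hS _ _ _ _)]
  simp

section plane

variable {i j : Fin 2} {S : Set (EuclideanSpace ℝ (Fin 2))}

theorem gf_dualSet (hij : i ≠ j) (hS : MeasurableSet S) (hper : IsLatticePeriodic S) (τ : ℝ) :
    gf i j (dualSet S) τ = 1 - gf i j S (τ + 1/2) := by
  unfold gf
  rw [flen_dualSet hS]
  congr 1
  refine (flen_inv j hS hper).congr ?_
  intro k hk
  have : k = i := by omega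
  subst this
  simp

theorem gf_per (hS : MeasurableSet S) (hper : IsLatticePeriodic S) (τ : ℝ) :
    gf i j S (cr τ) = gf i j S τ := by
  unfold gf cr
  have h := (flen_bmp j hS hper).per (((round τ : ℤ) : ℝ) • ev i)
    (hasIntegerCoords_int_smul_ev i _) ((τ - ((round τ : ℤ) : ℝ)) • ev i)
  rw [← h, ← add_smul]
  congr 2
  ring

/-- **type 2 bound**: `S` has arms in both directions, and the far trace in direction `i` is
at least `q` -/
theorem type2_bound (hij : i ≠ j)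
    (hS : MeasurableSet S) (hper : IsLatticePeriodic S) (hP : periodicPerimeter S ≠ ⊤)
    (hdi : SymDecAt i S) (hdj : SymDecAt j S)
    (hTi : Touch i j S) (hTj : Touch j i S) {q : ℝ} (hq0 : 0 ≤ q)
    (hq : ∀ h : ℝ, 0 < h → h < q / 2 → Arm i j S h) :
    2 * Ufun (1 - periodicVolume S) (1 - q) ≤ (periodicPerimeter S).toReal := by
  have hji : j ≠ i := hij.symm
  have hV : periodicVolume (dualSet S) = 1 - periodicVolume S := periodicVolume_dualSet hS hper
  have hPer : periodicPerimeter (dualSet S) = periodicPerimeter S := periodicPerimeter_dualSet hS hper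
  have hS' := measurableSet_dualSet hS
  have hper' := dualSet_periodic hper
  obtain ⟨hi, hi0, hi1, hAi⟩ := hTi
  obtain ⟨hj, hj0, hj1, hAj⟩ := hTj
  -- fibre lengths of the dual set in direction `i`
  have hg : ∀ τ : ℝ, gf j i (dualSet S) τ = 1 - gf j i S (cr (τ + 1/2)) := by
    intro τ
    rw [gf_dualSet hji hS hper, gf_per hS hper]
  have hfull : ∀ h : ℝ, 0 ≤ h → h ≤ 1/2 → Arm i j S h → ∀ τ : ℝ, |τ| ≤ h → gf j i S τ = 1 := by
    intro h h0 h1 hA τ hτ
    refine le_antisymm (gf_le_one hS _) ?_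
    refine le_trans ?_ (gf_anti hS hji hdj (τ := τ) (τ' := h) (by rwa [abs_of_nonneg h0])
      (by rwa [abs_of_nonneg h0]))
    refine le_of_forall_pos_le_add fun ε hε => ?_
    have h3 : 2 * (max 0 (1/2 - ε/2)) ≤ gf j i S h := by
      unfold gf
      refine le_flen_of_mem hS hper hdi (le_max_left _ _) ?_ ?_
      · refine max_le (by norm_num) (by linarith)
      · rw [pr_smul_ev hji, add_comm]
        exact hA _ (le_max_left _ _) (max_lt (by norm_num) (by linarith))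
    have h4 := le_max_right 0 (1/2 - ε/2)
    linarith
  by_cases hq1 : 1 ≤ q
  · -- `S` is (almost) everything
    have hs1 : periodicVolume S = 1 := by
      rw [← integral_gf hji hS hper]
      rw [intervalIntegral.integral_of_le (by norm_num), integral_Ioc_eq_integral_Ioo]
      have : ∫ t in Set.Ioo (-(1/2) : ℝ) (1/2), gf j i S t
          = ∫ t in Set.Ioo (-(1/2) : ℝ) (1/2), (1:ℝ) := by
        refine setIntegral_congr_ae measurableSet_Ioo ?_
        have h0 : ∀ᵐ τ : ℝ, τ ≠ 0 := by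
          rw [ae_iff]; simp
        filter_upwards [h0] with τ hτ0 hτ
        have hτlt : |τ| < 1 / 2 := abs_lt.2 ⟨hτ.1, hτ.2⟩
        exact hfull |τ| (abs_nonneg _) hτlt.le (hq _ (abs_pos.2 hτ0) (by linarith)) τ le_rfl
      rw [this]
      simp
      norm_num
    rw [hs1]
    unfold Ufun
    have hpi := Real.pi_pos
    rcases hq1.eq_or_lt with h | h
    · rw [← h]; simp
    · rw [if_neg]
      · simp
      · have : 0 < (1 - q) ^ 2 := by
          have : 1 - q ≠ 0 := by linarith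
          positivity
        push Not
        have := mul_pos hpi this
        linarith
  push Not at hq1
  rw [← hV, ← hPer]
  refine type0_bound hji hS' hper' (by rw [hPer]; exact hP) (symDecAt_dualSet hdj) ?_ ?_
    (by linarith) (by linarith) ?_
  · -- no full fibre
    intro τ hτ0 hτ
    rw [hg]
    have h1 : |cr (τ + 1/2)| < 1/2 := by
      rw [abs_cr_add_half, abs_cr_of_le hτ.le]; linarith
    have h2 := le_gf_of_arm hji hS hper hdj hdi hj0.le hj1 hAj h1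
    linarith
  · -- zero trace
    intro ε hε
    refine ⟨max 0 (1/2 - hi), le_max_left _ _, max_lt (by norm_num) (by linarith), ?_⟩
    have h0 : max 0 (1/2 - hi) = 1/2 - hi := max_eq_right (by linarith)
    rw [h0, hg]
    rw [hfull hi hi0.le hi1 hAi]
    · linarith
    · rw [abs_cr_add_half, abs_cr_of_le, abs_of_nonneg (by linarith : 0 ≤ 1/2 - hi)]
      · linarith
      · rw [abs_of_nonneg (by linarith : 0 ≤ 1/2 - hi)]; linarith
  · intro τ hτ0 hτ
    rw [hg]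
    have h1 : |cr (τ + 1/2)| = 1/2 - |τ| := by
      rw [abs_cr_add_half, abs_cr_of_le hτ.le]
    have h2 := hfull |cr (τ + 1/2)| (abs_nonneg _) (by rw [h1]; linarith [abs_nonneg τ]) (hq _ (by rw [h1]; linarith)
      (by rw [h1]; linarith)) (cr (τ + 1/2)) le_rfl
    rw [h2]; ring

end plane

end Crest.Agent.R214
end

-- ▼ part R214/Arms
section

set_option autoImplicit false

/-! Row 214: the combinatorics of the three arms of a symmetric decreasing set. -/

namespace Crest.Agent.R214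

/-- `A` is antitone on the positive quadrant -/
def Anti2 (A : ℝ → ℝ → Prop) : Prop :=
  ∀ p q p' q' : ℝ, 0 < p' → p' ≤ p → 0 < q' → q' ≤ q → A p q → A p' q'

/-- Arms lemma. `AX y z`, `AY x z`, `AZ x y`. -/
theorem arms_cases {AX AY AZ : ℝ → ℝ → Prop} (hX : Anti2 AX) (hY : Anti2 AY) (hZ : Anti2 AZ)
    {h : ℝ} (hh : 0 < h) :
    ((∃ y, 0 < y ∧ AX y h) ∧ (∃ x, 0 < x ∧ AY x h)) ∨
    ((∃ z, 0 < z ∧ AX h z) ∧ (∃ x, 0 < x ∧ AZ x h)) ∨
    ((∃ z, 0 < z ∧ AY h z) ∧ (∃ y, 0 < y ∧ AZ h y)) ∨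
    (∀ z, 0 < z → ((∃ y, 0 < y ∧ AX y z) → ¬ (∃ x, 0 < x ∧ AY x z) → ¬ AX h z) ∧
      ((∃ x, 0 < x ∧ AY x z) → ¬ (∃ y, 0 < y ∧ AX y z) → ¬ AY h z)) ∨
    (∀ y, 0 < y → ((∃ z, 0 < z ∧ AX y z) → ¬ (∃ x, 0 < x ∧ AZ x y) → ¬ AX y h) ∧
      ((∃ x, 0 < x ∧ AZ x y) → ¬ (∃ z, 0 < z ∧ AX y z) → ¬ AZ h y)) ∨
    (∀ x, 0 < x → ((∃ z, 0 < z ∧ AY x z) → ¬ (∃ y, 0 < y ∧ AZ x y) → ¬ AY x h) ∧
      ((∃ y, 0 < y ∧ AZ x y) → ¬ (∃ z, 0 < z ∧ AY x z) → ¬ AZ x h)) := by
  by_cases a : ((∃ y, 0 < y ∧ AX y h) ∧ (∃ x, 0 < x ∧ AY x h))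
  · exact Or.inl a
  by_cases b : ((∃ z, 0 < z ∧ AX h z) ∧ (∃ x, 0 < x ∧ AZ x h))
  · exact Or.inr (Or.inl b)
  by_cases c : ((∃ z, 0 < z ∧ AY h z) ∧ (∃ y, 0 < y ∧ AZ h y))
  · exact Or.inr (Or.inr (Or.inl c))
  refine Or.inr (Or.inr (Or.inr ?_))
  -- helper monotonicity facts
  have mX1 : ∀ {y z z' : ℝ}, 0 < y → 0 < z' → z' ≤ z → AX y z → AX y z' :=
    fun hy h1 h2 h3 => hX _ _ _ _ hy le_rfl h1 h2 h3
  have mX2 : ∀ {y y' z : ℝ}, 0 < z → 0 < y' → y' ≤ y → AX y z → AX y' z :=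
    fun hz h1 h2 h3 => hX _ _ _ _ h1 h2 hz le_rfl h3
  have mY1 : ∀ {y z z' : ℝ}, 0 < y → 0 < z' → z' ≤ z → AY y z → AY y z' :=
    fun hy h1 h2 h3 => hY _ _ _ _ hy le_rfl h1 h2 h3
  have mY2 : ∀ {y y' z : ℝ}, 0 < z → 0 < y' → y' ≤ y → AY y z → AY y' z :=
    fun hz h1 h2 h3 => hY _ _ _ _ h1 h2 hz le_rfl h3
  have mZ1 : ∀ {y z z' : ℝ}, 0 < y → 0 < z' → z' ≤ z → AZ y z → AZ y z' :=
    fun hy h1 h2 h3 => hZ _ _ _ _ hy le_rfl h1 h2 h3
  have mZ2 : ∀ {y y' z : ℝ}, 0 < z → 0 < y' → y' ≤ y → AZ y z → AZ y' z :=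
    fun hz h1 h2 h3 => hZ _ _ _ _ h1 h2 hz le_rfl h3
  by_cases XZ : ∃ y, 0 < y ∧ AX y h
  · have nYZ : ¬ ∃ x, 0 < x ∧ AY x h := fun q => a ⟨XZ, q⟩
    by_cases XY : ∃ z, 0 < z ∧ AX h z
    · have nZY : ¬ ∃ x, 0 < x ∧ AZ x h := fun q => b ⟨XY, q⟩
      exact Or.inr (Or.inr fun x hx => ⟨fun _ _ q => nYZ ⟨x, hx, q⟩, fun _ _ q => nZY ⟨x, hx, q⟩⟩)
    · refine Or.inl fun z hz => ⟨fun _ _ q => XY ⟨z, hz, q⟩, ?_⟩
      rintro ⟨x, hx, hxz⟩ hn _
      obtain ⟨y, hy, hyh⟩ := XZ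
      by_cases hzh : z ≤ h
      · exact hn ⟨y, hy, mX1 hy hz hzh hyh⟩
      · exact nYZ ⟨x, hx, mY1 hx hh (not_le.1 hzh).le hxz⟩
  by_cases XY : ∃ z, 0 < z ∧ AX h z
  · -- X-arm fat in y only: direction y
    have nZY : ¬ ∃ x, 0 < x ∧ AZ x h := fun q => b ⟨XY, q⟩
    refine Or.inr (Or.inl fun y hy => ⟨fun _ _ q => XZ ⟨y, hy, q⟩, ?_⟩)
    rintro ⟨x, hx, hxy⟩ hn _
    obtain ⟨z, hz, hhz⟩ := XY
    by_cases hyh : y ≤ h
    · exact hn ⟨z, hz, mX2 hz hy hyh hhz⟩
    · exact nZY ⟨x, hx, mZ1 hx hh (not_le.1 hyh).le hxy⟩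
  -- X-arm not fat
  by_cases YX : ∃ z, 0 < z ∧ AY h z
  · have nZX : ¬ ∃ y, 0 < y ∧ AZ h y := fun q => c ⟨YX, q⟩
    by_cases YZ : ∃ x, 0 < x ∧ AY x h
    · -- direction y
      exact Or.inr (Or.inl fun y hy => ⟨fun _ _ q => XZ ⟨y, hy, q⟩, fun _ _ q => nZX ⟨y, hy, q⟩⟩)
    · -- Y-arm fat in x only : direction x
      refine Or.inr (Or.inr fun x hx => ⟨fun _ _ q => YZ ⟨x, hx, q⟩, ?_⟩)
      rintro ⟨y, hy, hxy⟩ hn _
      obtain ⟨z, hz, hhz⟩ := YX
      by_cases hxh : x ≤ h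
      · exact hn ⟨z, hz, mY2 hz hx hxh hhz⟩
      · exact nZX ⟨y, hy, mZ2 hy hh (not_le.1 hxh).le hxy⟩
  by_cases YZ : ∃ x, 0 < x ∧ AY x h
  · -- Y fat in z only : direction z
    refine Or.inl fun z hz => ⟨?_, fun _ _ q => YX ⟨z, hz, q⟩⟩
    rintro ⟨y, hy, hyz⟩ hn _
    obtain ⟨x, hx, hxh⟩ := YZ
    by_cases hzh : z ≤ h
    · exact hn ⟨x, hx, mY1 hx hz hzh hxh⟩
    · exact XZ ⟨y, hy, mX1 hy hh (not_le.1 hzh).le hyz⟩
  -- Y-arm not fat
  -- direction z is good
  exact Or.inl fun z hz => ⟨fun _ _ q => XY ⟨z, hz, q⟩, fun _ _ q => YX ⟨z, hz, q⟩⟩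

end Crest.Agent.R214
end

-- ▼ part R214/SliceTypes
section

/-!
# R214: types of the plane slices of a symmetric decreasing set in space, and the resulting lower
bounds for the perimeters of the slices
-/

open MeasureTheory Crest.GeometryTopology.PeriodicPerimeter Filter Topology
open scoped Pointwise ContDiff

namespace Crest.Agent.R214

open Slice

/-! ### the function `T` -/

theorem Ifun_le_one (R : ℝ) : Ifun R ≤ 1 := by
  unfold Ifun
  have hsc : Continuous fun τ : ℝ => Real.sqrt (1 - (τ / R) ^ 2) :=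
    Real.continuous_sqrt.comp (by fun_prop)
  calc ∫ x in (0:ℝ)..1, Real.sqrt (1 - (x / R) ^ 2) ≤ ∫ _x in (0:ℝ)..1, (1:ℝ) := by
        refine intervalIntegral.integral_mono_on zero_le_one (hsc.intervalIntegrable _ _)
          _root_.intervalIntegrable_const ?_
        intro x _
        rw [Real.sqrt_le_one]
        nlinarith [sq_nonneg (x / R)]
    _ = 1 := by simp

/-- `T(d) = sup_{R ≥ 1} (I(R) + d / R)` -/
noncomputable def Tfun (d : ℝ) : ℝ := ⨆ R : Set.Ici (1:ℝ), (Ifun R + d / R)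

theorem bddAbove_T (d : ℝ) : BddAbove (Set.range fun R : Set.Ici (1:ℝ) => (Ifun R + d / R)) := by
  refine ⟨1 + |d|, ?_⟩
  rintro _ ⟨R, rfl⟩
  have hR : (1:ℝ) ≤ R := R.2
  have h1 := Ifun_le_one R
  have h2 : d / (R : ℝ) ≤ |d| := by
    rw [div_le_iff₀ (by linarith)]
    nlinarith [le_abs_self d, abs_nonneg d]
  simp only
  linarith

theorem le_Tfun {R : ℝ} (hR : 1 ≤ R) (d : ℝ) : Ifun R + d / R ≤ Tfun d :=
  le_ciSup (bddAbove_T d) (⟨R, hR⟩ : Set.Ici (1:ℝ))

theorem Tfun_le {d c : ℝ} (h : ∀ R : ℝ, 1 ≤ R → Ifun R + d / R ≤ c) : Tfun d ≤ c :=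
  ciSup_le fun R => h R R.2

theorem Tfun_mono {d d' : ℝ} (h : d ≤ d') : Tfun d ≤ Tfun d' :=
  Tfun_le fun R hR => le_trans (by
    have : 0 < R := by linarith
    gcongr) (le_Tfun hR d')

/-! ### plane sets by type -/

section plane

variable {i j : Fin 2} {S : Set (EuclideanSpace ℝ (Fin 2))}

theorem arm_mono (hij : i ≠ j) (hd : SymDecAt j S) {h h' : ℝ} (h0 : 0 ≤ h') (hh : h' ≤ h)
    (h1 : h ≤ 1 / 2) (hA : Arm i j S h) : Arm i j S h' := by
  intro t ht0 ht1
  refine hd _ (hA t ht0 ht1) _ ?_ ?_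
  · intro k hk
    simp [hk]
  · have e : ∀ u : ℝ, (t • ev i + u • ev j : EuclideanSpace ℝ (Fin 2)) j = u := by
      intro u; simp [hij.symm]
    rw [e, e]
    change |cr h'| ≤ |cr h|
    rw [abs_cr_of_le (by rw [abs_of_nonneg h0]; linarith), abs_cr_of_le
      (by rw [abs_of_nonneg (h0.trans hh)]; linarith), abs_of_nonneg h0,
      abs_of_nonneg (h0.trans hh)]
    exact hh

theorem ofReal_le_of_imp {P : ENNReal} {x : ℝ} (h : P ≠ ⊤ → x ≤ P.toReal) :
    ENNReal.ofReal x ≤ P := by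
  by_cases hP : P = ⊤
  · rw [hP]; exact le_top
  · exact ENNReal.ofReal_le_of_le_toReal (h hP)

/-- type 0 -/
theorem planar_type0 (hij : i ≠ j) (hS : MeasurableSet S) (hper : IsLatticePeriodic S)
    (hdi : SymDecAt i S) (hdj : SymDecAt j S) (h1 : ¬ Touch i j S) (h2 : ¬ Touch j i S) :
    ENNReal.ofReal (2 * Real.sqrt (Real.pi * periodicVolume S)) ≤ periodicPerimeter S := by
  refine ofReal_le_of_imp fun hP => ?_
  have h := type0_bound hij hS hper hP hdi
    (fun τ hτ0 hτ => gf_lt_one_of_not_touch hij hS hper hdi hdj h2 hτ0 hτ.le) (e := 1) ?_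
    one_pos le_rfl (fun τ h3 h4 => absurd h3 (not_lt.2 h4.le))
  · have h3 := sqrt_le_Ufun (Inv.periodicVolume_nonneg S) (one_pos (α := ℝ))
    linarith
  · intro ε hε
    have h3 : 0 < min (ε / 2) (1 / 2) := lt_min (half_pos hε) (by norm_num)
    obtain ⟨t, ht0, ht1, ht⟩ := exists_gf_le_of_not_arm hij hS hper hdj h3.le (min_le_right _ _)
      (fun hA => h1 ⟨_, h3, min_le_right _ _, hA⟩)
    refine ⟨t, ht0, ht1, ht.trans ?_⟩
    have := min_le_left (ε / 2) (1 / 2)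
    linarith


/-- type 1 -/
theorem planar_type1 (hij : i ≠ j) (hS : MeasurableSet S) (hper : IsLatticePeriodic S)
    (hdi : SymDecAt i S) (hdj : SymDecAt j S) (h1 : Touch i j S) (h2 : ¬ Touch j i S)
    {q : ℝ} (hq0 : 0 ≤ q) (hq : ∀ h : ℝ, q < 2 * h → h ≤ 1 / 2 → ¬ Arm i j S h) :
    ENNReal.ofReal (2 * max 1 (Tfun (periodicVolume S - q))) ≤ periodicPerimeter S := by
  refine ofReal_le_of_imp fun hP => ?_
  obtain ⟨h, h0, h12, hA⟩ := h1
  have hnt : ∀ τ : ℝ, 0 < |τ| → |τ| < 1 / 2 → gf i j S τ < 1 := fun τ hτ0 hτ =>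
    gf_lt_one_of_not_touch hij hS hper hdi hdj h2 hτ0 hτ.le
  have hpos : ∀ τ : ℝ, |τ| < 1 / 2 → 0 < gf i j S τ := fun τ hτ => by
    have := le_gf_of_arm hij hS hper hdi hdj h0.le h12 hA hτ
    linarith
  have hb : max 1 (Tfun (periodicVolume S - q)) ≤ (periodicPerimeter S).toReal / 2 := by
    refine max_le ?_ (Tfun_le fun R hR => ?_)
    · have := two_le_of_full hij hS hper hP hnt hpos
      linarith
    · have := type1_bound hij hS hper hP hdi hnt hpos (q := q) ?_ hR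
      · linarith
      · intro q' hq'
        by_cases hq1 : 1 < q'
        · exact ⟨0, le_rfl, by norm_num, (gf_le_one hS _).trans hq1.le⟩
        · push Not at hq1
          obtain ⟨t, ht0, ht1, ht⟩ := exists_gf_le_of_not_arm hij hS hper hdj
            (by linarith : 0 ≤ q' / 2) (by linarith) (hq (q' / 2) (by linarith) (by linarith))
          exact ⟨t, ht0, ht1, by linarith⟩
  linarith

/-- type 2 -/
theorem planar_type2 (hij : i ≠ j) (hS : MeasurableSet S) (hper : IsLatticePeriodic S)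
    (hdi : SymDecAt i S) (hdj : SymDecAt j S) (h1 : Touch i j S) (h2 : Touch j i S)
    {q : ℝ} (hq0 : 0 ≤ q) (hq : ∀ h : ℝ, 0 < h → h < q / 2 → Arm i j S h) :
    ENNReal.ofReal (2 * Ufun (1 - periodicVolume S) (1 - q)) ≤ periodicPerimeter S :=
  ofReal_le_of_imp fun hP => type2_bound hij hS hper hP hdi hdj h1 h2 hq0 hq

theorem planar_type2_sqrt (hij : i ≠ j) (hS : MeasurableSet S) (hper : IsLatticePeriodic S)
    (hdi : SymDecAt i S) (hdj : SymDecAt j S) (h1 : Touch i j S) (h2 : Touch j i S) :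
    ENNReal.ofReal (2 * Real.sqrt (Real.pi * (1 - periodicVolume S))) ≤ periodicPerimeter S := by
  refine le_trans (ENNReal.ofReal_le_ofReal ?_) (planar_type2 hij hS hper hdi hdj h1 h2 le_rfl
    (fun h h3 h4 => absurd h4 (by linarith)))
  have := sqrt_le_Ufun (s := 1 - periodicVolume S) (e := 1 - 0)
    (by linarith [Inv.periodicVolume_le_one S]) (by norm_num)
  linarith

end plane

/-! ### slices -/

section slices

variable {n : ℕ} {F : Set (En (n + 1))} {i : Fin (n + 1)}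

theorem continuous_ins (i : Fin (n + 1)) (t : ℝ) : Continuous (ins i t : En n → En (n + 1)) := by
  have h : Continuous fun y : En n => (fun k => ins i t y k) := by
    refine continuous_pi fun k => ?_
    induction k using i.succAboveCases with
    | x => simp only [ins_same]; exact continuous_const
    | p j => simp only [ins_succAbove]; fun_prop
  exact (PiLp.continuous_toLp 2 _).comp h

theorem measurableSet_sliceAt (hF : MeasurableSet F) (i : Fin (n + 1)) (t : ℝ) :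
    MeasurableSet (sliceAt i F t) := (continuous_ins i t).measurable hF

theorem sliceAt_periodic (hF : IsLatticePeriodic F) (i : Fin (n + 1)) (t : ℝ) :
    IsLatticePeriodic (sliceAt i F t) := by
  intro v hv y
  have h1 : HasIntegerCoords (ins i 0 v) := by
    intro k
    induction k using i.succAboveCases with
    | x => exact ⟨0, by simp⟩
    | p j => obtain ⟨m, hm⟩ := hv j; exact ⟨m, by simpa using hm⟩
  have h2 : ins i t (y + v) = ins i t y + ins i 0 v := by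
    ext k
    induction k using i.succAboveCases with
    | x => simp
    | p j => simp
  show ins i t (y + v) ∈ F ↔ ins i t y ∈ F
  rw [h2]
  exact hF _ h1 _

theorem sliceAt_add_one (hF : IsLatticePeriodic F) (i : Fin (n + 1)) (t : ℝ) :
    sliceAt i F (t + 1) = sliceAt i F t := by
  ext y
  have h1 : HasIntegerCoords (ins i 1 (0 : En n)) := by
    intro k
    induction k using i.succAboveCases with
    | x => exact ⟨1, by simp⟩
    | p j => exact ⟨0, by simp⟩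
  have h2 : ins i (t + 1) y = ins i t y + ins i 1 (0 : En n) := by
    ext k
    induction k using i.succAboveCases with
    | x => simp
    | p j => simp
  show ins i (t + 1) y ∈ F ↔ ins i t y ∈ F
  rw [h2]
  exact hF _ h1 _

theorem symDecAt_sliceAt {j : Fin n} (h : SymDecAt (i.succAbove j) F) (t : ℝ) :
    SymDecAt j (sliceAt i F t) := by
  intro x hx y hk hj
  refine h _ hx _ ?_ ?_
  · intro k hkj
    induction k using i.succAboveCases with
    | x => simp
    | p l =>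
      have : l ≠ j := fun e => hkj (by rw [e])
      simp [hk l this]
  · simpa using hj

theorem sliceAt_anti (h : SymDecAt i F) {t t' : ℝ} (htt : |cr t| ≤ |cr t'|) :
    sliceAt i F t' ⊆ sliceAt i F t := by
  intro y hy
  refine h _ hy _ ?_ ?_
  · intro k hki
    induction k using i.succAboveCases with
    | x => exact absurd rfl hki
    | p l => simp
  · rw [ins_same, ins_same]; exact htt

theorem sliceAt_congr (h : SymDecAt i F) {t t' : ℝ} (htt : |cr t| = |cr t'|) :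
    sliceAt i F t = sliceAt i F t' :=
  Set.Subset.antisymm (sliceAt_anti h htt.ge) (sliceAt_anti h htt.le)

end slices

/-! ### the three directions -/

section three

variable {F : Set (En 3)}

/-- both arms are present in the slice `{x_i = h}` -/
def CaseA (i : Fin 3) (F : Set (En 3)) (h : ℝ) : Prop :=
  Touch 0 1 (sliceAt i F h) ∧ Touch 1 0 (sliceAt i F h)

/-- direction `i` is good: the arm of a type 1 slice has trace at most `2 h` -/
def GoodDir (i : Fin 3) (F : Set (En 3)) (h : ℝ) : Prop :=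
  ∀ t : ℝ, 0 < t → t < 1 / 2 →
    (Touch 0 1 (sliceAt i F t) → ¬ Touch 1 0 (sliceAt i F t) → ¬ Arm 0 1 (sliceAt i F t) h) ∧
    (Touch 1 0 (sliceAt i F t) → ¬ Touch 0 1 (sliceAt i F t) → ¬ Arm 1 0 (sliceAt i F t) h)

/-- the point with coordinates `x`, `y`, `z` -/
noncomputable def pt (x y z : ℝ) : En 3 := WithLp.toLp 2 ![x, y, z]

theorem comb_zero (u v : ℝ) : (u • ev 0 + v • ev 1 : En 2) 0 = u := by simp

theorem comb_one (u v : ℝ) : (u • ev 0 + v • ev 1 : En 2) 1 = v := by simp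

theorem ins_two (x y z : ℝ) :
    ins (2 : Fin 3) z (x • ev 0 + y • ev 1 : En 2) = pt x y z := by
  ext k
  fin_cases k
  · exact (ins_succAbove (2 : Fin 3) z (x • ev 0 + y • ev 1 : En 2) 0).trans (comb_zero x y)
  · exact (ins_succAbove (2 : Fin 3) z (x • ev 0 + y • ev 1 : En 2) 1).trans (comb_one x y)
  · exact ins_same (2 : Fin 3) z (x • ev 0 + y • ev 1 : En 2)

theorem ins_one (x y z : ℝ) :
    ins (1 : Fin 3) y (x • ev 0 + z • ev 1 : En 2) = pt x y z := by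
  ext k
  fin_cases k
  · exact (ins_succAbove (1 : Fin 3) y (x • ev 0 + z • ev 1 : En 2) 0).trans (comb_zero x z)
  · exact ins_same (1 : Fin 3) y (x • ev 0 + z • ev 1 : En 2)
  · exact (ins_succAbove (1 : Fin 3) y (x • ev 0 + z • ev 1 : En 2) 1).trans (comb_one x z)

theorem ins_zero (x y z : ℝ) :
    ins (0 : Fin 3) x (y • ev 0 + z • ev 1 : En 2) = pt x y z := by
  ext k
  fin_cases k
  · exact ins_same (0 : Fin 3) x (y • ev 0 + z • ev 1 : En 2)
  · exact (ins_succAbove (0 : Fin 3) x (y • ev 0 + z • ev 1 : En 2) 0).trans (comb_zero y z)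
  · exact (ins_succAbove (0 : Fin 3) x (y • ev 0 + z • ev 1 : En 2) 1).trans (comb_one y z)

/-- arm in direction `x` through `(y, z)` -/
def AX (F : Set (En 3)) (y z : ℝ) : Prop :=
  y ≤ 1 / 2 ∧ z ≤ 1 / 2 ∧ ∀ t : ℝ, 0 ≤ t → t < 1 / 2 → pt t y z ∈ F

/-- arm in direction `y` through `(x, z)` -/
def AY (F : Set (En 3)) (x z : ℝ) : Prop :=
  x ≤ 1 / 2 ∧ z ≤ 1 / 2 ∧ ∀ t : ℝ, 0 ≤ t → t < 1 / 2 → pt x t z ∈ F

/-- arm in direction `z` through `(x, y)` -/
def AZ (F : Set (En 3)) (x y : ℝ) : Prop :=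
  x ≤ 1 / 2 ∧ y ≤ 1 / 2 ∧ ∀ t : ℝ, 0 ≤ t → t < 1 / 2 → pt x y t ∈ F

theorem abs_cr_le_of {u v : ℝ} (h0 : 0 ≤ u) (huv : u ≤ v) (h : v ≤ 1 / 2) : |cr u| ≤ |cr v| := by
  rw [abs_cr_of_le (by rw [abs_of_nonneg h0]; linarith), abs_cr_of_le
    (by rw [abs_of_nonneg (h0.trans huv)]; exact h), abs_of_nonneg h0,
    abs_of_nonneg (h0.trans huv)]
  exact huv

theorem pt_mem_anti (hd : ∀ j, SymDecAt j F) {x y z x' y' z' : ℝ} (hx : |cr x'| ≤ |cr x|)
    (hy : |cr y'| ≤ |cr y|) (hz : |cr z'| ≤ |cr z|) (h : pt x y z ∈ F) : pt x' y' z' ∈ F := by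
  have h1 : pt x' y z ∈ F := by
    refine hd 0 _ h _ ?_ ?_
    · intro k hk; fin_cases k
      · exact absurd rfl hk
      · simp [pt]
      · simp [pt]
    · exact hx
  have h2 : pt x' y' z ∈ F := by
    refine hd 1 _ h1 _ ?_ ?_
    · intro k hk; fin_cases k
      · simp [pt]
      · exact absurd rfl hk
      · simp [pt]
    · exact hy
  refine hd 2 _ h2 _ ?_ ?_
  · intro k hk; fin_cases k
    · simp [pt]
    · simp [pt]
    · exact absurd rfl hk
  · exact hz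

theorem anti_AX (hd : ∀ j, SymDecAt j F) : Anti2 (AX F) := by
  intro p q p' q' hp' hpp hq' hqq h
  exact ⟨hpp.trans h.1, hqq.trans h.2.1, fun t ht0 ht1 => pt_mem_anti hd le_rfl
    (abs_cr_le_of hp'.le hpp h.1) (abs_cr_le_of hq'.le hqq h.2.1) (h.2.2 t ht0 ht1)⟩

theorem anti_AY (hd : ∀ j, SymDecAt j F) : Anti2 (AY F) := by
  intro p q p' q' hp' hpp hq' hqq h
  exact ⟨hpp.trans h.1, hqq.trans h.2.1, fun t ht0 ht1 => pt_mem_anti hd
    (abs_cr_le_of hp'.le hpp h.1) le_rfl (abs_cr_le_of hq'.le hqq h.2.1) (h.2.2 t ht0 ht1)⟩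

theorem anti_AZ (hd : ∀ j, SymDecAt j F) : Anti2 (AZ F) := by
  intro p q p' q' hp' hpp hq' hqq h
  exact ⟨hpp.trans h.1, hqq.trans h.2.1, fun t ht0 ht1 => pt_mem_anti hd
    (abs_cr_le_of hp'.le hpp h.1) (abs_cr_le_of hq'.le hqq h.2.1) le_rfl (h.2.2 t ht0 ht1)⟩

theorem arm01_two {y z : ℝ} (hy : y ≤ 1/2) (hz : z ≤ 1/2) :
    Arm 0 1 (sliceAt 2 F z) y ↔ AX F y z := by
  unfold Arm AX sliceAt
  simp only [Set.mem_ofPred_eq, ins_two]
  exact ⟨fun h => ⟨hy, hz, h⟩, fun h => h.2.2⟩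

theorem arm10_two {x z : ℝ} (hx : x ≤ 1/2) (hz : z ≤ 1/2) :
    Arm 1 0 (sliceAt 2 F z) x ↔ AY F x z := by
  unfold Arm AY sliceAt
  have e : ∀ t : ℝ, (t • ev 1 + x • ev 0 : En 2) = x • ev 0 + t • ev 1 := fun t => add_comm _ _
  simp only [Set.mem_ofPred_eq, e, ins_two]
  exact ⟨fun h => ⟨hx, hz, h⟩, fun h => h.2.2⟩

theorem arm01_one {y z : ℝ} (hy : y ≤ 1/2) (hz : z ≤ 1/2) :
    Arm 0 1 (sliceAt 1 F y) z ↔ AX F y z := by
  unfold Arm AX sliceAt
  simp only [Set.mem_ofPred_eq, ins_one]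
  exact ⟨fun h => ⟨hy, hz, h⟩, fun h => h.2.2⟩

theorem arm10_one {x y : ℝ} (hx : x ≤ 1/2) (hy : y ≤ 1/2) :
    Arm 1 0 (sliceAt 1 F y) x ↔ AZ F x y := by
  unfold Arm AZ sliceAt
  have e : ∀ t : ℝ, (t • ev 1 + x • ev 0 : En 2) = x • ev 0 + t • ev 1 := fun t => add_comm _ _
  simp only [Set.mem_ofPred_eq, e, ins_one]
  exact ⟨fun h => ⟨hx, hy, h⟩, fun h => h.2.2⟩

theorem arm01_zero {x z : ℝ} (hx : x ≤ 1/2) (hz : z ≤ 1/2) :
    Arm 0 1 (sliceAt 0 F x) z ↔ AY F x z := by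
  unfold Arm AY sliceAt
  simp only [Set.mem_ofPred_eq, ins_zero]
  exact ⟨fun h => ⟨hx, hz, h⟩, fun h => h.2.2⟩

theorem arm10_zero {x y : ℝ} (hx : x ≤ 1/2) (hy : y ≤ 1/2) :
    Arm 1 0 (sliceAt 0 F x) y ↔ AZ F x y := by
  unfold Arm AZ sliceAt
  have e : ∀ t : ℝ, (t • ev 1 + y • ev 0 : En 2) = y • ev 0 + t • ev 1 := fun t => add_comm _ _
  simp only [Set.mem_ofPred_eq, e, ins_zero]
  exact ⟨fun h => ⟨hx, hy, h⟩, fun h => h.2.2⟩

theorem touch_iff {D : Set (En 2)} {i j : Fin 2} {A : ℝ → Prop} (hA : ∀ h, h ≤ 1/2 → (Arm i j D h ↔ A h))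
    (hA2 : ∀ h, A h → h ≤ 1/2) : Touch i j D ↔ ∃ h, 0 < h ∧ A h := by
  constructor
  · rintro ⟨h, h0, h1, h2⟩; exact ⟨h, h0, (hA h h1).1 h2⟩
  · rintro ⟨h, h0, h2⟩; exact ⟨h, h0, hA2 h h2, (hA h (hA2 h h2)).2 h2⟩

theorem touch01_two {z : ℝ} (hz : z ≤ 1/2) : Touch 0 1 (sliceAt 2 F z) ↔ ∃ y, 0 < y ∧ AX F y z :=
  touch_iff (fun _ h => arm01_two h hz) (fun _ h => h.1)
theorem touch10_two {z : ℝ} (hz : z ≤ 1/2) : Touch 1 0 (sliceAt 2 F z) ↔ ∃ x, 0 < x ∧ AY F x z :=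
  touch_iff (fun _ h => arm10_two h hz) (fun _ h => h.1)
theorem touch01_one {y : ℝ} (hy : y ≤ 1/2) : Touch 0 1 (sliceAt 1 F y) ↔ ∃ z, 0 < z ∧ AX F y z :=
  touch_iff (fun _ h => arm01_one hy h) (fun _ h => h.2.1)
theorem touch10_one {y : ℝ} (hy : y ≤ 1/2) : Touch 1 0 (sliceAt 1 F y) ↔ ∃ x, 0 < x ∧ AZ F x y :=
  touch_iff (fun _ h => arm10_one h hy) (fun _ h => h.1)
theorem touch01_zero {x : ℝ} (hx : x ≤ 1/2) : Touch 0 1 (sliceAt 0 F x) ↔ ∃ z, 0 < z ∧ AY F x z :=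
  touch_iff (fun _ h => arm01_zero hx h) (fun _ h => h.2.1)
theorem touch10_zero {x : ℝ} (hx : x ≤ 1/2) : Touch 1 0 (sliceAt 0 F x) ↔ ∃ y, 0 < y ∧ AZ F x y :=
  touch_iff (fun _ h => arm10_zero hx h) (fun _ h => h.2.1)

/-- **arms lemma for sets** -/
theorem exists_direction (hd : ∀ j, SymDecAt j F) {h : ℝ} (h0 : 0 < h) (h1 : h ≤ 1 / 2) :
    ∃ i : Fin 3, CaseA i F h ∨ GoodDir i F h := by
  rcases arms_cases (anti_AX hd) (anti_AY hd) (anti_AZ hd) h0 with H | H | H | H | H | H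
  · refine ⟨2, Or.inl ⟨(touch01_two h1).2 H.1, (touch10_two h1).2 H.2⟩⟩
  · refine ⟨1, Or.inl ⟨(touch01_one h1).2 H.1, (touch10_one h1).2 H.2⟩⟩
  · refine ⟨0, Or.inl ⟨(touch01_zero h1).2 H.1, (touch10_zero h1).2 H.2⟩⟩
  · refine ⟨2, Or.inr fun t ht0 ht1 => ?_⟩
    rw [touch01_two ht1.le, touch10_two ht1.le, arm01_two h1 ht1.le, arm10_two h1 ht1.le]
    exact H t ht0
  · refine ⟨1, Or.inr fun t ht0 ht1 => ?_⟩
    rw [touch01_one ht1.le, touch10_one ht1.le, arm01_one ht1.le h1, arm10_one h1 ht1.le]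
    exact H t ht0
  · refine ⟨0, Or.inr fun t ht0 ht1 => ?_⟩
    rw [touch01_zero ht1.le, touch10_zero ht1.le, arm01_zero ht1.le h1, arm10_zero ht1.le h1]
    exact H t ht0

end three

end Crest.Agent.R214
end

-- ▼ part R214/SliceBounds

/-!
# R214: lower bounds for the perimeters of the slices of a symmetric decreasing set in space
(output of the modules TYPES + ARMS)
-/

open MeasureTheory Crest.GeometryTopology.PeriodicPerimeter Filter Topology
open scoped Pointwise ContDiff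

namespace Crest.Agent.R214

open Slice

/-- (half of the) lower bound in a good direction; `h` = bound of the traces of type 1 slices -/
noncomputable def Jgood (h s : ℝ) : ℝ :=
  min (Real.sqrt (Real.pi * s))
    (min (max 1 (Tfun (s - h))) (Real.sqrt (Real.pi * (1 - s))))

/-- (half of the) lower bound beyond the type 2 zone; `q` = bound of the traces of type 1 slices -/
noncomputable def Jtail (q s : ℝ) : ℝ :=
  min (Real.sqrt (Real.pi * s)) (max 1 (Tfun (s - q)))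

section bounds

variable {F : Set (En 3)} {i : Fin 3}

theorem sliceAt_abs (hd : SymDecAt i F) {t : ℝ} (ht : |t| ≤ 1 / 2) :
    sliceAt i F t = sliceAt i F |t| := by
  refine sliceAt_congr hd ?_
  rw [abs_cr_of_le ht, abs_cr_of_le (by rwa [abs_abs]), abs_abs]

theorem sliceAt_subset (hd : SymDecAt i F) {t t' : ℝ} (h : |t| ≤ |t'|) (h' : |t'| ≤ 1 / 2) :
    sliceAt i F t' ⊆ sliceAt i F t := by
  refine sliceAt_anti hd ?_
  rw [abs_cr_of_le (h.trans h'), abs_cr_of_le h']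
  exact h

theorem Arm.mono {k l : Fin 2} {D D' : Set (En 2)} (h : D ⊆ D') {u : ℝ} (hA : Arm k l D u) :
    Arm k l D' u := fun t h0 h1 => h (hA t h0 h1)

theorem Touch.mono {k l : Fin 2} {D D' : Set (En 2)} (h : D ⊆ D') (hT : Touch k l D) :
    Touch k l D' := by
  obtain ⟨u, h0, h1, h2⟩ := hT
  exact ⟨u, h0, h1, h2.mono h⟩

theorem good_bound (hF : MeasurableSet F) (hper : IsLatticePeriodic F)
    (hd : ∀ j, SymDecAt j F) {h : ℝ} (h0 : 0 < h) (hg : GoodDir i F h)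
    {t : ℝ} (ht0 : 0 < |t|) (ht1 : |t| < 1 / 2) :
    ENNReal.ofReal (2 * Jgood (2 * h) (periodicVolume (sliceAt i F t)))
      ≤ periodicPerimeter (sliceAt i F t) := by
  rw [sliceAt_abs (hd i) ht1.le]
  obtain ⟨g1, g2⟩ := hg |t| ht0 ht1
  have hS := measurableSet_sliceAt hF i |t|
  have hp := sliceAt_periodic hper i |t|
  have hd2 : ∀ j : Fin 2, SymDecAt j (sliceAt i F |t|) := fun j => symDecAt_sliceAt (hd _) _
  have h01 : (0 : Fin 2) ≠ 1 := by decide
  set s := periodicVolume (sliceAt i F |t|) with hs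
  have m1 : Jgood (2 * h) s ≤ Real.sqrt (Real.pi * s) := min_le_left _ _
  have m2 : Jgood (2 * h) s ≤ max 1 (Tfun (s - 2 * h)) := (min_le_right _ _).trans (min_le_left _ _)
  have m3 : Jgood (2 * h) s ≤ Real.sqrt (Real.pi * (1 - s)) :=
    (min_le_right _ _).trans (min_le_right _ _)
  by_cases c1 : Touch 0 1 (sliceAt i F |t|)
  · by_cases c2 : Touch 1 0 (sliceAt i F |t|)
    · refine le_trans (ENNReal.ofReal_le_ofReal (by linarith))
        (planar_type2_sqrt h01 hS hp (hd2 0) (hd2 1) c1 c2)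
    · refine le_trans (ENNReal.ofReal_le_ofReal (by linarith))
        (planar_type1 h01 hS hp (hd2 0) (hd2 1) c1 c2 (q := 2 * h) (by linarith) ?_)
      intro h' h1' h2' hA
      exact g1 c1 c2 (arm_mono h01 (hd2 1) h0.le (by linarith) h2' hA)
  · by_cases c2 : Touch 1 0 (sliceAt i F |t|)
    · refine le_trans (ENNReal.ofReal_le_ofReal (by linarith))
        (planar_type1 h01.symm hS hp (hd2 1) (hd2 0) c2 c1 (q := 2 * h) (by linarith) ?_)
      intro h' h1' h2' hA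
      exact g2 c2 c1 (arm_mono h01.symm (hd2 0) h0.le (by linarith) h2' hA)
    · refine le_trans (ENNReal.ofReal_le_ofReal (by linarith))
        (planar_type0 h01 hS hp (hd2 0) (hd2 1) c1 c2)

theorem caseA_aux (hF : MeasurableSet F) (hper : IsLatticePeriodic F)
    (hd : ∀ j, SymDecAt j F) {k l : Fin 2} (hkl : k ≠ l) {z : ℝ} (hz0 : 0 ≤ z)
    (hin : ∀ t : ℝ, |t| < z → Touch k l (sliceAt i F t) ∧ Touch l k (sliceAt i F t))
    (hout : ∀ t : ℝ, z < t → t < 1 / 2 → ¬ Touch l k (sliceAt i F t)) :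
    ∃ q : ℝ, 0 ≤ q ∧ q ≤ 1 ∧
      (∀ q' : ℝ, 0 ≤ q' → q' ≤ q → ∀ t : ℝ, |t| < z →
        ENNReal.ofReal (2 * Ufun (1 - periodicVolume (sliceAt i F t)) (1 - q'))
        ≤ periodicPerimeter (sliceAt i F t)) ∧
      (∀ t : ℝ, z < |t| → |t| < 1 / 2 → ENNReal.ofReal (2 * Jtail q (periodicVolume (sliceAt i F t)))
        ≤ periodicPerimeter (sliceAt i F t)) := by
  set A : Set ℝ := {u | 0 ≤ u ∧ u ≤ 1 / 2 ∧
    (u = 0 ∨ ∃ w, z < w ∧ w < 1 / 2 ∧ Arm k l (sliceAt i F w) u)} with hA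
  have h0 : (0:ℝ) ∈ A := ⟨le_rfl, by norm_num, Or.inl rfl⟩
  have hbdd : BddAbove A := ⟨1/2, fun u hu => hu.2.1⟩
  have hq0 : 0 ≤ sSup A := le_csSup hbdd h0
  have hq1 : sSup A ≤ 1 / 2 := csSup_le ⟨0, h0⟩ fun u hu => hu.2.1
  have hS := fun t => measurableSet_sliceAt hF i t
  have hp := fun t => sliceAt_periodic hper i t
  have hd2 : ∀ (j : Fin 2) (t : ℝ), SymDecAt j (sliceAt i F t) := fun j t =>
    symDecAt_sliceAt (hd _) _
  refine ⟨2 * sSup A, by linarith, by linarith, ?_, ?_⟩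
  · intro q' hq0' hq1' t ht
    obtain ⟨c1, c2⟩ := hin t ht
    refine planar_type2 hkl (hS t) (hp t) (hd2 k t) (hd2 l t) c1 c2 hq0' ?_
    intro u hu0 hu1
    have hu1' : u < sSup A := by linarith
    obtain ⟨v, hv, huv⟩ := exists_lt_of_lt_csSup ⟨0, h0⟩ hu1'
    rcases hv.2.2 with hv0 | ⟨w, hw0, hw1, hw⟩
    · linarith [hv.1]
    · have hsub : sliceAt i F w ⊆ sliceAt i F t := by
        refine sliceAt_subset (hd i) ?_ ?_
        · rw [abs_of_pos (by linarith : 0 < w)]; linarith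
        · rw [abs_of_pos (by linarith : 0 < w)]; exact hw1.le
      exact arm_mono hkl (hd2 l t) hu0.le huv.le hv.2.1 (hw.mono hsub)
  · intro t ht0 ht1
    rw [sliceAt_abs (hd i) ht1.le]
    set s := periodicVolume (sliceAt i F |t|) with hs
    have m1 : Jtail (2 * sSup A) s ≤ Real.sqrt (Real.pi * s) := min_le_left _ _
    have m2 : Jtail (2 * sSup A) s ≤ max 1 (Tfun (s - 2 * sSup A)) := min_le_right _ _
    have c2 := hout |t| ht0 ht1
    by_cases c1 : Touch k l (sliceAt i F |t|)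
    · refine le_trans (ENNReal.ofReal_le_ofReal (by linarith))
        (planar_type1 hkl (hS _) (hp _) (hd2 k _) (hd2 l _) c1 c2 (q := 2 * sSup A) (by linarith) ?_)
      intro u hu hu1 hAu
      have : u ≤ sSup A := le_csSup hbdd ⟨by linarith, hu1, Or.inr ⟨|t|, ht0, ht1, hAu⟩⟩
      linarith
    · refine le_trans (ENNReal.ofReal_le_ofReal (by linarith))
        (planar_type0 hkl (hS _) (hp _) (hd2 k _) (hd2 l _) c1 c2)

/-- **case A, exact form**: `z` = half width of the type 2 zone, `q` = trace of the surviving arm -/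
theorem caseA_bound (hF : MeasurableSet F) (hper : IsLatticePeriodic F)
    (hd : ∀ j, SymDecAt j F) {h : ℝ} (h0 : 0 < h) (h1 : h ≤ 1 / 2) (hA : CaseA i F h) :
    ∃ z q : ℝ, h ≤ z ∧ z ≤ 1 / 2 ∧ 0 ≤ q ∧ q ≤ 1 ∧
      (∀ q' : ℝ, 0 ≤ q' → q' ≤ q → ∀ t : ℝ, |t| < z →
        ENNReal.ofReal (2 * Ufun (1 - periodicVolume (sliceAt i F t)) (1 - q'))
        ≤ periodicPerimeter (sliceAt i F t)) ∧
      (∀ t : ℝ, z < |t| → |t| < 1 / 2 → ENNReal.ofReal (2 * Jtail q (periodicVolume (sliceAt i F t)))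
        ≤ periodicPerimeter (sliceAt i F t)) := by
  set Z : Set ℝ := {w | 0 ≤ w ∧ w ≤ 1 / 2 ∧ CaseA i F w} with hZ
  have hh : h ∈ Z := ⟨h0.le, h1, hA⟩
  have hbdd : BddAbove Z := ⟨1/2, fun u hu => hu.2.1⟩
  have hzh : h ≤ sSup Z := le_csSup hbdd hh
  have hz1 : sSup Z ≤ 1 / 2 := csSup_le ⟨h, hh⟩ fun u hu => hu.2.1
  have hin : ∀ t : ℝ, |t| < sSup Z → Touch 0 1 (sliceAt i F t) ∧ Touch 1 0 (sliceAt i F t) := by
    intro t ht
    obtain ⟨w, hw, htw⟩ := exists_lt_of_lt_csSup ⟨h, hh⟩ ht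
    have hsub : sliceAt i F w ⊆ sliceAt i F t := by
      refine sliceAt_subset (hd i) ?_ ?_
      · rw [abs_of_nonneg hw.1]; exact htw.le
      · rw [abs_of_nonneg hw.1]; exact hw.2.1
    exact ⟨hw.2.2.1.mono hsub, hw.2.2.2.mono hsub⟩
  have hnot : ∀ t : ℝ, sSup Z < t → t < 1 / 2 → ¬ CaseA i F t := by
    intro t ht0 ht1 hC
    have : t ≤ sSup Z := le_csSup hbdd ⟨by linarith, ht1.le, hC⟩
    linarith
  by_cases hB : ∃ t : ℝ, sSup Z < t ∧ t < 1 / 2 ∧ Touch 1 0 (sliceAt i F t)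
  · obtain ⟨t2, h20, h21, hT2⟩ := hB
    have hnB : ∀ t : ℝ, sSup Z < t → t < 1 / 2 → ¬ Touch 0 1 (sliceAt i F t) := by
      intro t ht0 ht1 hT
      rcases le_total t t2 with hle | hle
      · refine hnot t ht0 ht1 ⟨hT, hT2.mono (sliceAt_subset (hd i) ?_ ?_)⟩
        · rw [abs_of_pos (by linarith : 0 < t), abs_of_pos (by linarith : 0 < t2)]; exact hle
        · rw [abs_of_pos (by linarith : 0 < t2)]; exact h21.le
      · refine hnot t2 h20 h21 ⟨hT.mono (sliceAt_subset (hd i) ?_ ?_), hT2⟩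
        · rw [abs_of_pos (by linarith : 0 < t), abs_of_pos (by linarith : 0 < t2)]; exact hle
        · rw [abs_of_pos (by linarith : 0 < t)]; exact ht1.le
    obtain ⟨q, hq0, hq1, hq2, hq3⟩ := caseA_aux hF hper hd (k := 1) (l := 0) (by decide)
      (by linarith : 0 ≤ sSup Z) (fun t ht => (hin t ht).symm) hnB (i := i)
    exact ⟨sSup Z, q, hzh, hz1, hq0, hq1, hq2, hq3⟩
  · push Not at hB
    obtain ⟨q, hq0, hq1, hq2, hq3⟩ := caseA_aux hF hper hd (k := 0) (l := 1) (by decide)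
      (by linarith : 0 ≤ sSup Z) hin hB (i := i)
    exact ⟨sSup Z, q, hzh, hz1, hq0, hq1, hq2, hq3⟩

/-- **case A, fixed zone**: zone 2 is `|t| < h` -/
theorem caseA_bound_fixed (hF : MeasurableSet F) (hper : IsLatticePeriodic F)
    (hd : ∀ j, SymDecAt j F) {h : ℝ} (h0 : 0 < h) (h1 : h ≤ 1 / 2) (hA : CaseA i F h) :
    ∃ z q : ℝ, 0 ≤ q ∧ q ≤ 1 ∧
      (∀ q' : ℝ, 0 ≤ q' → q' ≤ q → ∀ t : ℝ, |t| < h →
        ENNReal.ofReal (2 * Ufun (1 - periodicVolume (sliceAt i F t)) (1 - q'))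
        ≤ periodicPerimeter (sliceAt i F t)) ∧
      (∀ q' : ℝ, 0 ≤ q' → q' ≤ q → ∀ t : ℝ, |t| < 1 / 2 → |t| ≠ z →
        ENNReal.ofReal (2 * min (Jtail q (periodicVolume (sliceAt i F t)))
          (Ufun (1 - periodicVolume (sliceAt i F t)) (1 - q')))
        ≤ periodicPerimeter (sliceAt i F t)) := by
  obtain ⟨z, q, hz, hz1, hq0, hq1, h2, h3⟩ := caseA_bound hF hper hd h0 h1 hA
  refine ⟨z, q, hq0, hq1, fun q' hq0' hq1' t ht => h2 q' hq0' hq1' t (ht.trans_le hz),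
    fun q' hq0' hq1' t ht hne => ?_⟩
  rcases lt_or_gt_of_ne hne with hlt | hgt
  · refine le_trans (ENNReal.ofReal_le_ofReal ?_) (h2 q' hq0' hq1' t hlt)
    have := min_le_right (Jtail q (periodicVolume (sliceAt i F t)))
      (Ufun (1 - periodicVolume (sliceAt i F t)) (1 - q'))
    linarith
  · refine le_trans (ENNReal.ofReal_le_ofReal ?_) (h3 t hgt ht)
    have := min_le_left (Jtail q (periodicVolume (sliceAt i F t)))
      (Ufun (1 - periodicVolume (sliceAt i F t)) (1 - q'))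
    linarith


end bounds

end Crest.Agent.R214
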