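import Crest.Agent.R214.Assembly
import Crest.Agent.R214.SliceBounds

/-!
# Row 214: the complete scalar part

`TableOne`, `TableTwo`: the statements of the certificate tables.  `scalar_main`: the inequality for
the slice profile of a symmetric decreasing set, with the possible equality cases.
-/

set_option autoImplicit false

open MeasureTheory Set Filter Topology Crest.Agent.R214.MS

namespace Crest.Agent.R214.ZC

/-- The tail bound combined with the type 2 bound of extent `e`. -/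
noncomputable def Jmin (q e y : ℝ) : ℝ := min (Jtail q y) (Ufun (1 - y) e)

/-- Two-zone certificate at `(B, G)` (first zone of total width `1/10`), exported form. -/
def CertTwoT (e q B G : ℝ) : Prop :=
  ∃ (lam p M : ℝ) (g : ℝ → ℝ), LegOK lam M ∧ ContinuousOn g (Icc B G) ∧
    (∀ x ∈ Icc B G, 0 ≤ p + lam * x ∧ (p + lam * x) ^ 2 ≤ g x ∧ g x ≤ Jmin q e x ^ 2) ∧
    ∀ A ∈ Icc G 1,
      (∃ (D : ℝ) (L : ℝ → ℝ), 0 ≤ D ∧ D * (1 / 10) < 1 ∧
        (∀ x ∈ Icc G 1, L x ≤ Ufun (1 - x) e) ∧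
        (∀ x ∈ Icc G A, ∀ c ∈ Icc (0:ℝ) 1, c * L G + (D - lam) * G ≤ c * L x + (D - lam) * x) ∧
        M < (1 - 1 / 10) * p + (∫ x in B..G, Real.sqrt (1 - (p + lam * x) ^ 2 / g x)) +
          L G * (∫ x in (0:ℝ)..(1 / 10), Real.sqrt (1 - (D * x) ^ 2)) - lam * (1 / 10 * G)) ∨
      (∃ σ : ℝ, 0 ≤ σ ∧ σ ≤ 1 ∧
        M < (1 - 1 / 10) * p + (∫ x in B..G, Real.sqrt (1 - (p + lam * x) ^ 2 / g x)) +
          σ * (A - G) + 1 / 10 * Real.sqrt (1 - σ ^ 2) * Ufun (1 - A) e -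
          max lam 0 * (1 / 10 * A) + max (-lam) 0 * (1 / 10 * G))

/-- Table for the good direction. -/
def TableOne : Prop :=
  ∀ B A : ℝ, 0 ≤ B → B ≤ 1 / 2 → B ≤ A → A ≤ 1 →
    A ≤ 38 / 100 ∨ (B ≤ 1 / 50 ∧ 49 / 50 ≤ A) ∨ CertOne (Jgood (1 / 10)) B A

/-- Table for case A and traces in `[q0, q1]`. -/
def TableTwo (q0 q1 : ℝ) : Prop :=
  ∀ B G : ℝ, 0 ≤ B → B ≤ 1 / 2 → B ≤ G → G ≤ 1 →
    (B ≤ 1 / 50 ∧ 49 / 50 ≤ G) ∨ CertTwoT (1 - q0) q1 B G

/-- All tables. -/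
def Tables : Prop :=
  TableOne ∧ TableTwo 0 (35 / 100) ∧ TableTwo (35 / 100) (40 / 100) ∧
    TableTwo (40 / 100) (45 / 100) ∧ TableTwo (45 / 100) (50 / 100) ∧
    TableTwo (50 / 100) (55 / 100) ∧ TableTwo (55 / 100) (60 / 100) ∧
    TableTwo (60 / 100) (70 / 100) ∧ TableTwo (70 / 100) 1

/-! ### properties of the bounds -/

theorem Ufun_nonneg {s e : ℝ} (hs : 0 ≤ s) (he : 0 < e) : 0 ≤ Ufun s e :=
  (Real.sqrt_nonneg _).trans (sqrt_le_Ufun hs he)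

theorem Ufun_mono {s s' e : ℝ} (he : 0 < e) (hss : s ≤ s') : Ufun s e ≤ Ufun s' e := by
  have hpi := Real.pi_pos
  unfold Ufun
  split_ifs with h1 h2 h2
  · have := div_le_div_of_nonneg_right hss he.le
    linarith
  · exfalso; linarith
  · rw [not_le] at h1
    have h3 : Real.sqrt (Real.pi * s) ≤ Real.pi * e / 2 := by
      rw [Real.sqrt_le_left (by positivity)]
      nlinarith
    have h4 : Real.pi * e / 4 ≤ s' / e := by
      rw [le_div_iff₀ he]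
      nlinarith
    linarith
  · exact Real.sqrt_le_sqrt (mul_le_mul_of_nonneg_left hss hpi.le)

theorem Jtail_nonneg (q s : ℝ) : 0 ≤ Jtail q s := by
  unfold Jtail
  exact le_min (Real.sqrt_nonneg _) (le_trans zero_le_one (le_max_left _ _))

theorem Jtail_anti {q q' s : ℝ} (h : q ≤ q') : Jtail q' s ≤ Jtail q s := by
  unfold Jtail
  exact min_le_min le_rfl (max_le_max le_rfl (Tfun_mono (by linarith)))

theorem Jgood_nonneg (h s : ℝ) : 0 ≤ Jgood h s := by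
  unfold Jgood
  exact le_min (Real.sqrt_nonneg _)
    (le_min (le_trans zero_le_one (le_max_left _ _)) (Real.sqrt_nonneg _))

theorem Jmin_nonneg {q e y : ℝ} (he : 0 < e) (hy : y ≤ 1) : 0 ≤ Jmin q e y :=
  le_min (Jtail_nonneg _ _) (Ufun_nonneg (by linarith) he)

/-- The general planar bound is implied by the good one. -/
theorem corner_of_bound {s : ℝ} (hs0 : 0 ≤ s) (hs1 : s ≤ 1) {X : ℝ} (h1 : 1 ≤ X) :
    Real.sqrt (Real.pi * (s * (1 - s))) ≤
      min (Real.sqrt (Real.pi * s)) (min X (Real.sqrt (Real.pi * (1 - s)))) := by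
  have hpi := Real.pi_pos
  have hpi4 := Real.pi_lt_d4
  refine le_min ?_ (le_min ?_ ?_)
  · refine Real.sqrt_le_sqrt (mul_le_mul_of_nonneg_left ?_ hpi.le)
    nlinarith
  · refine le_trans ?_ h1
    rw [Real.sqrt_le_left (by norm_num)]
    nlinarith [sq_nonneg (s - 1 / 2)]
  · refine Real.sqrt_le_sqrt (mul_le_mul_of_nonneg_left ?_ hpi.le)
    nlinarith

theorem corner_le_Jgood {s h : ℝ} (hs0 : 0 ≤ s) (hs1 : s ≤ 1) :
    Real.sqrt (Real.pi * (s * (1 - s))) ≤ Jgood h s :=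
  corner_of_bound hs0 hs1 (le_max_left _ _)

theorem corner_le_Jmin {s q e : ℝ} (hs0 : 0 ≤ s) (hs1 : s ≤ 1) (he : 0 < e) :
    Real.sqrt (Real.pi * (s * (1 - s))) ≤ Jmin q e s := by
  have h := corner_of_bound hs0 hs1 (le_max_left 1 (Tfun (s - q)))
  refine le_min ?_ ?_
  · unfold Jtail
    exact le_min (h.trans (min_le_left _ _)) (h.trans ((min_le_right _ _).trans (min_le_left _ _)))
  · exact (h.trans ((min_le_right _ _).trans (min_le_right _ _))).trans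
      (sqrt_le_Ufun (by linarith) he)

/-- On `[0, 38/100]` the good bound is the isoperimetric one. -/
theorem Jgood_eq_of {s : ℝ} (hs1 : s ≤ 38 / 100)
    (hT : Real.sqrt (Real.pi * s) ≤ max 1 (Tfun (s - 1 / 10))) :
    Jgood (1 / 10) s = Real.sqrt (Real.pi * s) := by
  unfold Jgood
  refine min_eq_left (le_min hT ?_)
  refine Real.sqrt_le_sqrt (mul_le_mul_of_nonneg_left ?_ Real.pi_pos.le)
  linarith

theorem Ifun_lower : 908 / 1000 ≤ Ifun (10 / 7) := by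
  unfold Ifun
  have h1 : ∫ x in (0:ℝ)..1, (1 - 245 / 1000 * x ^ 2 - 4802 / 100000 * x ^ 4) ≤
      ∫ x in (0:ℝ)..1, Real.sqrt (1 - (x / (10 / 7)) ^ 2) := by
    refine intervalIntegral.integral_mono_on zero_le_one ?_ ?_ ?_
    · apply Continuous.intervalIntegrable; fun_prop
    · apply Continuous.intervalIntegrable
      exact Real.continuous_sqrt.comp (by fun_prop)
    · intro x hx
      have hx2 : x ^ 2 ≤ 1 := by nlinarith [hx.1, hx.2]
      have hx0 : 0 ≤ x ^ 2 := sq_nonneg x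
      apply Real.le_sqrt_of_sq_le
      have e4 : x ^ 4 = (x ^ 2) ^ 2 := by ring
      have e : (x / (10 / 7)) ^ 2 = 49 / 100 * x ^ 2 := by ring
      rw [e4, e]
      set y := x ^ 2
      nlinarith [mul_nonneg hx0 hx0, mul_nonneg hx0 (sub_nonneg.2 hx2),
        mul_nonneg (mul_nonneg hx0 hx0) (sub_nonneg.2 hx2),
        mul_nonneg (mul_nonneg hx0 (mul_nonneg hx0 hx0)) (sub_nonneg.2 hx2)]
  have h2 : ∫ x in (0:ℝ)..1, (1 - 245 / 1000 * x ^ 2 - 4802 / 100000 * x ^ 4) =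
      1 - 245 / 1000 / 3 - 4802 / 100000 / 5 := by
    rw [intervalIntegral.integral_sub, intervalIntegral.integral_sub]
    · simp only [intervalIntegral.integral_const, intervalIntegral.integral_const_mul,
        integral_pow]
      norm_num
    · apply Continuous.intervalIntegrable; fun_prop
    · apply Continuous.intervalIntegrable; fun_prop
    · apply Continuous.intervalIntegrable; fun_prop
    · apply Continuous.intervalIntegrable; fun_prop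
  rw [h2] at h1
  refine le_trans ?_ h1
  norm_num

/-- On `[0, 38/100]` the good bound is the isoperimetric one. -/
theorem Jgood_eq {s : ℝ} (hs1 : s ≤ 38 / 100) :
    Jgood (1 / 10) s = Real.sqrt (Real.pi * s) := by
  refine Jgood_eq_of hs1 ?_
  have hpi := Real.pi_pos
  have hpi4 := Real.pi_lt_d4
  rcases le_total s (31 / 100) with h | h
  · refine le_trans ?_ (le_max_left _ _)
    rw [Real.sqrt_le_left (by norm_num)]
    nlinarith
  · refine le_trans ?_ (le_max_right _ _)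
    refine le_trans ?_ (le_Tfun (R := 10 / 7) (by norm_num) (s - 1 / 10))
    have h1 := Ifun_lower
    have h2 : 838 / 1000 + 7 / 10 * s ≤ Ifun (10 / 7) + (s - 1 / 10) / (10 / 7) := by
      have : (s - 1 / 10) / (10 / 7) = 7 / 10 * s - 7 / 100 := by ring
      rw [this]; linarith
    refine le_trans ?_ h2
    rw [Real.sqrt_le_left (by linarith)]
    nlinarith

/-! ### the profile data -/

/-- data of the slice profile of a symmetric decreasing set -/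
structure Prof (s l : ℝ → ℝ) (P A B : ℝ) : Prop where
  hs : BP s
  hl : BP l
  even : ∀ t, s (-t) = s t
  anti : AntitoneOn s (Ioo 0 (1 / 2))
  s01 : ∀ t, s t ∈ Icc (0:ℝ) 1
  dual : DualIneq s l P
  hA : Tendsto s (𝓝[>] 0) (𝓝 A)
  hB : Tendsto s (𝓝[<] (1 / 2)) (𝓝 B)
  hv : ∫ t in (0:ℝ)..1, s t ≤ 1 / 2

variable {s l : ℝ → ℝ} {P A B : ℝ}

theorem Prof.vol_bounds (D : Prof s l P A B) :
    B ≤ ∫ t in (0:ℝ)..1, s t ∧ ∫ t in (0:ℝ)..1, s t ≤ A := by
  have hm : ∀ᵐ t : ℝ, t ∈ Icc (-(1 / 2 : ℝ)) (1 / 2) → s t ∈ Icc B A := by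
    filter_upwards [ae_ne 0, ae_ne (1 / 2), ae_ne (-(1 / 2))] with t h0 h5 h6 htI
    have h7 : |t| < 1 / 2 := by
      rw [abs_lt]
      exact ⟨lt_of_le_of_ne htI.1 (Ne.symm h6), lt_of_le_of_ne htI.2 h5⟩
    exact even_mem D.even (a := 0) (b := 1 / 2)
      (fun t ht => range_mem D.hs D.anti D.hA D.hB ht) (abs_pos.2 h0) h7
  rw [int_centred D.hs.per]
  constructor
  · have : ∫ t in (-(1 / 2 : ℝ))..(1 / 2), B ≤ ∫ t in (-(1 / 2 : ℝ))..(1 / 2), s t := by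
      refine intervalIntegral.integral_mono_ae_restrict (by norm_num) intervalIntegrable_const
        (D.hs.intervalIntegrable _ _) ?_
      refine (ae_restrict_iff' measurableSet_Icc).2 ?_
      filter_upwards [hm] with t ht htI using (ht htI).1
    refine le_trans (le_of_eq ?_) this
    rw [intervalIntegral.integral_const, smul_eq_mul]; ring
  · have : ∫ t in (-(1 / 2 : ℝ))..(1 / 2), s t ≤ ∫ t in (-(1 / 2 : ℝ))..(1 / 2), A := by
      refine intervalIntegral.integral_mono_ae_restrict (by norm_num)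
        (D.hs.intervalIntegrable _ _) intervalIntegrable_const ?_
      refine (ae_restrict_iff' measurableSet_Icc).2 ?_
      filter_upwards [hm] with t ht htI using (ht htI).2
    refine this.trans (le_of_eq ?_)
    rw [intervalIntegral.integral_const, smul_eq_mul]; ring

/-- possible equality cases -/
def EqCase (s l : ℝ → ℝ) (A B : ℝ) : Prop :=
  (B = 0 ∧ A = 1) ∨
  (A ≤ 38 / 100 ∧ (∀ᵐ t, |t| < 1 / 2 → 2 * Real.sqrt (Real.pi * s t) ≤ l t) ∧
    (B < A → B = 0 ∧ (∫ t in (0:ℝ)..1, s t) = 4 * Real.sqrt A ^ 3 / (3 * Real.sqrt Real.pi) ∧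
      (∫ t in (0:ℝ)..1, s t) ≤ 4 * Real.pi / 81))

theorem Prof.corner (D : Prof s l P A B)
    (hlJ : ∀ᵐ t, |t| < 1 / 2 → 2 * Real.sqrt (Real.pi * (s t * (1 - s t))) ≤ l t)
    (hB1 : B ≤ 1 / 50) (hA1 : 49 / 50 ≤ A) :
    min (m0 (∫ t in (0:ℝ)..1, s t)) 1 ≤ P / 2 ∧
      (P / 2 ≤ min (m0 (∫ t in (0:ℝ)..1, s t)) 1 → B = 0 ∧ A = 1) := by
  obtain ⟨h1, h2⟩ := corner_le D.hs D.hl D.even D.anti D.s01 D.dual D.hA D.hB D.hv hlJ hB1 hA1
  refine ⟨h1, fun h3 => ?_⟩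
  by_contra h4
  rw [not_and_or] at h4
  exact absurd (h2 h4) (not_lt.2 h3)

theorem of_lt {m P : ℝ} {C : Prop} (h : m < P / 2) : m ≤ P / 2 ∧ (P / 2 ≤ m → C) :=
  ⟨h.le, fun h' => absurd h (not_lt.2 h')⟩

/-- The good direction. -/
theorem Prof.good (D : Prof s l P A B) (hv0 : 0 < ∫ t in (0:ℝ)..1, s t) (T : TableOne)
    (hl : ∀ᵐ t, |t| < 1 / 2 → 2 * Jgood (1 / 10) (s t) ≤ l t) :
    min (m0 (∫ t in (0:ℝ)..1, s t)) 1 ≤ P / 2 ∧
      (P / 2 ≤ min (m0 (∫ t in (0:ℝ)..1, s t)) 1 → EqCase s l A B) := by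
  have hA01 := lims_mem D.s01 D.hA
  have hB01 := lims_mem D.s01 D.hB
  have hBA := le_of_lims D.hs D.anti D.hA D.hB
  obtain ⟨hBv, hvA⟩ := D.vol_bounds
  rcases T B A hB01.1 (hBv.trans D.hv) hBA hA01.2 with h | ⟨h1, h2⟩ | h
  · have hlJ : ∀ᵐ t, |t| < 1 / 2 → 2 * Real.sqrt (Real.pi * s t) ≤ l t := by
      filter_upwards [hl, ae_ne 0] with t ht h0 h7
      have h8 := ht h7
      have h9 : s t ∈ Icc B A := even_mem D.even (a := 0) (b := 1 / 2)
        (fun t ht => range_mem D.hs D.anti D.hA D.hB ht) (abs_pos.2 h0) h7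
      rwa [Jgood_eq (h9.2.trans h)] at h8
    obtain ⟨h3, h4⟩ := exact_le D.hs D.hl D.even D.anti D.s01 D.dual D.hA D.hB hlJ
      (hv0.trans_le hvA)
    refine ⟨(min_le_left _ _).trans h3, fun h5 => Or.inr ⟨h, hlJ, fun h6 => ?_⟩⟩
    exact h4 (h5.trans (min_le_left _ _)) h6
  · have h3 := D.corner (by
      filter_upwards [hl] with t ht h7
      have := corner_le_Jgood (h := 1 / 10) (D.s01 t).1 (D.s01 t).2
      have := ht h7
      linarith) h1 h2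
    exact ⟨h3.1, fun h4 => Or.inl (h3.2 h4)⟩
  · exact of_lt (lt_of_certOne D.hs D.hl D.even D.anti D.s01 D.dual D.hA D.hB D.hv
      (fun x _ => Jgood_nonneg _ _) hl h)

/-- Case A for traces in `[q0, q1]`. -/
theorem Prof.caseA (D : Prof s l P A B) {q0 q1 q : ℝ} (hq01 : q0 < 1)
    (hq1 : q ≤ q1) (T : TableTwo q0 q1)
    (hl1 : ∀ᵐ t, |t| < 1 / 20 → 2 * Ufun (1 - s t) (1 - q0) ≤ l t)
    (hl2 : ∀ᵐ t, |t| < 1 / 2 → 2 * min (Jtail q (s t)) (Ufun (1 - s t) (1 - q0)) ≤ l t) :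
    min (m0 (∫ t in (0:ℝ)..1, s t)) 1 ≤ P / 2 ∧
      (P / 2 ≤ min (m0 (∫ t in (0:ℝ)..1, s t)) 1 → B = 0 ∧ A = 1) := by
  have he : 0 < 1 - q0 := by linarith
  have hA01 := lims_mem D.s01 D.hA
  have hB01 := lims_mem D.s01 D.hB
  obtain ⟨hBv, hvA⟩ := D.vol_bounds
  obtain ⟨G, hG, hGle, hGge⟩ := exists_right_lim D.hs D.anti (h := 1 / 20) (by norm_num)
    (by norm_num)
  have hG01 := lims_mem D.s01 hG
  have hgt : ∀ t ∈ Ioo (1 / 20 : ℝ) (1 / 2), s t ∈ Icc B G := fun t ht =>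
    ⟨(range_mem D.hs D.anti D.hA D.hB ⟨by linarith [ht.1], ht.2⟩).1, hGle t ht⟩
  have hlt : ∀ t ∈ Ioc (0:ℝ) (1 / 20), s t ∈ Icc G A := fun t ht =>
    ⟨hGge t ht.1 ht.2, (range_mem D.hs D.anti D.hA D.hB ⟨ht.1, by linarith [ht.2]⟩).2⟩
  have hBG : B ≤ G := by
    have := hgt (1 / 4) ⟨by norm_num, by norm_num⟩
    exact this.1.trans this.2
  have hGA : G ≤ A := by
    have := hlt (1 / 20) ⟨by norm_num, le_rfl⟩
    exact this.1.trans this.2
  have hlJ : ∀ᵐ t, |t| < 1 / 2 → 2 * Jmin q1 (1 - q0) (s t) ≤ l t := by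
    filter_upwards [hl2] with t ht h7
    have h8 : Jmin q1 (1 - q0) (s t) ≤ min (Jtail q (s t)) (Ufun (1 - s t) (1 - q0)) :=
      min_le_min (Jtail_anti hq1) le_rfl
    have := ht h7
    linarith
  rcases T B G hB01.1 (hBv.trans D.hv) hBG hG01.2 with ⟨h1, h2⟩ | hC
  · refine D.corner ?_ h1 (h2.trans hGA)
    filter_upwards [hlJ] with t ht h7
    have := corner_le_Jmin (q := q1) (D.s01 t).1 (D.s01 t).2 he
    have := ht h7
    linarith
  · apply of_lt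
    obtain ⟨lam, p, M, g, hM, hg, hw, hAll⟩ := hC
    have hG' : Tendsto s (𝓝[>] ((1 / 10 : ℝ) / 2)) (𝓝 G) := by
      rw [show (1 / 10 : ℝ) / 2 = 1 / 20 by norm_num]; exact hG
    have hlg : ∀ᵐ t, (1 / 10 : ℝ) / 2 < |t| → |t| < 1 / 2 →
        2 * Real.sqrt (g (s t)) ≤ l t := by
      filter_upwards [hlJ] with t ht h1 h2
      have := sqrt_le_of_le_sq (Jmin_nonneg (q := q1) he (D.s01 t).2)
        (hw _ (even_mem D.even hgt (by linarith) h2)).2.2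
      have := ht h2
      linarith
    have h2 := legendre (vol_mem D.hs D.s01) D.hv hM
    rcases hAll A ⟨hGA, hA01.2⟩ with ⟨δ, L, hδ0, hδh, hLU, hLG, hlt'⟩ | ⟨σ, hσ0, hσ1, hlt'⟩
    · have hlL : ∀ᵐ t, |t| < (1 / 10 : ℝ) / 2 → 2 * L (s t) ≤ l t := by
        filter_upwards [hl1, ae_ne 0] with t ht h0 h1
        have h13 : s t ∈ Icc G A := even_mem D.even (a := 0) (b := 1 / 20)
          (fun t ht => hlt t ⟨ht.1, ht.2.le⟩) (abs_pos.2 h0) (by linarith)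
        have := hLU (s t) ⟨h13.1, (D.s01 t).2⟩
        have := ht (by linarith)
        linarith
      have h1 := cert_lin D.hs D.hl D.even D.anti D.dual (h := 1 / 10) (by norm_num)
        (by norm_num) D.hA D.hB hG' hδ0 hδh hg (fun x hx => (hw x hx).1)
        (fun x hx => (hw x hx).2.1) hlL hLG hlg
      linarith
    · have hL0 : 0 ≤ Ufun (1 - A) (1 - q0) := Ufun_nonneg (by linarith [hA01.2]) he
      have hlL' : ∀ᵐ t, |t| < (1 / 10 : ℝ) / 2 → 2 * Ufun (1 - A) (1 - q0) ≤ l t := by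
        filter_upwards [hl1, ae_ne 0] with t ht h0 h1
        have h13 : s t ∈ Icc G A := even_mem D.even (a := 0) (b := 1 / 20)
          (fun t ht => hlt t ⟨ht.1, ht.2.le⟩) (abs_pos.2 h0) (by linarith)
        have := Ufun_mono he (show 1 - A ≤ 1 - s t by linarith [h13.2])
        have := ht (by linarith)
        linarith
      have h1 := cert_two D.hs D.hl D.even D.anti D.dual (h := 1 / 10) (by norm_num)
        (by norm_num) D.hA D.hB hG' hL0 hg (fun x hx => (hw x hx).1)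
        (fun x hx => (hw x hx).2.1) hlL' hlg
      have h3 : 1 / 10 * Real.sqrt (1 - σ ^ 2) * Ufun (1 - A) (1 - q0) + σ * (A - G) ≤
          Real.sqrt ((1 / 10 * Ufun (1 - A) (1 - q0)) ^ 2 + (A - G) ^ 2) := by
        apply Real.le_sqrt_of_sq_le
        have e1 : Real.sqrt (1 - σ ^ 2) ^ 2 = 1 - σ ^ 2 := Real.sq_sqrt (by nlinarith)
        set r := Real.sqrt (1 - σ ^ 2)
        set U := Ufun (1 - A) (1 - q0)
        have e2 : 1 / 10 * r * U + σ * (A - G) = r * (1 / 10 * U) + σ * (A - G) := by ring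
        rw [e2]
        set X := 1 / 10 * U
        set Y := A - G
        have e3 : (r * X + σ * Y) ^ 2 =
            (r ^ 2 + σ ^ 2) * (X ^ 2 + Y ^ 2) - (r * Y - σ * X) ^ 2 := by
          ring
        rw [e3, e1]
        nlinarith [sq_nonneg (r * Y - σ * X)]
      linarith

/-- Case A, all traces. -/
theorem Prof.caseA_all (T : Tables) (D : Prof s l P A B) {q : ℝ} (hq0 : 0 ≤ q) (hq1 : q ≤ 1)
    (h1 : ∀ q' : ℝ, 0 ≤ q' → q' ≤ q → q' ≤ 7 / 10 →
      ∀ᵐ t, |t| < 1 / 20 → 2 * Ufun (1 - s t) (1 - q') ≤ l t)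
    (h2 : ∀ q' : ℝ, 0 ≤ q' → q' ≤ q → q' ≤ 7 / 10 →
      ∀ᵐ t, |t| < 1 / 2 → 2 * min (Jtail q (s t)) (Ufun (1 - s t) (1 - q')) ≤ l t) :
    min (m0 (∫ t in (0:ℝ)..1, s t)) 1 ≤ P / 2 ∧
      (P / 2 ≤ min (m0 (∫ t in (0:ℝ)..1, s t)) 1 → B = 0 ∧ A = 1) := by
  obtain ⟨T0, T1, T2, T3, T4, T5, T6, T7, T8⟩ := T
  have key : ∀ q0 q1 : ℝ, 0 ≤ q0 → q0 ≤ 7 / 10 → TableTwo q0 q1 → q0 ≤ q → q ≤ q1 →
      min (m0 (∫ t in (0:ℝ)..1, s t)) 1 ≤ P / 2 ∧
        (P / 2 ≤ min (m0 (∫ t in (0:ℝ)..1, s t)) 1 → B = 0 ∧ A = 1) :=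
    fun q0 q1 h3 h4 T h5 h6 =>
      D.caseA (lt_of_le_of_lt h4 (by norm_num)) h6 T (h1 q0 h3 h5 h4) (h2 q0 h3 h5 h4)
  rcases le_total q (35 / 100) with c1 | c1
  · exact key _ _ le_rfl (by norm_num) T1 hq0 c1
  rcases le_total q (40 / 100) with c2 | c2
  · exact key _ _ (by norm_num) (by norm_num) T2 c1 c2
  rcases le_total q (45 / 100) with c3 | c3
  · exact key _ _ (by norm_num) (by norm_num) T3 c2 c3
  rcases le_total q (50 / 100) with c4 | c4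
  · exact key _ _ (by norm_num) (by norm_num) T4 c3 c4
  rcases le_total q (55 / 100) with c5 | c5
  · exact key _ _ (by norm_num) (by norm_num) T5 c4 c5
  rcases le_total q (60 / 100) with c6 | c6
  · exact key _ _ (by norm_num) (by norm_num) T6 c5 c6
  rcases le_total q (70 / 100) with c7 | c7
  · exact key _ _ (by norm_num) (by norm_num) T7 c6 c7
  · exact key _ _ (by norm_num) (by norm_num) T8 c7 hq1

/-- **Case A** in the form needed for the assembly. -/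
theorem scalar_caseA (T : Tables) {v : ℝ} (hs : BP s) (hl : BP l) (hse : ∀ t, s (-t) = s t)
    (hanti : AntitoneOn s (Ioo 0 (1 / 2))) (hs01 : ∀ t, s t ∈ Icc (0:ℝ) 1)
    (H : DualIneq s l P) (hA : Tendsto s (𝓝[>] 0) (𝓝 A)) (hB : Tendsto s (𝓝[<] (1 / 2)) (𝓝 B))
    (hv : ∫ t in (0:ℝ)..1, s t = v) (hv1 : v ≤ 1 / 2) {q : ℝ} (hq0 : 0 ≤ q) (hq1 : q ≤ 1)
    (h1 : ∀ q' : ℝ, 0 ≤ q' → q' ≤ q → q' ≤ 7 / 10 →
      ∀ᵐ t, |t| < 1 / 20 → 2 * Ufun (1 - s t) (1 - q') ≤ l t)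
    (h2 : ∀ q' : ℝ, 0 ≤ q' → q' ≤ q → q' ≤ 7 / 10 →
      ∀ᵐ t, |t| < 1 / 2 → 2 * min (Jtail q (s t)) (Ufun (1 - s t) (1 - q')) ≤ l t) :
    min (m0 v) 1 ≤ P / 2 ∧ (P / 2 ≤ min (m0 v) 1 → A = 1 ∧ B = 0) := by
  subst hv
  have D : Prof s l P A B := ⟨hs, hl, hse, hanti, hs01, H, hA, hB, hv1⟩
  obtain ⟨h3, h4⟩ := D.caseA_all T hq0 hq1 h1 h2
  exact ⟨h3, fun h5 => (h4 h5).symm⟩

/-- **The good direction** in the form needed for the assembly. -/
theorem scalar_good (T : Tables) {v : ℝ} (hs : BP s) (hl : BP l) (hse : ∀ t, s (-t) = s t)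
    (hanti : AntitoneOn s (Ioo 0 (1 / 2))) (hs01 : ∀ t, s t ∈ Icc (0:ℝ) 1)
    (H : DualIneq s l P) (hA : Tendsto s (𝓝[>] 0) (𝓝 A)) (hB : Tendsto s (𝓝[<] (1 / 2)) (𝓝 B))
    (hv : ∫ t in (0:ℝ)..1, s t = v) (hv0 : 0 < v) (hv1 : v ≤ 1 / 2)
    (hgood : ∀ᵐ t, |t| < 1 / 2 → 2 * Jgood (1 / 10) (s t) ≤ l t) :
    min (m0 v) 1 ≤ P / 2 ∧ (P / 2 ≤ min (m0 v) 1 → (A = 1 ∧ B = 0) ∨
      (A ≤ 38 / 100 ∧ (∀ᵐ t, |t| < 1 / 2 → 2 * Real.sqrt (Real.pi * s t) ≤ l t) ∧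
        (B = A ∨ (B = 0 ∧ v = 4 * Real.sqrt A ^ 3 / (3 * Real.sqrt Real.pi) ∧
          v ≤ 4 * Real.pi / 81)))) := by
  subst hv
  have D : Prof s l P A B := ⟨hs, hl, hse, hanti, hs01, H, hA, hB, hv1⟩
  obtain ⟨h3, h4⟩ := D.good hv0 T.1 hgood
  refine ⟨h3, fun h5 => ?_⟩
  rcases h4 h5 with ⟨h6, h7⟩ | ⟨h6, h7, h8⟩
  · exact Or.inl ⟨h7, h6⟩
  · refine Or.inr ⟨h6, h7, ?_⟩
    rcases (le_of_lims hs hanti hA hB).eq_or_lt with h9 | h9
    · exact Or.inl h9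
    · exact Or.inr (h8 h9)


end Crest.Agent.R214.ZC
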