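import Crest.Agent.R214.CertScan
import Crest.Agent.R214.Legendre
import Crest.Agent.R214.Types2
import Crest.Agent.R214.TTable
import Crest.Agent.R214.Scalar

-- ▼ part R214/CertFin
section

/-!
# Row 214: soundness of the certificate checker, II: the final tests
-/

set_option autoImplicit false

open Real Set MeasureTheory

namespace Crest.Agent.R214.Cert

theorem pi_lo : (3.1415 : ℝ) < π := Real.pi_gt_d4
theorem pi_hi : π < (3.1416 : ℝ) := Real.pi_lt_d4

theorem floor_le (a b : ℤ) (hb : 0 < b) : ((a / b : ℤ) : ℝ) * b ≤ a := by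
  exact_mod_cast Int.ediv_mul_le a hb.ne'

theorem lt_floor (a b : ℤ) (hb : 0 < b) : (a : ℝ) < (((a / b : ℤ) : ℝ) + 1) * b := by
  exact_mod_cast Int.lt_ediv_add_one_mul_self a hb

theorem mHi_sound (L : ℤ) : LegOK ((L : ℝ) / 1000) ((mHi L : ℝ) / 10000000) := by
  have h1 := pi_lo
  have h2 := pi_hi
  have hp := Real.pi_pos
  unfold mHi LegOK
  by_cases c1 : L ≤ 0
  · rw [if_pos c1]
    have c1' : (L : ℝ) ≤ 0 := by exact_mod_cast c1
    left
    refine ⟨by linarith, ?_⟩
    push_cast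
    linarith
  rw [if_neg c1]
  have c1' : (0 : ℝ) < L := by exact_mod_cast not_le.1 c1
  by_cases c2 : L ≤ 1570
  · rw [if_pos c2]
    have c2' : (L : ℝ) ≤ 1570 := by exact_mod_cast c2
    right; left
    refine ⟨by positivity, by linarith, ?_⟩
    have hf := floor_le (100000000 * L) 31416 (by norm_num)
    push_cast at hf ⊢
    have h3 : (L : ℝ) / 1000 / 3.1416 ≤ (L : ℝ) / 1000 / π := by
      apply div_le_div_of_nonneg_left (by positivity) hp h2.le
    have h4 : (L : ℝ) / 1000 / 3.1416 = 100000000 * L / 31416 / 10000000 := by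
      norm_num; ring
    have h5 : ((100000000 * L / 31416 : ℤ) : ℝ) ≤ 100000000 * L / 31416 := by
      rw [le_div_iff₀ (by norm_num)]; exact hf
    push_cast at h5
    linarith
  rw [if_neg c2]
  by_cases c3 : L < 2250
  · rw [if_pos c3]
    right; right; left
    refine ⟨by positivity, ?_⟩
    have hf := lt_floor 7854000000 L (not_le.1 c1)
    have : π / (4 * ((L : ℝ) / 1000)) = 250 * π / L := by field_simp; ring
    rw [this, div_le_iff₀ c1']
    push_cast at hf ⊢
    have : ((7854000000 / L : ℤ) : ℝ) + 1 = (((7854000000 / L : ℤ) : ℝ) + 1) := rfl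
    nlinarith
  rw [if_neg c3]
  have c3' : (2250 : ℝ) ≤ L := by exact_mod_cast not_lt.1 c3
  by_cases c4 : L ≤ 3000
  · rw [if_pos c4]
    have c4' : (L : ℝ) ≤ 3000 := by exact_mod_cast c4
    right; right; right; left
    refine ⟨by linarith, by linarith, ?_⟩
    have hf := lt_floor ((18000 - 4 * L) * 31416) 81 (by norm_num)
    push_cast at hf ⊢
    have e : 2 * π / 9 - 4 * π * ((L : ℝ) / 1000) / 81 = π * ((18000 - 4 * L) / 81000) := by ring
    rw [e]
    have h3 : π * ((18000 - 4 * (L : ℝ)) / 81000) ≤ 3.1416 * ((18000 - 4 * L) / 81000) :=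
      mul_le_mul_of_nonneg_right h2.le (by
        apply div_nonneg _ (by norm_num)
        linarith)
    have h4 : (3.1416 : ℝ) * ((18000 - 4 * L) / 81000) =
        ((18000 - 4 * L) * 31416) / 81 / 10000000 := by norm_num; ring
    linarith
  · rw [if_neg c4]
    right; right; right; right
    refine ⟨by positivity, ?_⟩
    have hLL : 0 < L * L := by
      have := not_le.1 c1
      positivity
    have hf := lt_floor 20944000000000 (L * L) hLL
    have hLr : (0 : ℝ) < (L : ℝ) * L := by positivity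
    have : 2 * π / (3 * ((L : ℝ) / 1000) ^ 2) = (2000000 / 3 * π) / (L * L) := by
      field_simp; ring
    rw [this, div_le_iff₀ hLr]
    push_cast at hf ⊢
    nlinarith

theorem fin1_sound {P L : ℤ} {s k : ℕ} (h : fin1 P L s k = true) :
    (mHi L : ℝ) / 10000000 < (P : ℝ) / 1000 + (s : ℝ) / 65536000 := by
  unfold fin1 at h
  have h1 := of_decide_eq_true h
  have h2 : (0 : ℝ) < 655360000 * (P : ℝ) + 10000 * (s : ℝ) - 65536 * (mHi L : ℝ) := by
    exact_mod_cast h1
  have e : (P : ℝ) / 1000 + (s : ℝ) / 65536000 - (mHi L : ℝ) / 10000000 =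
      (655360000 * (P : ℝ) + 10000 * (s : ℝ) - 65536 * (mHi L : ℝ)) / 655360000000 := by ring
  have : 0 < (P : ℝ) / 1000 + (s : ℝ) / 65536000 - (mHi L : ℝ) / 10000000 := by
    rw [e]; positivity
  linarith

/-- lower bound for `∫₀^{1/10} √(1 - (Dx)²)` -/
theorem iq_sound {D : ℤ} (h0 : 0 ≤ D) (h1 : D ≤ 9999) :
    (iqN D : ℝ) / 3000000000000000000 ≤
      ∫ x in (0 : ℝ)..(1 / 10), √(1 - ((D : ℝ) / 1000 * x) ^ 2) := by
  have h0' : (0 : ℝ) ≤ D := by exact_mod_cast h0
  have h1' : (D : ℝ) ≤ 9999 := by exact_mod_cast h1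
  have hc : Continuous fun x : ℝ => √(1 - ((D : ℝ) / 1000 * x) ^ 2) :=
    Real.continuous_sqrt.comp (by fun_prop)
  -- general polynomial bound
  have key : ∀ c : ℝ, 1 / 8 ≤ c → (∀ x ∈ Icc (0 : ℝ) (1 / 10),
      1 - ((D : ℝ) / 1000 * x) ^ 2 / 2 - c * ((D : ℝ) / 1000 * x) ^ 4 ≤
        √(1 - ((D : ℝ) / 1000 * x) ^ 2)) →
      1 / 10 - ((D : ℝ) / 1000) ^ 2 / 6000 - c * ((D : ℝ) / 1000) ^ 4 / 500000 ≤
        ∫ x in (0 : ℝ)..(1 / 10), √(1 - ((D : ℝ) / 1000 * x) ^ 2) := by
    intro c _ hx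
    have hi : ∫ x in (0 : ℝ)..(1 / 10),
        (1 - ((D : ℝ) / 1000 * x) ^ 2 / 2 - c * ((D : ℝ) / 1000 * x) ^ 4) =
        1 / 10 - ((D : ℝ) / 1000) ^ 2 / 6000 - c * ((D : ℝ) / 1000) ^ 4 / 500000 := by
      have e : ∀ x : ℝ, 1 - ((D : ℝ) / 1000 * x) ^ 2 / 2 - c * ((D : ℝ) / 1000 * x) ^ 4 =
          1 - (((D : ℝ) / 1000) ^ 2 / 2) * x ^ 2 - (c * ((D : ℝ) / 1000) ^ 4) * x ^ 4 := by
        intro x; ring
      simp_rw [e]
      rw [intervalIntegral.integral_sub (by apply Continuous.intervalIntegrable; fun_prop)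
        (by apply Continuous.intervalIntegrable; fun_prop),
        intervalIntegral.integral_sub (by simp)
        (by apply Continuous.intervalIntegrable; fun_prop),
        intervalIntegral.integral_const_mul, intervalIntegral.integral_const_mul,
        integral_pow, integral_pow, intervalIntegral.integral_const]
      norm_num
      ring
    rw [← hi]
    refine intervalIntegral.integral_mono_on (by norm_num) ?_ (hc.intervalIntegrable _ _) hx
    apply Continuous.intervalIntegrable; fun_prop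
  have hy : ∀ x ∈ Icc (0 : ℝ) (1 / 10), 0 ≤ ((D : ℝ) / 1000 * x) ^ 2 ∧
      ((D : ℝ) / 1000 * x) ^ 2 ≤ ((D : ℝ) * D) / 100000000 := by
    intro x hx
    refine ⟨sq_nonneg _, ?_⟩
    have : (D : ℝ) / 1000 * x ≤ (D : ℝ) / 10000 := by
      have := mul_le_mul_of_nonneg_left hx.2 (show (0 : ℝ) ≤ (D : ℝ) / 1000 by positivity)
      linarith
    have h3 : 0 ≤ (D : ℝ) / 1000 * x := mul_nonneg (by positivity) hx.1
    nlinarith
  unfold iqN
  by_cases hc1 : D * D ≤ 45000000
  · rw [if_pos hc1]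
    have hc1' : (D : ℝ) * D ≤ 45000000 := by exact_mod_cast hc1
    have := key (1 / 6) (by norm_num) ?_
    · push_cast
      refine le_trans (le_of_eq ?_) this
      ring
    · intro x hx
      obtain ⟨ha, hb⟩ := hy x hx
      have e4 : ((D : ℝ) / 1000 * x) ^ 4 = (((D : ℝ) / 1000 * x) ^ 2) ^ 2 := by ring
      rw [e4]
      generalize ((D : ℝ) / 1000 * x) ^ 2 = y at ha hb ⊢
      have hb' : y ≤ 45 / 100 := by linarith
      apply Real.le_sqrt_of_sq_le
      nlinarith [mul_nonneg ha ha, mul_nonneg (mul_nonneg ha ha) ha,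
        mul_nonneg (mul_nonneg ha ha) (sub_nonneg.2 hb'),
        mul_nonneg (mul_nonneg (mul_nonneg ha ha) ha) (sub_nonneg.2 hb')]
  · rw [if_neg hc1]
    have := key (1 / 2) (by norm_num) ?_
    · push_cast
      refine le_trans (le_of_eq ?_) this
      ring
    · intro x hx
      obtain ⟨ha, hb⟩ := hy x hx
      have e4 : ((D : ℝ) / 1000 * x) ^ 4 = (((D : ℝ) / 1000 * x) ^ 2) ^ 2 := by ring
      rw [e4]
      generalize ((D : ℝ) / 1000 * x) ^ 2 = y at ha hb ⊢
      have hb' : y ≤ 1 := by nlinarith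
      apply Real.le_sqrt_of_sq_le
      have : (1 - y / 2 - 1 / 2 * y ^ 2) ^ 2 = (1 - y) * ((1 - y) * (1 + y / 2) ^ 2) := by ring
      rw [this]
      have h3 : (1 - y) * (1 + y / 2) ^ 2 ≤ 1 := by nlinarith [mul_nonneg ha ha, mul_nonneg (mul_nonneg ha ha) ha]
      nlinarith

end Crest.Agent.R214.Cert
end

-- ▼ part R214/CertFin2
section

/-!
# Row 214: soundness of the certificate checker, III: the two-zone final test
-/

set_option autoImplicit false

open Real Set MeasureTheory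

namespace Crest.Agent.R214.Cert

/-- supporting lines of `Ufun` -/
theorem Ufun_support {s e : ℝ} (hs : 0 < s) (he : 0 < e) :
    ∃ a b : ℝ, (∀ t, 0 ≤ t → Ufun t e ≤ a * t + b) ∧ a * s + b = Ufun s e := by
  have hp := Real.pi_pos
  by_cases h : π * e ^ 2 ≤ 4 * s
  · refine ⟨1 / e, π * e / 4, fun t ht => ?_, ?_⟩
    · have := Ufun_le ht he le_rfl
      rw [one_div_mul_eq_div]
      exact this
    · unfold Ufun
      rw [if_pos h, one_div_mul_eq_div]
  · have h' := not_le.1 h
    set r := 2 * √(s / π) with hr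
    have hsp : 0 < s / π := by positivity
    have hr0 : 0 < r := by positivity
    have hr2 : r ^ 2 = 4 * (s / π) := by
      rw [hr, mul_pow, Real.sq_sqrt hsp.le]; norm_num
    have hre : r ≤ e := by
      apply le_of_sq_le_sq _ he.le |> fun h => h
      rw [hr2]
      have : 4 * (s / π) = (4 * s) / π := by ring
      rw [this, div_le_iff₀ hp]
      linarith
    refine ⟨1 / r, π * r / 4, fun t ht => ?_, ?_⟩
    · have := Ufun_le ht hr0 hre
      rw [one_div_mul_eq_div]
      exact this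
    · unfold Ufun
      rw [if_neg h, one_div_mul_eq_div]
      have e1 : √(π * s) = π * r / 2 := by
        rw [Real.sqrt_eq_iff_mul_self_eq (by positivity) (by positivity)]
        have : π * r / 2 * (π * r / 2) = π ^ 2 * r ^ 2 / 4 := by ring
        rw [this, hr2]
        field_simp
      rw [e1]
      have e2 : s / r = π * r / 4 := by
        rw [div_eq_iff hr0.ne']
        have : π * r / 4 * r = π * r ^ 2 / 4 := by ring
        rw [this, hr2]
        field_simp
      rw [e2]; ring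

theorem Ufun_zero {e : ℝ} (he : 0 < e) : Ufun 0 e = 0 := by
  unfold Ufun
  have : ¬ (π * e ^ 2 ≤ 4 * 0) := by
    rw [mul_zero, not_le]; positivity
  rw [if_neg this]
  simp

theorem Ufun_nonneg {s e : ℝ} (hs : 0 ≤ s) (he : 0 < e) : 0 ≤ Ufun s e :=
  (Real.sqrt_nonneg _).trans (sqrt_le_Ufun hs he)

/-- chord inequality for `Ufun` -/
theorem Ufun_chord {s t e θ : ℝ} (hs : 0 ≤ s) (ht : 0 ≤ t) (he : 0 < e) (h0 : 0 ≤ θ)
    (h1 : θ ≤ 1) : (1 - θ) * Ufun s e + θ * Ufun t e ≤ Ufun ((1 - θ) * s + θ * t) e := by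
  have hm : 0 ≤ (1 - θ) * s + θ * t := by
    have := sub_nonneg.2 h1
    positivity
  rcases hm.eq_or_lt with h | h
  · have h2 : (1 - θ) * s = 0 := by nlinarith [mul_nonneg (sub_nonneg.2 h1) hs, mul_nonneg h0 ht]
    have h3 : θ * t = 0 := by nlinarith [mul_nonneg (sub_nonneg.2 h1) hs, mul_nonneg h0 ht]
    rw [← h, Ufun_zero he]
    have h4 : (1 - θ) * Ufun s e = 0 := by
      rcases mul_eq_zero.1 h2 with h5 | h5
      · rw [h5, zero_mul]
      · rw [h5, Ufun_zero he, mul_zero]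
    have h5 : θ * Ufun t e = 0 := by
      rcases mul_eq_zero.1 h3 with h6 | h6
      · rw [h6, zero_mul]
      · rw [h6, Ufun_zero he, mul_zero]
    rw [h4, h5, add_zero]
  · obtain ⟨a, b, hab, heq⟩ := Ufun_support h he
    rw [← heq]
    have h2 := mul_le_mul_of_nonneg_left (hab s hs) (sub_nonneg.2 h1)
    have h3 := mul_le_mul_of_nonneg_left (hab t ht) h0
    nlinarith

/-- the integer inequalities contained in the final test -/
theorem fin2_unpack {ell : List (ℕ × ℕ)} {P L : ℤ} {B1 G0 G1 a1 sg cs D s k : ℕ}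
    (h : fin2 ell P L B1 G0 G1 a1 sg cs D s k = true) :
    ∃ kk l0 l1 la m N : ℤ, kk = (if B1 ≤ G0 then (k : ℤ) else 0) ∧ l0 = (lookup G0 ell : ℕ) ∧
      l1 = (lookup G1 ell : ℕ) ∧ la = (lookup a1 ell : ℕ) ∧ m = mHi L ∧ N = iqN D ∧
      L ≤ D ∧ G1 ≤ a1 ∧ a1 ≤ 4000 ∧ D ≤ 9999 ∧
      40 * (l0 - la) ≤ ((D : ℤ) - L) * ((a1 : ℤ) - G0) ∧
      40 * (l1 - la) ≤ ((D : ℤ) - L) * ((a1 : ℤ) - G1) ∧
      0 < 17694720000000000000000000 * P + 300000000000000000000 * (s : ℤ)
        - 1966080000000000000000 * m + 65536 * (l0 * N) - 491520000000000000000 * (L * G0) ∧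
      0 < 17694720000000000000000000 * P + 300000000000000000000 * (s : ℤ)
        - 1966080000000000000000 * m + 600000000000000000000 * (kk * ((G1 : ℤ) - G0))
        + 65536 * (l1 * N) - 491520000000000000000 * (L * G1) ∧
      (a1 = 4000 ∨ (sg * sg + cs * cs ≤ 1000000 ∧
        0 < 17694720000000000000000000 * P + 300000000000000000000 * (s : ℤ)
          - 1966080000000000000000 * m +
          (19660800000000000000 * ((cs : ℤ) * la) - 491520000000000000000 * (max L 0 * a1))
          + 4915200000000000000000 * ((sg : ℤ) * ((a1 : ℤ) - G0))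
          + 491520000000000000000 * (max (-L) 0 * G0) ∧
        0 < 17694720000000000000000000 * P + 300000000000000000000 * (s : ℤ)
          - 1966080000000000000000 * m +
          (- 491520000000000000000 * (max L 0 * 4000))
          + 4915200000000000000000 * ((sg : ℤ) * ((4000 : ℤ) - G0))
          + 491520000000000000000 * (max (-L) 0 * G0) ∧
        0 < 17694720000000000000000000 * P + 300000000000000000000 * (s : ℤ)
          - 1966080000000000000000 * m + 600000000000000000000 * (kk * ((G1 : ℤ) - G0)) +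
          (19660800000000000000 * ((cs : ℤ) * la) - 491520000000000000000 * (max L 0 * a1))
          + 4915200000000000000000 * ((sg : ℤ) * ((a1 : ℤ) - G1))
          + 491520000000000000000 * (max (-L) 0 * G1) ∧
        0 < 17694720000000000000000000 * P + 300000000000000000000 * (s : ℤ)
          - 1966080000000000000000 * m + 600000000000000000000 * (kk * ((G1 : ℤ) - G0)) +
          (- 491520000000000000000 * (max L 0 * 4000))
          + 4915200000000000000000 * ((sg : ℤ) * ((4000 : ℤ) - G1))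
          + 491520000000000000000 * (max (-L) 0 * G1))) := by
  have hk : (bif Nat.ble B1 G0 then (k : ℤ) else 0) = (if B1 ≤ G0 then (k : ℤ) else 0) := by
    by_cases hc : B1 ≤ G0
    · rw [if_pos hc, Nat.ble_eq.mpr hc, cond_true]
    · rw [if_neg hc]
      have : Nat.ble B1 G0 = false := by
        rw [Bool.eq_false_iff]; intro h2; exact hc (Nat.le_of_ble_eq_true h2)
      rw [this, cond_false]
  unfold fin2 at h
  simp only [Bool.and_eq_true, Bool.or_eq_true, decide_eq_true_eq, Nat.ble_eq,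
    hk] at h
  obtain ⟨⟨⟨⟨⟨⟨⟨⟨h1, h2⟩, h3⟩, h4⟩, h5⟩, h6⟩, h7⟩, h8⟩, h9⟩ := h
  refine ⟨_, _, _, _, _, _, rfl, rfl, rfl, rfl, rfl, rfl, h1, h2, h3, h4, h5, h6, h7, h8, ?_⟩
  rcases h9 with h9 | ⟨⟨⟨⟨h9, h10⟩, h11⟩, h12⟩, h13⟩
  · exact Or.inl (Nat.eq_of_beq_eq_true h9)
  · exact Or.inr ⟨h9, h10, h11, h12, h13⟩

theorem conv_pos {θ x y : ℝ} (h0 : 0 ≤ θ) (h1 : θ ≤ 1) (hx : 0 < x) (hy : 0 < y) :
    0 < (1 - θ) * x + θ * y := by
  rcases h0.eq_or_lt with h | h
  · rw [← h]; linarith
  · have := mul_pos h hy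
    have := mul_nonneg (sub_nonneg.2 h1) hx.le
    linarith

theorem max_scale (x : ℝ) : max (x / 1000) 0 = max x 0 / 1000 := by
  rcases le_total x 0 with h | h
  · rw [max_eq_right h, max_eq_right (by linarith), zero_div]
  · rw [max_eq_left h, max_eq_left (by linarith)]

theorem exists_weight {a b x : ℝ} (h1 : a ≤ x) (h2 : x ≤ b) :
    ∃ θ : ℝ, 0 ≤ θ ∧ θ ≤ 1 ∧ x = (1 - θ) * a + θ * b := by
  rcases (h1.trans h2).eq_or_lt with h | h
  · exact ⟨0, le_rfl, zero_le_one, by linarith⟩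
  · refine ⟨(x - a) / (b - a), div_nonneg (by linarith) (by linarith), ?_, ?_⟩
    · rw [div_le_one (by linarith)]; linarith
    · have : b - a ≠ 0 := by linarith [sub_pos.2 h]
      field_simp
      ring

set_option maxHeartbeats 1000000 in
theorem fin2_sound {ell : List (ℕ × ℕ)} {P L : ℤ} {B1 G0 G1 a1 sg cs D s k : ℕ}
    (h : fin2 ell P L B1 G0 G1 a1 sg cs D s k = true) {e : ℝ} (he : 0 < e)
    (hell : ∀ x, x ≤ 4000 → ((lookup x ell : ℕ) : ℝ) / 100000 ≤ Ufun (1 - (x : ℝ) / 4000) e)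
    {G I : ℝ} (hg0 : (G0 : ℝ) / 4000 ≤ G) (hg1 : G ≤ (G1 : ℝ) / 4000)
    (hI : (s : ℝ) / 65536000 + (if B1 ≤ G0 then (k : ℝ) else 0) / 8192 * (G - (G0 : ℝ) / 4000) ≤ I)
    {A : ℝ} (hGA : G ≤ A) (hA1 : A ≤ 1) :
    (∃ (D : ℝ) (Lf : ℝ → ℝ), 0 ≤ D ∧ D * (1 / 10) < 1 ∧
      (∀ x ∈ Icc G 1, Lf x ≤ Ufun (1 - x) e) ∧
      (∀ x ∈ Icc G A, ∀ c ∈ Icc (0 : ℝ) 1,
        c * Lf G + (D - (L : ℝ) / 1000) * G ≤ c * Lf x + (D - (L : ℝ) / 1000) * x) ∧
      (mHi L : ℝ) / 10000000 < (1 - 1 / 10) * ((P : ℝ) / 1000) + I +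
        Lf G * (∫ x in (0 : ℝ)..(1 / 10), √(1 - (D * x) ^ 2)) -
        (L : ℝ) / 1000 * (1 / 10 * G)) ∨
    (∃ σ : ℝ, 0 ≤ σ ∧ σ ≤ 1 ∧
      (mHi L : ℝ) / 10000000 < (1 - 1 / 10) * ((P : ℝ) / 1000) + I +
        1 / 10 * √(1 - σ ^ 2) * Ufun (1 - A) e + σ * (A - G) -
        max ((L : ℝ) / 1000) 0 * (1 / 10 * A) + max (-((L : ℝ) / 1000)) 0 * (1 / 10 * G)) := by
  obtain ⟨kk, l0, l1, la, m, N, rfl, hl0, hl1, hla, hm, hN, h1, h2, h3, h4, h5, h6, h7, h8, h9⟩ :=
    fin2_unpack h
  have hkk : (((if B1 ≤ G0 then (k : ℤ) else 0 : ℤ)) : ℝ) = (if B1 ≤ G0 then (k : ℝ) else 0) := by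
    split <;> simp
  have hkk0 : (0 : ℝ) ≤ (if B1 ≤ G0 then (k : ℝ) else 0) := by
    split
    · exact Nat.cast_nonneg _
    · exact le_rfl
  generalize (if B1 ≤ G0 then (k : ℤ) else 0) = kz at hkk h8 h9
  generalize (if B1 ≤ G0 then (k : ℝ) else 0) = kr at hkk hkk0 hI
  have hG01 : G0 ≤ G1 := by
    have : (G0 : ℝ) ≤ G1 := by linarith
    exact_mod_cast this
  -- real data
  have e0 : (l0 : ℝ) / 100000 ≤ Ufun (1 - (G0 : ℝ) / 4000) e := by
    rw [hl0, Int.cast_natCast]
    exact hell G0 (by omega)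
  have e1 : (l1 : ℝ) / 100000 ≤ Ufun (1 - (G1 : ℝ) / 4000) e := by
    rw [hl1, Int.cast_natCast]
    exact hell G1 (by omega)
  have ea : (la : ℝ) / 100000 ≤ Ufun (1 - (a1 : ℝ) / 4000) e := by
    rw [hla, Int.cast_natCast]
    exact hell a1 (by omega)
  have l0n : (0 : ℝ) ≤ l0 := by rw [hl0]; positivity
  have l1n : (0 : ℝ) ≤ l1 := by rw [hl1]; positivity
  have lan : (0 : ℝ) ≤ la := by rw [hla]; positivity
  have hLD : (L : ℝ) ≤ D := by exact_mod_cast h1
  have ha1 : (a1 : ℝ) ≤ 4000 := by exact_mod_cast h3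
  have hG1a : (G1 : ℝ) ≤ a1 := by exact_mod_cast h2
  have h5r : 40 * ((l0 : ℝ) - la) ≤ ((D : ℝ) - L) * ((a1 : ℝ) - G0) := by exact_mod_cast h5
  have h6r : 40 * ((l1 : ℝ) - la) ≤ ((D : ℝ) - L) * ((a1 : ℝ) - G1) := by exact_mod_cast h6
  have hIq := iq_sound (D := (D : ℤ)) (by positivity) (by exact_mod_cast h4)
  rw [← hN] at hIq
  rw [← hm]
  obtain ⟨θ, ht0, ht1, hGθ⟩ := exists_weight hg0 hg1
  have hVG : (1 - θ) * ((l0 : ℝ) / 100000) + θ * ((l1 : ℝ) / 100000) ≤ Ufun (1 - G) e := by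
    have hg1' : (G1 : ℝ) / 4000 ≤ 1 := by linarith
    have := Ufun_chord (s := 1 - (G0 : ℝ) / 4000) (t := 1 - (G1 : ℝ) / 4000) (e := e) (θ := θ)
      (by linarith) (by linarith) he ht0 ht1
    have e2 : (1 - θ) * (1 - (G0 : ℝ) / 4000) + θ * (1 - (G1 : ℝ) / 4000) = 1 - G := by
      rw [hGθ]; ring
    rw [e2] at this
    refine le_trans ?_ this
    have q1 := mul_le_mul_of_nonneg_left e0 (sub_nonneg.2 ht1)
    have q2 := mul_le_mul_of_nonneg_left e1 ht0
    linarith
  set V := (1 - θ) * ((l0 : ℝ) / 100000) + θ * ((l1 : ℝ) / 100000) with hV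
  have hV0 : 0 ≤ V := by
    have := sub_nonneg.2 ht1
    positivity
  rcases le_or_gt A ((a1 : ℝ) / 4000) with hAa | hAa
  · left
    have hI7 : (0 : ℝ) < 17694720000000000000000000 * P + 300000000000000000000 * (s : ℝ)
        - 1966080000000000000000 * m + 65536 * (l0 * N) - 491520000000000000000 * (L * G0) := by
      exact_mod_cast h7
    have hI8 : (0 : ℝ) < 17694720000000000000000000 * P + 300000000000000000000 * (s : ℝ)
        - 1966080000000000000000 * m + 600000000000000000000 * (kz * ((G1 : ℝ) - G0))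
        + 65536 * (l1 * N) - 491520000000000000000 * (L * G1) := by
      exact_mod_cast h8
    rw [hkk] at hI8
    refine ⟨(D : ℝ) / 1000, fun x => if x = G then V else Ufun (1 - x) e, by positivity, ?_, ?_,
      ?_, ?_⟩
    · have : (D : ℝ) ≤ 9999 := by exact_mod_cast h4
      linarith
    · intro x hx
      simp only
      split
      · rename_i hxG
        rw [hxG]; exact hVG
      · exact le_rfl
    · intro x hx c hc
      simp only [if_true]
      by_cases hxG : x = G
      · rw [if_pos hxG, hxG]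
      · rw [if_neg hxG]
        have hxG' : G < x := lt_of_le_of_ne hx.1 (Ne.symm hxG)
        obtain ⟨η, hη0, hη1, hxη⟩ := exists_weight (a := G) (b := (a1 : ℝ) / 4000) (x := x) hx.1
          (hx.2.trans hAa)
        have hU : (1 - η) * V + η * ((la : ℝ) / 100000) ≤ Ufun (1 - x) e := by
          have := Ufun_chord (s := 1 - G) (t := 1 - (a1 : ℝ) / 4000) (e := e) (θ := η)
            (by linarith [hx.2]) (by linarith) he hη0 hη1
          have e2 : (1 - η) * (1 - G) + η * (1 - (a1 : ℝ) / 4000) = 1 - x := by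
            rw [hxη]; ring
          rw [e2] at this
          refine le_trans ?_ this
          have q1 := mul_le_mul_of_nonneg_left hVG (sub_nonneg.2 hη1)
          have q2 := mul_le_mul_of_nonneg_left ea hη0
          linarith
        -- slopes
        have hX : V - (la : ℝ) / 100000 ≤
            ((D : ℝ) / 1000 - (L : ℝ) / 1000) * ((a1 : ℝ) / 4000 - G) := by
          have q1 := mul_le_mul_of_nonneg_left h5r (sub_nonneg.2 ht1)
          have q2 := mul_le_mul_of_nonneg_left h6r ht0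
          have e3 : ((D : ℝ) / 1000 - (L : ℝ) / 1000) * ((a1 : ℝ) / 4000 - G) =
              ((1 - θ) * (((D : ℝ) - L) * ((a1 : ℝ) - G0)) +
                θ * (((D : ℝ) - L) * ((a1 : ℝ) - G1))) / 4000000 := by
            rw [hGθ]; ring
          have e4 : V - (la : ℝ) / 100000 = ((1 - θ) * (40 * ((l0 : ℝ) - la)) +
                θ * (40 * ((l1 : ℝ) - la))) / 4000000 := by
            rw [hV]; ring
          rw [e3, e4]
          gcongr
        have hX0 : 0 ≤ ((D : ℝ) / 1000 - (L : ℝ) / 1000) * ((a1 : ℝ) / 4000 - G) :=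
          mul_nonneg (by linarith) (by linarith)
        have hcX : c * (V - (la : ℝ) / 100000) ≤
            ((D : ℝ) / 1000 - (L : ℝ) / 1000) * ((a1 : ℝ) / 4000 - G) := by
          rcases le_total (V - (la : ℝ) / 100000) 0 with h10 | h10
          · have : c * (V - (la : ℝ) / 100000) ≤ 0 := mul_nonpos_of_nonneg_of_nonpos hc.1 h10
            linarith
          · have : c * (V - (la : ℝ) / 100000) ≤ 1 * (V - (la : ℝ) / 100000) :=
              mul_le_mul_of_nonneg_right hc.2 h10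
            linarith
        have q3 := mul_le_mul_of_nonneg_left hU hc.1
        have q4 := mul_le_mul_of_nonneg_left hcX hη0
        have e5 : ((D : ℝ) / 1000 - (L : ℝ) / 1000) * x =
            ((D : ℝ) / 1000 - (L : ℝ) / 1000) * G +
              η * (((D : ℝ) / 1000 - (L : ℝ) / 1000) * ((a1 : ℝ) / 4000 - G)) := by
          rw [hxη]; ring
        rw [e5]
        nlinarith
    · simp only [if_true]
      have hE0 : 0 < 9 / 10 * ((P : ℝ) / 1000) + (s : ℝ) / 65536000 - (m : ℝ) / 10000000 +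
          (l0 : ℝ) / 100000 * ((N : ℝ) / 3000000000000000000) -
          (L : ℝ) / 1000 / 10 * ((G0 : ℝ) / 4000) := by
        have : 9 / 10 * ((P : ℝ) / 1000) + (s : ℝ) / 65536000 - (m : ℝ) / 10000000 +
          (l0 : ℝ) / 100000 * ((N : ℝ) / 3000000000000000000) -
          (L : ℝ) / 1000 / 10 * ((G0 : ℝ) / 4000) =
          (17694720000000000000000000 * P + 300000000000000000000 * (s : ℝ)
            - 1966080000000000000000 * m + 65536 * (l0 * N) - 491520000000000000000 * (L * G0)) /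
            19660800000000000000000000000 := by ring
        rw [this]
        positivity
      have hE1 : 0 < 9 / 10 * ((P : ℝ) / 1000) + (s : ℝ) / 65536000 - (m : ℝ) / 10000000 +
          kr / 8192 * ((G1 : ℝ) / 4000 - (G0 : ℝ) / 4000) +
          (l1 : ℝ) / 100000 * ((N : ℝ) / 3000000000000000000) -
          (L : ℝ) / 1000 / 10 * ((G1 : ℝ) / 4000) := by
        have : 9 / 10 * ((P : ℝ) / 1000) + (s : ℝ) / 65536000 - (m : ℝ) / 10000000 +
          kr / 8192 * ((G1 : ℝ) / 4000 - (G0 : ℝ) / 4000) +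
          (l1 : ℝ) / 100000 * ((N : ℝ) / 3000000000000000000) -
          (L : ℝ) / 1000 / 10 * ((G1 : ℝ) / 4000) =
          (17694720000000000000000000 * P + 300000000000000000000 * (s : ℝ)
            - 1966080000000000000000 * m + 600000000000000000000 * (kr * ((G1 : ℝ) - G0))
            + 65536 * (l1 * N) - 491520000000000000000 * (L * G1)) /
            19660800000000000000000000000 := by ring
        rw [this]
        positivity
      have hc := conv_pos ht0 ht1 hE0 hE1
      have e6 : (1 - θ) * (9 / 10 * ((P : ℝ) / 1000) + (s : ℝ) / 65536000 - (m : ℝ) / 10000000 +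
          (l0 : ℝ) / 100000 * ((N : ℝ) / 3000000000000000000) -
          (L : ℝ) / 1000 / 10 * ((G0 : ℝ) / 4000)) +
          θ * (9 / 10 * ((P : ℝ) / 1000) + (s : ℝ) / 65536000 - (m : ℝ) / 10000000 +
          kr / 8192 * ((G1 : ℝ) / 4000 - (G0 : ℝ) / 4000) +
          (l1 : ℝ) / 100000 * ((N : ℝ) / 3000000000000000000) -
          (L : ℝ) / 1000 / 10 * ((G1 : ℝ) / 4000)) =
          9 / 10 * ((P : ℝ) / 1000) - (m : ℝ) / 10000000 + ((s : ℝ) / 65536000 +
            kr / 8192 * (G - (G0 : ℝ) / 4000)) + V * ((N : ℝ) / 3000000000000000000) -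
            (L : ℝ) / 1000 * (1 / 10 * G) := by
        rw [hV, hGθ]; ring
      rw [e6] at hc
      have q5 := mul_le_mul_of_nonneg_left hIq hV0
      push_cast at q5
      have e7 : (1 - 1 / 10 : ℝ) * ((P : ℝ) / 1000) = 9 / 10 * ((P : ℝ) / 1000) := by ring
      rw [e7]
      linarith
  · right
    have ha4 : a1 ≠ 4000 := by
      intro h10
      rw [h10] at hAa
      norm_num at hAa
      linarith
    obtain ⟨h9a, h9b, h9c, h9d, h9e⟩ := h9.resolve_left ha4
    have hsc : (sg : ℝ) * sg + (cs : ℝ) * cs ≤ 1000000 := by exact_mod_cast h9a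
    have hb : (0 : ℝ) < 17694720000000000000000000 * P + 300000000000000000000 * (s : ℝ)
          - 1966080000000000000000 * m +
          (19660800000000000000 * ((cs : ℝ) * la) - 491520000000000000000 * (max (L : ℝ) 0 * a1))
          + 4915200000000000000000 * ((sg : ℝ) * ((a1 : ℝ) - G0))
          + 491520000000000000000 * (max (-(L : ℝ)) 0 * G0) := by
      exact_mod_cast h9b
    have hc : (0 : ℝ) < 17694720000000000000000000 * P + 300000000000000000000 * (s : ℝ)
          - 1966080000000000000000 * m +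
          (- 491520000000000000000 * (max (L : ℝ) 0 * 4000))
          + 4915200000000000000000 * ((sg : ℝ) * ((4000 : ℝ) - G0))
          + 491520000000000000000 * (max (-(L : ℝ)) 0 * G0) := by
      exact_mod_cast h9c
    have hd : (0 : ℝ) < 17694720000000000000000000 * P + 300000000000000000000 * (s : ℝ)
          - 1966080000000000000000 * m + 600000000000000000000 * (kz * ((G1 : ℝ) - G0)) +
          (19660800000000000000 * ((cs : ℝ) * la) - 491520000000000000000 * (max (L : ℝ) 0 * a1))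
          + 4915200000000000000000 * ((sg : ℝ) * ((a1 : ℝ) - G1))
          + 491520000000000000000 * (max (-(L : ℝ)) 0 * G1) := by
      exact_mod_cast h9d
    have hee : (0 : ℝ) < 17694720000000000000000000 * P + 300000000000000000000 * (s : ℝ)
          - 1966080000000000000000 * m + 600000000000000000000 * (kz * ((G1 : ℝ) - G0)) +
          (- 491520000000000000000 * (max (L : ℝ) 0 * 4000))
          + 4915200000000000000000 * ((sg : ℝ) * ((4000 : ℝ) - G1))
          + 491520000000000000000 * (max (-(L : ℝ)) 0 * G1) := by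
      exact_mod_cast h9e
    rw [hkk] at hd hee
    have ep : max ((L : ℝ) / 1000) 0 = max (L : ℝ) 0 / 1000 := max_scale _
    have en : max (-((L : ℝ) / 1000)) 0 = max (-(L : ℝ)) 0 / 1000 := by
      rw [← max_scale]; congr 1; ring
    rw [ep, en]
    generalize max (L : ℝ) 0 = Lp at hb hc hd hee ⊢
    generalize max (-(L : ℝ)) 0 = Ln at hb hc hd hee ⊢
    have hsg0 : (0 : ℝ) ≤ sg := Nat.cast_nonneg _
    have hcs0 : (0 : ℝ) ≤ cs := Nat.cast_nonneg _
    refine ⟨(sg : ℝ) / 1000, by positivity, ?_, ?_⟩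
    · rw [div_le_one (by norm_num)]
      nlinarith
    have hroot : (cs : ℝ) / 1000 ≤ √(1 - ((sg : ℝ) / 1000) ^ 2) := by
      apply Real.le_sqrt_of_sq_le
      have : 1 - ((sg : ℝ) / 1000) ^ 2 - ((cs : ℝ) / 1000) ^ 2 =
        (1000000 - ((sg : ℝ) * sg + (cs : ℝ) * cs)) / 1000000 := by ring
      have h10 : 0 ≤ 1 - ((sg : ℝ) / 1000) ^ 2 - ((cs : ℝ) / 1000) ^ 2 := by
        rw [this]
        apply div_nonneg _ (by norm_num)
        linarith
      linarith
    obtain ⟨η, hη0, hη1, hAη⟩ := exists_weight (a := (a1 : ℝ) / 4000) (b := 1) (x := A) hAa.le hA1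
    have hU : (1 - η) * ((la : ℝ) / 100000) ≤ Ufun (1 - A) e := by
      have := Ufun_chord (s := 1 - (a1 : ℝ) / 4000) (t := 0) (e := e) (θ := η)
        (by linarith) le_rfl he hη0 hη1
      rw [Ufun_zero he, mul_zero, add_zero, add_zero] at this
      have e2 : (1 - η) * (1 - (a1 : ℝ) / 4000) = 1 - A := by
        rw [hAη]; ring
      rw [e2] at this
      refine le_trans ?_ this
      exact mul_le_mul_of_nonneg_left ea (sub_nonneg.2 hη1)
    have hprod : (cs : ℝ) / 1000 * ((1 - η) * ((la : ℝ) / 100000)) ≤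
        √(1 - ((sg : ℝ) / 1000) ^ 2) * Ufun (1 - A) e :=
      mul_le_mul hroot hU (mul_nonneg (sub_nonneg.2 hη1) (by positivity)) (Real.sqrt_nonneg _)
    have F00 : 0 < 9 / 10 * ((P : ℝ) / 1000) + (s : ℝ) / 65536000 - (m : ℝ) / 10000000 +
        1 / 10 * ((cs : ℝ) / 1000 * ((la : ℝ) / 100000)) - Lp / 1000 * (1 / 10 * ((a1 : ℝ) / 4000)) +
        (sg : ℝ) / 1000 * ((a1 : ℝ) / 4000 - (G0 : ℝ) / 4000) +
        Ln / 1000 * (1 / 10 * ((G0 : ℝ) / 4000)) := by
      have := div_pos hb (show (0 : ℝ) < 19660800000000000000000000000 by norm_num)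
      refine lt_of_lt_of_eq this ?_
      ring
    have F01 : 0 < 9 / 10 * ((P : ℝ) / 1000) + (s : ℝ) / 65536000 - (m : ℝ) / 10000000 -
        Lp / 1000 * (1 / 10 * 1) +
        (sg : ℝ) / 1000 * (1 - (G0 : ℝ) / 4000) +
        Ln / 1000 * (1 / 10 * ((G0 : ℝ) / 4000)) := by
      have := div_pos hc (show (0 : ℝ) < 19660800000000000000000000000 by norm_num)
      refine lt_of_lt_of_eq this ?_
      ring
    have F10 : 0 < 9 / 10 * ((P : ℝ) / 1000) + (s : ℝ) / 65536000 - (m : ℝ) / 10000000 +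
        kr / 8192 * ((G1 : ℝ) / 4000 - (G0 : ℝ) / 4000) +
        1 / 10 * ((cs : ℝ) / 1000 * ((la : ℝ) / 100000)) - Lp / 1000 * (1 / 10 * ((a1 : ℝ) / 4000)) +
        (sg : ℝ) / 1000 * ((a1 : ℝ) / 4000 - (G1 : ℝ) / 4000) +
        Ln / 1000 * (1 / 10 * ((G1 : ℝ) / 4000)) := by
      have := div_pos hd (show (0 : ℝ) < 19660800000000000000000000000 by norm_num)
      refine lt_of_lt_of_eq this ?_
      ring
    have F11 : 0 < 9 / 10 * ((P : ℝ) / 1000) + (s : ℝ) / 65536000 - (m : ℝ) / 10000000 +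
        kr / 8192 * ((G1 : ℝ) / 4000 - (G0 : ℝ) / 4000) -
        Lp / 1000 * (1 / 10 * 1) +
        (sg : ℝ) / 1000 * (1 - (G1 : ℝ) / 4000) +
        Ln / 1000 * (1 / 10 * ((G1 : ℝ) / 4000)) := by
      have := div_pos hee (show (0 : ℝ) < 19660800000000000000000000000 by norm_num)
      refine lt_of_lt_of_eq this ?_
      ring
    have hT0 := conv_pos hη0 hη1 F00 F01
    have hT1 := conv_pos hη0 hη1 F10 F11
    have hT := conv_pos ht0 ht1 hT0 hT1
    have hkey : 9 / 10 * ((P : ℝ) / 1000) - (m : ℝ) / 10000000 + ((s : ℝ) / 65536000 +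
          kr / 8192 * (G - (G0 : ℝ) / 4000)) +
        1 / 10 * ((cs : ℝ) / 1000 * ((1 - η) * ((la : ℝ) / 100000))) +
        (sg : ℝ) / 1000 * (A - G) - Lp / 1000 * (1 / 10 * A) + Ln / 1000 * (1 / 10 * G) > 0 := by
      refine lt_of_lt_of_eq hT ?_
      rw [hAη, hGθ]
      ring
    have e7 : (1 - 1 / 10 : ℝ) * ((P : ℝ) / 1000) = 9 / 10 * ((P : ℝ) / 1000) := by ring
    have e8 : 1 / 10 * √(1 - ((sg : ℝ) / 1000) ^ 2) * Ufun (1 - A) e =
      1 / 10 * (√(1 - ((sg : ℝ) / 1000) ^ 2) * Ufun (1 - A) e) := by ring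
    rw [e7, e8]
    linarith

end Crest.Agent.R214.Cert
end

-- ▼ part R214/CertNodes
section

/-!
# Row 214: soundness of the certificate checker, IV: node lists
-/

set_option autoImplicit false

open Real Set MeasureTheory

namespace Crest.Agent.R214.Cert

theorem Iq_eq_Ifun {j : ℕ} (hj : 0 < j) : TT.Iq ((j : ℝ) / 50) = Ifun (50 / j) := by
  have : (j : ℝ) ≠ 0 := by positivity
  unfold TT.Iq Ifun
  congr 1
  funext x
  congr 2
  congr 1
  field_simp

theorem f1_le_T {j q x0 : ℕ} (hj : j ≤ 50) (y : ℝ) (_h : x0 = 0) :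
    ((TT.tTab.getD j 0 : ℕ) : ℝ) / 1000000 + (y - (q : ℝ) / 1000) * ((j : ℝ) / 50) ≤
      max 1 (Tfun (y - (q : ℝ) / 1000)) := by
  have h1 := TT.Iq_lower j hj
  rcases Nat.eq_zero_or_pos j with h0 | h0
  · subst h0
    simp only [Nat.cast_zero, zero_div, mul_zero, add_zero] at h1 ⊢
    rw [TT.Iq_zero] at h1
    exact h1.trans (le_max_left _ _)
  · rw [Iq_eq_Ifun h0] at h1
    have hj' : (0 : ℝ) < j := by exact_mod_cast h0
    have hj50 : (j : ℝ) ≤ 50 := by exact_mod_cast hj
    have h2 := le_Tfun (R := 50 / (j : ℝ)) (by rw [le_div_iff₀ hj']; linarith)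
      (y - (q : ℝ) / 1000)
    have e : (y - (q : ℝ) / 1000) / (50 / (j : ℝ)) = (y - (q : ℝ) / 1000) * ((j : ℝ) / 50) := by
      field_simp
    rw [e] at h2
    exact le_trans (by linarith) (le_max_right _ _)

/-- an affine interpolation below a square -/
theorem itp_le_sq {x x' : ℕ} (hx : x < x') {u u' a b : ℝ}
    (ha : u ≤ (a + b) * (4 * a - (a + b)) / 4) (hb : u' ≤ (a + b) * (4 * b - (a + b)) / 4)
    {y : ℝ} (hy : y ∈ Icc ((x : ℝ) / 4000) ((x' : ℝ) / 4000)) :
    itp x x' u u' y ≤ (itp x x' a b y) ^ 2 := by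
  have h : (0 : ℝ) < (x' : ℝ) - x := by
    have : (x : ℝ) < x' := by exact_mod_cast hx
    linarith
  have h1 : 0 ≤ th x x' y := div_nonneg (by linarith [hy.1]) h.le
  have h2 : th x x' y ≤ 1 := by
    unfold th
    rw [div_le_one h]
    linarith [hy.2]
  unfold itp
  generalize th x x' y = θ at h1 h2
  have q1 := mul_le_mul_of_nonneg_left ha (sub_nonneg.2 h2)
  have q2 := mul_le_mul_of_nonneg_left hb h1
  nlinarith [sq_nonneg ((1 - θ) * a + θ * b - (a + b) / 2)]

theorem itp_mono {x x' : ℕ} (hx : x < x') {u u' a b : ℝ} (ha : u ≤ a) (hb : u' ≤ b)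
    {y : ℝ} (hy : y ∈ Icc ((x : ℝ) / 4000) ((x' : ℝ) / 4000)) :
    itp x x' u u' y ≤ itp x x' a b y := by
  have h : (0 : ℝ) < (x' : ℝ) - x := by
    have : (x : ℝ) < x' := by exact_mod_cast hx
    linarith
  have h1 : 0 ≤ th x x' y := div_nonneg (by linarith [hy.1]) h.le
  have h2 : th x x' y ≤ 1 := by
    unfold th
    rw [div_le_one h]
    linarith [hy.2]
  unfold itp
  have q1 := mul_le_mul_of_nonneg_left ha (sub_nonneg.2 h2)
  have q2 := mul_le_mul_of_nonneg_left hb h1
  linarith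

/-- the interpolation of an affine function -/
theorem itp_affine {x x' : ℕ} (hx : x < x') (α β : ℝ) (y : ℝ) :
    itp x x' (α + β * ((x : ℝ) / 4000)) (α + β * ((x' : ℝ) / 4000)) y = α + β * y := by
  have h : ((x' : ℝ) - x) ≠ 0 := by
    have : (x : ℝ) < x' := by exact_mod_cast hx
    linarith [sub_pos.2 this]
  unfold itp th
  field_simp
  ring

set_option maxHeartbeats 2000000 in
/-- what a cell check gives -/
theorem cell_bounds {two : Bool} {e q j x x' d d' : ℕ} (he : 0 < e)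
    (h : cellOK TT.tTab two e q j x x' d d' = true) :
    x < x' ∧ ∀ y ∈ Icc ((x : ℝ) / 4000) ((x' : ℝ) / 4000),
      itp x x' (gd d) (gd d') y ≤ π * y ∧
      itp x x' (gd d) (gd d') y ≤ (max 1 (Tfun (y - (q : ℝ) / 1000))) ^ 2 ∧
      (two = false → itp x x' (gd d) (gd d') y ≤ π * (1 - y)) ∧
      (two = true → itp x x' (gd d) (gd d') y ≤ (Ufun (1 - y) ((e : ℝ) / 1000)) ^ 2) := by
  unfold cellOK at h
  simp only [Bool.and_eq_true, Nat.ble_eq] at h
  obtain ⟨⟨⟨⟨⟨⟨h1, h2⟩, h3⟩, h4⟩, h5⟩, h6⟩, h7⟩ := h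
  have hx : x < x' := h1
  have hxR : (x : ℝ) < x' := by exact_mod_cast hx
  have hx4 : (x' : ℝ) ≤ 4000 := by exact_mod_cast h2
  have hpi := pi_lo
  have hpi2 := pi_hi
  have hp0 := Real.pi_pos
  have heR : (0 : ℝ) < e := by exact_mod_cast he
  refine ⟨hx, fun y hy => ?_⟩
  have hy0 : 0 ≤ y := le_trans (by positivity) hy.1
  have hy1 : y ≤ 1 := hy.2.trans (by linarith)
  have hd : (d : ℝ) ≤ 12566000000 * x := by exact_mod_cast h4
  have hd' : (d' : ℝ) ≤ 12566000000 * x' := by exact_mod_cast h5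
  refine ⟨?_, ?_, ?_, ?_⟩
  · have q1 : gd d ≤ 0 + 3.1415 * ((x : ℝ) / 4000) := by
      unfold gd; rw [div_le_iff₀ (by norm_num)]; linarith
    have q2 : gd d' ≤ 0 + 3.1415 * ((x' : ℝ) / 4000) := by
      unfold gd; rw [div_le_iff₀ (by norm_num)]; linarith
    refine (itp_mono hx q1 q2 hy).trans ?_
    rw [itp_affine hx]
    nlinarith
  · unfold cell1 at h6
    simp only [Bool.and_eq_true, decide_eq_true_eq] at h6
    obtain ⟨⟨⟨g1, g2⟩, g3⟩, g4⟩ := h6
    set a := f1 TT.tTab q j x with ha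
    set b := f1 TT.tTab q j x' with hb
    have fa : (a : ℝ) / 1000000 = (((TT.tTab.getD j 0 : ℕ) : ℝ) / 1000000 -
        (q : ℝ) / 1000 * ((j : ℝ) / 50)) + ((j : ℝ) / 50) * ((x : ℝ) / 4000) := by
      rw [ha]; unfold f1; push_cast; ring
    have fb : (b : ℝ) / 1000000 = (((TT.tTab.getD j 0 : ℕ) : ℝ) / 1000000 -
        (q : ℝ) / 1000 * ((j : ℝ) / 50)) + ((j : ℝ) / 50) * ((x' : ℝ) / 4000) := by
      rw [hb]; unfold f1; push_cast; ring
    have g1r : (0 : ℝ) ≤ a := by exact_mod_cast g1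
    have g2r : (0 : ℝ) ≤ b := by exact_mod_cast g2
    have g3r : (d : ℝ) ≤ 4 * (((a : ℝ) + b) * (4 * a - (a + b))) := by exact_mod_cast g3
    have g4r : (d' : ℝ) ≤ 4 * (((a : ℝ) + b) * (4 * b - (a + b))) := by exact_mod_cast g4
    have k1 : gd d ≤ ((a : ℝ) / 1000000 + b / 1000000) *
        (4 * ((a : ℝ) / 1000000) - (a / 1000000 + b / 1000000)) / 4 := by
      unfold gd
      rw [div_le_iff₀ (by norm_num)]
      refine g3r.trans (le_of_eq ?_)
      ring
    have k2 : gd d' ≤ ((a : ℝ) / 1000000 + b / 1000000) *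
        (4 * ((b : ℝ) / 1000000) - (a / 1000000 + b / 1000000)) / 4 := by
      unfold gd
      rw [div_le_iff₀ (by norm_num)]
      refine g4r.trans (le_of_eq ?_)
      ring
    have k3 := itp_le_sq hx k1 k2 hy
    refine k3.trans ?_
    have k4 : itp x x' ((a : ℝ) / 1000000) ((b : ℝ) / 1000000) y ≤
        max 1 (Tfun (y - (q : ℝ) / 1000)) := by
      rw [fa, fb, itp_affine hx]
      refine le_trans (le_of_eq ?_) (f1_le_T (q := q) h3 y rfl)
      ring
    have k5 : 0 ≤ itp x x' ((a : ℝ) / 1000000) ((b : ℝ) / 1000000) y := by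
      have := itp_mono hx (u := 0) (u' := 0) (a := (a : ℝ) / 1000000) (b := (b : ℝ) / 1000000)
        (by positivity) (by positivity) hy
      simpa [itp] using this
    exact pow_le_pow_left₀ k5 k4 2
  · intro ht
    rw [ht] at h7
    simp only [Bool.false_and, cond_false, Bool.and_eq_true, Nat.ble_eq] at h7
    obtain ⟨g1, g2⟩ := h7
    have g1r : (d : ℝ) ≤ 12566000000 * (4000 - x) := by
      have : ((4000 - x : ℕ) : ℝ) = 4000 - (x : ℝ) := by
        rw [Nat.cast_sub (by omega)]; norm_num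
      rw [← this]; exact_mod_cast g1
    have g2r : (d' : ℝ) ≤ 12566000000 * (4000 - x') := by
      have : ((4000 - x' : ℕ) : ℝ) = 4000 - (x' : ℝ) := by
        rw [Nat.cast_sub (by omega)]; norm_num
      rw [← this]; exact_mod_cast g2
    have q1 : gd d ≤ 3.1415 + (-3.1415) * ((x : ℝ) / 4000) := by
      unfold gd; rw [div_le_iff₀ (by norm_num)]; linarith
    have q2 : gd d' ≤ 3.1415 + (-3.1415) * ((x' : ℝ) / 4000) := by
      unfold gd; rw [div_le_iff₀ (by norm_num)]; linarith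
    refine (itp_mono hx q1 q2 hy).trans ?_
    rw [itp_affine hx]
    nlinarith
  · intro ht
    rw [ht] at h7
    simp only [Bool.true_and] at h7
    cases hc : Nat.ble (31416 * (e * e)) ((4000 - x') * 10000000) with
    | true =>
      rw [hc, cond_true] at h7
      have hc' := Nat.le_of_ble_eq_true hc
      unfold cell2 at h7
      simp only [Bool.and_eq_true, Nat.ble_eq] at h7
      obtain ⟨g1, g2⟩ := h7
      have c1 : ((4000 - x : ℕ) : ℝ) = 4000 - (x : ℝ) := by
        rw [Nat.cast_sub (by omega)]; norm_num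
      have c2 : ((4000 - x' : ℕ) : ℝ) = 4000 - (x' : ℝ) := by
        rw [Nat.cast_sub (by omega)]; norm_num
      set a := n2 e x with ha
      set b := n2 e x' with hb
      have fa : (a : ℝ) / (40000000 * e) = (1000 / (e : ℝ) + 3.1415 * e / 4000) +
          (-(1000 / (e : ℝ))) * ((x : ℝ) / 4000) := by
        rw [ha]; unfold n2; push_cast [c1]; field_simp; ring
      have fb : (b : ℝ) / (40000000 * e) = (1000 / (e : ℝ) + 3.1415 * e / 4000) +
          (-(1000 / (e : ℝ))) * ((x' : ℝ) / 4000) := by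
        rw [hb]; unfold n2; push_cast [c2]; field_simp; ring
      have g1r : (d : ℝ) * (400 * (e * e)) + ((a : ℝ) + b) * (a + b) ≤ (a + b) * (4 * a) := by
        exact_mod_cast g1
      have g2r : (d' : ℝ) * (400 * (e * e)) + ((a : ℝ) + b) * (a + b) ≤ (a + b) * (4 * b) := by
        exact_mod_cast g2
      have k1 : gd d ≤ ((a : ℝ) / (40000000 * e) + b / (40000000 * e)) *
          (4 * ((a : ℝ) / (40000000 * e)) - (a / (40000000 * e) + b / (40000000 * e))) / 4 := by
        have : ((a : ℝ) / (40000000 * e) + b / (40000000 * e)) *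
          (4 * ((a : ℝ) / (40000000 * e)) - (a / (40000000 * e) + b / (40000000 * e))) / 4 =
          ((a + b) * (4 * a) - ((a : ℝ) + b) * (a + b)) / (16000000000000 * (400 * (e * e))) := by
          field_simp; ring
        rw [this]
        unfold gd
        rw [div_le_div_iff₀ (by norm_num) (by positivity)]
        have g3 := mul_le_mul_of_nonneg_right (show (d : ℝ) * (400 * (e * e)) ≤
          (a + b) * (4 * a) - ((a : ℝ) + b) * (a + b) by linarith)
          (show (0 : ℝ) ≤ 16000000000000 by norm_num)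
        exact (le_of_eq (by ring)).trans g3
      have k2 : gd d' ≤ ((a : ℝ) / (40000000 * e) + b / (40000000 * e)) *
          (4 * ((b : ℝ) / (40000000 * e)) - (a / (40000000 * e) + b / (40000000 * e))) / 4 := by
        have : ((a : ℝ) / (40000000 * e) + b / (40000000 * e)) *
          (4 * ((b : ℝ) / (40000000 * e)) - (a / (40000000 * e) + b / (40000000 * e))) / 4 =
          ((a + b) * (4 * b) - ((a : ℝ) + b) * (a + b)) / (16000000000000 * (400 * (e * e))) := by
          field_simp; ring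
        rw [this]
        unfold gd
        rw [div_le_div_iff₀ (by norm_num) (by positivity)]
        have g3 := mul_le_mul_of_nonneg_right (show (d' : ℝ) * (400 * (e * e)) ≤
          (a + b) * (4 * b) - ((a : ℝ) + b) * (a + b) by linarith)
          (show (0 : ℝ) ≤ 16000000000000 by norm_num)
        exact (le_of_eq (by ring)).trans g3
      have k3 := itp_le_sq hx k1 k2 hy
      refine k3.trans ?_
      have hcr : 31416 * ((e : ℝ) * e) ≤ (4000 - (x' : ℝ)) * 10000000 := by
        rw [← c2]; exact_mod_cast hc'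
      have k4 : itp x x' ((a : ℝ) / (40000000 * e)) ((b : ℝ) / (40000000 * e)) y ≤
          Ufun (1 - y) ((e : ℝ) / 1000) := by
        rw [fa, fb, itp_affine hx]
        unfold Ufun
        have hif : π * ((e : ℝ) / 1000) ^ 2 ≤ 4 * (1 - y) := by
          have : π * ((e : ℝ) / 1000) ^ 2 ≤ 3.1416 * ((e : ℝ) / 1000) ^ 2 := by gcongr
          have h8 := hy.2
          nlinarith
        rw [if_pos hif]
        have e1 : (1 - y) / ((e : ℝ) / 1000) = 1000 / (e : ℝ) + -(1000 / (e : ℝ)) * y := by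
          field_simp; ring
        rw [e1]
        have : 3.1415 * (e : ℝ) / 4000 ≤ π * ((e : ℝ) / 1000) / 4 := by nlinarith
        linarith
      have k5 : 0 ≤ itp x x' ((a : ℝ) / (40000000 * e)) ((b : ℝ) / (40000000 * e)) y := by
        have := itp_mono hx (u := 0) (u' := 0) (a := (a : ℝ) / (40000000 * e))
          (b := (b : ℝ) / (40000000 * e)) (by positivity) (by positivity) hy
        simpa [itp] using this
      exact pow_le_pow_left₀ k5 k4 2
    | false =>
      rw [hc, cond_false] at h7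
      simp only [Bool.and_eq_true, Nat.ble_eq] at h7
      obtain ⟨g1, g2⟩ := h7
      have g1r : (d : ℝ) ≤ 12566000000 * (4000 - x) := by
        have : ((4000 - x : ℕ) : ℝ) = 4000 - (x : ℝ) := by
          rw [Nat.cast_sub (by omega)]; norm_num
        rw [← this]; exact_mod_cast g1
      have g2r : (d' : ℝ) ≤ 12566000000 * (4000 - x') := by
        have : ((4000 - x' : ℕ) : ℝ) = 4000 - (x' : ℝ) := by
          rw [Nat.cast_sub (by omega)]; norm_num
        rw [← this]; exact_mod_cast g2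
      have q1 : gd d ≤ 3.1415 + (-3.1415) * ((x : ℝ) / 4000) := by
        unfold gd; rw [div_le_iff₀ (by norm_num)]; linarith
      have q2 : gd d' ≤ 3.1415 + (-3.1415) * ((x' : ℝ) / 4000) := by
        unfold gd; rw [div_le_iff₀ (by norm_num)]; linarith
      refine (itp_mono hx q1 q2 hy).trans ?_
      rw [itp_affine hx]
      have h8 : √(π * (1 - y)) ≤ Ufun (1 - y) ((e : ℝ) / 1000) :=
        sqrt_le_Ufun (by linarith) (by positivity)
      have h9 : π * (1 - y) ≤ Ufun (1 - y) ((e : ℝ) / 1000) ^ 2 := by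
        have := pow_le_pow_left₀ (Real.sqrt_nonneg _) h8 2
        rwa [Real.sq_sqrt (by nlinarith)] at this
      nlinarith

/-- the property of the polygon in the one-zone case -/
def Q1 (y g : ℝ) : Prop := g ≤ Jgood (1 / 10) y ^ 2

/-- the property of the polygon in the two-zone case -/
def Q2 (e q : ℝ) (y g : ℝ) : Prop := g ≤ ZC.Jmin q e y ^ 2

theorem Q1_of {y g : ℝ} (hy0 : 0 ≤ y) (hy1 : y ≤ 1) (h1 : g ≤ π * y)
    (h2 : g ≤ (max 1 (Tfun (y - 1 / 10))) ^ 2) (h3 : g ≤ π * (1 - y)) : Q1 y g := by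
  have hp := Real.pi_pos
  unfold Q1 Jgood
  rcases min_choice (√(π * y)) (min (max 1 (Tfun (y - 1 / 10))) √(π * (1 - y))) with h | h
  · rw [h, Real.sq_sqrt (by positivity)]; exact h1
  · rw [h]
    rcases min_choice (max 1 (Tfun (y - 1 / 10))) √(π * (1 - y)) with h' | h'
    · rw [h']; exact h2
    · rw [h', Real.sq_sqrt (mul_nonneg hp.le (by linarith))]; exact h3

theorem Q2_of {e q y g : ℝ} (hy0 : 0 ≤ y) (h1 : g ≤ π * y)
    (h2 : g ≤ (max 1 (Tfun (y - q))) ^ 2) (h3 : g ≤ Ufun (1 - y) e ^ 2) : Q2 e q y g := by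
  have hp := Real.pi_pos
  unfold Q2 ZC.Jmin Jtail
  rcases min_choice (min (√(π * y)) (max 1 (Tfun (y - q)))) (Ufun (1 - y) e) with h | h
  · rw [h]
    rcases min_choice (√(π * y)) (max 1 (Tfun (y - q))) with h' | h'
    · rw [h', Real.sq_sqrt (by positivity)]; exact h1
    · rw [h']; exact h2
  · rw [h]; exact h3

theorem chain_one {e : ℕ} (he : 0 < e) : ∀ (t : List (ℕ × ℕ)) (x d : ℕ) (js : List ℕ),
    chainOK TT.tTab false e 100 x d t js = true → ChainQ Q1 x d t := by
  intro t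
  induction t with
  | nil => intro x d js _; trivial
  | cons hd t ih =>
    obtain ⟨x', d'⟩ := hd
    intro x d js h
    cases js with
    | nil => simp [chainOK] at h
    | cons j js =>
      rw [chainOK, Bool.and_eq_true] at h
      obtain ⟨hx, hc⟩ := cell_bounds he h.1
      refine ⟨hx, fun y hy => ?_, ih x' d' js h.2⟩
      have h1 := h.1
      unfold cellOK at h1
      simp only [Bool.and_eq_true, Nat.ble_eq] at h1
      have hx4 : (x' : ℝ) ≤ 4000 := by exact_mod_cast h1.1.1.1.1.1.2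
      obtain ⟨g1, g2, g3, -⟩ := hc y hy
      refine Q1_of (le_trans (by positivity) hy.1) (hy.2.trans (by linarith)) g1 ?_ (g3 rfl)
      have : ((100 : ℕ) : ℝ) / 1000 = 1 / 10 := by norm_num
      rwa [this] at g2

theorem chain_two {e q : ℕ} (he : 0 < e) : ∀ (t : List (ℕ × ℕ)) (x d : ℕ) (js : List ℕ),
    chainOK TT.tTab true e q x d t js = true →
      ChainQ (Q2 ((e : ℝ) / 1000) ((q : ℝ) / 1000)) x d t := by
  intro t
  induction t with
  | nil => intro x d js _; trivial
  | cons hd t ih =>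
    obtain ⟨x', d'⟩ := hd
    intro x d js h
    cases js with
    | nil => simp [chainOK] at h
    | cons j js =>
      rw [chainOK, Bool.and_eq_true] at h
      obtain ⟨hx, hc⟩ := cell_bounds he h.1
      refine ⟨hx, fun y hy => ?_, ih x' d' js h.2⟩
      obtain ⟨g1, g2, -, g3⟩ := hc y hy
      exact Q2_of (le_trans (by positivity) hy.1) g1 g2 (g3 rfl)

theorem nodes_one {e : ℕ} (he : 0 < e) {js : List ℕ} {l : List (ℕ × ℕ)}
    (h : nodesOK TT.tTab false e 100 js l = true) : ChainL Q1 l := by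
  cases l with
  | nil => trivial
  | cons hd t =>
    obtain ⟨x, d⟩ := hd
    unfold nodesOK at h
    simp only [Bool.and_eq_true] at h
    obtain ⟨⟨h1, h2⟩, h3⟩ := h
    have e2 : d = 0 := Nat.eq_of_beq_eq_true h2
    refine ⟨?_, chain_one he t x d js h3⟩
    rw [e2]
    unfold Q1 gd
    rw [Nat.cast_zero, zero_div]
    exact sq_nonneg _

theorem nodes_two {e q : ℕ} (he : 0 < e) {js : List ℕ} {l : List (ℕ × ℕ)}
    (h : nodesOK TT.tTab true e q js l = true) :
    ChainL (Q2 ((e : ℝ) / 1000) ((q : ℝ) / 1000)) l := by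
  cases l with
  | nil => trivial
  | cons hd t =>
    obtain ⟨x, d⟩ := hd
    unfold nodesOK at h
    simp only [Bool.and_eq_true] at h
    obtain ⟨⟨h1, h2⟩, h3⟩ := h
    have e2 : d = 0 := Nat.eq_of_beq_eq_true h2
    refine ⟨?_, chain_two he t x d js h3⟩
    rw [e2]
    unfold Q2 gd
    rw [Nat.cast_zero, zero_div]
    exact sq_nonneg _

theorem ell_sound {e : ℕ} (he : 0 < e) : ∀ (l : List (ℕ × ℕ)), ellOK e l = true →
    ∀ x, x ≤ 4000 → ((lookup x l : ℕ) : ℝ) / 100000 ≤ Ufun (1 - (x : ℝ) / 4000) ((e : ℝ) / 1000) := by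
  have heR : (0 : ℝ) < e := by exact_mod_cast he
  have hpi := pi_lo
  have hpi2 := pi_hi
  intro l
  induction l with
  | nil =>
    intro _ x hx
    have hx' : (x : ℝ) ≤ 4000 := by exact_mod_cast hx
    unfold lookup
    rw [Nat.cast_zero, zero_div]
    exact Ufun_nonneg (by linarith) (by positivity)
  | cons hd t ih =>
    obtain ⟨y, v⟩ := hd
    intro h x hx
    unfold ellOK at h
    simp only [Bool.and_eq_true, Nat.ble_eq] at h
    obtain ⟨⟨h1, h2⟩, h3⟩ := h
    unfold lookup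
    cases hc : Nat.beq x y with
    | false =>
      rw [cond_false]
      exact ih h3 x hx
    | true =>
      rw [cond_true]
      have hxy : x = y := Nat.eq_of_beq_eq_true hc
      subst hxy
      have hx' : (x : ℝ) ≤ 4000 := by exact_mod_cast hx
      have c1 : ((4000 - x : ℕ) : ℝ) = 4000 - (x : ℝ) := by
        rw [Nat.cast_sub (by omega)]; norm_num
      cases hd : Nat.ble (31416 * (e * e)) ((4000 - x) * 10000000) with
      | true =>
        rw [hd, cond_true] at h2
        have h2' := Nat.le_of_ble_eq_true h2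
        have hd' := Nat.le_of_ble_eq_true hd
        have hcr : 31416 * ((e : ℝ) * e) ≤ (4000 - (x : ℝ)) * 10000000 := by
          rw [← c1]; exact_mod_cast hd'
        have h2r : 400 * (v : ℝ) * e ≤ 10000000 * (4000 - (x : ℝ)) + 31415 * (e * e) := by
          unfold n2 at h2'
          rw [← c1]; exact_mod_cast h2'
        unfold Ufun
        have hif : π * ((e : ℝ) / 1000) ^ 2 ≤ 4 * (1 - (x : ℝ) / 4000) := by
          have : π * ((e : ℝ) / 1000) ^ 2 ≤ 3.1416 * ((e : ℝ) / 1000) ^ 2 := by gcongr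
          nlinarith
        rw [if_pos hif]
        have e1 : (1 - (x : ℝ) / 4000) / ((e : ℝ) / 1000) = (4000 - (x : ℝ)) / (4 * e) := by
          field_simp; ring
        rw [e1]
        have e2 : 3.1415 * (e : ℝ) / 4000 ≤ π * ((e : ℝ) / 1000) / 4 := by nlinarith
        have e3 : (v : ℝ) / 100000 ≤ (4000 - (x : ℝ)) / (4 * e) + 3.1415 * (e : ℝ) / 4000 := by
          have : (4000 - (x : ℝ)) / (4 * e) + 3.1415 * (e : ℝ) / 4000 =
            (10000000 * (4000 - (x : ℝ)) + 31415 * (e * e)) / (40000000 * e) := by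
            field_simp; ring
          rw [this, div_le_div_iff₀ (by norm_num) (by positivity)]
          nlinarith
        linarith
      | false =>
        rw [hd, cond_false] at h2
        have h2' := Nat.le_of_ble_eq_true h2
        have h2r : (v : ℝ) * v ≤ 7853750 * (4000 - (x : ℝ)) := by
          rw [← c1]; exact_mod_cast h2'
        refine le_trans ?_ (sqrt_le_Ufun (s := 1 - (x : ℝ) / 4000) (by linarith) (by positivity))
        apply Real.le_sqrt_of_sq_le
        have : ((v : ℝ) / 100000) ^ 2 = (v * v) / 10000000000 := by ring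
        rw [this]
        have h4 : 3.1415 * (1 - (x : ℝ) / 4000) ≤ π * (1 - (x : ℝ) / 4000) :=
          mul_le_mul_of_nonneg_right hpi.le (by linarith)
        linarith

end Crest.Agent.R214.Cert
end

-- ▼ part R214/CertRun

/-!
# Row 214: soundness of the certificate checker, V: boxes
-/

set_option autoImplicit false

open Real Set MeasureTheory

namespace Crest.Agent.R214.Cert

/-- `C` holds on the box -/
def BoxGood (C : ℝ → ℝ → Prop) (b : ℕ × ℕ × ℕ × ℕ) : Prop :=
  ∀ B G : ℝ, (b.1 : ℝ) / 4000 ≤ B → B ≤ (b.2.1 : ℝ) / 4000 → (b.2.2.1 : ℝ) / 4000 ≤ G →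
    G ≤ (b.2.2.2 : ℝ) / 4000 → B ≤ G → G ≤ 1 → C B G

theorem run_sound (par : Par) (C : ℝ → ℝ → Prop)
    (hskip : ∀ B0 B1 G0 G1, skipOK par B0 B1 G0 G1 = true → BoxGood C (B0, B1, G0, G1))
    (hleaf : ∀ pp pn lp ln a1 sg cs D B0 B1 G0 G1,
      leafOK par pp pn lp ln a1 sg cs D B0 B1 G0 G1 = true → BoxGood C (B0, B1, G0, G1)) :
    ∀ (ts : List Tok) (bs : List (ℕ × ℕ × ℕ × ℕ)), run par ts bs = true →
      ∀ b ∈ bs, BoxGood C b := by
  intro ts
  induction ts with
  | nil =>
    intro bs h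
    cases bs with
    | nil => simp
    | cons b bs => simp [run] at h
  | cons tk ts ih =>
    intro bs h
    cases bs with
    | nil => cases tk <;> simp [run] at h
    | cons b bs =>
      obtain ⟨B0, B1, G0, G1⟩ := b
      cases tk with
      | b m =>
        rw [run] at h
        have h1 := ih _ h
        intro b hb
        rcases List.mem_cons.1 hb with rfl | hb
        · have ha := h1 (B0, m, G0, G1) (by simp)
          have hc := h1 (m, B1, G0, G1) (by simp)
          intro B G h2 h3 h4 h5 h6 h7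
          rcases le_total B ((m : ℝ) / 4000) with h8 | h8
          · exact ha B G h2 h8 h4 h5 h6 h7
          · exact hc B G h8 h3 h4 h5 h6 h7
        · exact h1 b (by simp [hb])
      | g m =>
        rw [run] at h
        have h1 := ih _ h
        intro b hb
        rcases List.mem_cons.1 hb with rfl | hb
        · have ha := h1 (B0, B1, G0, m) (by simp)
          have hc := h1 (B0, B1, m, G1) (by simp)
          intro B G h2 h3 h4 h5 h6 h7
          rcases le_total G ((m : ℝ) / 4000) with h8 | h8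
          · exact ha B G h2 h3 h4 h8 h6 h7
          · exact hc B G h2 h3 h8 h5 h6 h7
        · exact h1 b (by simp [hb])
      | s =>
        rw [run, Bool.and_eq_true] at h
        intro b hb
        rcases List.mem_cons.1 hb with rfl | hb
        · exact hskip _ _ _ _ h.1
        · exact ih _ h.2 b hb
      | l pp pn lp ln a1 sg cs D =>
        rw [run, Bool.and_eq_true] at h
        intro b hb
        rcases List.mem_cons.1 hb with rfl | hb
        · exact hleaf _ _ _ _ _ _ _ _ _ _ _ _ h.1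
        · exact ih _ h.2 b hb

theorem skip_sound {par : Par} {B0 B1 G0 G1 : ℕ} (h : skipOK par B0 B1 G0 G1 = true) :
    BoxGood (fun B G => (par.two = false ∧ G ≤ (par.gmin : ℝ) / 4000) ∨ (B ≤ 1 / 50 ∧ 49 / 50 ≤ G))
      (B0, B1, G0, G1) := by
  unfold skipOK at h
  simp only [Bool.or_eq_true, Bool.and_eq_true, Nat.ble_eq, Bool.not_eq_true'] at h
  intro B G h2 h3 h4 h5 h6 _
  simp only at h2 h3 h4 h5
  rcases h with (h | ⟨ha, hb⟩) | ⟨ha, hb⟩
  · exfalso
    have : (G1 : ℝ) + 1 ≤ B0 := by exact_mod_cast h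
    linarith
  · right
    have ha' : (B1 : ℝ) ≤ 80 := by exact_mod_cast ha
    have hb' : (3920 : ℝ) ≤ G0 := by exact_mod_cast hb
    constructor <;> linarith
  · left
    have hb' : (G1 : ℝ) ≤ par.gmin := by exact_mod_cast hb
    exact ⟨ha, by linarith⟩

theorem wr_eq (pp pn lp ln : ℕ) (y : ℝ) :
    wr pp pn lp ln y = (((pp : ℤ) - pn : ℤ) : ℝ) / 1000 + (((lp : ℤ) - ln : ℤ) : ℝ) / 1000 * y := by
  unfold wr
  push_cast
  ring

theorem leaf_one {par : Par} (ht : par.two = false) (hN : ChainL Q1 par.nodes)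
    {pp pn lp ln a1 sg cs D B0 B1 G0 G1 : ℕ}
    (h : leafOK par pp pn lp ln a1 sg cs D B0 B1 G0 G1 = true) :
    BoxGood (fun B G => ZC.CertOne (Jgood (1 / 10)) B G) (B0, B1, G0, G1) := by
  unfold leafOK at h
  rw [ht, cond_false] at h
  simp only [Bool.and_eq_true, Nat.ble_eq] at h
  obtain ⟨⟨h1, h2⟩, h3⟩ := h
  intro B G h4 h5 h6 h7 h8 _
  simp only at h4 h5 h6 h7
  have hG : G0 ≤ G1 := by
    have : (G0 : ℝ) ≤ G1 := by linarith
    exact_mod_cast this
  obtain ⟨g, s', k', hgc, hall, hf, hint⟩ := leaf_out Q1 _ hG h1 h2 hN h3 h4 h5 h6 h7 h8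
  refine ⟨(((lp : ℤ) - ln : ℤ) : ℝ) / 1000, (((pp : ℤ) - pn : ℤ) : ℝ) / 1000, _, g,
    mHi_sound _, hgc.continuousOn, ?_, ?_⟩
  · intro y hy
    obtain ⟨q1, q2, q3⟩ := hall y hy
    rw [wr_eq] at q2 q3
    exact ⟨q2, q3, q1⟩
  · have hs := fin1_sound hf
    simp_rw [wr_eq] at hint
    have hk : 0 ≤ (if B1 ≤ G0 then (k' : ℝ) else 0) / 8192 * (G - (G0 : ℝ) / 4000) := by
      apply mul_nonneg _ (by linarith)
      split
      · positivity
      · simp
    linarith

theorem leaf_two {par : Par} {e q : ℕ} (he : 0 < e) (ht : par.two = true)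
    (hN : ChainL (Q2 ((e : ℝ) / 1000) ((q : ℝ) / 1000)) par.nodes) (hE : ellOK e par.ell = true)
    {pp pn lp ln a1 sg cs D B0 B1 G0 G1 : ℕ}
    (h : leafOK par pp pn lp ln a1 sg cs D B0 B1 G0 G1 = true) :
    BoxGood (fun B G => ZC.CertTwoT ((e : ℝ) / 1000) ((q : ℝ) / 1000) B G) (B0, B1, G0, G1) := by
  have heR : (0 : ℝ) < (e : ℝ) / 1000 := by positivity
  unfold leafOK at h
  rw [ht, cond_true] at h
  simp only [Bool.and_eq_true, Nat.ble_eq] at h
  obtain ⟨⟨h1, h2⟩, h3⟩ := h
  intro B G h4 h5 h6 h7 h8 _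
  simp only at h4 h5 h6 h7
  have hG : G0 ≤ G1 := by
    have : (G0 : ℝ) ≤ G1 := by linarith
    exact_mod_cast this
  obtain ⟨g, s', k', hgc, hall, hf, hint⟩ := leaf_out _ _ hG h1 h2 hN h3 h4 h5 h6 h7 h8
  refine ⟨(((lp : ℤ) - ln : ℤ) : ℝ) / 1000, (((pp : ℤ) - pn : ℤ) : ℝ) / 1000, _, g,
    mHi_sound _, hgc.continuousOn, ?_, ?_⟩
  · intro y hy
    obtain ⟨q1, q2, q3⟩ := hall y hy
    rw [wr_eq] at q2 q3
    exact ⟨q2, q3, q1⟩
  · intro A hA
    simp_rw [wr_eq] at hint
    rcases fin2_sound hf heR (ell_sound he par.ell hE) h6 h7 hint hA.1 hA.2 with h9 |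
      ⟨σ, hs0, hs1, hs⟩
    · exact Or.inl h9
    · refine Or.inr ⟨σ, hs0, hs1, ?_⟩
      linarith

/-- the table for the one-zone case -/
theorem table_one {par : Par} {ts : List Tok} {js : List ℕ} (ht : par.two = false)
    (hg : par.gmin = 1520) (hN : nodesOK TT.tTab false 1 100 js par.nodes = true)
    (h : run par ts [(0, 2000, 0, 4000)] = true) : ZC.TableOne := by
  intro B A h1 h2 h3 h4
  have := run_sound par (fun B G => G ≤ 38 / 100 ∨ (B ≤ 1 / 50 ∧ 49 / 50 ≤ G) ∨
    ZC.CertOne (Jgood (1 / 10)) B G) ?_ ?_ ts _ h (0, 2000, 0, 4000) (by simp) B A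
    (by simpa using h1) (by norm_num; linarith) (by simp; linarith) (by norm_num; linarith) h3 h4
  · exact this
  · intro B0 B1 G0 G1 hs B G q1 q2 q3 q4 q5 q6
    rcases skip_sound hs B G q1 q2 q3 q4 q5 q6 with ⟨-, hx⟩ | hx
    · left
      rw [hg] at hx
      norm_num at hx ⊢
      linarith
    · exact Or.inr (Or.inl hx)
  · intro pp pn lp ln a1 sg cs D B0 B1 G0 G1 hl B G q1 q2 q3 q4 q5 q6
    exact Or.inr (Or.inr (leaf_one ht (nodes_one one_pos hN) hl B G q1 q2 q3 q4 q5 q6))

/-- the table for a two-zone case -/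
theorem table_two {par : Par} {ts : List Tok} {js : List ℕ} {e q : ℕ} (he : 0 < e)
    (ht : par.two = true) (hN : nodesOK TT.tTab true e q js par.nodes = true)
    (hE : ellOK e par.ell = true) (h : run par ts [(0, 2000, 0, 4000)] = true) {q0 q1 : ℝ}
    (hq0 : 1 - q0 = (e : ℝ) / 1000) (hq1 : q1 = (q : ℝ) / 1000) : ZC.TableTwo q0 q1 := by
  intro B G h1 h2 h3 h4
  have := run_sound par (fun B G => (B ≤ 1 / 50 ∧ 49 / 50 ≤ G) ∨
    ZC.CertTwoT ((e : ℝ) / 1000) ((q : ℝ) / 1000) B G) ?_ ?_ ts _ h (0, 2000, 0, 4000) (by simp) B G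
    (by simpa using h1) (by norm_num; linarith) (by simp; linarith) (by norm_num; linarith) h3 h4
  · rw [hq0, hq1]
    exact this
  · intro B0 B1 G0 G1 hs B G q1 q2 q3 q4 q5 q6
    rcases skip_sound hs B G q1 q2 q3 q4 q5 q6 with ⟨hx, -⟩ | hx
    · rw [ht] at hx
      exact absurd hx (by decide)
    · exact Or.inl hx
  · intro pp pn lp ln a1 sg cs D B0 B1 G0 G1 hl B G q1 q2 q3 q4 q5 q6
    exact Or.inr (leaf_two he ht (nodes_two he hN) hE hl B G q1 q2 q3 q4 q5 q6)

end Crest.Agent.R214.Cert
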