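import Mathlib

-- ▼ part R214/CertDef
section

/-!
# Row 214: the kernel certificate checker (definitions)

Positions are naturals in units `1/4000`; slopes and offsets of the affine function `w` in units
`1/1000`; values of the polygon `g ≤ J²` in units `1/10⁵`; values of `ρ ≤ √(1 - w²/g)` in units
`1/8192`.
-/

namespace Crest.Agent.R214.Cert

/-- integer square root: Newton steps from above; the callers re-check the result -/
def nsq (q : ℕ) : ℕ :=
  let x := (8192 + q / 8192) / 2
  let x := (x + q / x) / 2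
  let x := (x + q / x) / 2
  let x := (x + q / x) / 2
  let x := (x + q / x) / 2
  (x + q / x) / 2

/-- the test for a candidate `ρ` -/
def vr (a d r : ℕ) : Bool := Nat.ble (a + d * (r * r)) (d * 67108864) && Nat.ble r 8192

def rhoAux (a d r : ℕ) : ℕ :=
  bif vr a d r then r else bif vr a d (r - 1) then r - 1 else 0

/-- `ρ` at a node: `ω²·2²⁶ + d·ρ² ≤ d·2²⁶` is re-checked. -/
def rho (ω d : ℕ) : ℕ :=
  rhoAux (ω * ω * 67108864) d (nsq (67108864 - (ω * ω * 67108864 / d + 1)))

/-- scaled `w` at position `x` -/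
def om (pp pn lp ln x : ℕ) : ℕ := pp * 4000 + lp * x - (pn * 4000 + ln * x)

/-- scan the nodes from the current one (`x`, `r`) up to `G1` -/
def scan (fin : ℕ → ℕ → Bool) (pp pn lp ln B1 G0 G1 : ℕ) :
    List (ℕ × ℕ) → ℕ → ℕ → ℕ → ℕ → Bool
  | [], _, _, _, _ => false
  | (x', d') :: t, x, r, s, k =>
    bif Nat.ble (om pp pn lp ln x' * om pp pn lp ln x') d' && Nat.ble x' G1 then
      let r' := rho (om pp pn lp ln x') d'
      let s' := bif Nat.ble B1 x && Nat.ble x' G0 then s + (r + r') * (x' - x) else s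
      let k' := bif Nat.ble x' G0 then k else min k (min r r')
      bif Nat.beq x' G1 then fin s' k'
      else scan fin pp pn lp ln B1 G0 G1 t x' r' s' k'
    else false

/-- find the starting node `B0` and scan -/
def start (fin : ℕ → ℕ → Bool) (pp pn lp ln B0 B1 G0 G1 : ℕ) : List (ℕ × ℕ) → Bool
  | [] => false
  | (x, d) :: t =>
    bif Nat.beq x B0 then
      bif Nat.ble (om pp pn lp ln x * om pp pn lp ln x) d then
        bif Nat.beq x G1 then fin 0 0
        else scan fin pp pn lp ln B1 G0 G1 t x (rho (om pp pn lp ln x) d) 0 8192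
      else false
    else start fin pp pn lp ln B0 B1 G0 G1 t

/-- upper bound of the Legendre transform of the profile, in units `1e-7` -/
def mHi (L : ℤ) : ℤ :=
  if L ≤ 0 then 10000000 - 5000 * L
  else if L ≤ 1570 then 10000000 - (100000000 * L) / 31416
  else if L < 2250 then 7854000000 / L + 1
  else if L ≤ 3000 then ((18000 - 4 * L) * 31416) / 81 + 1
  else 20944000000000 / (L * L) + 1

def lookup (x : ℕ) : List (ℕ × ℕ) → ℕ
  | [] => 0
  | (y, v) :: t => bif Nat.beq x y then v else lookup x t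

/-- numerator of `Iq` for slope `D` (units `1/1000`), in units `1/(30·10¹⁶)` -/
def iqN (D : ℤ) : ℤ :=
  if D * D ≤ 45000000 then 300000000000000000 - 500000000 * (D * D) - (D * D) * (D * D)
  else 300000000000000000 - 500000000 * (D * D) - 3 * ((D * D) * (D * D))

/-- final test, two zones (`h = 1/10`); common denominator `65536·3·10²³` -/
def fin2 (ell : List (ℕ × ℕ)) (P L : ℤ) (B1 G0 G1 a1 sg cs D : ℕ) (s k : ℕ) : Bool :=
  let k' : ℤ := bif Nat.ble B1 G0 then (k : ℤ) else 0
  let l0 : ℤ := lookup G0 ell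
  let l1 : ℤ := lookup G1 ell
  let la : ℤ := lookup a1 ell
  let N := iqN D
  let K : ℤ := 17694720000000000000000000 * P + 300000000000000000000 * (s : ℤ)
      - 1966080000000000000000 * mHi L
  let K1 : ℤ := K + 600000000000000000000 * (k' * ((G1 : ℤ) - G0))
  decide (L ≤ D) && Nat.ble G1 a1 && Nat.ble a1 4000 && Nat.ble D 9999 &&
  decide (40 * (l0 - la) ≤ ((D : ℤ) - L) * ((a1 : ℤ) - G0)) &&
  decide (40 * (l1 - la) ≤ ((D : ℤ) - L) * ((a1 : ℤ) - G1)) &&
  decide (0 < K + 65536 * (l0 * N) - 491520000000000000000 * (L * G0)) &&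
  decide (0 < K1 + 65536 * (l1 * N) - 491520000000000000000 * (L * G1)) &&
  (Nat.beq a1 4000 ||
    (let Lp := max L 0
     let Ln := max (-L) 0
     let ca : ℤ := 19660800000000000000 * ((cs : ℤ) * la)
       - 491520000000000000000 * (Lp * a1)
     let c1 : ℤ := - 491520000000000000000 * (Lp * 4000)
     let d0 : ℤ := 491520000000000000000 * (Ln * G0)
     let d1 : ℤ := 491520000000000000000 * (Ln * G1)
     Nat.ble (sg * sg + cs * cs) 1000000 &&
     decide (0 < K + ca + 4915200000000000000000 * ((sg : ℤ) * ((a1 : ℤ) - G0)) + d0) &&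
     decide (0 < K + c1 + 4915200000000000000000 * ((sg : ℤ) * ((4000 : ℤ) - G0)) + d0) &&
     decide (0 < K1 + ca + 4915200000000000000000 * ((sg : ℤ) * ((a1 : ℤ) - G1)) + d1) &&
     decide (0 < K1 + c1 + 4915200000000000000000 * ((sg : ℤ) * ((4000 : ℤ) - G1)) + d1)))

/-- final test, one zone; common denominator `65536·10⁷` -/
def fin1 (P L : ℤ) (s : ℕ) (_k : ℕ) : Bool :=
  decide (0 < 655360000 * P + 10000 * (s : ℤ) - 65536 * mHi L)

inductive Tok
  | b (m : ℕ)
  | g (m : ℕ)
  | s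
  | l (pp pn lp ln a1 sg cs D : ℕ)

structure Par where
  two : Bool
  gmin : ℕ
  nodes : List (ℕ × ℕ)
  ell : List (ℕ × ℕ)

def leafOK (π : Par) (pp pn lp ln a1 sg cs D B0 B1 G0 G1 : ℕ) : Bool :=
  Nat.ble (pn * 4000 + ln * B0) (pp * 4000 + lp * B0) &&
  Nat.ble (pn * 4000 + ln * G1) (pp * 4000 + lp * G1) &&
  bif π.two then
    start (fin2 π.ell ((pp : ℤ) - pn) ((lp : ℤ) - ln) B1 G0 G1 a1 sg cs D)
      pp pn lp ln B0 B1 G0 G1 π.nodes
  else start (fin1 ((pp : ℤ) - pn) ((lp : ℤ) - ln)) pp pn lp ln B0 B1 G0 G1 π.nodes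

def skipOK (π : Par) (B0 B1 G0 G1 : ℕ) : Bool :=
  Nat.ble (G1 + 1) B0 || (Nat.ble B1 80 && Nat.ble 3920 G0) || (!π.two && Nat.ble G1 π.gmin)

def run (π : Par) : List Tok → List (ℕ × ℕ × ℕ × ℕ) → Bool
  | [], [] => true
  | [], _ :: _ => false
  | _ :: _, [] => false
  | Tok.b m :: ts, (B0, B1, G0, G1) :: bs => run π ts ((B0, m, G0, G1) :: (m, B1, G0, G1) :: bs)
  | Tok.g m :: ts, (B0, B1, G0, G1) :: bs => run π ts ((B0, B1, G0, m) :: (B0, B1, m, G1) :: bs)
  | Tok.s :: ts, (B0, B1, G0, G1) :: bs => skipOK π B0 B1 G0 G1 && run π ts bs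
  | Tok.l pp pn lp ln a1 sg cs D :: ts, (B0, B1, G0, G1) :: bs =>
      leafOK π pp pn lp ln a1 sg cs D B0 B1 G0 G1 && run π ts bs

/-! ### node lists -/

def f1 (tT : List ℕ) (q j x : ℕ) : ℤ :=
  ((tT.getD j 0 + 5 * j * x : ℕ) : ℤ) - ((20 * q * j : ℕ) : ℤ)

def n2 (e x : ℕ) : ℕ := 10000000 * (4000 - x) + 31415 * (e * e)

def cell1 (a b : ℤ) (d d' : ℕ) : Bool :=
  decide (0 ≤ a) && decide (0 ≤ b) && decide ((d : ℤ) ≤ 4 * ((a + b) * (4 * a - (a + b)))) &&
    decide ((d' : ℤ) ≤ 4 * ((a + b) * (4 * b - (a + b))))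

def cell2 (a b e d d' : ℕ) : Bool :=
  Nat.ble (d * (400 * (e * e)) + (a + b) * (a + b)) ((a + b) * (4 * a)) &&
    Nat.ble (d' * (400 * (e * e)) + (a + b) * (a + b)) ((a + b) * (4 * b))

def cellOK (tT : List ℕ) (two : Bool) (e q j x x' d d' : ℕ) : Bool :=
  Nat.ble (x + 1) x' && Nat.ble x' 4000 && Nat.ble j 50 &&
  Nat.ble d (12566000000 * x) && Nat.ble d' (12566000000 * x') &&
  cell1 (f1 tT q j x) (f1 tT q j x') d d' &&
  (bif two && Nat.ble (31416 * (e * e)) ((4000 - x') * 10000000) then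
    cell2 (n2 e x) (n2 e x') e d d'
  else Nat.ble d (12566000000 * (4000 - x)) && Nat.ble d' (12566000000 * (4000 - x')))

def chainOK (tT : List ℕ) (two : Bool) (e q : ℕ) :
    ℕ → ℕ → List (ℕ × ℕ) → List ℕ → Bool
  | _, _, [], _ => true
  | _, _, _ :: _, [] => false
  | x, d, (x', d') :: t, j :: js =>
    cellOK tT two e q j x x' d d' && chainOK tT two e q x' d' t js

def ellOK (e : ℕ) : List (ℕ × ℕ) → Bool
  | [] => true
  | (x, v) :: t =>
    Nat.ble x 4000 &&
    (bif Nat.ble (31416 * (e * e)) ((4000 - x) * 10000000) then Nat.ble (400 * v * e) (n2 e x)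
      else Nat.ble (v * v) (7853750 * (4000 - x))) && ellOK e t

def nodesOK (tT : List ℕ) (two : Bool) (e q : ℕ) (js : List ℕ) : List (ℕ × ℕ) → Bool
  | [] => false
  | (x, d) :: t => Nat.beq x 0 && Nat.beq d 0 && chainOK tT two e q x d t js

end Crest.Agent.R214.Cert
private theorem rz_0997d0338d : type_of% @_root_.Crest.Agent.R214.Cert.chainOK.eq_def := @_root_.Crest.Agent.R214.Cert.chainOK.eq_def -- L165
private theorem rz_fc5ade1993 : type_of% @_root_.Crest.Agent.R214.Cert.chainOK.eq_1 := @_root_.Crest.Agent.R214.Cert.chainOK.eq_1 -- L165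
private theorem rz_e6d20ce282 : type_of% @_root_.Crest.Agent.R214.Cert.ellOK.eq_def := @_root_.Crest.Agent.R214.Cert.ellOK.eq_def -- L172
private theorem rz_7697d1ebce : type_of% @_root_.Crest.Agent.R214.Cert.lookup.eq_def := @_root_.Crest.Agent.R214.Cert.lookup.eq_def -- L67
private theorem rz_2639f20f8c : type_of% @_root_.Crest.Agent.R214.Cert.run.eq_def := @_root_.Crest.Agent.R214.Cert.run.eq_def -- L132
private theorem rz_deaeb599a2 : type_of% @_root_.Crest.Agent.R214.Cert.run.eq_1 := @_root_.Crest.Agent.R214.Cert.run.eq_1 -- L132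
private theorem rz_640cdc24e3 : type_of% @_root_.Crest.Agent.R214.Cert.scan.eq_def := @_root_.Crest.Agent.R214.Cert.scan.eq_def -- L36
private theorem rz_f4cc32a2b9 : type_of% @_root_.Crest.Agent.R214.Cert.scan.eq_1 := @_root_.Crest.Agent.R214.Cert.scan.eq_1 -- L36
private theorem rz_b3fae9e768 : type_of% @_root_.Crest.Agent.R214.Cert.start.eq_def := @_root_.Crest.Agent.R214.Cert.start.eq_def -- L49
private theorem rz_b3a859b1f7 : type_of% @_root_.Crest.Agent.R214.Cert.start.eq_1 := @_root_.Crest.Agent.R214.Cert.start.eq_1 -- L49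
end

-- ▼ part R214/CertScan

/-!
# Row 214: soundness of the certificate checker, I: the scan
-/

set_option autoImplicit false

open Real Set MeasureTheory

namespace Crest.Agent.R214.Cert

/-- the key convexity inequality on a cell -/
theorem cell_ineq {θ ga gb ra rb wa wb : ℝ} (h0 : 0 ≤ θ) (h1 : θ ≤ 1) (hga : 0 ≤ ga)
    (hgb : 0 ≤ gb) (hra : ra ^ 2 ≤ 1) (hrb : rb ^ 2 ≤ 1) (ha : wa ^ 2 + ga * ra ^ 2 ≤ ga)
    (hb : wb ^ 2 + gb * rb ^ 2 ≤ gb) :
    ((1 - θ) * wa + θ * wb) ^ 2 + ((1 - θ) * ga + θ * gb) * ((1 - θ) * ra + θ * rb) ^ 2 ≤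
      (1 - θ) * ga + θ * gb := by
  have hA : 0 ≤ 1 - ra ^ 2 := by linarith
  have hB : 0 ≤ 1 - rb ^ 2 := by linarith
  have h1θ : 0 ≤ 1 - θ := by linarith
  have ha' : wa ^ 2 ≤ ga * (1 - ra ^ 2) := by linarith
  have hb' : wb ^ 2 ≤ gb * (1 - rb ^ 2) := by linarith
  -- cross term
  have hx : 2 * (wa * wb) ≤ ga * (1 - rb ^ 2) + gb * (1 - ra ^ 2) := by
    have hX : 0 ≤ ga * (1 - rb ^ 2) := mul_nonneg hga hB
    have hY : 0 ≤ gb * (1 - ra ^ 2) := mul_nonneg hgb hA
    have h2 : (wa * wb) ^ 2 ≤ (ga * (1 - rb ^ 2)) * (gb * (1 - ra ^ 2)) := by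
      calc (wa * wb) ^ 2 = wa ^ 2 * wb ^ 2 := by ring
        _ ≤ (ga * (1 - ra ^ 2)) * (gb * (1 - rb ^ 2)) := by
            apply mul_le_mul ha' hb' (sq_nonneg _) (mul_nonneg hga hA)
        _ = _ := by ring
    have h3 : (2 * (wa * wb)) ^ 2 ≤ (ga * (1 - rb ^ 2) + gb * (1 - ra ^ 2)) ^ 2 := by
      nlinarith [sq_nonneg (ga * (1 - rb ^ 2) - gb * (1 - ra ^ 2))]
    exact (le_abs_self _).trans (abs_le_of_sq_le_sq h3 (by linarith))
  have hcs : ((1 - θ) * wa + θ * wb) ^ 2 ≤
      ((1 - θ) * ga + θ * gb) * ((1 - θ) * (1 - ra ^ 2) + θ * (1 - rb ^ 2)) := by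
    have e1 : ((1 - θ) * wa + θ * wb) ^ 2 =
        (1 - θ) ^ 2 * wa ^ 2 + θ ^ 2 * wb ^ 2 + (θ * (1 - θ)) * (2 * (wa * wb)) := by ring
    have e2 : ((1 - θ) * ga + θ * gb) * ((1 - θ) * (1 - ra ^ 2) + θ * (1 - rb ^ 2)) =
        (1 - θ) ^ 2 * (ga * (1 - ra ^ 2)) + θ ^ 2 * (gb * (1 - rb ^ 2)) +
          (θ * (1 - θ)) * (ga * (1 - rb ^ 2) + gb * (1 - ra ^ 2)) := by ring
    rw [e1, e2]
    have t1 := mul_le_mul_of_nonneg_left ha' (sq_nonneg (1 - θ))
    have t2 := mul_le_mul_of_nonneg_left hb' (sq_nonneg θ)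
    have t3 := mul_le_mul_of_nonneg_left hx (mul_nonneg h0 h1θ)
    linarith
  have hj : ((1 - θ) * ra + θ * rb) ^ 2 ≤ (1 - θ) * ra ^ 2 + θ * rb ^ 2 := by
    have : (1 - θ) * ra ^ 2 + θ * rb ^ 2 - ((1 - θ) * ra + θ * rb) ^ 2 =
        θ * (1 - θ) * (ra - rb) ^ 2 := by ring
    nlinarith [mul_nonneg (mul_nonneg h0 h1θ) (sq_nonneg (ra - rb))]
  have hg : 0 ≤ (1 - θ) * ga + θ * gb := by positivity
  have := mul_le_mul_of_nonneg_left hj hg
  nlinarith

theorem vr_spec {a d r : ℕ} (h : vr a d r = true) :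
    a + d * (r * r) ≤ d * 67108864 ∧ r ≤ 8192 := by
  unfold vr at h
  rw [Bool.and_eq_true] at h
  exact ⟨Nat.le_of_ble_eq_true h.1, Nat.le_of_ble_eq_true h.2⟩

theorem rhoAux_spec {a d r : ℕ} (h : a ≤ d * 67108864) :
    a + d * (rhoAux a d r * rhoAux a d r) ≤ d * 67108864 ∧ rhoAux a d r ≤ 8192 := by
  unfold rhoAux
  cases h1 : vr a d r with
  | true => exact vr_spec h1
  | false =>
    cases h2 : vr a d (r - 1) with
    | true => exact vr_spec h2
    | false => exact ⟨h, Nat.zero_le _⟩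

theorem rho_spec {ω d : ℕ} (h : ω * ω ≤ d) :
    ω * ω * 67108864 + d * (rho ω d * rho ω d) ≤ d * 67108864 ∧ rho ω d ≤ 8192 :=
  rhoAux_spec (Nat.mul_le_mul_right _ h)

/-- real value of `w` -/
noncomputable def wr (pp pn lp ln : ℕ) (y : ℝ) : ℝ :=
  ((pp : ℝ) - pn) / 1000 + ((lp : ℝ) - ln) / 1000 * y

theorem om_cast {pp pn lp ln x : ℕ} (h : pn * 4000 + ln * x ≤ pp * 4000 + lp * x) :
    ((om pp pn lp ln x : ℕ) : ℝ) = 4000000 * wr pp pn lp ln ((x : ℝ) / 4000) := by
  unfold om wr
  rw [Nat.cast_sub h]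
  push_cast
  ring

/-- value of the polygon at a node -/
noncomputable def gd (d : ℕ) : ℝ := (d : ℝ) / 16000000000000

/-- relative position in a cell -/
noncomputable def th (x x' : ℕ) (y : ℝ) : ℝ := (4000 * y - x) / ((x' : ℝ) - x)

noncomputable def itp (x x' : ℕ) (u u' y : ℝ) : ℝ := (1 - th x x' y) * u + th x x' y * u'

/-- the polygon through the nodes satisfies `Q` -/
def ChainQ (Q : ℝ → ℝ → Prop) : ℕ → ℕ → List (ℕ × ℕ) → Prop
  | _, _, [] => True
  | x, d, (x', d') :: t => x < x' ∧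
      (∀ y ∈ Icc ((x : ℝ) / 4000) ((x' : ℝ) / 4000), Q y (itp x x' (gd d) (gd d') y)) ∧
      ChainQ Q x' d' t

/-- clamped relative position -/
noncomputable def cl (x x' : ℕ) (y : ℝ) : ℝ := max 0 (min 1 (th x x' y))

theorem cl_mem (x x' : ℕ) (y : ℝ) : 0 ≤ cl x x' y ∧ cl x x' y ≤ 1 :=
  ⟨le_max_left _ _, max_le zero_le_one (min_le_left _ _)⟩

theorem continuous_th (x x' : ℕ) : Continuous (th x x') := by
  unfold th; fun_prop

theorem continuous_cl (x x' : ℕ) : Continuous (cl x x') := by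
  unfold cl
  exact continuous_const.max (continuous_const.min (continuous_th x x'))

theorem cl_eq {x x' : ℕ} (hx : x < x') {y : ℝ}
    (hy : y ∈ Icc ((x : ℝ) / 4000) ((x' : ℝ) / 4000)) : cl x x' y = th x x' y := by
  have h : (0 : ℝ) < (x' : ℝ) - x := by
    have : (x : ℝ) < x' := by exact_mod_cast hx
    linarith
  have h1 : 0 ≤ th x x' y := div_nonneg (by linarith [hy.1]) h.le
  have h2 : th x x' y ≤ 1 := by
    unfold th
    rw [div_le_one h]
    linarith [hy.2]
  unfold cl
  rw [min_eq_right h2, max_eq_right h1]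

theorem th_left {x x' : ℕ} (_hx : x < x') : th x x' ((x : ℝ) / 4000) = 0 := by
  unfold th
  rw [show 4000 * ((x : ℝ) / 4000) - x = 0 by ring, zero_div]

theorem th_right {x x' : ℕ} (hx : x < x') : th x x' ((x' : ℝ) / 4000) = 1 := by
  have h : (0 : ℝ) < (x' : ℝ) - x := by
    have : (x : ℝ) < x' := by exact_mod_cast hx
    linarith
  unfold th
  rw [show 4000 * ((x' : ℝ) / 4000) - x = (x' : ℝ) - x by ring, div_self h.ne']

/-- one cell function -/
noncomputable def cf (x x' : ℕ) (u u' y : ℝ) : ℝ := (1 - cl x x' y) * u + cl x x' y * u'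

theorem continuous_cf (x x' : ℕ) (u u' : ℝ) : Continuous (cf x x' u u') := by
  unfold cf
  have := continuous_cl x x'
  fun_prop

theorem cf_left {x x' : ℕ} (hx : x < x') (u u' : ℝ) : cf x x' u u' ((x : ℝ) / 4000) = u := by
  have h : (x : ℝ) < x' := by exact_mod_cast hx
  unfold cf
  rw [cl_eq hx ⟨le_rfl, by linarith⟩, th_left hx]; ring

theorem cf_right {x x' : ℕ} (hx : x < x') (u u' : ℝ) : cf x x' u u' ((x' : ℝ) / 4000) = u' := by
  have h : (x : ℝ) < x' := by exact_mod_cast hx
  unfold cf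
  rw [cl_eq hx ⟨by linarith, le_rfl⟩, th_right hx]; ring

theorem cf_eq {x x' : ℕ} (hx : x < x') (u u' : ℝ) {y : ℝ}
    (hy : y ∈ Icc ((x : ℝ) / 4000) ((x' : ℝ) / 4000)) : cf x x' u u' y = itp x x' u u' y := by
  unfold cf itp
  rw [cl_eq hx hy]

theorem cf_bounds {x x' : ℕ} {u u' m M : ℝ} (hu : m ≤ u) (hu' : m ≤ u') (hM : u ≤ M)
    (hM' : u' ≤ M) (y : ℝ) : m ≤ cf x x' u u' y ∧ cf x x' u u' y ≤ M := by
  obtain ⟨h0, h1⟩ := cl_mem x x' y
  unfold cf
  constructor <;> nlinarith

theorem integral_cf {x x' : ℕ} (hx : x < x') (u u' : ℝ) :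
    ∫ y in ((x : ℝ) / 4000)..((x' : ℝ) / 4000), cf x x' u u' y =
      (u + u') / 2 * (((x' : ℝ) - x) / 4000) := by
  have h : (0 : ℝ) < (x' : ℝ) - x := by
    have : (x : ℝ) < x' := by exact_mod_cast hx
    linarith
  have hle : (x : ℝ) / 4000 ≤ (x' : ℝ) / 4000 := by linarith
  have e : ∀ y ∈ Set.uIcc ((x : ℝ) / 4000) ((x' : ℝ) / 4000),
      cf x x' u u' y = (u - (u' - u) * x / ((x' : ℝ) - x)) +
        ((u' - u) * 4000 / ((x' : ℝ) - x)) * y := by
    intro y hy
    rw [uIcc_of_le hle] at hy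
    rw [cf_eq hx _ _ hy]
    unfold itp th
    field_simp
    ring
  rw [intervalIntegral.integral_congr e, intervalIntegral.integral_add (by simp)
    (by apply Continuous.intervalIntegrable; fun_prop), intervalIntegral.integral_const,
    intervalIntegral.integral_const_mul, integral_id, smul_eq_mul]
  field_simp
  ring

/-- the node inequality in real form -/
theorem node_real {pp pn lp ln x d r : ℕ} (h : pn * 4000 + ln * x ≤ pp * 4000 + lp * x)
    (hr : om pp pn lp ln x * om pp pn lp ln x * 67108864 + d * (r * r) ≤ d * 67108864) :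
    wr pp pn lp ln ((x : ℝ) / 4000) ^ 2 + gd d * ((r : ℝ) / 8192) ^ 2 ≤ gd d := by
  have h1 : ((om pp pn lp ln x : ℕ) : ℝ) * (om pp pn lp ln x : ℕ) * 67108864 +
      (d : ℝ) * ((r : ℝ) * r) ≤ (d : ℝ) * 67108864 := by exact_mod_cast hr
  rw [om_cast h] at h1
  unfold gd
  generalize wr pp pn lp ln ((x : ℝ) / 4000) = W at h1 ⊢
  have e1 : W ^ 2 + (d : ℝ) / 16000000000000 * ((r : ℝ) / 8192) ^ 2 =
      (4000000 * W * (4000000 * W) * 67108864 + (d : ℝ) * ((r : ℝ) * r)) /
        (16000000000000 * 67108864) := by ring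
  have e2 : (d : ℝ) / 16000000000000 = ((d : ℝ) * 67108864) / (16000000000000 * 67108864) := by
    ring
  rw [e1, e2]
  gcongr

theorem wr_itp {pp pn lp ln x x' : ℕ} (hx : x < x') (y : ℝ) :
    wr pp pn lp ln y = (1 - th x x' y) * wr pp pn lp ln ((x : ℝ) / 4000) +
      th x x' y * wr pp pn lp ln ((x' : ℝ) / 4000) := by
  have h : (0 : ℝ) < (x' : ℝ) - x := by
    have : (x : ℝ) < x' := by exact_mod_cast hx
    linarith
  unfold wr th
  field_simp
  ring

/-- the cell step -/
theorem cell_step {pp pn lp ln x x' d d' r r' : ℕ} (hx : x < x')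
    (h : pn * 4000 + ln * x ≤ pp * 4000 + lp * x)
    (h' : pn * 4000 + ln * x' ≤ pp * 4000 + lp * x')
    (hr : om pp pn lp ln x * om pp pn lp ln x * 67108864 + d * (r * r) ≤ d * 67108864)
    (hr' : om pp pn lp ln x' * om pp pn lp ln x' * 67108864 + d' * (r' * r') ≤ d' * 67108864)
    (hb : r ≤ 8192) (hb' : r' ≤ 8192) {y : ℝ}
    (hy : y ∈ Icc ((x : ℝ) / 4000) ((x' : ℝ) / 4000)) :
    wr pp pn lp ln y ^ 2 + cf x x' (gd d) (gd d') y *
      cf x x' ((r : ℝ) / 8192) ((r' : ℝ) / 8192) y ^ 2 ≤ cf x x' (gd d) (gd d') y := by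
  obtain ⟨h0, h1⟩ := cl_mem x x' y
  rw [wr_itp hx y]
  unfold cf
  rw [← cl_eq hx hy]
  have q1 : (r : ℝ) ≤ 8192 := by exact_mod_cast hb
  have q2 : (r' : ℝ) ≤ 8192 := by exact_mod_cast hb'
  have q3 : (0 : ℝ) ≤ (r : ℝ) := Nat.cast_nonneg _
  have q4 : (0 : ℝ) ≤ (r' : ℝ) := Nat.cast_nonneg _
  refine cell_ineq h0 h1 (by unfold gd; positivity) (by unfold gd; positivity) ?_ ?_
    (node_real h hr) (node_real h' hr')
  · rw [div_pow, div_le_one (by norm_num)]
    nlinarith
  · rw [div_pow, div_le_one (by norm_num)]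
    nlinarith

/-- the conclusion of the scan -/
def ScanOut (Q : ℝ → ℝ → Prop) (fin : ℕ → ℕ → Bool) (pp pn lp ln B1 G0 G1 x d r s k : ℕ) :
    Prop :=
  ∃ (g T : ℝ → ℝ) (s' k' : ℕ), Continuous g ∧ Continuous T ∧ (∀ y, 0 ≤ T y ∧ T y ≤ 1) ∧
    g ((x : ℝ) / 4000) = gd d ∧ T ((x : ℝ) / 4000) = (r : ℝ) / 8192 ∧
    (∀ y ∈ Icc ((x : ℝ) / 4000) ((G1 : ℝ) / 4000), Q y (g y) ∧ 0 ≤ g y ∧
      wr pp pn lp ln y ^ 2 + g y * T y ^ 2 ≤ g y) ∧
    fin s' k' = true ∧ k' ≤ k ∧
    (∀ y ∈ Ioc (((max x G0 : ℕ) : ℝ) / 4000) ((G1 : ℝ) / 4000), (k' : ℝ) / 8192 ≤ T y) ∧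
    (B1 ≤ G0 → ((s' : ℝ) - s) / 65536000 ≤
      ∫ y in (((max x B1 : ℕ) : ℝ) / 4000)..(((max x G0 : ℕ) : ℝ) / 4000), T y) ∧
    (G0 < B1 → s' = s)

theorem scan_sound (Q : ℝ → ℝ → Prop) (fin : ℕ → ℕ → Bool) (pp pn lp ln B1 G0 G1 : ℕ)
    (hG : G0 ≤ G1) :
    ∀ (t : List (ℕ × ℕ)) (x d r s k : ℕ), ChainQ Q x d t → x < G1 →
      (∀ y, x ≤ y → y ≤ G1 → pn * 4000 + ln * y ≤ pp * 4000 + lp * y) →
      om pp pn lp ln x * om pp pn lp ln x * 67108864 + d * (r * r) ≤ d * 67108864 → r ≤ 8192 →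
      scan fin pp pn lp ln B1 G0 G1 t x r s k = true →
      ScanOut Q fin pp pn lp ln B1 G0 G1 x d r s k := by
  intro t
  induction t with
  | nil =>
    intro x d r s k _ _ _ _ _ h
    simp [scan] at h
  | cons hd t ih =>
    obtain ⟨x', d'⟩ := hd
    intro x d r s k hQ hxG hw hr hrb h
    obtain ⟨hxx, hQ1, hQ2⟩ := hQ
    rw [scan] at h
    cases hc : (Nat.ble (om pp pn lp ln x' * om pp pn lp ln x') d' && Nat.ble x' G1) with
    | false => rw [hc] at h; simp at h
    | true =>
      rw [hc, cond_true] at h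
      rw [Bool.and_eq_true] at hc
      have hle1 := Nat.le_of_ble_eq_true hc.1
      have hle2 := Nat.le_of_ble_eq_true hc.2
      obtain ⟨hr', hrb'⟩ := rho_spec hle1
      generalize hrr : rho (om pp pn lp ln x') d' = r' at h hr' hrb'
      simp only at h
      -- the cell functions
      set g1 := cf x x' (gd d) (gd d') with hg1
      set T1 := cf x x' ((r : ℝ) / 8192) ((r' : ℝ) / 8192) with hT1
      have hwx := hw x le_rfl hxG.le
      have hwx' := hw x' hxx.le hle2
      have hxR : (x : ℝ) < x' := by exact_mod_cast hxx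
      have hx'R : (x' : ℝ) ≤ G1 := by exact_mod_cast hle2
      have q1 : (r : ℝ) ≤ 8192 := by exact_mod_cast hrb
      have q2 : (r' : ℝ) ≤ 8192 := by exact_mod_cast hrb'
      have q3 : (0 : ℝ) ≤ (r : ℝ) := Nat.cast_nonneg _
      have q4 : (0 : ℝ) ≤ (r' : ℝ) := Nat.cast_nonneg _
      have hgd : ∀ d : ℕ, 0 ≤ gd d := fun d => by unfold gd; positivity
      have hT01 : ∀ y, 0 ≤ T1 y ∧ T1 y ≤ 1 := fun y =>
        cf_bounds (by positivity) (by positivity) (by rw [div_le_one] <;> linarith)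
          (by rw [div_le_one] <;> linarith) y
      have hcell : ∀ y ∈ Icc ((x : ℝ) / 4000) ((x' : ℝ) / 4000), Q y (g1 y) ∧ 0 ≤ g1 y ∧
          wr pp pn lp ln y ^ 2 + g1 y * T1 y ^ 2 ≤ g1 y := by
        intro y hy
        refine ⟨?_, ?_, cell_step hxx hwx hwx' hr hr' hrb hrb' hy⟩
        · rw [hg1, cf_eq hxx _ _ hy]
          exact hQ1 y hy
        · have hb := (cf_bounds (x := x) (x' := x') (hgd d) (hgd d') (le_max_left _ _)
            (le_max_right (gd d) (gd d')) y).1
          exact hb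
      have hTmin : ∀ y, ((min r r' : ℕ) : ℝ) / 8192 ≤ T1 y := fun y => by
        have h1 : ((min r r' : ℕ) : ℝ) ≤ r := by exact_mod_cast min_le_left _ _
        have h2 : ((min r r' : ℕ) : ℝ) ≤ r' := by exact_mod_cast min_le_right _ _
        exact (cf_bounds (x := x) (x' := x') (by gcongr) (by gcongr) (le_max_left _ _)
          (le_max_right ((r : ℝ) / 8192) ((r' : ℝ) / 8192)) y).1
      have hint : ∫ y in ((x : ℝ) / 4000)..((x' : ℝ) / 4000), T1 y =
          (((r : ℝ) + r') * ((x' : ℝ) - x)) / 65536000 := by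
        rw [hT1, integral_cf hxx]; ring
      have hT1c : Continuous T1 := continuous_cf _ _ _ _
      have hg1c : Continuous g1 := continuous_cf _ _ _ _
      -- the updated sum
      set s1 : ℕ := bif (Nat.ble B1 x && Nat.ble x' G0) then s + (r + r') * (x' - x) else s
        with hs1
      set k1 : ℕ := bif Nat.ble x' G0 then k else min k (min r r') with hk1
      have hs1c : B1 ≤ x → x' ≤ G0 → (s1 : ℝ) = s + ((r : ℝ) + r') * ((x' : ℝ) - x) := by
        intro h1 h2
        have : (Nat.ble B1 x && Nat.ble x' G0) = true := by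
          rw [Bool.and_eq_true, Nat.ble_eq, Nat.ble_eq]; exact ⟨h1, h2⟩
        rw [hs1, this, cond_true]
        push_cast [Nat.cast_sub hxx.le]
        ring
      have hs1n : ¬ (B1 ≤ x ∧ x' ≤ G0) → s1 = s := by
        intro h1
        have : (Nat.ble B1 x && Nat.ble x' G0) = false := by
          rw [Bool.eq_false_iff]
          intro h2
          rw [Bool.and_eq_true] at h2
          exact h1 ⟨Nat.le_of_ble_eq_true h2.1, Nat.le_of_ble_eq_true h2.2⟩
        rw [hs1, this, cond_false]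
      have hk1a : k1 ≤ k := by
        rw [hk1]
        cases Nat.ble x' G0 with
        | true => exact le_rfl
        | false => exact min_le_left _ _
      have hk1b : G0 < x' → k1 ≤ min r r' := by
        intro h1
        have : Nat.ble x' G0 = false := by
          rw [Bool.eq_false_iff]
          intro h2
          exact absurd (Nat.le_of_ble_eq_true h2) (by omega)
        rw [hk1, this, cond_false]
        exact min_le_right _ _
      have hTnn : ∀ {a b : ℝ} {T : ℝ → ℝ}, (∀ y, 0 ≤ T y ∧ T y ≤ 1) → a ≤ b →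
          0 ≤ ∫ y in a..b, T y := fun hT hab =>
        intervalIntegral.integral_nonneg hab fun y _ => (hT y).1
      -- lower bound in the cell
      have hTk : ∀ y : ℝ, ((max x G0 : ℕ) : ℝ) / 4000 < y → y ≤ (x' : ℝ) / 4000 →
          (k1 : ℝ) / 8192 ≤ T1 y := by
        intro y hy1 hy2
        have h1 : (G0 : ℝ) ≤ ((max x G0 : ℕ) : ℝ) := by exact_mod_cast le_max_right _ _
        have h2 : (G0 : ℝ) < x' := by linarith
        have h3 : G0 < x' := by exact_mod_cast h2
        have h4 : (k1 : ℝ) ≤ ((min r r' : ℕ) : ℝ) := by exact_mod_cast hk1b h3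
        exact le_trans (by gcongr) (hTmin y)
      cases hb : Nat.beq x' G1 with
      | true =>
        rw [hb, cond_true] at h
        have hxe : x' = G1 := Nat.eq_of_beq_eq_true hb
        refine ⟨g1, T1, s1, k1, hg1c, hT1c, hT01, cf_left hxx _ _, cf_left hxx _ _, ?_, h,
          hk1a, ?_, ?_, fun h5 => hs1n (by omega)⟩
        · rw [← hxe]; exact hcell
        · intro y hy
          exact hTk y hy.1 (by rw [hxe]; exact hy.2)
        · intro hBG
          have hmm : ((max x B1 : ℕ) : ℝ) / 4000 ≤ ((max x G0 : ℕ) : ℝ) / 4000 := by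
            have : max x B1 ≤ max x G0 := max_le_max le_rfl hBG
            have : ((max x B1 : ℕ) : ℝ) ≤ ((max x G0 : ℕ) : ℝ) := by exact_mod_cast this
            linarith
          by_cases hc2 : B1 ≤ x ∧ x' ≤ G0
          · rw [hs1c hc2.1 hc2.2, max_eq_left hc2.1, max_eq_right (hxx.le.trans hc2.2)]
            have e1 : G0 = x' := by omega
            rw [e1, hint]
            apply le_of_eq; ring
          · rw [hs1n hc2]
            simp only [sub_self, zero_div]
            exact hTnn hT01 hmm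
      | false =>
        rw [hb, cond_false] at h
        have hne : x' ≠ G1 := fun e => by
          rw [e] at hb
          simp at hb
        have hlt : x' < G1 := lt_of_le_of_ne hle2 hne
        obtain ⟨g2, T2, s', k', hg2c, hT2c, hT201, hg2x, hT2x, hall, hfin, hk', hT2k, hT2i, hs'⟩ :=
          ih x' d' r' s1 k1 hQ2 hlt (fun y h1 h2 => hw y (hxx.le.trans h1) h2) hr' hrb' h
        have hgc : Continuous fun y => if y ≤ (x' : ℝ) / 4000 then g1 y else g2 y := by
          refine Continuous.if_le hg1c hg2c continuous_id continuous_const ?_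
          intro y hy
          rw [show y = (x' : ℝ) / 4000 from hy, hg2x]
          exact cf_right hxx _ _
        have hTc : Continuous fun y => if y ≤ (x' : ℝ) / 4000 then T1 y else T2 y := by
          refine Continuous.if_le hT1c hT2c continuous_id continuous_const ?_
          intro y hy
          rw [show y = (x' : ℝ) / 4000 from hy, hT2x]
          exact cf_right hxx _ _
        have hxle : (x : ℝ) / 4000 ≤ (x' : ℝ) / 4000 := by linarith
        have hT01' : ∀ y, 0 ≤ (if y ≤ (x' : ℝ) / 4000 then T1 y else T2 y) ∧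
            (if y ≤ (x' : ℝ) / 4000 then T1 y else T2 y) ≤ 1 := by
          intro y
          split
          · exact hT01 y
          · exact hT201 y
        refine ⟨_, _, s', k', hgc, hTc, hT01', ?_, ?_, ?_, hfin, hk'.trans hk1a, ?_, ?_,
          fun h5 => (hs' h5).trans (hs1n (by omega))⟩
        · simp only [if_pos hxle]
          exact cf_left hxx _ _
        · simp only [if_pos hxle]
          exact cf_left hxx _ _
        · intro y hy
          by_cases hy2 : y ≤ (x' : ℝ) / 4000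
          · rw [if_pos hy2, if_pos hy2]
            exact hcell y ⟨hy.1, hy2⟩
          · rw [if_neg hy2, if_neg hy2]
            exact hall y ⟨by linarith, hy.2⟩
        · intro y hy
          by_cases hy2 : y ≤ (x' : ℝ) / 4000
          · rw [if_pos hy2]
            refine le_trans ?_ (hTk y hy.1 hy2)
            have : (k' : ℝ) ≤ k1 := by exact_mod_cast hk'
            gcongr
          · rw [if_neg hy2]
            refine hT2k y ⟨?_, hy.2⟩
            have h1 : (G0 : ℝ) ≤ ((max x G0 : ℕ) : ℝ) := by exact_mod_cast le_max_right _ _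
            push Not at hy2
            rcases le_total x' G0 with h2 | h2
            · rw [max_eq_right h2]
              linarith [hy.1]
            · rw [max_eq_left h2]
              exact hy2
        · intro hBG
          have hi := hT2i hBG
          have hmm : ((max x B1 : ℕ) : ℝ) / 4000 ≤ ((max x G0 : ℕ) : ℝ) / 4000 := by
            have : max x B1 ≤ max x G0 := max_le_max le_rfl hBG
            have : ((max x B1 : ℕ) : ℝ) ≤ ((max x G0 : ℕ) : ℝ) := by exact_mod_cast this
            linarith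
          rcases le_or_gt x' G0 with hc1 | hc1
          · -- cell inside
            have eb : max x G0 = G0 := max_eq_right (hxx.le.trans hc1)
            have eb' : max x' G0 = G0 := max_eq_right hc1
            rw [eb'] at hi
            rw [eb]
            have ha' : max x' B1 ≤ G0 := max_le hc1 hBG
            have haa : max x B1 ≤ max x' B1 := max_le_max hxx.le le_rfl
            have ha'R : ((max x' B1 : ℕ) : ℝ) / 4000 ≤ (G0 : ℝ) / 4000 := by
              have : ((max x' B1 : ℕ) : ℝ) ≤ G0 := by exact_mod_cast ha'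
              linarith
            have haaR : ((max x B1 : ℕ) : ℝ) / 4000 ≤ ((max x' B1 : ℕ) : ℝ) / 4000 := by
              have : ((max x B1 : ℕ) : ℝ) ≤ ((max x' B1 : ℕ) : ℝ) := by exact_mod_cast haa
              linarith
            rw [← intervalIntegral.integral_add_adjacent_intervals
              (hTc.intervalIntegrable _ (((max x' B1 : ℕ) : ℝ) / 4000))
              (hTc.intervalIntegrable _ _)]
            have e2 : ∫ y in (((max x' B1 : ℕ) : ℝ) / 4000)..((G0 : ℝ) / 4000),
                (if y ≤ (x' : ℝ) / 4000 then T1 y else T2 y) =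
                ∫ y in (((max x' B1 : ℕ) : ℝ) / 4000)..((G0 : ℝ) / 4000), T2 y := by
              refine intervalIntegral.integral_congr fun y hy => ?_
              rw [uIcc_of_le ha'R] at hy
              split
              · rename_i h3
                have h4 : ((x' : ℕ) : ℝ) ≤ ((max x' B1 : ℕ) : ℝ) := by
                  exact_mod_cast le_max_left _ _
                have h5 : y = (x' : ℝ) / 4000 := le_antisymm h3 (by linarith [hy.1])
                rw [h5, hT2x]
                exact cf_right hxx _ _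
              · rfl
            rw [e2]
            by_cases hc2 : B1 ≤ x
            · have ea : max x B1 = x := max_eq_left hc2
              have ea' : max x' B1 = x' := max_eq_left (hc2.trans hxx.le)
              rw [ea'] at hi
              rw [ea, ea']
              have e3 : ∫ y in ((x : ℝ) / 4000)..((x' : ℝ) / 4000),
                  (if y ≤ (x' : ℝ) / 4000 then T1 y else T2 y) =
                  ∫ y in ((x : ℝ) / 4000)..((x' : ℝ) / 4000), T1 y := by
                refine intervalIntegral.integral_congr fun y hy => ?_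
                rw [uIcc_of_le hxle] at hy
                simp only [if_pos hy.2]
              rw [e3, hint]
              rw [hs1c hc2 hc1] at hi
              have : ((s' : ℝ) - s) / 65536000 = ((r : ℝ) + r') * ((x' : ℝ) - x) / 65536000 +
                ((s' : ℝ) - (s + ((r : ℝ) + r') * ((x' : ℝ) - x))) / 65536000 := by ring
              rw [this]
              linarith
            · rw [hs1n (fun h => hc2 h.1)] at hi
              have := hTnn (T := fun y => if y ≤ (x' : ℝ) / 4000 then T1 y else T2 y) hT01' haaR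
              linarith
          · have e1 : max x' G0 = x' := max_eq_left hc1.le
            have e2 : max x' B1 = x' := max_eq_left (hBG.trans hc1.le)
            rw [e1, e2, intervalIntegral.integral_same, hs1n (fun h => absurd h.2 (by omega))] at hi
            exact hi.trans (hTnn hT01' hmm)

/-- the chain condition for a whole node list -/
def ChainL (Q : ℝ → ℝ → Prop) : List (ℕ × ℕ) → Prop
  | [] => True
  | (x, d) :: t => Q ((x : ℝ) / 4000) (gd d) ∧ ChainQ Q x d t

theorem ChainL.tail {Q : ℝ → ℝ → Prop} {x d : ℕ} {t : List (ℕ × ℕ)}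
    (h : ChainL Q ((x, d) :: t)) : ChainL Q t := by
  cases t with
  | nil => trivial
  | cons hd t =>
    obtain ⟨x', d'⟩ := hd
    obtain ⟨-, h1, h2, h3⟩ := h
    refine ⟨?_, h3⟩
    have hx : (x : ℝ) < x' := by exact_mod_cast h1
    have := h2 ((x' : ℝ) / 4000) ⟨by linarith, le_rfl⟩
    unfold itp at this
    rw [th_right h1] at this
    simpa using this

/-- the conclusion of the start -/
def StartOut (Q : ℝ → ℝ → Prop) (fin : ℕ → ℕ → Bool) (pp pn lp ln B0 B1 G0 G1 : ℕ) : Prop :=
  (B0 = G1 ∧ fin 0 0 = true ∧ ∃ d, Q ((B0 : ℝ) / 4000) (gd d) ∧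
      om pp pn lp ln B0 * om pp pn lp ln B0 ≤ d) ∨
    (B0 < G1 ∧ ∃ d r, ScanOut Q fin pp pn lp ln B1 G0 G1 B0 d r 0 8192)

theorem start_sound (Q : ℝ → ℝ → Prop) (fin : ℕ → ℕ → Bool) (pp pn lp ln B0 B1 G0 G1 : ℕ)
    (hG : G0 ≤ G1) (hBG : B0 ≤ G1)
    (hw : ∀ y, B0 ≤ y → y ≤ G1 → pn * 4000 + ln * y ≤ pp * 4000 + lp * y) :
    ∀ (l : List (ℕ × ℕ)), ChainL Q l → start fin pp pn lp ln B0 B1 G0 G1 l = true →
      StartOut Q fin pp pn lp ln B0 B1 G0 G1 := by
  intro l
  induction l with
  | nil =>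
    intro _ h
    simp [start] at h
  | cons hd t ih =>
    obtain ⟨x, d⟩ := hd
    intro hQ h
    rw [start] at h
    cases hb : Nat.beq x B0 with
    | false =>
      rw [hb, cond_false] at h
      exact ih hQ.tail h
    | true =>
      have hx : x = B0 := Nat.eq_of_beq_eq_true hb
      subst hx
      rw [hb, cond_true] at h
      cases hc : Nat.ble (om pp pn lp ln x * om pp pn lp ln x) d with
      | false => rw [hc] at h; simp at h
      | true =>
        rw [hc, cond_true] at h
        have hle := Nat.le_of_ble_eq_true hc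
        cases hb2 : Nat.beq x G1 with
        | true =>
          rw [hb2, cond_true] at h
          exact Or.inl ⟨Nat.eq_of_beq_eq_true hb2, h, d, hQ.1, hle⟩
        | false =>
          rw [hb2, cond_false] at h
          have hne : x ≠ G1 := fun e => by
            rw [e] at hb2
            simp at hb2
          have hlt := lt_of_le_of_ne hBG hne
          obtain ⟨h1, h2⟩ := rho_spec hle
          exact Or.inr ⟨hlt, d, _, scan_sound Q fin pp pn lp ln B1 G0 G1 hG t x d _ 0 8192 hQ.2 hlt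
            hw h1 h2 h⟩

theorem wr_nonneg_of {pp pn lp ln x : ℕ} (h : pn * 4000 + ln * x ≤ pp * 4000 + lp * x) :
    0 ≤ wr pp pn lp ln ((x : ℝ) / 4000) := by
  have := om_cast h
  have h2 : (0 : ℝ) ≤ ((om pp pn lp ln x : ℕ) : ℝ) := Nat.cast_nonneg _
  linarith

theorem lin_nat {pp pn lp ln a b y : ℕ} (ha : pn * 4000 + ln * a ≤ pp * 4000 + lp * a)
    (hb : pn * 4000 + ln * b ≤ pp * 4000 + lp * b) (h1 : a ≤ y) (h2 : y ≤ b) :
    pn * 4000 + ln * y ≤ pp * 4000 + lp * y := by
  rcases le_total ln lp with h | h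
  · have : ln * (y - a) ≤ lp * (y - a) := Nat.mul_le_mul_right _ h
    have e1 : ln * y = ln * a + ln * (y - a) := by rw [← Nat.mul_add]; congr 1; omega
    have e2 : lp * y = lp * a + lp * (y - a) := by rw [← Nat.mul_add]; congr 1; omega
    omega
  · have : lp * (b - y) ≤ ln * (b - y) := Nat.mul_le_mul_right _ h
    have e1 : ln * b = ln * y + ln * (b - y) := by rw [← Nat.mul_add]; congr 1; omega
    have e2 : lp * b = lp * y + lp * (b - y) := by rw [← Nat.mul_add]; congr 1; omega
    omega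

theorem wr_nonneg {pp pn lp ln a b : ℕ} (ha : pn * 4000 + ln * a ≤ pp * 4000 + lp * a)
    (hb : pn * 4000 + ln * b ≤ pp * 4000 + lp * b) {y : ℝ}
    (hy : y ∈ Icc ((a : ℝ) / 4000) ((b : ℝ) / 4000)) : 0 ≤ wr pp pn lp ln y := by
  have h1 := wr_nonneg_of ha
  have h2 := wr_nonneg_of hb
  unfold wr at *
  rcases le_total ((ln : ℝ)) lp with h | h
  · have : ((lp : ℝ) - ln) / 1000 * ((a : ℝ) / 4000) ≤ ((lp : ℝ) - ln) / 1000 * y :=
      mul_le_mul_of_nonneg_left hy.1 (by linarith)
    linarith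
  · have : ((ln : ℝ) - lp) / 1000 * y ≤ ((ln : ℝ) - lp) / 1000 * ((b : ℝ) / 4000) :=
      mul_le_mul_of_nonneg_left hy.2 (by linarith)
    have e1 : ((ln : ℝ) - lp) / 1000 * y = - (((lp : ℝ) - ln) / 1000 * y) := by ring
    have e2 : ((ln : ℝ) - lp) / 1000 * ((b : ℝ) / 4000) =
      - (((lp : ℝ) - ln) / 1000 * ((b : ℝ) / 4000)) := by ring
    linarith

/-- `√(1 - w²/g)` is integrable -/
theorem sqrt_integrable {g w : ℝ → ℝ} (hg : Continuous g) (hw : Continuous w)
    (a b : ℝ) (hgn : ∀ y ∈ Icc a b, 0 ≤ g y) (hab : a ≤ b) :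
    IntervalIntegrable (fun y => √(1 - w y ^ 2 / g y)) volume a b := by
  rw [intervalIntegrable_iff_integrableOn_Ioc_of_le hab]
  have hm : Measurable fun y => √(1 - w y ^ 2 / g y) :=
    Real.continuous_sqrt.measurable.comp
      (measurable_const.sub ((hw.measurable.pow_const 2).div hg.measurable))
  refine Measure.integrableOn_of_bounded (M := 1) (by simp) hm.aestronglyMeasurable ?_
  refine (ae_restrict_iff' measurableSet_Ioc).2 (ae_of_all _ fun y hy => ?_)
  rw [Real.norm_of_nonneg (Real.sqrt_nonneg _)]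
  rw [Real.sqrt_le_one]
  have := div_nonneg (sq_nonneg (w y)) (hgn y ⟨hy.1.le, hy.2⟩)
  linarith

/-- the output for a box -/
theorem leaf_out (Q : ℝ → ℝ → Prop) (fin : ℕ → ℕ → Bool) {pp pn lp ln B0 B1 G0 G1 : ℕ}
    (hG : G0 ≤ G1)
    (hwB : pn * 4000 + ln * B0 ≤ pp * 4000 + lp * B0)
    (hwG : pn * 4000 + ln * G1 ≤ pp * 4000 + lp * G1) {l : List (ℕ × ℕ)} (hl : ChainL Q l)
    (h : start fin pp pn lp ln B0 B1 G0 G1 l = true) {B G : ℝ} (hB0 : (B0 : ℝ) / 4000 ≤ B)
    (hB1 : B ≤ (B1 : ℝ) / 4000) (hG0 : (G0 : ℝ) / 4000 ≤ G) (hG1 : G ≤ (G1 : ℝ) / 4000)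
    (hBG : B ≤ G) :
    ∃ (g : ℝ → ℝ) (s' k' : ℕ), Continuous g ∧
      (∀ y ∈ Icc B G, Q y (g y) ∧ 0 ≤ wr pp pn lp ln y ∧ wr pp pn lp ln y ^ 2 ≤ g y) ∧
      fin s' k' = true ∧
      (s' : ℝ) / 65536000 + (if B1 ≤ G0 then (k' : ℝ) else 0) / 8192 * (G - (G0 : ℝ) / 4000) ≤
        ∫ y in B..G, √(1 - wr pp pn lp ln y ^ 2 / g y) := by
  have hBGn : B0 ≤ G1 := by
    have : (B0 : ℝ) ≤ G1 := by linarith
    exact_mod_cast this
  rcases start_sound Q fin pp pn lp ln B0 B1 G0 G1 hG hBGn (fun y h1 h2 => lin_nat hwB hwG h1 h2)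
    l hl h with ⟨he, hf, d, hQ, hd⟩ | ⟨hlt, d, r, g, T, s', k', hgc, hTc, hT01, -, -, hall, hf, -, hTk, hTi, hs'⟩
  · subst he
    have e1 : B = (B0 : ℝ) / 4000 := by linarith
    have e2 : G = (B0 : ℝ) / 4000 := by linarith
    refine ⟨fun _ => gd d, 0, 0, continuous_const, ?_, hf, ?_⟩
    · intro y hy
      have e3 : y = (B0 : ℝ) / 4000 := by
        have := hy.1
        have := hy.2
        linarith
      rw [e3]
      have h3 : om pp pn lp ln B0 * om pp pn lp ln B0 * 67108864 + d * (0 * 0) ≤ d * 67108864 := by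
        rw [Nat.mul_zero, Nat.add_zero]
        exact Nat.mul_le_mul_right _ hd
      have h4 := node_real hwB h3
      refine ⟨hQ, wr_nonneg_of hwB, ?_⟩
      simpa using h4
    · rw [e1, e2, intervalIntegral.integral_same]
      simp
  · have hwc : Continuous (wr pp pn lp ln) := by unfold wr; fun_prop
    have hsub : ∀ y ∈ Icc B G, y ∈ Icc ((B0 : ℝ) / 4000) ((G1 : ℝ) / 4000) := fun y hy =>
      ⟨hB0.trans hy.1, hy.2.trans hG1⟩
    refine ⟨g, s', k', hgc, ?_, hf, ?_⟩
    · intro y hy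
      obtain ⟨h1, h2, h3⟩ := hall y (hsub y hy)
      refine ⟨h1, wr_nonneg hwB hwG (hsub y hy), ?_⟩
      have := mul_nonneg h2 (sq_nonneg (T y))
      linarith
    · have hTle : ∀ y ∈ Icc B G, T y ≤ √(1 - wr pp pn lp ln y ^ 2 / g y) := by
        intro y hy
        obtain ⟨-, h2, h3⟩ := hall y (hsub y hy)
        apply Real.le_sqrt_of_sq_le
        rcases h2.eq_or_lt with h4 | h4
        · rw [← h4, div_zero, sub_zero]
          have := hT01 y
          nlinarith
        · have : wr pp pn lp ln y ^ 2 / g y ≤ 1 - T y ^ 2 := by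
            rw [div_le_iff₀ h4]
            linarith
          linarith
      have hmono : ∫ y in B..G, T y ≤ ∫ y in B..G, √(1 - wr pp pn lp ln y ^ 2 / g y) :=
        intervalIntegral.integral_mono_on hBG (hTc.intervalIntegrable _ _)
          (sqrt_integrable hgc hwc B G
            (fun y hy => (hall y (hsub y hy)).2.1) hBG) hTle
      refine le_trans ?_ hmono
      by_cases hc : B1 ≤ G0
      · rw [if_pos hc]
        have hc' : (B1 : ℝ) ≤ G0 := by exact_mod_cast hc
        have hi := hTi hc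
        have hB01 : B0 ≤ B1 := by
          have : (B0 : ℝ) ≤ B1 := by linarith
          exact_mod_cast this
        rw [max_eq_right hB01, max_eq_right (hB01.trans hc)] at hi
        rw [max_eq_right (hB01.trans hc)] at hTk
        have i1 : 0 ≤ ∫ y in B..((B1 : ℝ) / 4000), T y :=
          intervalIntegral.integral_nonneg hB1 fun y _ => (hT01 y).1
        have i2 : (k' : ℝ) / 8192 * (G - (G0 : ℝ) / 4000) ≤ ∫ y in ((G0 : ℝ) / 4000)..G, T y := by
          have : ∫ y in ((G0 : ℝ) / 4000)..G, (k' : ℝ) / 8192 =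
              (k' : ℝ) / 8192 * (G - (G0 : ℝ) / 4000) := by
            rw [intervalIntegral.integral_const, smul_eq_mul]; ring
          rw [← this]
          refine intervalIntegral.integral_mono_on_of_le_Ioo hG0 (by simp)
            (hTc.intervalIntegrable _ _) ?_
          intro y hy
          exact hTk y ⟨hy.1, hy.2.le.trans hG1⟩
        have e3 : ∫ y in B..G, T y = (∫ y in B..((B1 : ℝ) / 4000), T y) +
            (∫ y in ((B1 : ℝ) / 4000)..((G0 : ℝ) / 4000), T y) +
            ∫ y in ((G0 : ℝ) / 4000)..G, T y := by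
          rw [intervalIntegral.integral_add_adjacent_intervals (hTc.intervalIntegrable _ _)
            (hTc.intervalIntegrable _ _), intervalIntegral.integral_add_adjacent_intervals
            (hTc.intervalIntegrable _ _) (hTc.intervalIntegrable _ _)]
        rw [e3]
        simp only [Nat.cast_zero, sub_zero] at hi
        linarith
      · rw [if_neg hc, hs' (by omega)]
        simp only [Nat.cast_zero, zero_div, zero_mul, add_zero]
        exact intervalIntegral.integral_nonneg hBG fun y _ => (hT01 y).1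

end Crest.Agent.R214.Cert
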