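import Crest.Agent.R214.InvBase

/-!
R214: translation of periodic integrals, `∫_cell ∂ᵢ f = 0`, `∫_cell div φ = 0`,
integration by parts against periodic Lipschitz functions.
-/

set_option autoImplicit false

open MeasureTheory Set Filter Topology
open Crest.GeometryTopology.PeriodicPerimeter

noncomputable section

namespace Crest.Agent.R214.Inv

variable {n : ℕ}

/-- translation invariance of cell integrals of periodic functions. -/
theorem integral_cell_comp_add {F : Type*} [NormedAddCommGroup F] [NormedSpace ℝ F]
    {f : EE n → F} (hf : PeriodicFun f) (c : EE n) :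
    ∫ x in unitCell n, f (x + c) = ∫ x in unitCell n, f x := by
  have h1 : ∫ x in unitCell n, f (x + c) = ∫ x in (fun x => x + c) '' unitCell n, f x := by
    rw [((measurePreserving_add_right (volume : Measure (EE n)) c).setIntegral_image_emb
      (MeasurableEquiv.addRight c).measurableEmbedding f (unitCell n))]
  have h2 : (fun x => x + c) '' unitCell n = cellAt c := by
    ext y
    simp only [mem_image, unitCell, cellAt, mem_ofPred_eq]
    constructor
    · rintro ⟨x, hx, rfl⟩ i
      have := hx i
      simp only [PiLp.add_apply]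
      constructor <;> linarith
    · intro hy
      refine ⟨y - c, fun i => ?_, by simp⟩
      have := hy i
      simp only [PiLp.sub_apply]
      constructor <;> linarith
  rw [h1, h2, (isCell_cellAt c).setIntegral_eq (isCell_unitCell n) hf]

/-- A continuous periodic function is bounded. -/
theorem PeriodicFun.bounded {F : Type*} [NormedAddCommGroup F] {f : EE n → F}
    (hf : PeriodicFun f) (hc : Continuous f) : ∃ C, 0 ≤ C ∧ ∀ x, ‖f x‖ ≤ C := by
  have hK : IsCompact {x : EE n | ∀ i, x i ∈ Icc (0:ℝ) 1} := by
    have h : {x : EE n | ∀ i, x i ∈ Icc (0:ℝ) 1} =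
        (PiLp.continuousLinearEquiv 2 ℝ (fun _ : Fin n => ℝ)).toHomeomorph ⁻¹'
          (Set.pi univ fun _ => Icc (0:ℝ) 1) := by
      ext x
      simp only [mem_ofPred_eq, mem_preimage, Set.mem_pi, mem_univ, forall_true_left]
      rfl
    rw [h]
    exact (Homeomorph.isCompact_preimage _).2 (isCompact_univ_pi fun _ => isCompact_Icc)
  obtain ⟨C, hC⟩ := hK.exists_bound_of_continuousOn hc.continuousOn
  refine ⟨max C 0, le_max_right _ _, fun x => ?_⟩
  have hx : f x = f (x + latVec fun i => -⌊x i⌋) := (hf _ (hasIntegerCoords_latVec _) x).symm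
  rw [hx]
  refine (hC _ ?_).trans (le_max_left _ _)
  intro i
  have h1 := Int.floor_le (x i)
  have h2 := Int.lt_floor_add_one (x i)
  simp only [PiLp.add_apply, latVec_apply, Int.cast_neg, mem_Icc]
  constructor <;> linarith

theorem PeriodicFun.integrableOn {F : Type*} [NormedAddCommGroup F]
    {f : EE n → F} (hf : PeriodicFun f) (hc : Continuous f) (E : Set (EE n)) :
    IntegrableOn f (E ∩ unitCell n) := by
  obtain ⟨C, _, hC⟩ := hf.bounded hc
  refine Measure.integrableOn_of_bounded (M := C) (volume_inter_unitCell_lt_top E).ne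
    hc.aestronglyMeasurable ?_
  exact ae_of_all _ hC

theorem PeriodicFun.integrableOn' {F : Type*} [NormedAddCommGroup F]
    {f : EE n → F} (hf : PeriodicFun f) (hc : Continuous f) :
    IntegrableOn f (unitCell n) := by
  have := hf.integrableOn hc univ
  rwa [univ_inter] at this

theorem PeriodicFun.fderiv {F : Type*} [NormedAddCommGroup F] [NormedSpace ℝ F] {f : EE n → F}
    (hf : PeriodicFun f) : PeriodicFun (fderiv ℝ f) := by
  intro v hv x
  have : (fun y => f (y + v)) = f := funext fun y => hf v hv y
  rw [← fderiv_comp_add_right, this]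

/-- Periodic `C¹` functions are Lipschitz. -/
theorem PeriodicFun.lipschitz {F : Type*} [NormedAddCommGroup F] [NormedSpace ℝ F] {f : EE n → F}
    (hf : PeriodicFun f) (hc : ContDiff ℝ 1 f) : ∃ C : NNReal, LipschitzWith C f := by
  obtain ⟨C, hC0, hC⟩ := hf.fderiv.bounded (hc.continuous_fderiv one_ne_zero)
  refine ⟨⟨C, hC0⟩, ?_⟩
  refine lipschitzWith_of_nnnorm_fderiv_le (𝕜 := ℝ) (hc.differentiable one_ne_zero) fun x => ?_
  exact_mod_cast hC x

/-- The basic duality under translation: `∫ g(x) f(x+c) = ∫ g(x-c) f(x)`. -/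
theorem integral_cell_mul_translate {f g : EE n → ℝ} (hf : PeriodicFun f) (hg : PeriodicFun g)
    (c : EE n) :
    ∫ x in unitCell n, g x * f (x + c) = ∫ x in unitCell n, g (x - c) * f x := by
  have h : PeriodicFun (fun x => g (x - c) * f x) := by
    intro v hv x
    have h1 : x + v - c = (x - c) + v := by abel
    simp only [h1, hf v hv x, hg v hv (x - c)]
  have := integral_cell_comp_add h c
  simpa using this

/-- Difference quotients of a Lipschitz function converge a.e. and are bounded. -/
theorem tendsto_slope_nat {g : EE n → ℝ} {x : EE n} (h : DifferentiableAt ℝ g x) (e : EE n) :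
    Tendsto (fun k : ℕ => ((k : ℝ) + 1) * (g (x + ((k : ℝ) + 1)⁻¹ • e) - g x)) atTop
      (𝓝 (fderiv ℝ g x e)) := by
  have h1 := h.hasFDerivAt.hasLineDerivAt e
  have h2 := h1.tendsto_slope_zero
  have h3 : Tendsto (fun k : ℕ => ((k : ℝ) + 1)⁻¹) atTop (𝓝[≠] (0:ℝ)) := by
    refine tendsto_nhdsWithin_iff.2 ⟨?_, ?_⟩
    · exact tendsto_inv_atTop_zero.comp (tendsto_atTop_add_const_right _ _ tendsto_natCast_atTop_atTop)
    · exact Eventually.of_forall fun k => by
        have : (0:ℝ) < (k:ℝ) + 1 := by positivity
        simp [this.ne']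
  have h4 := h2.comp h3
  refine h4.congr fun k => ?_
  simp [Function.comp]

theorem integral_cell_mul_fderiv {f g : EE n → ℝ} (hf : PeriodicFun f) (hg : PeriodicFun g)
    {Cf Cg : NNReal} (hfL : LipschitzWith Cf f) (hgL : LipschitzWith Cg g) (e : EE n) :
    ∫ x in unitCell n, g x * fderiv ℝ f x e = - ∫ x in unitCell n, fderiv ℝ g x e * f x := by
  obtain ⟨Bf, hBf0, hBf⟩ := hf.bounded hfL.continuous
  obtain ⟨Bg, hBg0, hBg⟩ := hg.bounded hgL.continuous
  set t : ℕ → ℝ := fun k => ((k : ℝ) + 1)⁻¹ with ht
  have ht0 : ∀ k, 0 < t k := fun k => by simp only [ht]; positivity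
  -- left side
  have hL : Tendsto (fun k : ℕ => ∫ x in unitCell n,
      g x * (((k : ℝ) + 1) * (f (x + t k • e) - f x))) atTop
      (𝓝 (∫ x in unitCell n, g x * fderiv ℝ f x e)) := by
    refine tendsto_integral_of_dominated_convergence (fun _ => Bg * (Cf * ‖e‖)) ?_ ?_ ?_ ?_
    · intro k
      refine Continuous.aestronglyMeasurable ?_
      have := hfL.continuous
      have := hgL.continuous
      fun_prop
    · exact integrable_const _
    · intro k
      refine ae_of_all _ fun x => ?_
      rw [norm_mul]
      refine mul_le_mul (hBg x) ?_ (norm_nonneg _) hBg0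
      rw [norm_mul]
      have h1 : ‖f (x + t k • e) - f x‖ ≤ Cf * ‖t k • e‖ := by
        have := hfL.dist_le_mul (x + t k • e) x
        simpa [dist_eq_norm] using this
      rw [norm_smul, Real.norm_of_nonneg (ht0 k).le] at h1
      have h2 : ‖((k : ℝ) + 1)‖ = (t k)⁻¹ := by
        simp only [ht, inv_inv]; exact Real.norm_of_nonneg (by positivity)
      rw [h2]
      calc (t k)⁻¹ * ‖f (x + t k • e) - f x‖ ≤ (t k)⁻¹ * (Cf * (t k * ‖e‖)) := by
            have := (ht0 k).le
            gcongr
        _ = Cf * ‖e‖ := by
            have := (ht0 k).ne'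
            field_simp
    · refine ae_restrict_of_ae ?_
      filter_upwards [hfL.ae_differentiableAt (μ := (volume : Measure (EE n)))] with x hx
      exact (tendsto_slope_nat hx e).const_mul _
  have hR : Tendsto (fun k : ℕ => ∫ x in unitCell n,
      (((k : ℝ) + 1) * (g (x + t k • (-e)) - g x)) * f x) atTop
      (𝓝 (∫ x in unitCell n, fderiv ℝ g x (-e) * f x)) := by
    refine tendsto_integral_of_dominated_convergence (fun _ => (Cg * ‖e‖) * Bf) ?_ ?_ ?_ ?_
    · intro k
      refine Continuous.aestronglyMeasurable ?_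
      have := hfL.continuous
      have := hgL.continuous
      fun_prop
    · exact integrable_const _
    · intro k
      refine ae_of_all _ fun x => ?_
      rw [norm_mul]
      refine mul_le_mul ?_ (hBf x) (norm_nonneg _) (by positivity)
      rw [norm_mul]
      have h1 : ‖g (x + t k • (-e)) - g x‖ ≤ Cg * ‖t k • (-e)‖ := by
        have := hgL.dist_le_mul (x + t k • (-e)) x
        simpa [dist_eq_norm] using this
      rw [norm_smul, Real.norm_of_nonneg (ht0 k).le, norm_neg] at h1
      have h2 : ‖((k : ℝ) + 1)‖ = (t k)⁻¹ := by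
        simp only [ht, inv_inv]; exact Real.norm_of_nonneg (by positivity)
      rw [h2]
      calc (t k)⁻¹ * ‖g (x + t k • (-e)) - g x‖ ≤ (t k)⁻¹ * (Cg * (t k * ‖e‖)) := by
            have := (ht0 k).le
            gcongr
        _ = Cg * ‖e‖ := by
            have := (ht0 k).ne'
            field_simp
    · refine ae_restrict_of_ae ?_
      filter_upwards [hgL.ae_differentiableAt (μ := (volume : Measure (EE n)))] with x hx
      exact (tendsto_slope_nat hx (-e)).mul_const _
  have hEq : ∀ k : ℕ, ∫ x in unitCell n, g x * (((k : ℝ) + 1) * (f (x + t k • e) - f x))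
      = ∫ x in unitCell n, (((k : ℝ) + 1) * (g (x + t k • (-e)) - g x)) * f x := by
    intro k
    have hfc := hfL.continuous
    have hgc := hgL.continuous
    have hI1 : IntegrableOn (fun x => g x * f (x + t k • e)) (unitCell n) := by
      refine PeriodicFun.integrableOn' ?_ (by fun_prop)
      intro v hv x
      have h1 : x + v + t k • e = (x + t k • e) + v := by abel
      simp only [h1, hf v hv, hg v hv]
    have hI2 : IntegrableOn (fun x => g x * f x) (unitCell n) := by
      refine PeriodicFun.integrableOn' ?_ (by fun_prop)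
      intro v hv x
      simp only [hf v hv, hg v hv]
    have hI3 : IntegrableOn (fun x => g (x - t k • e) * f x) (unitCell n) := by
      refine PeriodicFun.integrableOn' ?_ (by fun_prop)
      intro v hv x
      have h1 : x + v - t k • e = (x - t k • e) + v := by abel
      simp only [h1, hf v hv, hg v hv]
    have e1 : ∫ x in unitCell n, g x * (((k : ℝ) + 1) * (f (x + t k • e) - f x))
        = ((k : ℝ) + 1) * ((∫ x in unitCell n, g x * f (x + t k • e)) - ∫ x in unitCell n, g x * f x) := by
      rw [← integral_sub hI1 hI2, ← integral_const_mul]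
      congr 1
      ext x; ring
    have e2 : ∫ x in unitCell n, (((k : ℝ) + 1) * (g (x + t k • (-e)) - g x)) * f x
        = ((k : ℝ) + 1) * ((∫ x in unitCell n, g (x - t k • e) * f x) - ∫ x in unitCell n, g x * f x) := by
      rw [← integral_sub hI3 hI2, ← integral_const_mul]
      congr 1
      ext x
      rw [smul_neg, ← sub_eq_add_neg]; ring
    rw [e1, e2, integral_cell_mul_translate hf hg]
  have hlim := tendsto_nhds_unique hL (hR.congr fun k => (hEq k).symm)
  rw [hlim, ← integral_neg]
  congr 1
  ext x
  simp

theorem divergence_eq_sum (φ : EE n → EE n) (x : EE n) (hφ : DifferentiableAt ℝ φ x) :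
    divergence φ x = ∑ i, fderiv ℝ (fun y => φ y i) x (EuclideanSpace.single i 1) := by
  unfold divergence
  refine Finset.sum_congr rfl fun i _ => ?_
  have h : HasFDerivAt (fun y => φ y i)
      ((EuclideanSpace.proj i : EE n →L[ℝ] ℝ).comp (fderiv ℝ φ x)) x :=
    (EuclideanSpace.proj i : EE n →L[ℝ] ℝ).hasFDerivAt.comp x hφ.hasFDerivAt
  rw [h.fderiv]
  rfl

theorem contDiff_coord {φ : EE n → EE n} (hφ : ContDiff ℝ 1 φ) (i : Fin n) :
    ContDiff ℝ 1 (fun y => φ y i) := by
  exact (EuclideanSpace.proj i : EE n →L[ℝ] ℝ).contDiff.comp hφ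

theorem PeriodicFun.coord {φ : EE n → EE n} (hφ : PeriodicFun φ) (i : Fin n) :
    PeriodicFun (fun y => φ y i) := fun v hv x => by simp only [hφ v hv x]

theorem continuous_divergence {φ : EE n → EE n} (hφ : ContDiff ℝ 1 φ) :
    Continuous (divergence φ) := by
  have h := hφ.continuous_fderiv one_ne_zero
  unfold divergence
  fun_prop

theorem PeriodicFun.divergence {φ : EE n → EE n} (hφ : PeriodicFun φ) :
    PeriodicFun (divergence φ) := by
  intro v hv x
  have := hφ.fderiv v hv x
  unfold Crest.GeometryTopology.PeriodicPerimeter.divergence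
  rw [this]

/-- Integration by parts on the torus: periodic Lipschitz function against a periodic `C¹` field. -/
theorem integral_cell_mul_divergence {η : EE n → ℝ} (hη : PeriodicFun η) {C : NNReal}
    (hηL : LipschitzWith C η) {φ : EE n → EE n} (hφ : ContDiff ℝ 1 φ) (hφp : PeriodicFun φ) :
    ∫ x in unitCell n, η x * divergence φ x = - ∫ x in unitCell n, fderiv ℝ η x (φ x) := by
  have hdiff := hφ.differentiable one_ne_zero
  have h1 : ∀ x, η x * divergence φ x =
      ∑ i, η x * fderiv ℝ (fun y => φ y i) x (EuclideanSpace.single i 1) := by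
    intro x
    rw [divergence_eq_sum φ x (hdiff x), Finset.mul_sum]
  have h2 : ∀ x, fderiv ℝ η x (φ x) =
      ∑ i, fderiv ℝ η x (EuclideanSpace.single i 1) * φ x i := by
    intro x
    conv_lhs => rw [← (EuclideanSpace.basisFun (Fin n) ℝ).sum_repr (φ x)]
    rw [map_sum]
    refine Finset.sum_congr rfl fun i _ => ?_
    rw [map_smul]
    simp [mul_comm]
  have hfd : ∀ (i : Fin n), AEStronglyMeasurable (fun x => fderiv ℝ η x (EuclideanSpace.single i 1))
      ((volume : Measure (EE n)).restrict (unitCell n)) := by
    intro i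
    exact (measurable_fderiv_apply_const ℝ η _).aestronglyMeasurable
  have hint2 : ∀ i : Fin n, IntegrableOn
      (fun x => fderiv ℝ η x (EuclideanSpace.single i 1) * φ x i) (unitCell n) := by
    intro i
    obtain ⟨B, hB0, hB⟩ := (hφp.coord i).bounded (contDiff_coord hφ i).continuous
    have hm : AEStronglyMeasurable (fun x => fderiv ℝ η x (EuclideanSpace.single i 1) * φ x i)
        ((volume : Measure (EE n)).restrict (unitCell n)) :=
      (hfd i).mul (contDiff_coord hφ i).continuous.aestronglyMeasurable
    refine Integrable.mono' (g := fun _ => (C : ℝ) * B) (integrable_const _) hm ?_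
    refine ae_of_all _ fun x => ?_
    rw [norm_mul]
    refine mul_le_mul ?_ (hB x) (norm_nonneg _) (by positivity)
    calc ‖fderiv ℝ η x (EuclideanSpace.single i 1)‖
        ≤ ‖fderiv ℝ η x‖ * ‖(EuclideanSpace.single i 1 : EE n)‖ := ContinuousLinearMap.le_opNorm _ _
      _ ≤ C * 1 := by
          refine mul_le_mul (norm_fderiv_le_of_lipschitz ℝ hηL) ?_ (norm_nonneg _) (by positivity)
          simp
      _ = C := mul_one _
  have hint1 : ∀ i : Fin n, IntegrableOn
      (fun x => η x * fderiv ℝ (fun y => φ y i) x (EuclideanSpace.single i 1)) (unitCell n) := by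
    intro i
    have hc : Continuous fun x => fderiv ℝ (fun y => φ y i) x (EuclideanSpace.single i 1) :=
      ((contDiff_coord hφ i).continuous_fderiv one_ne_zero).clm_apply continuous_const
    refine PeriodicFun.integrableOn' ?_ (hηL.continuous.mul hc)
    intro v hv x
    have := (hφp.coord i).fderiv v hv x
    simp only [hη v hv x, this]
  simp_rw [h1, h2]
  rw [integral_finsetSum _ (fun i _ => hint1 i), integral_finsetSum _ (fun i _ => hint2 i),
    ← Finset.sum_neg_distrib]
  refine Finset.sum_congr rfl fun i _ => ?_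
  obtain ⟨D, hD⟩ := (hφp.coord i).lipschitz (contDiff_coord hφ i)
  exact integral_cell_mul_fderiv (hφp.coord i) hη hD hηL _

/-- The divergence of a periodic `C¹` field integrates to zero over the cell. -/
theorem integral_cell_divergence_eq_zero {φ : EE n → EE n} (hφ : ContDiff ℝ 1 φ)
    (hφp : PeriodicFun φ) : ∫ x in unitCell n, divergence φ x = 0 := by
  have h := integral_cell_mul_divergence (η := fun _ => (1:ℝ)) (fun _ _ _ => rfl)
    (C := 0) (LipschitzWith.const _) hφ hφp
  simpa using h


end Crest.Agent.R214.Inv
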