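import Mathlib
import Crest.Prelude.Def_PeriodicPerimeter
import Crest.Agent.R214.Mollify
import Crest.Agent.R214.PerBasic
import Crest.Agent.R214.SteinerPer
import Crest.Agent.R214.SteinerIneq

-- ▼ part R214/SteinerFib
section

/-!
# R214: the Steiner inequality `periodicPerimeter (steiner i S) ≤ periodicPerimeter S`
-/

open MeasureTheory Crest.GeometryTopology.PeriodicPerimeter Filter Topology
open scoped Pointwise ContDiff

namespace Crest.Agent.R214

variable {n : ℕ}

/-- almost every fibre is good -/
theorem ae_fiber (i : Fin n) {p : EuclideanSpace ℝ (Fin n) → Prop}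
    (h : ∀ᵐ y : EuclideanSpace ℝ (Fin n), p y) :
    ∀ᵐ x : EuclideanSpace ℝ (Fin n), ∀ᵐ t : ℝ, p (x + t • ev i) := by
  have hq : Measure.QuasiMeasurePreserving
      (fun z : EuclideanSpace ℝ (Fin n) × ℝ => z.1 + z.2 • ev i)
      ((volume : Measure (EuclideanSpace ℝ (Fin n))).prod (volume : Measure ℝ)) volume := by
    refine ⟨by fun_prop, ?_⟩
    refine Measure.AbsolutelyContinuous.mk fun s hs h0 => ?_
    rw [Measure.map_apply (by fun_prop) hs, Measure.prod_apply_symm (by
      exact (by fun_prop : Measurable fun z : EuclideanSpace ℝ (Fin n) × ℝ =>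
        z.1 + z.2 • ev i) hs)]
    rw [lintegral_eq_zero_iff]
    · refine Eventually.of_forall fun t => ?_
      have e : (fun x : EuclideanSpace ℝ (Fin n) => (x, t)) ⁻¹'
          ((fun z : EuclideanSpace ℝ (Fin n) × ℝ => z.1 + z.2 • ev i) ⁻¹' s)
          = (fun x => x + t • ev i) ⁻¹' s := rfl
      show volume ((fun x : EuclideanSpace ℝ (Fin n) => (x, t)) ⁻¹'
          ((fun z : EuclideanSpace ℝ (Fin n) × ℝ => z.1 + z.2 • ev i) ⁻¹' s)) = 0
      rw [e, measure_preimage_add_right, h0]
    · apply measurable_measure_prodMk_right
      exact (by fun_prop : Measurable fun z : EuclideanSpace ℝ (Fin n) × ℝ =>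
        z.1 + z.2 • ev i) hs
  exact Measure.ae_ae_of_ae_prod (hq.ae h)

theorem region_as_integral {g : EuclideanSpace ℝ (Fin n) → ℝ} (hg : BMP g) (i : Fin n)
    {S : Set (EuclideanSpace ℝ (Fin n))} (hS : MeasurableSet S) (hper : IsLatticePeriodic S) :
    ∫ x in steiner i S ∩ unitCell n, g x
      = ∫ x in unitCell n, ∫ τ in (-flen i S x / 2)..(flen i S x / 2),
        g (pr i x + τ • ev i) := by
  rw [← region_integral hg i (flen_bmp i hS hper) (flen_inv i hS hper) (flen_nonneg i S)
    (flen_le_one i hS)]
  rw [integral_indicator (measurableSet_region i (flen_bmp i hS hper).meas),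
    Measure.restrict_restrict (measurableSet_region i (flen_bmp i hS hper).meas)]
  rfl

/-- **Steiner symmetrisation does not increase the periodic perimeter.** -/
theorem periodicPerimeter_steiner_le (i : Fin n) {S : Set (EuclideanSpace ℝ (Fin n))}
    (hS : MeasurableSet S) (hper : IsLatticePeriodic S) :
    periodicPerimeter (steiner i S) ≤ periodicPerimeter S := by
  by_cases hP : periodicPerimeter S = ⊤
  · rw [hP]; exact le_top
  obtain ⟨f, hf, hfp, hf0, hf1, hfl, hfP⟩ := exists_mollification hS hper hP
  set P := (periodicPerimeter S).toReal with hPdef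
  refine iSup_le fun φ => ?_
  obtain ⟨φ, h1, h2, h3⟩ := φ
  refine ENNReal.ofReal_le_of_le_toReal ?_
  show ∫ x in steiner i S ∩ unitCell n, divergence φ x ≤ P
  have hdc : Continuous (divergence φ) := continuous_divergence h1
  have hdp : ∀ v, HasIntegerCoords v → ∀ x, divergence φ (x + v) = divergence φ x :=
    IsPer.divergence h2
  have hdB := BMP.of_continuous hdc hdp
  rw [region_as_integral hdB i hS hper]
  have hfc : ∀ k, Continuous (f k) := fun k => (hf k).continuous
  have hfc1 : ∀ k, ContDiff ℝ 1 (f k) := fun k => (hf k).of_le (by norm_cast)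
  set u : ℕ → EuclideanSpace ℝ (Fin n) → ℝ := fun k => fav i (f k) with hu
  have hu0 : ∀ k x, 0 ≤ u k x := fun k x => by
    have := fav_mono i (continuous_const (y := (0:ℝ))) (hfc k) (fun x => hf0 k x) x
    rwa [fav_const] at this
  have hu1 : ∀ k x, u k x ≤ 1 := fun k x => by
    have := fav_mono i (hfc k) (continuous_const (y := (1:ℝ))) (fun x => hf1 k x) x
    rwa [fav_const] at this
  obtain ⟨C, hC⟩ := hdB.bdd
  have hC0 : 0 ≤ C := (abs_nonneg _).trans (hC 0)
  have hfib := ae_fiber i hfl
  -- convergence of fibre lengths
  have hulim : ∀ᵐ x : EuclideanSpace ℝ (Fin n), Tendsto (fun k => u k x) atTop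
      (𝓝 (flen i S x)) := by
    filter_upwards [hfib] with x hx
    simp only [hu]
    unfold fav flen
    apply intervalIntegral.tendsto_integral_filter_of_dominated_convergence (fun _ => (1:ℝ))
    · exact Eventually.of_forall fun k => ((hfc k).comp (by fun_prop)).aestronglyMeasurable
    · refine Eventually.of_forall fun k => Eventually.of_forall fun t _ => ?_
      rw [Real.norm_eq_abs, abs_of_nonneg (hf0 k _)]
      exact hf1 k _
    · exact _root_.intervalIntegrable_const
    · filter_upwards [hx] with t ht _
      exact ht
  -- left-hand sides converge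
  have hL : Tendsto (fun k => ∫ x in unitCell n, ∫ τ in (-u k x / 2)..(u k x / 2),
        divergence φ (pr i x + τ • ev i)) atTop
      (𝓝 (∫ x in unitCell n, ∫ τ in (-flen i S x / 2)..(flen i S x / 2),
        divergence φ (pr i x + τ • ev i))) := by
    apply tendsto_integral_of_dominated_convergence (fun _ => C)
    · intro k
      exact (continuous_sym_integral i hdc (continuous_fav i (hfc k))).aestronglyMeasurable
    · exact integrable_const _
    · intro k
      refine Eventually.of_forall fun x => ?_
      have h5 := intervalIntegral.norm_integral_le_of_norm_le_const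
        (a := -u k x / 2) (b := u k x / 2) (C := C)
        (f := fun τ => divergence φ (pr i x + τ • ev i)) (fun τ _ => hC _)
      refine h5.trans ?_
      rw [show u k x / 2 - -u k x / 2 = u k x by ring, abs_of_nonneg (hu0 k x)]
      exact mul_le_of_le_one_right hC0 (hu1 k x)
    · refine ae_restrict_of_ae ?_
      filter_upwards [hulim] with x hx
      have hcc : Continuous fun s : ℝ => ∫ τ in (-s / 2)..(s / 2),
          divergence φ (pr i x + τ • ev i) := by
        have hc : Continuous fun τ : ℝ => divergence φ (pr i x + τ • ev i) :=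
          hdc.comp (by fun_prop)
        have h6 : (fun s : ℝ => ∫ τ in (-s / 2)..(s / 2), divergence φ (pr i x + τ • ev i))
            = fun s => (∫ τ in (0:ℝ)..(s / 2), divergence φ (pr i x + τ • ev i))
              - ∫ τ in (0:ℝ)..(-s / 2), divergence φ (pr i x + τ • ev i) := by
          ext s
          rw [← intervalIntegral.integral_interval_sub_left (hc.intervalIntegrable _ _)
            (hc.intervalIntegrable _ _)]
        rw [h6]
        have hp := intervalIntegral.continuous_primitive (μ := volume)
          (fun a b => hc.intervalIntegrable a b) 0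
        exact (hp.comp (by fun_prop)).sub (hp.comp (by fun_prop))
      exact (hcc.tendsto _).comp hx
  -- error terms converge to zero
  have hR : Tendsto (fun k => ∫ x in unitCell n, max (jmp i φ (u k) x) 0
          * max (1 - fav i (fun y => |fderiv ℝ (f k) y (ev i)|) x / 2) 0) atTop
      (𝓝 (∫ x in unitCell n, (0:ℝ))) := by
    have hcoord : ∀ j, Continuous fun y => φ y j := fun j => by
      have := h1.continuous; fun_prop
    have hfd : ∀ k, Continuous (fderiv ℝ (f k)) := fun k =>
      (hfc1 k).continuous_fderiv (by norm_num)
    have hTV0 : ∀ k x, 0 ≤ fav i (fun y => |fderiv ℝ (f k) y (ev i)|) x := fun k x => by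
      have := fav_mono i (continuous_const (y := (0:ℝ)))
        (((hfd k).clm_apply continuous_const).abs) (fun x => abs_nonneg _) x (g := fun y =>
          |fderiv ℝ (f k) y (ev i)|)
      rwa [fav_const] at this
    have hφ1 : ∀ y j, |φ y j| ≤ 1 := fun y j => by
      have := PiLp.norm_apply_le (φ y) j
      exact this.trans (h3 y)
    have hj2 : ∀ k x, |jmp i φ (u k) x| ≤ 2 := fun k x => by
      unfold jmp
      refine (abs_sub _ _).trans ?_
      have a1 := hφ1 (pr i x + (u k x / 2) • ev i) i
      have a2 := hφ1 (pr i x + (-u k x / 2) • ev i) i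
      linarith
    have hprc := continuous_pr (n := n) i
    apply tendsto_integral_of_dominated_convergence (fun _ => (2:ℝ))
    · intro k
      have huc := continuous_fav i (hfc k)
      apply Continuous.aestronglyMeasurable
      have c1 : Continuous fun x => jmp i φ (u k) x := by
        unfold jmp
        exact ((hcoord i).comp (by fun_prop)).sub ((hcoord i).comp (by fun_prop))
      have c2 : Continuous fun x => fav i (fun y => |fderiv ℝ (f k) y (ev i)|) x :=
        continuous_fav i (((hfd k).clm_apply continuous_const).abs)
      fun_prop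
    · exact integrable_const _
    · intro k
      refine Eventually.of_forall fun x => ?_
      rw [Real.norm_eq_abs, abs_mul, abs_of_nonneg (le_max_right _ _),
        abs_of_nonneg (le_max_right _ _)]
      have a1 : max (jmp i φ (u k) x) 0 ≤ 2 := max_le ((le_abs_self _).trans (hj2 k x)) (by norm_num)
      have a2 : max (1 - fav i (fun y => |fderiv ℝ (f k) y (ev i)|) x / 2) 0 ≤ 1 :=
        max_le (by linarith [hTV0 k x]) zero_le_one
      calc _ ≤ (2:ℝ) * 1 := mul_le_mul a1 a2 (le_max_right _ _) (by norm_num)
        _ = 2 := by norm_num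
    · refine ae_restrict_of_ae ?_
      filter_upwards [hulim, hfib] with x hx hxf
      have hjlim : Tendsto (fun k => jmp i φ (u k) x) atTop
          (𝓝 (φ (pr i x + (flen i S x / 2) • ev i) i - φ (pr i x + (-flen i S x / 2) • ev i) i)) := by
        unfold jmp
        refine Tendsto.sub ?_ ?_
        · have hc : Continuous fun s : ℝ => φ (pr i x + (s / 2) • ev i) i :=
            (hcoord i).comp (by fun_prop)
          exact (hc.tendsto _).comp hx
        · have hc : Continuous fun s : ℝ => φ (pr i x + (-s / 2) • ev i) i :=
            (hcoord i).comp (by fun_prop)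
          exact (hc.tendsto _).comp hx
      have hbd2 : ∀ k, max (1 - fav i (fun y => |fderiv ℝ (f k) y (ev i)|) x / 2) 0 ≤ 1 :=
        fun k => max_le (by linarith [hTV0 k x]) zero_le_one
      have case_jump : φ (pr i x + (flen i S x / 2) • ev i) i
          - φ (pr i x + (-flen i S x / 2) • ev i) i = 0 →
          Tendsto (fun k => max (jmp i φ (u k) x) 0
          * max (1 - fav i (fun y => |fderiv ℝ (f k) y (ev i)|) x / 2) 0) atTop (𝓝 0) := by
        intro h0
        rw [h0] at hjlim
        have h4 : Tendsto (fun k => max (jmp i φ (u k) x) 0) atTop (𝓝 0) := by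
          have := hjlim.max (tendsto_const_nhds (x := (0:ℝ)))
          simpa using this
        refine squeeze_zero (fun k => mul_nonneg (le_max_right _ _) (le_max_right _ _))
          (fun k => ?_) h4
        exact mul_le_of_le_one_right (le_max_right _ _) (hbd2 k)
      by_cases hz : flen i S x = 0
      · apply case_jump
        rw [hz]; simp
      by_cases ho : flen i S x = 1
      · apply case_jump
        rw [ho]
        have := fiber_periodic h2 i (pr i x) (-1/2)
        simp only at this
        rw [show (-1/2 + 1 : ℝ) = 1/2 by norm_num] at this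
        rw [this]; ring
      -- nontrivial fibre
      have hex1 : ∃ t ∈ Set.Ioc (0:ℝ) 1, Tendsto (fun k => f k (x + t • ev i)) atTop
          (𝓝 (1:ℝ)) := by
        by_contra hcon
        push Not at hcon
        apply hz
        unfold flen
        rw [intervalIntegral.integral_of_le zero_le_one]
        apply integral_eq_zero_of_ae
        rw [Filter.EventuallyEq, ae_restrict_iff' measurableSet_Ioc]
        filter_upwards [hxf] with t ht htm
        have h7 := hcon t htm
        unfold chi at ht ⊢
        by_cases hm : x + t • ev i ∈ S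
        · rw [Set.indicator_of_mem hm] at ht
          exact absurd ht h7
        · rw [Set.indicator_of_notMem hm]; rfl
      have hex0 : ∃ t ∈ Set.Ioc (0:ℝ) 1, Tendsto (fun k => f k (x + t • ev i)) atTop
          (𝓝 (0:ℝ)) := by
        by_contra hcon
        push Not at hcon
        apply ho
        unfold flen
        rw [intervalIntegral.integral_of_le zero_le_one]
        have : ∫ t in Set.Ioc (0:ℝ) 1, chi S (x + t • ev i) = ∫ t in Set.Ioc (0:ℝ) 1, (1:ℝ) := by
          apply integral_congr_ae
          rw [Filter.EventuallyEq, ae_restrict_iff' measurableSet_Ioc]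
          filter_upwards [hxf] with t ht htm
          have h7 := hcon t htm
          unfold chi at ht ⊢
          by_cases hm : x + t • ev i ∈ S
          · rw [Set.indicator_of_mem hm]
          · rw [Set.indicator_of_notMem hm] at ht
            exact absurd ht h7
        rw [this]
        simp
      obtain ⟨t₁, ht₁, hl₁⟩ := hex1
      obtain ⟨t₂, ht₂, hl₂⟩ := hex0
      have hosc : Tendsto (fun k => 1 - |f k (x + t₁ • ev i) - f k (x + t₂ • ev i)|) atTop
          (𝓝 0) := by
        have := (tendsto_const_nhds (x := (1:ℝ))).sub ((hl₁.sub hl₂).abs)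
        simpa using this
      have hosc' : Tendsto (fun k => 2 * max (1 - |f k (x + t₁ • ev i) - f k (x + t₂ • ev i)|) 0)
          atTop (𝓝 0) := by
        have := (hosc.max (tendsto_const_nhds (x := (0:ℝ)))).const_mul 2
        simpa using this
      refine squeeze_zero (fun k => mul_nonneg (le_max_right _ _) (le_max_right _ _))
          (fun k => ?_) hosc'
      have b1 : max (jmp i φ (u k) x) 0 ≤ 2 := max_le ((le_abs_self _).trans (hj2 k x)) (by norm_num)
      have b2 := two_mul_le_fav_abs i (hfc1 k) (hfp k) x ht₁ ht₂
      have b3 : max (1 - fav i (fun y => |fderiv ℝ (f k) y (ev i)|) x / 2) 0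
          ≤ max (1 - |f k (x + t₁ • ev i) - f k (x + t₂ • ev i)|) 0 :=
        max_le_max (by linarith) le_rfl
      exact mul_le_mul b1 b3 (le_max_right _ _) (by norm_num)
  rw [integral_zero] at hR
  have hlim : Tendsto (fun k => P + ∫ x in unitCell n, max (jmp i φ (u k) x) 0
          * max (1 - fav i (fun y => |fderiv ℝ (f k) y (ev i)|) x / 2) 0) atTop (𝓝 P) := by
    simpa using hR.const_add P
  exact le_of_tendsto_of_tendsto' hL hlim fun k => main_ineq h1 h2 h3 i (hf k) (hfp k) (hfP k)

end Crest.Agent.R214
end

-- ▼ part R214/SteinerAll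

/-!
# R214: successive Steiner symmetrisations in all coordinates
-/

open MeasureTheory Crest.GeometryTopology.PeriodicPerimeter Filter Topology
open scoped Pointwise ContDiff

namespace Crest.Agent.R214

variable {n : ℕ}



/-- the full symmetrisation in `ℝ³` -/
noncomputable def steiner3 (S : Set (EuclideanSpace ℝ (Fin 3))) : Set (EuclideanSpace ℝ (Fin 3)) :=
  steiner 2 (steiner 1 (steiner 0 S))


section three

variable {S : Set (EuclideanSpace ℝ (Fin 3))} (hS : MeasurableSet S) (hper : IsLatticePeriodic S)
include hS hper

theorem measurableSet_steiner3 : MeasurableSet (steiner3 S) := by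
  have m1 := measurableSet_steiner 0 hS hper
  have p1 := steiner_periodic 0 hS hper
  have m2 := measurableSet_steiner 1 m1 p1
  have p2 := steiner_periodic 1 m1 p1
  exact measurableSet_steiner 2 m2 p2

theorem steiner3_periodic : IsLatticePeriodic (steiner3 S) := by
  have m1 := measurableSet_steiner 0 hS hper
  have p1 := steiner_periodic 0 hS hper
  have m2 := measurableSet_steiner 1 m1 p1
  have p2 := steiner_periodic 1 m1 p1
  exact steiner_periodic 2 m2 p2

theorem periodicVolume_steiner3 : periodicVolume (steiner3 S) = periodicVolume S := by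
  have m1 := measurableSet_steiner 0 hS hper
  have p1 := steiner_periodic 0 hS hper
  have m2 := measurableSet_steiner 1 m1 p1
  have p2 := steiner_periodic 1 m1 p1
  unfold steiner3
  rw [periodicVolume_steiner 2 m2 p2, periodicVolume_steiner 1 m1 p1,
    periodicVolume_steiner 0 hS hper]

theorem periodicPerimeter_steiner3_le :
    periodicPerimeter (steiner3 S) ≤ periodicPerimeter S := by
  have m1 := measurableSet_steiner 0 hS hper
  have p1 := steiner_periodic 0 hS hper
  have m2 := measurableSet_steiner 1 m1 p1
  have p2 := steiner_periodic 1 m1 p1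
  exact (periodicPerimeter_steiner_le 2 m2 p2).trans
    ((periodicPerimeter_steiner_le 1 m1 p1).trans (periodicPerimeter_steiner_le 0 hS hper))

theorem symDecAt_steiner3 (j : Fin 3) : SymDecAt j (steiner3 S) := by
  have m1 := measurableSet_steiner 0 hS hper
  have p1 := steiner_periodic 0 hS hper
  have m2 := measurableSet_steiner 1 m1 p1
  have p2 := steiner_periodic 1 m1 p1
  have s0 : SymDecAt 0 (steiner 0 S) := symDecAt_steiner_self 0 hS hper
  have s01 : SymDecAt 0 (steiner 1 (steiner 0 S)) := symDecAt_steiner 1 0 (by decide) m1 p1 s0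
  have s11 : SymDecAt 1 (steiner 1 (steiner 0 S)) := symDecAt_steiner_self 1 m1 p1
  fin_cases j
  · exact symDecAt_steiner 2 0 (by decide) m2 p2 s01
  · exact symDecAt_steiner 2 1 (by decide) m2 p2 s11
  · exact symDecAt_steiner_self 2 m2 p2


end three

section two

variable {S : Set (EuclideanSpace ℝ (Fin 2))} (hS : MeasurableSet S) (hper : IsLatticePeriodic S)
include hS hper






end two

end Crest.Agent.R214
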