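import Crest.Agent.R214.InvPer
import Crest.Agent.R214.RigStd0
import Crest.Agent.R214.SteinerAll

-- ▼ part R214/ModelBound
section

/-!
R214: upper bound of the perimeter of an open periodic set by the inner Minkowski content.
-/

set_option autoImplicit false

open MeasureTheory Set Filter Topology Metric
open Crest.GeometryTopology.PeriodicPerimeter

noncomputable section

namespace Crest.Agent.R214.Inv

variable {n : ℕ}

/-- cut-off function at inner distance `ε`. -/
def cutoff (E : Set (EE n)) (ε : ℝ) (x : EE n) : ℝ := min 1 (infDist x Eᶜ / ε)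

theorem infDist_compl_periodic {E : Set (EE n)} (hper : IsLatticePeriodic E) :
    PeriodicFun (fun x => infDist x Eᶜ) := by
  have key : ∀ v, HasIntegerCoords v → ∀ x, infDist (x + v) Eᶜ ≤ infDist x Eᶜ := by
    intro v hv x
    by_cases hne : (Eᶜ).Nonempty
    · refine le_of_forall_pos_lt_add fun δ hδ => ?_
      obtain ⟨y, hy, hxy⟩ := (infDist_lt_iff hne).1 (lt_add_of_pos_right (infDist x Eᶜ) hδ)
      have hy' : y + v ∈ Eᶜ := fun h => hy ((hper v hv y).1 h)
      refine lt_of_le_of_lt (infDist_le_dist_of_mem hy') ?_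
      rwa [dist_add_right]
    · rw [not_nonempty_iff_eq_empty] at hne
      simp [hne]
  intro v hv x
  refine le_antisymm (key v hv x) ?_
  have := key (-v) (hic_neg hv) (x + v)
  simpa using this

theorem cutoff_periodic {E : Set (EE n)} (hper : IsLatticePeriodic E) (ε : ℝ) :
    PeriodicFun (cutoff E ε) := by
  intro v hv x
  have := infDist_compl_periodic hper v hv x
  simp only [cutoff, this]

theorem cutoff_lipschitz (E : Set (EE n)) {ε : ℝ} (hε : 0 < ε) :
    LipschitzWith (Real.toNNReal (1 / ε)) (cutoff E ε) := by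
  have h1 : LipschitzWith (Real.toNNReal (1 / ε)) (fun x : EE n => infDist x Eᶜ / ε) := by
    refine LipschitzWith.of_dist_le_mul fun x y => ?_
    have h := (lipschitz_infDist_pt (Eᶜ)).dist_le_mul x y
    rw [Real.dist_eq, Real.coe_toNNReal _ (by positivity), ← sub_div, abs_div, abs_of_pos hε]
    rw [Real.dist_eq] at h
    simp only [NNReal.coe_one, one_mul] at h
    rw [one_div, inv_mul_eq_div]
    gcongr
  exact (h1.const_min 1)

theorem cutoff_nonneg (E : Set (EE n)) {ε : ℝ} (hε : 0 < ε) (x : EE n) : 0 ≤ cutoff E ε x :=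
  le_min zero_le_one (div_nonneg infDist_nonneg hε.le)

theorem cutoff_le_one (E : Set (EE n)) (ε : ℝ) (x : EE n) : cutoff E ε x ≤ 1 := min_le_left _ _

theorem cutoff_eq_zero {E : Set (EE n)} {ε : ℝ} {x : EE n} (hx : x ∉ E) : cutoff E ε x = 0 := by
  have : infDist x Eᶜ = 0 := infDist_zero_of_mem hx
  simp [cutoff, this]

theorem cutoff_eq_one {E : Set (EE n)} {ε : ℝ} (hε : 0 < ε) {x : EE n} (hx : ε ≤ infDist x Eᶜ) :
    cutoff E ε x = 1 := by
  unfold cutoff
  rw [min_eq_left]
  rwa [le_div_iff₀ hε, one_mul]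

theorem cutoff_fderiv_of_notMem {E : Set (EE n)} {ε : ℝ} (hε : 0 < ε) {x : EE n} (hx : x ∉ E) :
    fderiv ℝ (cutoff E ε) x = 0 := by
  refine IsLocalMin.fderiv_eq_zero (Eventually.of_forall fun y => ?_)
  rw [cutoff_eq_zero hx]
  exact cutoff_nonneg E hε y

theorem cutoff_fderiv_of_le {E : Set (EE n)} {ε : ℝ} (hε : 0 < ε) {x : EE n}
    (hx : ε ≤ infDist x Eᶜ) : fderiv ℝ (cutoff E ε) x = 0 := by
  refine IsLocalMax.fderiv_eq_zero (Eventually.of_forall fun y => ?_)
  rw [cutoff_eq_one hε hx]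
  exact cutoff_le_one E ε y

theorem cutoff_fderiv_norm_le (E : Set (EE n)) {ε : ℝ} (hε : 0 < ε) (x : EE n) :
    ‖fderiv ℝ (cutoff E ε) x‖ ≤ 1 / ε := by
  have := norm_fderiv_le_of_lipschitz ℝ (cutoff_lipschitz E hε) (x₀ := x)
  rwa [Real.coe_toNNReal _ (by positivity)] at this

theorem le_infDist_compl_of_ball {E : Set (EE n)} (hne : (Eᶜ).Nonempty) {ε : ℝ} {x : EE n}
    (h : ball x ε ⊆ E) : ε ≤ infDist x Eᶜ := by
  rw [le_infDist hne]
  intro y hy
  by_contra hlt
  push Not at hlt
  exact hy (h (by rwa [mem_ball, dist_comm]))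

/-- Shell estimate for one admissible field. -/
theorem integral_cutoff_le {E F : Set (EE n)} (hper : IsLatticePeriodic E)
    (hE : MeasurableSet E) (hF : MeasurableSet F) (hFE : F ⊆ E) {ε : ℝ} (hε : 0 < ε)
    (hball : ∀ x ∈ F, ε ≤ infDist x Eᶜ)
    {φ : EE n → EE n} (hφ : IsAdmissibleField φ) :
    ∫ x in unitCell n, cutoff E ε x * divergence φ x ≤
      (periodicVolume E - periodicVolume F) / ε := by
  have h1 := integral_cell_mul_divergence (cutoff_periodic hper ε) (cutoff_lipschitz E hε)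
    hφ.1 hφ.2.1
  rw [h1, ← integral_neg]
  have hEF : MeasurableSet (E \ F) := hE.diff hF
  have hvol : volume.real (unitCell n ∩ (E \ F)) = periodicVolume E - periodicVolume F := by
    have h2 : unitCell n ∩ (E \ F) = (E ∩ unitCell n) \ (F ∩ unitCell n) := by
      ext x
      simp only [mem_inter_iff, Set.mem_sdiff]
      tauto
    rw [h2, measureReal_sdiff (inter_subset_inter_left _ hFE) (hF.inter (measurableSet_unitCell n))
      (volume_inter_unitCell_lt_top E).ne]
    rfl
  have hm : Measurable (fun x => -(fderiv ℝ (cutoff E ε) x) (φ x)) := by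
    have : Measurable fun x => (fderiv ℝ (cutoff E ε) x) (φ x) := by
      have h1 : Measurable fun x => (fderiv ℝ (cutoff E ε) x, φ x) :=
        (measurable_fderiv ℝ (cutoff E ε)).prodMk hφ.1.continuous.measurable
      have h2 : Continuous fun p : (EE n →L[ℝ] ℝ) × EE n => p.1 p.2 := by fun_prop
      exact h2.measurable.comp h1
    exact this.neg
  have hpt : ∀ x, ‖-(fderiv ℝ (cutoff E ε) x) (φ x)‖ ≤ (E \ F).indicator (fun _ => 1 / ε) x := by
    intro x
    rw [norm_neg]
    by_cases hx : x ∈ E \ F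
    · rw [indicator_of_mem hx]
      calc ‖(fderiv ℝ (cutoff E ε) x) (φ x)‖ ≤ ‖fderiv ℝ (cutoff E ε) x‖ * ‖φ x‖ :=
            ContinuousLinearMap.le_opNorm _ _
        _ ≤ (1 / ε) * 1 := by
            refine mul_le_mul (cutoff_fderiv_norm_le E hε x) (hφ.2.2 x) (norm_nonneg _) (by positivity)
        _ = 1 / ε := mul_one _
    · rw [indicator_of_notMem hx]
      have : fderiv ℝ (cutoff E ε) x = 0 := by
        by_cases hxE : x ∈ E
        · have hxF : x ∈ F := by
            by_contra h; exact hx ⟨hxE, h⟩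
          exact cutoff_fderiv_of_le hε (hball x hxF)
        · exact cutoff_fderiv_of_notMem hε hxE
      rw [this]; simp
  have hI2 : IntegrableOn ((E \ F).indicator (fun _ => 1 / ε)) (unitCell n) :=
    (integrable_const _).indicator hEF
  have hI1 : IntegrableOn (fun x => -(fderiv ℝ (cutoff E ε) x) (φ x)) (unitCell n) :=
    Integrable.mono' hI2 hm.aestronglyMeasurable (ae_of_all _ hpt)
  calc ∫ x in unitCell n, -(fderiv ℝ (cutoff E ε) x) (φ x)
      ≤ ∫ x in unitCell n, (E \ F).indicator (fun _ => 1 / ε) x := by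
        refine integral_mono hI1 hI2 fun x => ?_
        exact (le_abs_self _).trans (hpt x)
    _ = (periodicVolume E - periodicVolume F) / ε := by
        rw [setIntegral_indicator hEF, setIntegral_const, hvol, smul_eq_mul]
        ring

/-- Inner Minkowski content bound. -/
theorem periodicPerimeter_le_of_shell {E : Set (EE n)} (hper : IsLatticePeriodic E)
    (hE : IsOpen E) (hne : (Eᶜ).Nonempty) (F : ℕ → Set (EE n)) (ε : ℕ → ℝ)
    (hε : ∀ k, 0 < ε k) (hε0 : Tendsto ε atTop (𝓝 0))
    (hF : ∀ᶠ k in atTop, MeasurableSet (F k) ∧ F k ⊆ E ∧ ∀ x ∈ F k, ball x (ε k) ⊆ E)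
    {c : ℝ} (hc : Tendsto (fun k => (periodicVolume E - periodicVolume (F k)) / ε k) atTop (𝓝 c)) :
    periodicPerimeter E ≤ ENNReal.ofReal c := by
  unfold periodicPerimeter
  refine iSup_le fun φ => ENNReal.ofReal_le_ofReal ?_
  have hφ := φ.2
  have hlim : Tendsto (fun k => ∫ x in unitCell n, cutoff E (ε k) x * divergence φ.1 x) atTop
      (𝓝 (∫ x in E ∩ unitCell n, divergence φ.1 x)) := by
    have e1 : ∫ x in E ∩ unitCell n, divergence φ.1 x
        = ∫ x in unitCell n, E.indicator (fun y => divergence φ.1 y) x := by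
      rw [setIntegral_indicator hE.measurableSet, inter_comm]
    rw [e1]
    have hp : PeriodicFun (divergence φ.1) := PeriodicFun.divergence hφ.2.1
    obtain ⟨B, hB0, hB⟩ := hp.bounded (continuous_divergence hφ.1)
    refine tendsto_integral_of_dominated_convergence (fun _ => B) ?_ (integrable_const _) ?_ ?_
    · intro k
      exact ((cutoff_lipschitz E (hε k)).continuous.mul
        (continuous_divergence hφ.1)).aestronglyMeasurable
    · intro k
      refine ae_of_all _ fun x => ?_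
      rw [norm_mul]
      calc ‖cutoff E (ε k) x‖ * ‖divergence φ.1 x‖ ≤ 1 * B := by
            refine mul_le_mul ?_ (hB x) (norm_nonneg _) zero_le_one
            rw [Real.norm_of_nonneg (cutoff_nonneg E (hε k) x)]
            exact cutoff_le_one E _ x
        _ = B := one_mul _
    · refine ae_of_all _ fun x => ?_
      by_cases hx : x ∈ E
      · rw [indicator_of_mem hx]
        have hpos : 0 < infDist x Eᶜ := by
          refine (infDist_pos_iff_notMem_closure hne).1 ?_
          rw [hE.isClosed_compl.closure_eq]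
          simpa using hx
        have hev : ∀ᶠ k in atTop, ε k < infDist x Eᶜ := hε0.eventually_lt_const hpos
        refine tendsto_const_nhds.congr' ?_
        filter_upwards [hev] with k hk
        rw [cutoff_eq_one (hε k) hk.le, one_mul]
      · rw [indicator_of_notMem hx]
        refine tendsto_const_nhds.congr fun k => ?_
        rw [cutoff_eq_zero hx, zero_mul]
  refine le_of_tendsto_of_tendsto hlim hc ?_
  filter_upwards [hF] with k hk
  exact integral_cutoff_le hper hE.measurableSet hk.1 hk.2.1 (hε k)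
    (fun x hx => le_infDist_compl_of_ball hne (hk.2.2 x hx)) hφ

end Crest.Agent.R214.Inv
end
end

-- ▼ part R214/Model
section

/-!
R214: the model regions (ball, tube, slab): measurability, periodicity, volume, perimeter bounds.
-/

set_option autoImplicit false

open MeasureTheory Set Filter Topology Metric
open Crest.GeometryTopology.PeriodicPerimeter

noncomputable section

namespace Crest.Agent.R214.Inv

/-- the centred cell corner. -/
def ctr : EE 3 := WithLp.toLp 2 fun _ => (-(1/2) : ℝ)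

@[simp] theorem ctr_apply (i : Fin 3) : ctr i = -(1/2) := rfl

theorem mem_cellAt_ctr {x : EE 3} : x ∈ cellAt ctr ↔ ∀ i, -(1/2) ≤ x i ∧ x i < 1/2 := by
  simp only [cellAt, mem_ofPred_eq, ctr_apply]
  refine forall_congr' fun i => ?_
  constructor <;> rintro ⟨h1, h2⟩ <;> constructor <;> linarith

theorem periodicVolume_eq_cell {D : Set (EE 3)} (hD : IsCell D) {E : Set (EE 3)}
    (hE : MeasurableSet E) (hper : IsLatticePeriodic E) :
    periodicVolume E = (volume (E ∩ D)).toReal := by
  unfold periodicVolume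
  rw [hD.measure_inter_eq (isCell_unitCell 3) hE hper]

theorem int_eq_zero_of_cell {t r : ℝ} {m : ℤ} (hr : r ≤ 1 / 2) (h1 : -(1/2) ≤ t) (h2 : t < 1/2)
    (h : |t - m| < r) : m = 0 := by
  rw [abs_lt] at h
  have h3 : (m : ℝ) < 1 := by linarith
  have h4 : (-1 : ℝ) < m := by linarith
  have h5 : m < 1 := by exact_mod_cast h3
  have h6 : -1 < m := by exact_mod_cast h4
  omega

/-! ### ball -/

theorem isOpen_periodicBall (r : ℝ) : IsOpen (periodicBall r) := by
  have : periodicBall r = ⋃ v : {v : EE 3 // HasIntegerCoords v}, ball v.1 r := by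
    ext x
    simp [periodicBall]
  rw [this]
  exact isOpen_iUnion fun v => isOpen_ball

theorem periodic_periodicBall (r : ℝ) : IsLatticePeriodic (periodicBall r) := by
  intro v hv x
  constructor
  · rintro ⟨w, hw, h⟩
    refine ⟨w - v, hic_sub hw hv, ?_⟩
    rw [dist_eq_norm] at *
    convert h using 2
    abel
  · rintro ⟨w, hw, h⟩
    exact ⟨w + v, hic_add hw hv, by rwa [dist_add_right]⟩

theorem periodicBall_inter_cell {r : ℝ} (hr : r ≤ 1 / 2) :
    periodicBall r ∩ cellAt ctr = ball (0 : EE 3) r := by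
  have h : periodicBall r ∩ cellAt ctr = ball (0 : EE 3) r := by
    ext x
    rw [mem_inter_iff, mem_cellAt_ctr, mem_ball]
    constructor
    · rintro ⟨⟨v, hv, hx⟩, hc⟩
      have hv0 : v = 0 := by
        ext i
        obtain ⟨m, hm⟩ := hv i
        have h1 : |x i - m| < r := by
          rw [← hm]
          refine lt_of_le_of_lt ?_ hx
          rw [dist_eq_norm, ← Real.norm_eq_abs]
          exact PiLp.norm_apply_le (x - v) i
        have := int_eq_zero_of_cell hr (hc i).1 (hc i).2 h1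
        simp [hm, this]
      rwa [hv0] at hx
    · intro hx
      refine ⟨⟨0, hasIntegerCoords_zero, hx⟩, fun i => ?_⟩
      have h1 : |x i| < r := by
        refine lt_of_le_of_lt ?_ hx
        rw [dist_zero_right, ← Real.norm_eq_abs]
        exact PiLp.norm_apply_le x i
      rw [abs_lt] at h1
      constructor <;> linarith
  rw [h]

theorem periodicVolume_periodicBall {r : ℝ} (h0 : 0 ≤ r) (hr : r ≤ 1 / 2) :
    periodicVolume (periodicBall r) = 4 / 3 * Real.pi * r ^ 3 := by
  rw [periodicVolume_eq_cell (isCell_cellAt ctr) (isOpen_periodicBall r).measurableSet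
    (periodic_periodicBall r), periodicBall_inter_cell hr,
    EuclideanSpace.volume_ball_fin_three, ENNReal.toReal_mul, ENNReal.toReal_pow,
    ENNReal.toReal_ofReal h0, ENNReal.toReal_ofReal (by positivity)]
  ring

theorem periodicBall_compl_nonempty {r : ℝ} (hr : r ≤ 1 / 2) : ((periodicBall r)ᶜ).Nonempty := by
  refine ⟨ctr, ?_⟩
  rintro ⟨v, hv, hx⟩
  obtain ⟨m, hm⟩ := hv 0
  have h1 : |ctr 0 - m| < r := by
    rw [← hm]
    refine lt_of_le_of_lt ?_ hx
    rw [dist_eq_norm, ← Real.norm_eq_abs]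
    exact PiLp.norm_apply_le (ctr - v) 0
  have hm0 := int_eq_zero_of_cell (t := ctr 0) hr (by simp) (by norm_num [ctr_apply]) h1
  rw [hm0] at h1
  simp only [ctr_apply, Int.cast_zero, sub_zero, abs_neg] at h1
  rw [abs_of_pos (by norm_num)] at h1
  linarith

/-- the sequence of shell widths. -/
def shellEps (r : ℝ) (k : ℕ) : ℝ := r / (k + 2)

theorem shellEps_pos {r : ℝ} (hr : 0 < r) (k : ℕ) : 0 < shellEps r k := by
  unfold shellEps; positivity

theorem shellEps_lt {r : ℝ} (hr : 0 < r) (k : ℕ) : shellEps r k < r := by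
  unfold shellEps
  rw [div_lt_iff₀ (by positivity)]
  have : (0:ℝ) ≤ k := Nat.cast_nonneg k
  nlinarith

theorem tendsto_shellEps (r : ℝ) : Tendsto (shellEps r) atTop (𝓝 0) := by
  unfold shellEps
  refine Tendsto.div_atTop tendsto_const_nhds ?_
  exact tendsto_atTop_add_const_right _ _ tendsto_natCast_atTop_atTop

theorem periodicPerimeter_periodicBall_le {r : ℝ} (h0 : 0 < r) (hr : r ≤ 1 / 2) :
    periodicPerimeter (periodicBall r) ≤ ENNReal.ofReal (4 * Real.pi * r ^ 2) := by
  refine periodicPerimeter_le_of_shell (periodic_periodicBall r) (isOpen_periodicBall r)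
    (periodicBall_compl_nonempty hr) (fun k => periodicBall (r - shellEps r k)) (shellEps r)
    (shellEps_pos h0) (tendsto_shellEps r) ?_ ?_
  · refine Eventually.of_forall fun k => ⟨(isOpen_periodicBall _).measurableSet, ?_, ?_⟩
    · rintro x ⟨v, hv, hx⟩
      exact ⟨v, hv, hx.trans (by have := shellEps_pos h0 k; linarith)⟩
    · rintro x ⟨v, hv, hx⟩ y hy
      refine ⟨v, hv, ?_⟩
      calc dist y v ≤ dist y x + dist x v := dist_triangle _ _ _
        _ < shellEps r k + (r - shellEps r k) := add_lt_add hy hx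
        _ = r := by ring
  · have h1 : ∀ k, (periodicVolume (periodicBall r) - periodicVolume (periodicBall (r - shellEps r k)))
        / shellEps r k = 4 / 3 * Real.pi * (3 * r ^ 2 - 3 * r * shellEps r k + shellEps r k ^ 2) := by
      intro k
      have hp := shellEps_pos h0 k
      have hl := shellEps_lt h0 k
      rw [periodicVolume_periodicBall h0.le hr, periodicVolume_periodicBall (by linarith) (by linarith)]
      field_simp
      ring
    simp_rw [h1]
    have h2 := tendsto_shellEps r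
    have h3 : Tendsto (fun k => 4 / 3 * Real.pi * (3 * r ^ 2 - 3 * r * shellEps r k + shellEps r k ^ 2))
        atTop (𝓝 (4 / 3 * Real.pi * (3 * r ^ 2 - 3 * r * 0 + 0 ^ 2))) :=
      (((tendsto_const_nhds.sub (h2.const_mul _)).add (h2.pow 2)).const_mul _)
    convert h3 using 2
    ring

/-! ### tube -/

theorem isOpen_periodicTube (r : ℝ) : IsOpen (periodicTube r) := by
  have : periodicTube r = ⋃ a : ℤ, ⋃ b : ℤ, {x : EE 3 | (x 0 - a) ^ 2 + (x 1 - b) ^ 2 < r ^ 2} := by
    ext x
    simp [periodicTube]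
  rw [this]
  refine isOpen_iUnion fun a => isOpen_iUnion fun b => ?_
  exact isOpen_lt (by fun_prop) continuous_const

theorem periodic_periodicTube (r : ℝ) : IsLatticePeriodic (periodicTube r) := by
  intro v hv x
  obtain ⟨m, hm⟩ := hv 0
  obtain ⟨k, hk⟩ := hv 1
  constructor
  · rintro ⟨a, b, h⟩
    refine ⟨a - m, b - k, ?_⟩
    simp only [PiLp.add_apply, hm, hk] at h
    push_cast
    convert h using 3 <;> ring
  · rintro ⟨a, b, h⟩
    refine ⟨a + m, b + k, ?_⟩
    simp only [PiLp.add_apply, hm, hk]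
    push_cast
    convert h using 3 <;> ring

theorem abs_lt_of_sq_add_sq {s t r : ℝ} (hr : 0 ≤ r) (h : s ^ 2 + t ^ 2 < r ^ 2) : |s| < r ∧ |t| < r := by
  constructor
  · exact abs_lt_of_sq_lt_sq (by nlinarith [sq_nonneg t]) hr
  · exact abs_lt_of_sq_lt_sq (by nlinarith [sq_nonneg s]) hr

theorem periodicTube_inter_cell {r : ℝ} (h0 : 0 ≤ r) (hr : r ≤ 1 / 2) :
    periodicTube r ∩ cellAt ctr =
      {x : EE 3 | x 0 ^ 2 + x 1 ^ 2 < r ^ 2 ∧ -(1/2) ≤ x 2 ∧ x 2 < 1/2} := by
  ext x
  rw [mem_inter_iff, mem_cellAt_ctr]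
  constructor
  · rintro ⟨⟨a, b, h⟩, hc⟩
    obtain ⟨h1, h2⟩ := abs_lt_of_sq_add_sq h0 h
    have ha := int_eq_zero_of_cell hr (hc 0).1 (hc 0).2 h1
    have hb := int_eq_zero_of_cell hr (hc 1).1 (hc 1).2 h2
    rw [ha, hb] at h
    simp only [Int.cast_zero, sub_zero] at h
    exact ⟨h, hc 2⟩
  · rintro ⟨h, h2⟩
    refine ⟨⟨0, 0, by simpa using h⟩, ?_⟩
    obtain ⟨h3, h4⟩ := abs_lt_of_sq_add_sq h0 h
    rw [abs_lt] at h3 h4
    intro i
    fin_cases i
    · simp only [Fin.zero_eta]; constructor <;> linarith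
    · simp only [Fin.mk_one]; constructor <;> linarith
    · exact h2

theorem volume_disc (r : ℝ) (h0 : 0 ≤ r) :
    volume {y : Fin 2 → ℝ | y 0 ^ 2 + y 1 ^ 2 < r ^ 2} = ENNReal.ofReal (Real.pi * r ^ 2) := by
  have hms : MeasurableSet {y : Fin 2 → ℝ | y 0 ^ 2 + y 1 ^ 2 < r ^ 2} :=
    measurableSet_lt (by fun_prop) measurable_const
  have h1 : (WithLp.ofLp : EE 2 → (Fin 2 → ℝ)) ⁻¹' {y : Fin 2 → ℝ | y 0 ^ 2 + y 1 ^ 2 < r ^ 2}
      = ball (0 : EE 2) r := by
    ext x
    rw [EuclideanSpace.ball_zero_eq _ h0]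
    simp
  rw [← (PiLp.volume_preserving_ofLp (Fin 2)).measure_preimage hms.nullMeasurableSet, h1,
    EuclideanSpace.volume_ball_fin_two]
  rw [← ENNReal.ofReal_pow h0]
  rw [mul_comm (Real.pi) (r ^ 2), ENNReal.ofReal_mul (by positivity)]

theorem volume_solidTube (r : ℝ) (h0 : 0 ≤ r) :
    volume {x : EE 3 | x 0 ^ 2 + x 1 ^ 2 < r ^ 2 ∧ -(1/2) ≤ x 2 ∧ x 2 < 1/2}
      = ENNReal.ofReal (Real.pi * r ^ 2) := by
  have hms : MeasurableSet {y : Fin 2 → ℝ | y 0 ^ 2 + y 1 ^ 2 < r ^ 2} :=
    measurableSet_lt (by fun_prop) measurable_const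
  set S : Set (ℝ × (Fin 2 → ℝ)) := Ico (-(1/2)) (1/2) ×ˢ {y : Fin 2 → ℝ | y 0 ^ 2 + y 1 ^ 2 < r ^ 2}
    with hS
  have hSm : MeasurableSet S := measurableSet_Ico.prod hms
  have hmp := (volume_preserving_piFinSuccAbove (fun _ : Fin 3 => ℝ) 2).comp
    (PiLp.volume_preserving_ofLp (Fin 3))
  have h1 : {x : EE 3 | x 0 ^ 2 + x 1 ^ 2 < r ^ 2 ∧ -(1/2) ≤ x 2 ∧ x 2 < 1/2}
      = (fun x : EE 3 => (MeasurableEquiv.piFinSuccAbove (fun _ : Fin 3 => ℝ) 2) (WithLp.ofLp x)) ⁻¹' S := by
    ext x
    simp only [hS, mem_ofPred_eq, mem_preimage, mem_prod, mem_Ico,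
      MeasurableEquiv.piFinSuccAbove_apply, Fin.insertNthEquiv, Equiv.coe_fn_symm_mk, Fin.removeNth]
    have e0 : (Fin.succAbove (2 : Fin 3) 0) = 0 := by decide
    have e1 : (Fin.succAbove (2 : Fin 3) 1) = 1 := by decide
    rw [e0, e1]
    tauto
  rw [h1]
  have h2 := hmp.measure_preimage hSm.nullMeasurableSet
  rw [show ((fun x : EE 3 => (MeasurableEquiv.piFinSuccAbove (fun _ : Fin 3 => ℝ) 2) (WithLp.ofLp x)) ⁻¹' S)
    = ((⇑(MeasurableEquiv.piFinSuccAbove (fun _ : Fin 3 => ℝ) 2) ∘ (WithLp.ofLp : EE 3 → (Fin 3 → ℝ))) ⁻¹' S) from rfl]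
  rw [h2, hS, Measure.volume_eq_prod, Measure.prod_prod, volume_disc r h0, Real.volume_Ico]
  norm_num

theorem periodicVolume_periodicTube {r : ℝ} (h0 : 0 ≤ r) (hr : r ≤ 1 / 2) :
    periodicVolume (periodicTube r) = Real.pi * r ^ 2 := by
  rw [periodicVolume_eq_cell (isCell_cellAt ctr) (isOpen_periodicTube r).measurableSet
    (periodic_periodicTube r), periodicTube_inter_cell h0 hr, volume_solidTube r h0,
    ENNReal.toReal_ofReal (by positivity)]

theorem periodicTube_compl_nonempty {r : ℝ} (h0 : 0 ≤ r) (hr : r ≤ 1 / 2) :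
    ((periodicTube r)ᶜ).Nonempty := by
  refine ⟨ctr, ?_⟩
  rintro ⟨a, b, h⟩
  obtain ⟨h1, h2⟩ := abs_lt_of_sq_add_sq h0 h
  have hm0 := int_eq_zero_of_cell (t := ctr 0) hr (by simp) (by norm_num [ctr_apply]) h1
  rw [hm0] at h1
  simp only [ctr_apply, Int.cast_zero, sub_zero, abs_neg] at h1
  rw [abs_of_pos (by norm_num)] at h1
  linarith

/-- planar triangle inequality -/
theorem planar_tri {a b c d r ε : ℝ} (hε : 0 ≤ ε) (hr : 0 ≤ r) (h1 : a ^ 2 + b ^ 2 < r ^ 2)
    (h2 : c ^ 2 + d ^ 2 ≤ ε ^ 2) : (a + c) ^ 2 + (b + d) ^ 2 < (r + ε) ^ 2 := by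
  have h3 : (a * c + b * d) ^ 2 ≤ (a ^ 2 + b ^ 2) * (c ^ 2 + d ^ 2) := by
    nlinarith [sq_nonneg (a * d - b * c)]
  have h4 : (a ^ 2 + b ^ 2) * (c ^ 2 + d ^ 2) ≤ (r * ε) ^ 2 := by
    rw [mul_pow]
    exact mul_le_mul h1.le h2 (by positivity) (by positivity)
  have h5 : a * c + b * d ≤ r * ε := by
    refine abs_le_of_sq_le_sq' (h3.trans h4) (by positivity) |>.2
  nlinarith

theorem periodicPerimeter_periodicTube_le {r : ℝ} (h0 : 0 < r) (hr : r ≤ 1 / 2) :
    periodicPerimeter (periodicTube r) ≤ ENNReal.ofReal (2 * Real.pi * r) := by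
  refine periodicPerimeter_le_of_shell (periodic_periodicTube r) (isOpen_periodicTube r)
    (periodicTube_compl_nonempty h0.le hr) (fun k => periodicTube (r - shellEps r k)) (shellEps r)
    (shellEps_pos h0) (tendsto_shellEps r) ?_ ?_
  · refine Eventually.of_forall fun k => ⟨(isOpen_periodicTube _).measurableSet, ?_, ?_⟩
    · rintro x ⟨a, b, hx⟩
      refine ⟨a, b, hx.trans ?_⟩
      have := shellEps_pos h0 k
      have := shellEps_lt h0 k
      nlinarith
    · rintro x ⟨a, b, hx⟩ y hy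
      refine ⟨a, b, ?_⟩
      have hl := shellEps_lt h0 k
      have hp := shellEps_pos h0 k
      have h2 : (y 0 - x 0) ^ 2 + (y 1 - x 1) ^ 2 ≤ (shellEps r k) ^ 2 := by
        have h3 : dist y x ^ 2 ≤ (shellEps r k) ^ 2 := by
          have := (mem_ball.1 hy).le
          have := dist_nonneg (x := y) (y := x)
          gcongr
        rw [EuclideanSpace.dist_eq, Real.sq_sqrt (by positivity), Fin.sum_univ_three] at h3
        simp only [Real.dist_eq, sq_abs] at h3
        nlinarith [sq_nonneg (y 2 - x 2)]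
      have h4 := planar_tri hp.le (by linarith : 0 ≤ r - shellEps r k) hx h2
      convert h4 using 1 <;> ring
  · have h1 : ∀ k, (periodicVolume (periodicTube r) - periodicVolume (periodicTube (r - shellEps r k)))
        / shellEps r k = Real.pi * (2 * r - shellEps r k) := by
      intro k
      have hp := shellEps_pos h0 k
      have hl := shellEps_lt h0 k
      rw [periodicVolume_periodicTube h0.le hr, periodicVolume_periodicTube (by linarith) (by linarith)]
      field_simp
      ring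
    simp_rw [h1]
    have h2 := tendsto_shellEps r
    have h3 : Tendsto (fun k => Real.pi * (2 * r - shellEps r k))
        atTop (𝓝 (Real.pi * (2 * r - 0))) :=
      ((tendsto_const_nhds.sub h2).const_mul _)
    convert h3 using 2
    ring

/-! ### slab -/

/-- open periodic slab pieces. -/
def slabPiece (α β : ℝ) : Set (EE 3) := {x | ∃ a : ℤ, (a : ℝ) + α < x 0 ∧ x 0 < a + β}

theorem isOpen_slabPiece (α β : ℝ) : IsOpen (slabPiece α β) := by
  have : slabPiece α β = ⋃ a : ℤ, {x : EE 3 | (a : ℝ) + α < x 0} ∩ {x : EE 3 | x 0 < a + β} := by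
    ext x
    simp [slabPiece]
  rw [this]
  refine isOpen_iUnion fun a => ?_
  exact (isOpen_lt continuous_const (by fun_prop)).inter (isOpen_lt (by fun_prop) continuous_const)

theorem periodic_slabPiece (α β : ℝ) : IsLatticePeriodic (slabPiece α β) := by
  intro v hv x
  obtain ⟨m, hm⟩ := hv 0
  constructor
  · rintro ⟨a, h1, h2⟩
    refine ⟨a - m, ?_⟩
    simp only [PiLp.add_apply, hm] at h1 h2
    push_cast
    constructor <;> linarith
  · rintro ⟨a, h1, h2⟩
    refine ⟨a + m, ?_⟩
    simp only [PiLp.add_apply, hm]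
    push_cast
    constructor <;> linarith

theorem volume_box (I : Fin 3 → Set ℝ) (hI : ∀ i, MeasurableSet (I i)) :
    volume {x : EE 3 | ∀ i, x i ∈ I i} = ∏ i, volume (I i) := by
  have h : {x : EE 3 | ∀ i, x i ∈ I i} = (WithLp.ofLp : EE 3 → (Fin 3 → ℝ)) ⁻¹' (Set.pi univ I) := by
    ext x; simp
  rw [h, (PiLp.volume_preserving_ofLp (Fin 3)).measure_preimage
    (MeasurableSet.univ_pi hI).nullMeasurableSet, volume_pi, Measure.pi_pi]

theorem periodicVolume_slabPiece {α β : ℝ} (h0 : 0 ≤ α) (h1 : α ≤ β) (h2 : β ≤ 1) :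
    periodicVolume (slabPiece α β) = β - α := by
  have h : slabPiece α β ∩ unitCell 3 =
      {x : EE 3 | ∀ i, x i ∈ (![Ioo α β, Ico 0 1, Ico 0 1] : Fin 3 → Set ℝ) i} := by
    ext x
    simp only [mem_inter_iff, slabPiece, unitCell, mem_ofPred_eq, Fin.forall_fin_succ,
      Fin.succ_zero_eq_one, Fin.succ_one_eq_two, IsEmpty.forall_iff, and_true,
      Matrix.cons_val_zero, Matrix.cons_val_one, Matrix.cons_val, mem_Ioo, mem_Ico]
    constructor
    · rintro ⟨⟨a, ha1, ha2⟩, ⟨hx1, hx2⟩, hx3, hx4⟩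
      have h3 : (a : ℝ) < 1 := by linarith
      have h4 : (-1 : ℝ) < a := by linarith
      have h5 : a < 1 := by exact_mod_cast h3
      have h6 : -1 < a := by exact_mod_cast h4
      have ha : a = 0 := by omega
      rw [ha] at ha1 ha2
      simp only [Int.cast_zero, zero_add] at ha1 ha2
      exact ⟨⟨ha1, ha2⟩, hx3, hx4⟩
    · rintro ⟨⟨ha1, ha2⟩, hx3, hx4⟩
      exact ⟨⟨0, by simpa using ha1, by simpa using ha2⟩, ⟨by linarith, by linarith⟩, hx3, hx4⟩
  unfold periodicVolume
  rw [h, volume_box]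
  · simp only [Fin.prod_univ_three, Matrix.cons_val_zero, Matrix.cons_val_one, Matrix.cons_val]
    rw [Real.volume_Ioo, Real.volume_Ico]
    norm_num
    linarith
  · intro i
    fin_cases i
    · exact measurableSet_Ioo
    · exact measurableSet_Ico
    · exact measurableSet_Ico

theorem volume_coord_int (i : Fin 3) : volume {x : EE 3 | ∃ a : ℤ, x i = a} = 0 := by
  have h : {x : EE 3 | ∃ a : ℤ, x i = a} =
      (WithLp.ofLp : EE 3 → (Fin 3 → ℝ)) ⁻¹' (⋃ a : ℤ, {f : Fin 3 → ℝ | f i = a}) := by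
    ext x; simp
  rw [h, (PiLp.volume_preserving_ofLp (Fin 3)).measure_preimage]
  · rw [measure_iUnion_null_iff]
    intro a
    rw [volume_pi]
    exact Measure.pi_hyperplane (fun _ : Fin 3 => (volume : Measure ℝ)) i (a : ℝ)
  · refine (MeasurableSet.iUnion fun a => ?_).nullMeasurableSet
    exact measurableSet_eq_fun (by fun_prop) measurable_const

theorem measurableSet_periodicSlab (w : ℝ) : MeasurableSet (periodicSlab w) := by
  have : periodicSlab w = ⋃ a : ℤ, {x : EE 3 | (a : ℝ) ≤ x 0} ∩ {x : EE 3 | x 0 < a + w} := by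
    ext x
    simp [periodicSlab]
  rw [this]
  refine MeasurableSet.iUnion fun a => ?_
  exact (measurableSet_le measurable_const (measurable_coord 0)).inter
    (measurableSet_lt (measurable_coord 0) measurable_const)

theorem periodic_periodicSlab (w : ℝ) : IsLatticePeriodic (periodicSlab w) := by
  intro v hv x
  obtain ⟨m, hm⟩ := hv 0
  constructor
  · rintro ⟨a, h1, h2⟩
    refine ⟨a - m, ?_⟩
    simp only [PiLp.add_apply, hm] at h1 h2
    push_cast
    constructor <;> linarith
  · rintro ⟨a, h1, h2⟩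
    refine ⟨a + m, ?_⟩
    simp only [PiLp.add_apply, hm]
    push_cast
    constructor <;> linarith

theorem periodicSlab_ae_eq (w : ℝ) :
    periodicSlab w =ᵐ[(volume : Measure (EE 3))] slabPiece 0 w := by
  rw [← measure_symmDiff_eq_zero_iff]
  refine measure_mono_null ?_ (volume_coord_int 0)
  rintro x (⟨⟨a, h1, h2⟩, hx⟩ | ⟨⟨a, h1, h2⟩, hx⟩)
  · refine ⟨a, ?_⟩
    by_contra hne
    exact hx ⟨a, by rw [add_zero]; exact lt_of_le_of_ne h1 (Ne.symm hne), h2⟩
  · exact absurd ⟨a, by linarith, h2⟩ hx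

theorem periodicVolume_periodicSlab {w : ℝ} (h0 : 0 ≤ w) (h1 : w ≤ 1) :
    periodicVolume (periodicSlab w) = w := by
  rw [periodicVolume_congr (periodicSlab_ae_eq w), periodicVolume_slabPiece le_rfl h0 h1, sub_zero]

theorem slabPiece_compl_nonempty {w : ℝ} (h1 : w ≤ 1) : ((slabPiece 0 w)ᶜ).Nonempty := by
  refine ⟨0, ?_⟩
  rintro ⟨a, ha1, ha2⟩
  simp only [PiLp.zero_apply] at ha1 ha2
  have h3 : (a : ℝ) < 0 := by linarith
  have h4 : (-1 : ℝ) < a := by linarith
  have h5 : a < 0 := by exact_mod_cast h3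
  have h6 : -1 < a := by exact_mod_cast h4
  omega

theorem periodicPerimeter_slabPiece_le {w : ℝ} (h0 : 0 < w) (h1 : w ≤ 1) :
    periodicPerimeter (slabPiece 0 w) ≤ ENNReal.ofReal 2 := by
  refine periodicPerimeter_le_of_shell (periodic_slabPiece 0 w) (isOpen_slabPiece 0 w)
    (slabPiece_compl_nonempty h1) (fun k => slabPiece (shellEps (w/2) k) (w - shellEps (w/2) k))
    (shellEps (w/2)) (shellEps_pos (by linarith)) (tendsto_shellEps _) ?_ ?_
  · refine Eventually.of_forall fun k => ⟨(isOpen_slabPiece _ _).measurableSet, ?_, ?_⟩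
    · rintro x ⟨a, h1, h2⟩
      have := shellEps_pos (r := w / 2) (by linarith) k
      exact ⟨a, by linarith, by linarith⟩
    · rintro x ⟨a, h1, h2⟩ y hy
      have h3 : |y 0 - x 0| < shellEps (w/2) k := by
        refine lt_of_le_of_lt ?_ (mem_ball.1 hy)
        rw [dist_eq_norm, ← Real.norm_eq_abs]
        exact PiLp.norm_apply_le (y - x) 0
      rw [abs_lt] at h3
      exact ⟨a, by linarith, by linarith⟩
  · have h2 : ∀ k, (periodicVolume (slabPiece 0 w) -
        periodicVolume (slabPiece (shellEps (w/2) k) (w - shellEps (w/2) k))) / shellEps (w/2) k = 2 := by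
      intro k
      have hp := shellEps_pos (r := w / 2) (by linarith) k
      have hl := shellEps_lt (r := w / 2) (by linarith) k
      rw [periodicVolume_slabPiece le_rfl h0.le h1, periodicVolume_slabPiece hp.le (by linarith) (by linarith)]
      field_simp
      ring
    simp_rw [h2]
    exact tendsto_const_nhds

theorem periodicPerimeter_periodicSlab_le {w : ℝ} (h0 : 0 < w) (h1 : w ≤ 1) :
    periodicPerimeter (periodicSlab w) ≤ ENNReal.ofReal 2 := by
  rw [periodicPerimeter_congr (periodicSlab_ae_eq w)]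
  exact periodicPerimeter_slabPiece_le h0 h1

end Crest.Agent.R214.Inv
end
end

-- ▼ part R214/Glue
section

/-!
R214: profile numerics and the final glue: `MAIN` (inequality for `0 < V ≤ 1/2`) gives S0332,
`RIGID` (rigidity for `0 < V ≤ 1/2`) gives S0333.
-/

set_option autoImplicit false

open MeasureTheory Set Filter Topology Metric
open Crest.GeometryTopology.PeriodicPerimeter

noncomputable section

namespace Crest.Agent.R214.Inv

/-- the profile for `0 < W ≤ 1/2`. -/
def prof (W : ℝ) : ℝ :=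
  min (min ((36 * Real.pi) ^ ((1 : ℝ) / 3) * W ^ ((2 : ℝ) / 3)) (2 * Real.sqrt (Real.pi * W))) 2

/-- the ball radius for volume `W`. -/
def ballRad (W : ℝ) : ℝ := (3 * W / (4 * Real.pi)) ^ ((1 : ℝ) / 3)

theorem ballRad_nonneg {W : ℝ} (hW : 0 ≤ W) : 0 ≤ ballRad W := by
  have := Real.pi_pos
  unfold ballRad; positivity

theorem ballRad_pos {W : ℝ} (hW : 0 < W) : 0 < ballRad W := by
  have := Real.pi_pos
  unfold ballRad; positivity

theorem ballRad_cube {W : ℝ} (hW : 0 ≤ W) : ballRad W ^ 3 = 3 * W / (4 * Real.pi) := by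
  have := Real.pi_pos
  unfold ballRad
  rw [← Real.rpow_natCast, ← Real.rpow_mul (by positivity)]
  norm_num

theorem vol_eq_ballRad {W : ℝ} (hW : 0 ≤ W) : W = 4 / 3 * Real.pi * ballRad W ^ 3 := by
  have := Real.pi_pos
  rw [ballRad_cube hW]; field_simp

theorem sphere_eq {W : ℝ} (hW : 0 ≤ W) :
    (36 * Real.pi) ^ ((1 : ℝ) / 3) * W ^ ((2 : ℝ) / 3) = 4 * Real.pi * ballRad W ^ 2 := by
  have hpi := Real.pi_pos
  have h1 : ((36 * Real.pi) ^ ((1 : ℝ) / 3) * W ^ ((2 : ℝ) / 3)) ^ 3 = (4 * Real.pi * ballRad W ^ 2) ^ 3 := by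
    rw [mul_pow, ← Real.rpow_natCast ((36 * Real.pi) ^ ((1 : ℝ) / 3)), ← Real.rpow_mul (by positivity),
      ← Real.rpow_natCast (W ^ ((2 : ℝ) / 3)), ← Real.rpow_mul hW]
    have e1 : (1 : ℝ) / 3 * ((3 : ℕ) : ℝ) = 1 := by norm_num
    have e2 : (2 : ℝ) / 3 * ((3 : ℕ) : ℝ) = ((2 : ℕ) : ℝ) := by norm_num
    rw [e1, e2, Real.rpow_one, Real.rpow_natCast]
    have h2 := vol_eq_ballRad hW
    have h3 : W ^ 2 = (4 / 3 * Real.pi * ballRad W ^ 3) ^ 2 := by rw [← h2]
    rw [h3]; ring
  have h0 := ballRad_nonneg hW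
  exact (pow_left_inj₀ (by positivity) (by positivity) (by norm_num)).1 h1

theorem ballRad_le {W : ℝ} (hW : 0 ≤ W) : W ≤ 4 * Real.pi / 81 ↔ ballRad W ≤ 1 / 3 := by
  have hpi := Real.pi_pos
  have h0 := ballRad_nonneg hW
  rw [← pow_le_pow_iff_left₀ h0 (by norm_num : (0:ℝ) ≤ 1/3) (n := 3) (by norm_num), ballRad_cube hW,
    div_le_iff₀ (by positivity)]
  constructor <;> intro h <;> nlinarith

/-- cylinder term squared -/
theorem cyl_sq {W : ℝ} (hW : 0 ≤ W) : (2 * Real.sqrt (Real.pi * W)) ^ 2 = 4 * Real.pi * W := by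
  have hpi := Real.pi_pos
  rw [mul_pow, Real.sq_sqrt (by positivity)]; ring

theorem sphere_sq {W : ℝ} (hW : 0 ≤ W) :
    (4 * Real.pi * ballRad W ^ 2) ^ 2 = 4 * Real.pi * W * (3 * ballRad W) := by
  have h2 := vol_eq_ballRad hW
  have h3 : 4 * Real.pi * W * (3 * ballRad W)
      = 4 * Real.pi * (4 / 3 * Real.pi * ballRad W ^ 3) * (3 * ballRad W) := by rw [← h2]
  rw [h3]; ring

theorem sphere_le_cyl {W : ℝ} (hW : 0 ≤ W) (h : W ≤ 4 * Real.pi / 81) :
    (36 * Real.pi) ^ ((1 : ℝ) / 3) * W ^ ((2 : ℝ) / 3) ≤ 2 * Real.sqrt (Real.pi * W) := by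
  have hpi := Real.pi_pos
  have h0 := ballRad_nonneg hW
  rw [sphere_eq hW]
  refine (sq_le_sq₀ (by positivity) (by positivity)).1 ?_
  rw [sphere_sq hW, cyl_sq hW]
  have h1 := (ballRad_le hW).1 h
  have : 4 * Real.pi * W * (3 * ballRad W) ≤ 4 * Real.pi * W * 1 := by
    gcongr; linarith
  linarith

theorem cyl_le_sphere {W : ℝ} (hW : 0 ≤ W) (h : 4 * Real.pi / 81 ≤ W) :
    2 * Real.sqrt (Real.pi * W) ≤ (36 * Real.pi) ^ ((1 : ℝ) / 3) * W ^ ((2 : ℝ) / 3) := by
  have hpi := Real.pi_pos
  have h0 := ballRad_nonneg hW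
  rw [sphere_eq hW]
  refine (sq_le_sq₀ (by positivity) (by positivity)).1 ?_
  rw [sphere_sq hW, cyl_sq hW]
  have h1 : 1 / 3 ≤ ballRad W := by
    have h2 : (1/3 : ℝ) ^ 3 ≤ ballRad W ^ 3 := by
      rw [ballRad_cube hW, le_div_iff₀ (by positivity)]; nlinarith
    exact (pow_le_pow_iff_left₀ (by norm_num) h0 (by norm_num)).1 h2
  have : 4 * Real.pi * W * 1 ≤ 4 * Real.pi * W * (3 * ballRad W) := by
    gcongr; linarith
  linarith

theorem cyl_le_two {W : ℝ} (hW : 0 ≤ W) (h : W ≤ 1 / Real.pi) : 2 * Real.sqrt (Real.pi * W) ≤ 2 := by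
  have hpi := Real.pi_pos
  have h1 : Real.pi * W ≤ 1 := by rwa [le_div_iff₀ hpi, mul_comm] at h
  have : Real.sqrt (Real.pi * W) ≤ 1 := by
    rw [Real.sqrt_le_left zero_le_one]; simpa using h1
  linarith

theorem two_le_cyl {W : ℝ} (h : 1 / Real.pi ≤ W) : 2 ≤ 2 * Real.sqrt (Real.pi * W) := by
  have hpi := Real.pi_pos
  have h1 : 1 ≤ Real.pi * W := by rwa [div_le_iff₀ hpi, mul_comm] at h
  have : 1 ≤ Real.sqrt (Real.pi * W) := by
    rw [Real.one_le_sqrt]; exact h1
  linarith

theorem thresholds : 4 * Real.pi / 81 ≤ 1 / Real.pi := by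
  have hpi := Real.pi_pos
  have h := Real.pi_lt_d2
  rw [div_le_div_iff₀ (by norm_num) hpi]
  nlinarith


/-- range 1: ball. -/
theorem prof_ball {W : ℝ} (hW : 0 ≤ W) (h : W ≤ 4 * Real.pi / 81) :
    prof W = 4 * Real.pi * ballRad W ^ 2 := by
  unfold prof
  rw [min_eq_left (sphere_le_cyl hW h), min_eq_left, sphere_eq hW]
  exact (sphere_le_cyl hW h).trans (cyl_le_two hW (h.trans thresholds))

/-- range 2: tube. -/
theorem prof_tube {W : ℝ} (hW : 0 ≤ W) (h : 4 * Real.pi / 81 ≤ W) (h' : W ≤ 1 / Real.pi) :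
    prof W = 2 * Real.sqrt (Real.pi * W) := by
  unfold prof
  rw [min_eq_right (cyl_le_sphere hW h), min_eq_left (cyl_le_two hW h')]

/-- range 3: slab. -/
theorem prof_slab {W : ℝ} (h : 1 / Real.pi ≤ W) : prof W = 2 := by
  have hW : 0 ≤ W := le_trans (by have := Real.pi_pos; positivity) h
  unfold prof
  rw [min_eq_right (cyl_le_sphere hW (thresholds.trans h)), min_eq_right (two_le_cyl h)]

theorem tube_len {W : ℝ} (hW : 0 ≤ W) :
    2 * Real.sqrt (Real.pi * W) = 2 * Real.pi * Real.sqrt (W / Real.pi) := by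
  have hpi := Real.pi_pos
  have h1 : Real.pi * W = Real.pi ^ 2 * (W / Real.pi) := by field_simp
  rw [h1, Real.sqrt_mul (by positivity), Real.sqrt_sq hpi.le]; ring

theorem tubeRad_le {W : ℝ} (h : W ≤ 1 / Real.pi) : Real.sqrt (W / Real.pi) ≤ 1 / 2 := by
  have hpi := Real.pi_gt_three
  rw [Real.sqrt_le_left (by norm_num)]
  have h1 : W * Real.pi ≤ 1 := by rwa [le_div_iff₀ (by positivity)] at h
  rw [div_le_iff₀ (by positivity)]
  nlinarith

/-! ### model regions realise the profile from above -/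

/-- the data of a model. -/
theorem model_ball {W : ℝ} (hW : 0 < W) (h : W ≤ 4 * Real.pi / 81) :
    MeasurableSet (periodicBall (ballRad W)) ∧ IsLatticePeriodic (periodicBall (ballRad W)) ∧
      periodicVolume (periodicBall (ballRad W)) = W ∧
      periodicPerimeter (periodicBall (ballRad W)) ≤ ENNReal.ofReal (prof W) := by
  have h1 : ballRad W ≤ 1 / 2 := ((ballRad_le hW.le).1 h).trans (by norm_num)
  refine ⟨(isOpen_periodicBall _).measurableSet, periodic_periodicBall _, ?_, ?_⟩
  · rw [periodicVolume_periodicBall (ballRad_nonneg hW.le) h1, ← vol_eq_ballRad hW.le]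
  · rw [prof_ball hW.le h]
    exact periodicPerimeter_periodicBall_le (ballRad_pos hW) h1

theorem model_tube {W : ℝ} (hW : 0 < W) (h : 4 * Real.pi / 81 ≤ W) (h' : W ≤ 1 / Real.pi) :
    MeasurableSet (periodicTube (Real.sqrt (W / Real.pi))) ∧
      IsLatticePeriodic (periodicTube (Real.sqrt (W / Real.pi))) ∧
      periodicVolume (periodicTube (Real.sqrt (W / Real.pi))) = W ∧
      periodicPerimeter (periodicTube (Real.sqrt (W / Real.pi))) ≤ ENNReal.ofReal (prof W) := by
  have hpi := Real.pi_pos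
  have h1 := tubeRad_le h'
  have h2 : 0 < Real.sqrt (W / Real.pi) := Real.sqrt_pos.2 (by positivity)
  refine ⟨(isOpen_periodicTube _).measurableSet, periodic_periodicTube _, ?_, ?_⟩
  · rw [periodicVolume_periodicTube h2.le h1, Real.sq_sqrt (by positivity)]
    field_simp
  · rw [prof_tube hW.le h h', tube_len hW.le]
    exact periodicPerimeter_periodicTube_le h2 h1

theorem model_slab {W : ℝ} (h : 1 / Real.pi ≤ W) (h' : W ≤ 1) :
    MeasurableSet (periodicSlab W) ∧ IsLatticePeriodic (periodicSlab W) ∧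
      periodicVolume (periodicSlab W) = W ∧
      periodicPerimeter (periodicSlab W) ≤ ENNReal.ofReal (prof W) := by
  have hpi := Real.pi_pos
  have hW : 0 < W := lt_of_lt_of_le (by positivity) h
  refine ⟨measurableSet_periodicSlab W, periodic_periodicSlab W,
    periodicVolume_periodicSlab hW.le h', ?_⟩
  rw [prof_slab h]
  exact periodicPerimeter_periodicSlab_le hW h'

theorem exists_model {W : ℝ} (hW : 0 < W) (h' : W ≤ 1 / 2) :
    ∃ E : Set (EE 3), MeasurableSet E ∧ IsLatticePeriodic E ∧ periodicVolume E = W ∧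
      periodicPerimeter E ≤ ENNReal.ofReal (prof W) := by
  rcases le_total W (4 * Real.pi / 81) with h | h
  · exact ⟨_, model_ball hW h⟩
  · rcases le_total W (1 / Real.pi) with h2 | h2
    · exact ⟨_, model_tube hW h h2⟩
    · exact ⟨_, model_slab h2 (h'.trans (by norm_num))⟩

theorem standard_perimeter_le {W : ℝ} (hW : 0 < W) (h' : W ≤ 1 / 2) {E : Set (EE 3)}
    (h : IsStandardRegion W E) : periodicPerimeter E ≤ ENNReal.ofReal (prof W) := by
  rcases h with ⟨h, hc⟩ | ⟨h, h2, hc⟩ | ⟨h, hc⟩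
  · obtain ⟨m1, m2, m3, m4⟩ := model_ball hW h
    rw [congr_periodicPerimeter_eq hc m1 m2]; exact m4
  · obtain ⟨m1, m2, m3, m4⟩ := model_tube hW h h2
    rw [congr_periodicPerimeter_eq hc m1 m2]; exact m4
  · obtain ⟨m1, m2, m3, m4⟩ := model_slab h (h'.trans (by norm_num))
    rw [congr_periodicPerimeter_eq hc m1 m2]; exact m4

/-! ### glue -/

/-- The inequality for `0 < V ≤ 1/2`. -/
def MAIN : Prop := ∀ E : Set (EE 3), MeasurableSet E → IsLatticePeriodic E →
  0 < periodicVolume E → periodicVolume E ≤ 1 / 2 →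
  ENNReal.ofReal (prof (periodicVolume E)) ≤ periodicPerimeter E

/-- Rigidity for `0 < V ≤ 1/2`. -/
def RIGID : Prop := ∀ E : Set (EE 3), MeasurableSet E → IsLatticePeriodic E →
  0 < periodicVolume E → periodicVolume E ≤ 1 / 2 →
  periodicPerimeter E = ENNReal.ofReal (prof (periodicVolume E)) →
  IsStandardRegion (periodicVolume E) E

theorem MAIN.lower (hM : MAIN) {V : ℝ} (hV : 0 < V) (hV' : V < 1) {E : Set (EE 3)}
    (hE : MeasurableSet E) (hper : IsLatticePeriodic E) (hvol : periodicVolume E = V) :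
    ENNReal.ofReal (prof (min V (1 - V))) ≤ periodicPerimeter E := by
  rcases le_total V (1 / 2) with h | h
  · rw [min_eq_left (by linarith)]
    have := hM E hE hper (by rw [hvol]; exact hV) (by rw [hvol]; exact h)
    rwa [hvol] at this
  · rw [min_eq_right (by linarith)]
    have hc : periodicVolume Eᶜ = 1 - V := by rw [periodicVolume_compl hE, hvol]
    have := hM Eᶜ hE.compl (periodic_compl hper) (by rw [hc]; linarith) (by rw [hc]; linarith)
    rwa [hc, periodicPerimeter_compl hE] at this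

theorem S0332_of_main (hM : MAIN) (V : ℝ) (hV : 0 < V) (hV' : V < 1) :
    (∀ E : Set (EuclideanSpace ℝ (Fin 3)), MeasurableSet E → IsLatticePeriodic E →
        periodicVolume E = V →
        ENNReal.ofReal (min (min ((36 * Real.pi) ^ ((1 : ℝ) / 3) * (min V (1 - V)) ^ ((2 : ℝ) / 3))
          (2 * Real.sqrt (Real.pi * min V (1 - V)))) 2) ≤ periodicPerimeter E) ∧
      ∃ E : Set (EuclideanSpace ℝ (Fin 3)), MeasurableSet E ∧ IsLatticePeriodic E ∧
        periodicVolume E = V ∧
        periodicPerimeter E = ENNReal.ofReal (min (min ((36 * Real.pi) ^ ((1 : ℝ) / 3) * (min V (1 - V)) ^ ((2 : ℝ) / 3))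
          (2 * Real.sqrt (Real.pi * min V (1 - V)))) 2) := by
  refine ⟨fun E hE hper hvol => hM.lower hV hV' hE hper hvol, ?_⟩
  rcases le_total V (1 / 2) with h | h
  · obtain ⟨E, h1, h2, h3, h4⟩ := exists_model hV h
    refine ⟨E, h1, h2, h3, le_antisymm ?_ (hM.lower hV hV' h1 h2 h3)⟩
    rw [min_eq_left (by linarith : V ≤ 1 - V)]
    exact h4
  · obtain ⟨E, h1, h2, h3, h4⟩ := exists_model (W := 1 - V) (by linarith) (by linarith)
    have h5 : periodicVolume Eᶜ = V := by rw [periodicVolume_compl h1, h3]; ring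
    refine ⟨Eᶜ, h1.compl, periodic_compl h2, h5, le_antisymm ?_
      (hM.lower hV hV' h1.compl (periodic_compl h2) h5)⟩
    rw [min_eq_right (by linarith : 1 - V ≤ V), periodicPerimeter_compl h1]
    exact h4

theorem S0333_of_rigid (hM : MAIN) (hR : RIGID)
    (V : ℝ) (hV : 0 < V) (hV' : V < 1) (E : Set (EuclideanSpace ℝ (Fin 3)))
    (hE : MeasurableSet E) (hper : IsLatticePeriodic E) (hvol : periodicVolume E = V) :
    periodicPerimeter E = ENNReal.ofReal (min (min ((36 * Real.pi) ^ ((1 : ℝ) / 3) * (min V (1 - V)) ^ ((2 : ℝ) / 3))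
          (2 * Real.sqrt (Real.pi * min V (1 - V)))) 2) ↔
      ((V ≤ 1 / 2 ∧ IsStandardRegion V E) ∨ (1 / 2 < V ∧ IsStandardRegion (1 - V) Eᶜ)) := by
  have hlow := hM.lower hV hV' hE hper hvol
  have hc : periodicVolume Eᶜ = 1 - V := by rw [periodicVolume_compl hE, hvol]
  constructor
  · intro h
    rcases le_or_gt V (1 / 2) with h2 | h2
    · left
      refine ⟨h2, ?_⟩
      rw [min_eq_left (by linarith : V ≤ 1 - V)] at h
      have := hR E hE hper (by rw [hvol]; exact hV) (by rw [hvol]; exact h2) (by rw [hvol]; exact h)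
      rwa [hvol] at this
    · right
      refine ⟨h2, ?_⟩
      rw [min_eq_right (by linarith : 1 - V ≤ V)] at h
      have := hR Eᶜ hE.compl (periodic_compl hper) (by rw [hc]; linarith) (by rw [hc]; linarith)
        (by rw [hc, periodicPerimeter_compl hE]; exact h)
      rwa [hc] at this
  · rintro (⟨h2, hs⟩ | ⟨h2, hs⟩)
    · have h3 := standard_perimeter_le hV h2 hs
      refine le_antisymm ?_ hlow
      rw [min_eq_left (by linarith : V ≤ 1 - V)]
      exact h3
    · have h3 := standard_perimeter_le (by linarith : 0 < 1 - V) (by linarith) hs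
      rw [periodicPerimeter_compl hE] at h3
      refine le_antisymm ?_ hlow
      rw [min_eq_right (by linarith : 1 - V ≤ V)]
      exact h3

end Crest.Agent.R214.Inv
end
end

-- ▼ part R214/RigStd

set_option autoImplicit false

/-! Row 214: the standard regions `stdReg J r a` of `ℝ³` are (up to congruence and null sets) the
model regions of the statement; their volumes, the lower bound `#J * V / r` for their perimeter and
the final assembly of `RIGID`. -/

open MeasureTheory Set Filter Topology Crest.GeometryTopology.PeriodicPerimeter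
open Crest.Agent.R214.Inv
open scoped ContDiff

noncomputable section

namespace Crest.Agent.R214.Rig

theorem dd_sq_le (t : ℝ) (m : ℤ) : dd t ^ 2 ≤ (t - m) ^ 2 := by
  rw [← sq_abs (dd t), ← sq_abs (t - m)]
  exact pow_le_pow_left₀ (abs_nonneg _) (abs_dd_le t m) 2

theorem stdReg_zero_univ {r : ℝ} (hr : 0 < r) :
    stdReg (Finset.univ : Finset (Fin 3)) r 0 = periodicBall r := by
  ext x
  rw [mem_stdReg, sub_zero]
  constructor
  · intro h
    refine ⟨WithLp.toLp 2 fun i => (round (x i) : ℝ), fun i => ⟨round (x i), rfl⟩, ?_⟩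
    rw [EuclideanSpace.dist_eq, Real.sqrt_lt' hr]
    simpa [Real.dist_eq, dd, rho2] using h
  · rintro ⟨v, hv, h⟩
    rw [EuclideanSpace.dist_eq, Real.sqrt_lt' hr] at h
    refine lt_of_le_of_lt (Finset.sum_le_sum fun i _ => ?_) h
    obtain ⟨m, hm⟩ := hv i
    rw [Real.dist_eq, sq_abs, hm]
    exact dd_sq_le _ _

theorem stdReg_zero_tube (r : ℝ) :
    stdReg ({0, 1} : Finset (Fin 3)) r 0 = periodicTube r := by
  ext x
  rw [mem_stdReg, sub_zero]
  unfold rho2
  rw [Finset.sum_pair (by decide)]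
  constructor
  · intro h
    exact ⟨round (x 0), round (x 1), h⟩
  · rintro ⟨a, b, h⟩
    have h1 := dd_sq_le (x 0) a
    have h2 := dd_sq_le (x 1) b
    linarith

theorem stdReg_zero_slab {r : ℝ} (hr : 0 < r) :
    stdReg ({0} : Finset (Fin 3)) r 0 = (fun x : En 3 => x + r • ei 0) ⁻¹' slabPiece 0 (2 * r) := by
  ext x
  rw [mem_stdReg, sub_zero]
  unfold rho2
  rw [Finset.sum_singleton]
  have hx : (x + r • ei 0 : En 3) 0 = x 0 + r := by simp [ei]
  rw [mem_preimage]
  unfold slabPiece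
  rw [mem_ofPred_eq, hx]
  constructor
  · intro h
    have h1 : |dd (x 0)| < r := abs_lt_of_sq_lt_sq h hr.le
    unfold dd at h1
    rw [abs_lt] at h1
    exact ⟨round (x 0), by linarith, by linarith⟩
  · rintro ⟨a, h1, h2⟩
    have h3 : |x 0 - a| < r := by
      rw [abs_lt]
      constructor <;> linarith
    have h4 := abs_dd_le (x 0) a
    rw [← sq_abs]
    exact pow_lt_pow_left₀ (h4.trans_lt h3) (abs_nonneg _) two_ne_zero

/-- the cubic isometry `x ↦ (x (σ i) - a (σ i))_i` -/
def permSub (σ : Equiv.Perm (Fin 3)) (a x : En 3) : En 3 :=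
  WithLp.toLp 2 fun i => x (σ i) - a (σ i)

theorem isCubic_permSub (σ : Equiv.Perm (Fin 3)) (a : En 3) : IsCubicIsometry (permSub σ a) :=
  ⟨σ, fun _ => 1, WithLp.toLp 2 fun i => -a (σ i), fun _ => Or.inl rfl,
    fun x i => by simp only [permSub]; ring⟩

theorem stdReg_eq_preimage (σ : Equiv.Perm (Fin 3)) (J : Finset (Fin 3)) (r : ℝ) (a : En 3) :
    stdReg (J.map σ.toEmbedding) r a = permSub σ a ⁻¹' stdReg J r 0 := by
  ext x
  rw [mem_preimage, mem_stdReg, mem_stdReg, sub_zero]
  unfold rho2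
  rw [Finset.sum_map]
  rfl

theorem congr_stdReg_map (σ : Equiv.Perm (Fin 3)) (J : Finset (Fin 3)) (r : ℝ) (a : En 3) :
    CongruentModNull (stdReg (J.map σ.toEmbedding) r a) (stdReg J r 0) := by
  rw [stdReg_eq_preimage]
  exact congruentModNull_preimage (isCubic_permSub σ a) _

theorem congr_stdReg (J : Finset (Fin 3)) (r : ℝ) (a : En 3) :
    CongruentModNull (stdReg J r a) (stdReg J r 0) := by
  have h := congr_stdReg_map (Equiv.refl _) J r a
  rwa [Equiv.refl_toEmbedding, Finset.map_refl] at h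

theorem exists_perm2 : ∀ J : Finset (Fin 3), J.card = 2 →
    ∃ σ : Equiv.Perm (Fin 3), ({0, 1} : Finset (Fin 3)).map σ.toEmbedding = J := by
  decide

theorem exists_perm1 : ∀ J : Finset (Fin 3), J.card = 1 →
    ∃ σ : Equiv.Perm (Fin 3), ({0} : Finset (Fin 3)).map σ.toEmbedding = J := by
  decide

section congr

variable {E : Set (En 3)} {J : Finset (Fin 3)} {r : ℝ} {a : En 3}

theorem congr_of_ae (h : ∀ᵐ x, x ∈ E ↔ x ∈ stdReg J r a) :
    CongruentModNull E (stdReg J r a) := congruentModNull_of_ae (eventuallyEq_set.2 h)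

theorem congr_ball (hJ : J.card = 3) (hr : 0 < r) (h : ∀ᵐ x, x ∈ E ↔ x ∈ stdReg J r a) :
    CongruentModNull E (periodicBall r) := by
  have hJ' : J = Finset.univ := by
    rw [← Finset.card_eq_iff_eq_univ, hJ]; rfl
  subst hJ'
  rw [← stdReg_zero_univ hr]
  exact congr_trans (congr_of_ae h) (congr_stdReg _ r a)

theorem congr_tube (hJ : J.card = 2) (h : ∀ᵐ x, x ∈ E ↔ x ∈ stdReg J r a) :
    CongruentModNull E (periodicTube r) := by
  obtain ⟨σ, hσ⟩ := exists_perm2 J hJ
  rw [← stdReg_zero_tube]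
  refine congr_trans (congr_of_ae h) ?_
  rw [← hσ]
  exact congr_stdReg_map σ _ r a

theorem congr_slab (hJ : J.card = 1) (hr : 0 < r) (h : ∀ᵐ x, x ∈ E ↔ x ∈ stdReg J r a) :
    CongruentModNull E (periodicSlab (2 * r)) := by
  obtain ⟨σ, hσ⟩ := exists_perm1 J hJ
  refine congr_trans (congr_of_ae h) ?_
  rw [← hσ]
  refine congr_trans (congr_stdReg_map σ _ r a) ?_
  rw [stdReg_zero_slab hr]
  refine congr_trans (congruentModNull_preimage (isCubicIsometry_add _) _) ?_
  exact congruentModNull_of_ae (periodicSlab_ae_eq _).symm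

theorem vol_ball (hJ : J.card = 3) (hr : 0 < r) (hr2 : r < 1 / 2)
    (h : ∀ᵐ x, x ∈ E ↔ x ∈ stdReg J r a) : periodicVolume E = 4 / 3 * Real.pi * r ^ 3 := by
  rw [congr_periodicVolume_eq (congr_ball hJ hr h) (isOpen_periodicBall r).measurableSet
    (periodic_periodicBall r), periodicVolume_periodicBall hr.le hr2.le]

theorem vol_tube (hJ : J.card = 2) (hr : 0 < r) (hr2 : r < 1 / 2)
    (h : ∀ᵐ x, x ∈ E ↔ x ∈ stdReg J r a) : periodicVolume E = Real.pi * r ^ 2 := by
  rw [congr_periodicVolume_eq (congr_tube hJ h) (isOpen_periodicTube r).measurableSet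
    (periodic_periodicTube r), periodicVolume_periodicTube hr.le hr2.le]

theorem vol_slab (hJ : J.card = 1) (hr : 0 < r) (hr2 : r < 1 / 2)
    (h : ∀ᵐ x, x ∈ E ↔ x ∈ stdReg J r a) : periodicVolume E = 2 * r := by
  rw [congr_periodicVolume_eq (congr_slab hJ hr h) (measurableSet_periodicSlab _)
    (periodic_periodicSlab _), periodicVolume_periodicSlab (by linarith) (by linarith)]

theorem card_cases (hJ : J.Nonempty) : J.card = 3 ∨ J.card = 2 ∨ J.card = 1 := by
  have h1 := hJ.card_pos
  have h2 : J.card ≤ 3 := by simpa using Finset.card_le_univ J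
  omega

/-- value of the volume ratio -/
theorem ratio_ball (hJ : J.card = 3) (hr : 0 < r) (hr2 : r < 1 / 2)
    (h : ∀ᵐ x, x ∈ E ↔ x ∈ stdReg J r a) :
    (J.card : ℝ) * periodicVolume E / r = 4 * Real.pi * r ^ 2 := by
  rw [vol_ball hJ hr hr2 h, hJ]
  push_cast
  field_simp

theorem ratio_tube (hJ : J.card = 2) (hr : 0 < r) (hr2 : r < 1 / 2)
    (h : ∀ᵐ x, x ∈ E ↔ x ∈ stdReg J r a) :
    (J.card : ℝ) * periodicVolume E / r = 2 * Real.pi * r := by
  rw [vol_tube hJ hr hr2 h, hJ]
  push_cast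
  field_simp

theorem ratio_slab (hJ : J.card = 1) (hr : 0 < r) (hr2 : r < 1 / 2)
    (h : ∀ᵐ x, x ∈ E ↔ x ∈ stdReg J r a) :
    (J.card : ℝ) * periodicVolume E / r = 2 := by
  rw [vol_slab hJ hr hr2 h, hJ]
  push_cast
  field_simp

theorem ballRad_eq (hr : 0 < r) (hV : periodicVolume E = 4 / 3 * Real.pi * r ^ 3) :
    ballRad (periodicVolume E) = r := by
  have hpi := Real.pi_pos
  have h0 := ballRad_nonneg (periodicVolume_nonneg E)
  have h1 := ballRad_cube (periodicVolume_nonneg E)
  refine (pow_left_inj₀ h0 hr.le (by norm_num : (3 : ℕ) ≠ 0)).1 ?_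
  rw [h1, hV]
  field_simp

theorem sqrt_pi_vol (hr : 0 < r) (hV : periodicVolume E = Real.pi * r ^ 2) :
    Real.sqrt (Real.pi * periodicVolume E) = Real.pi * r := by
  have hpi := Real.pi_pos
  rw [hV, show Real.pi * (Real.pi * r ^ 2) = (Real.pi * r) ^ 2 by ring]
  exact Real.sqrt_sq (by positivity)

theorem sqrt_vol_div (hr : 0 < r) (hV : periodicVolume E = Real.pi * r ^ 2) :
    Real.sqrt (periodicVolume E / Real.pi) = r := by
  have hpi := Real.pi_pos
  rw [hV, show Real.pi * r ^ 2 / Real.pi = r ^ 2 by field_simp]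
  exact Real.sqrt_sq hr.le

/-- the profile is at most the perimeter of the standard region -/
theorem prof_le_ratio (hJ : J.Nonempty) (hr : 0 < r) (hr2 : r < 1 / 2)
    (h : ∀ᵐ x, x ∈ E ↔ x ∈ stdReg J r a) :
    Inv.prof (periodicVolume E) ≤ (J.card : ℝ) * periodicVolume E / r := by
  rcases card_cases hJ with hc | hc | hc
  · rw [ratio_ball hc hr hr2 h]
    refine (min_le_left _ _).trans ((min_le_left _ _).trans ?_)
    rw [sphere_eq (periodicVolume_nonneg E), ballRad_eq hr (vol_ball hc hr hr2 h)]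
  · rw [ratio_tube hc hr hr2 h]
    refine (min_le_left _ _).trans ((min_le_right _ _).trans ?_)
    rw [sqrt_pi_vol hr (vol_tube hc hr hr2 h)]
    exact le_of_eq (by ring)
  · rw [ratio_slab hc hr hr2 h]
    exact min_le_right _ _

/-- (d): a standard region whose ratio equals the profile is a standard region of the statement -/
theorem isStandardRegion_of_stdReg (hJ : J.Nonempty) (hr : 0 < r) (hr2 : r < 1 / 2)
    (h : ∀ᵐ x, x ∈ E ↔ x ∈ stdReg J r a)
    (hP : Inv.prof (periodicVolume E) = (J.card : ℝ) * periodicVolume E / r) :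
    IsStandardRegion (periodicVolume E) E := by
  have hpi := Real.pi_pos
  have hV0 := periodicVolume_nonneg E
  rcases card_cases hJ with hc | hc | hc
  · left
    have hV := vol_ball hc hr hr2 h
    have hb := ballRad_eq hr hV
    rw [ratio_ball hc hr hr2 h] at hP
    refine ⟨?_, ?_⟩
    · rw [ballRad_le hV0, hb]
      have h1 : 4 * Real.pi * r ^ 2 ≤ 2 * Real.sqrt (Real.pi * periodicVolume E) := by
        rw [← hP]
        exact (min_le_left _ _).trans (min_le_right _ _)
      have h2 : (4 * Real.pi * r ^ 2) ^ 2 ≤ (2 * Real.sqrt (Real.pi * periodicVolume E)) ^ 2 :=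
        pow_le_pow_left₀ (by positivity) h1 2
      rw [cyl_sq hV0, hV] at h2
      have h3 : (16 / 3 * Real.pi ^ 2 * r ^ 3) * (3 * r) ≤ (16 / 3 * Real.pi ^ 2 * r ^ 3) * 1 := by
        nlinarith
      have h4 := le_of_mul_le_mul_left h3 (by positivity)
      linarith
    · have h5 := congr_ball hc hr h
      have h6 : (3 * periodicVolume E / (4 * Real.pi)) ^ ((1 : ℝ) / 3) = r := hb
      rw [h6]
      exact h5
  · right; left
    have hV := vol_tube hc hr hr2 h
    rw [ratio_tube hc hr hr2 h] at hP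
    refine ⟨?_, ?_, ?_⟩
    · have h1 : 2 * Real.sqrt (Real.pi * periodicVolume E) ≤
          4 * Real.pi * ballRad (periodicVolume E) ^ 2 := by
        rw [sqrt_pi_vol hr hV, ← sphere_eq hV0]
        calc 2 * (Real.pi * r) = Inv.prof (periodicVolume E) := by rw [hP]; ring
          _ ≤ _ := (min_le_left _ _).trans (min_le_left _ _)
      have h2 : (2 * Real.sqrt (Real.pi * periodicVolume E)) ^ 2 ≤
          (4 * Real.pi * ballRad (periodicVolume E) ^ 2) ^ 2 :=
        pow_le_pow_left₀ (by positivity) h1 2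
      rw [cyl_sq hV0, sphere_sq hV0] at h2
      have hVp : 0 < periodicVolume E := by rw [hV]; positivity
      have h3 : (1 : ℝ) ≤ 3 * ballRad (periodicVolume E) := by
        have h4 : (4 * Real.pi * periodicVolume E) * 1 ≤
            (4 * Real.pi * periodicVolume E) * (3 * ballRad (periodicVolume E)) := by linarith
        exact le_of_mul_le_mul_left h4 (by positivity)
      rw [vol_eq_ballRad hV0]
      have h5 : (1 / 3 : ℝ) ^ 3 ≤ ballRad (periodicVolume E) ^ 3 :=
        pow_le_pow_left₀ (by norm_num) (by linarith) 3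
      nlinarith
    · have h1 : 2 * Real.pi * r ≤ 2 := by
        rw [← hP]; exact min_le_right _ _
      rw [le_div_iff₀ hpi, hV]
      have h2 : Real.pi * r ≤ 1 := by linarith
      have h3 : 0 ≤ Real.pi * r := by positivity
      nlinarith
    · rw [sqrt_vol_div hr hV]
      exact congr_tube hc h
  · right; right
    have hV := vol_slab hc hr hr2 h
    rw [ratio_slab hc hr hr2 h] at hP
    refine ⟨?_, ?_⟩
    · have h1 : 2 ≤ 2 * Real.sqrt (Real.pi * periodicVolume E) := by
        calc (2 : ℝ) = Inv.prof (periodicVolume E) := hP.symm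
          _ ≤ _ := (min_le_left _ _).trans (min_le_right _ _)
      have h2 : (1 : ℝ) ≤ Real.sqrt (Real.pi * periodicVolume E) := by linarith
      rw [Real.one_le_sqrt] at h2
      rw [div_le_iff₀ hpi]
      linarith
    · have h5 := congr_slab hc hr h
      rwa [← hV] at h5

/-- the perimeter of a standard region is at least `#J * V / r` (calibration). -/
theorem ratio_le_perimeter (hr : 0 < r) (hr2 : r < 1 / 2)
    (h : ∀ᵐ x, x ∈ E ↔ x ∈ stdReg J r a) :
    ENNReal.ofReal ((J.card : ℝ) * periodicVolume E / r) ≤ periodicPerimeter E := by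
  have hc : CongruentModNull E (stdReg J r 0) := congr_trans (congr_of_ae h) (congr_stdReg J r a)
  rw [congr_periodicPerimeter_eq hc (measurableSet_stdReg J r 0) (stdReg_per J r 0),
    congr_periodicVolume_eq hc (measurableSet_stdReg J r 0) (stdReg_per J r 0)]
  set c : ℝ := (J.card : ℝ) * periodicVolume (stdReg J r (0 : En 3)) / r with hcdef
  have key : ∀ lam : ℝ, lam ^ 2 < 1 →
      ENNReal.ofReal (lam * c) ≤ periodicPerimeter (stdReg J r (0 : En 3)) := by
    intro lam hlam
    have hadm : IsAdmissibleField (beta (n := 3) J r hr hr2 lam) :=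
      ⟨(contDiff_beta J hr hr2).of_le (by norm_cast), fun v hv x => beta_per J hr hr2 v hv x,
        norm_beta_le J hr hr2 hlam⟩
    refine le_trans (le_of_eq ?_) (le_iSup (fun φ : {φ : EuclideanSpace ℝ (Fin 3) →
      EuclideanSpace ℝ (Fin 3) // IsAdmissibleField φ} =>
      ENNReal.ofReal (∫ x in stdReg J r (0 : En 3) ∩ unitCell 3, divergence φ.1 x))
      ⟨beta (n := 3) J r hr hr2 lam, hadm⟩)
    congr 1
    have h1 : ∫ x in stdReg J r (0 : En 3) ∩ unitCell 3, divergence (beta (n := 3) J r hr hr2 lam) x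
        = ∫ x in stdReg J r (0 : En 3) ∩ unitCell 3, lam / r * J.card := by
      refine setIntegral_congr_fun ((measurableSet_stdReg J r 0).inter
        (Inv.measurableSet_unitCell 3)) fun x hx => ?_
      have hx1 := hx.1
      rw [mem_stdReg, sub_zero] at hx1
      exact divergence_beta J hr hr2 hlam hx1
    rw [h1, setIntegral_const, smul_eq_mul]
    have h2 : volume.real (stdReg J r (0 : En 3) ∩ unitCell 3) = periodicVolume (stdReg J r (0 : En 3)) :=
      rfl
    rw [h2, hcdef]
    ring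
  have ht : Tendsto (fun k : ℕ => ENNReal.ofReal ((1 - 1 / ((k : ℝ) + 1)) * c)) atTop
      (𝓝 (ENNReal.ofReal c)) := by
    refine ENNReal.tendsto_ofReal ?_
    have h1 : Tendsto (fun k : ℕ => (1 - 1 / ((k : ℝ) + 1)) * c) atTop (𝓝 ((1 - 0) * c)) :=
      (tendsto_const_nhds.sub tendsto_one_div_add_atTop_nhds_zero_nat).mul_const c
    simpa using h1
  refine le_of_tendsto' ht fun k => key _ ?_
  have hk : (0 : ℝ) < (k : ℝ) + 1 := by positivity
  have h1 : 0 < 1 / ((k : ℝ) + 1) := by positivity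
  have h2 : 1 / ((k : ℝ) + 1) ≤ 1 := by
    rw [div_le_one hk]
    linarith [(Nat.cast_nonneg k : (0 : ℝ) ≤ k)]
  nlinarith

/-- a set of optimal perimeter which is a.e. a standard region is a standard region of the
statement -/
theorem isStandardRegion_of_perimeter (hJ : J.Nonempty) (hr : 0 < r) (hr2 : r < 1 / 2)
    (h : ∀ᵐ x, x ∈ E ↔ x ∈ stdReg J r a)
    (hP : periodicPerimeter E = ENNReal.ofReal (Inv.prof (periodicVolume E)))
    (hV : 0 < periodicVolume E) :
    IsStandardRegion (periodicVolume E) E := by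
  refine isStandardRegion_of_stdReg hJ hr hr2 h (le_antisymm (prof_le_ratio hJ hr hr2 h) ?_)
  have h1 := ratio_le_perimeter (J := J) hr hr2 h
  rw [hP] at h1
  have hc : (0 : ℝ) < J.card := by exact_mod_cast hJ.card_pos
  have h2 : 0 < (J.card : ℝ) * periodicVolume E / r := by positivity
  by_contra hlt
  rw [not_le] at hlt
  exact absurd h1 (not_le.2 ((ENNReal.ofReal_lt_ofReal_iff h2).2 hlt))

end congr

/-- equality case for the symmetrised set -/
def EqSteiner : Prop := ∀ E : Set (En 3), MeasurableSet E → IsLatticePeriodic E →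
  0 < periodicVolume E → periodicVolume E ≤ 1 / 2 →
  periodicPerimeter E = ENNReal.ofReal (Inv.prof (periodicVolume E)) →
  ∃ (J : Finset (Fin 3)) (r : ℝ), J.Nonempty ∧ 0 < r ∧ r < 1 / 2 ∧
    ∀ᵐ x : En 3, x ∈ steiner3 E ↔ x ∈ stdReg J r 0

/-- rigidity of the chain of three Steiner symmetrisations (statement of `chain3`) -/
def Chain3 : Prop := ∀ E : Set (En 3), MeasurableSet E → IsLatticePeriodic E →
  periodicPerimeter E ≠ ⊤ → ∀ (J : Finset (Fin 3)) (r : ℝ), 0 < r → r < 1 / 2 →
  (∀ᵐ x : En 3, x ∈ steiner3 E ↔ x ∈ stdReg J r 0) →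
  (periodicPerimeter E).toReal ≤ (J.card : ℝ) * periodicVolume E / r →
  ∃ a : En 3, ∀ᵐ x : En 3, x ∈ E ↔ x ∈ stdReg J r a

/-- **RIGID** from the equality case for symmetrised sets and the rigidity of symmetrisation. -/
theorem RIGID_of (hEq : EqSteiner) (hCh : Chain3) : Inv.RIGID := by
  intro E hE hper hV hV' hP
  obtain ⟨J, r, hJ, hr, hr2, h⟩ := hEq E hE hper hV hV' hP
  have hvol : periodicVolume (steiner3 E) = periodicVolume E := periodicVolume_steiner3 hE hper
  have h1 : Inv.prof (periodicVolume E) ≤ (J.card : ℝ) * periodicVolume E / r := by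
    have := prof_le_ratio hJ hr hr2 h
    rwa [hvol] at this
  have hnn : 0 ≤ (J.card : ℝ) * periodicVolume E / r := by positivity
  obtain ⟨a, ha⟩ := hCh E hE hper (by rw [hP]; exact ENNReal.ofReal_ne_top) J r hr hr2 h (by
    rw [hP]
    refine le_trans ?_ h1
    have h0 : 0 ≤ Inv.prof (periodicVolume E) := by
      unfold Inv.prof
      have hpi := Real.pi_pos
      refine le_min (le_min ?_ ?_) (by norm_num)
      · have := periodicVolume_nonneg E
        positivity
      · positivity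
    rw [ENNReal.toReal_ofReal h0])
  exact isStandardRegion_of_perimeter hJ hr hr2 ha hP hV

end Crest.Agent.R214.Rig
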