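import Crest.Agent.R214.SliceBounds
import Crest.Agent.R214.EqDisc
import Crest.Agent.R214.ZoneCert
import Crest.Agent.R214.RigStd0
import Crest.Agent.R214.SliceDefs
import Crest.Agent.R214.Mollify
import Crest.Agent.R214.InvDiv
import Crest.Agent.R214.MonoSub
import Crest.Agent.R214.Legendre
import Crest.Agent.R214.RigStd
import Crest.Agent.R214.RigVar
import Crest.Agent.R214.Scalar

-- ▼ part R214/DownPlane
section

/-!
# R214: symmetric decreasing plane sets of minimal perimeter are discs or strips
-/

set_option autoImplicit false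

open MeasureTheory Crest.GeometryTopology.PeriodicPerimeter Filter Topology Set

namespace Crest.Agent.R214.Down

open Crest.Agent.R214

variable {i j : Fin 2} {S : Set (EuclideanSpace ℝ (Fin 2))}

theorem gf_periodic (hS : MeasurableSet S) (hper : IsLatticePeriodic S) :
    Function.Periodic (gf i j S) 1 := fun t => by
  rw [← gf_per hS hper (t + 1), ← gf_per hS hper t]
  rw [cr_add_one]

theorem gf_BP (hS : MeasurableSet S) (hper : IsLatticePeriodic S) : MS.BP (gf i j S) where
  meas := measurable_gf hS hper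
  bdd := ⟨1, fun t => by rw [abs_of_nonneg (gf_nonneg _)]; exact gf_le_one hS _⟩
  per := gf_periodic hS hper

theorem gf_even (hij : i ≠ j) (hS : MeasurableSet S) (hper : IsLatticePeriodic S)
    (hd : SymDecAt i S) (t : ℝ) : gf i j S (-t) = gf i j S t := by
  rw [← gf_per hS hper (-t), ← gf_per hS hper t]
  have h1 : |cr (-t)| = |cr t| := abs_cr_neg t
  have h2 := abs_cr_le t
  have h3 := abs_cr_le (-t)
  exact le_antisymm (gf_anti hS hij hd h1.ge h3) (gf_anti hS hij hd h1.le h2)

theorem gf_antitone (hij : i ≠ j) (hS : MeasurableSet S) (hd : SymDecAt i S) :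
    AntitoneOn (gf i j S) (Ioo 0 (1 / 2)) := by
  intro x hx y hy hxy
  refine gf_anti hS hij hd ?_ ?_
  · rw [abs_of_pos hx.1, abs_of_pos hy.1]; exact hxy
  · rw [abs_of_pos hy.1]; exact hy.2.le

theorem integral_gf01 (hij : i ≠ j) (hS : MeasurableSet S) (hper : IsLatticePeriodic S) :
    ∫ t in (0:ℝ)..1, gf i j S t = periodicVolume S := by
  rw [ZC.int_centred (gf_periodic hS hper)]
  have := integral_gf hij hS hper
  norm_num at this ⊢
  exact this

/-- perimeter of the fibres (lower bound) -/
noncomputable def lf (i j : Fin 2) (S : Set (EuclideanSpace ℝ (Fin 2))) (t : ℝ) : ℝ :=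
  if gf i j S t ≠ 0 ∧ gf i j S t ≠ 1 then 2 else 0

theorem lf_BP (hS : MeasurableSet S) (hper : IsLatticePeriodic S) : MS.BP (lf i j S) where
  meas := by
    unfold lf
    refine Measurable.ite ?_ measurable_const measurable_const
    have h := measurable_gf (i := i) (j := j) hS hper
    exact (((measurableSet_singleton (0:ℝ)).preimage h).compl).inter
        (((measurableSet_singleton (1:ℝ)).preimage h).compl)
  bdd := ⟨2, fun t => by unfold lf; split_ifs <;> norm_num⟩
  per := fun t => by unfold lf; rw [gf_periodic hS hper t]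

theorem lf_nonneg (t : ℝ) : 0 ≤ lf i j S t := by unfold lf; split_ifs <;> norm_num

/-- the dual inequality for plane sets -/
theorem dual_plane (hij : i ≠ j) (hS : MeasurableSet S) (hper : IsLatticePeriodic S)
    (hP : periodicPerimeter S ≠ ⊤) :
    MS.DualIneq (gf i j S) (lf i j S) (periodicPerimeter S).toReal := by
  intro a b ha hb hap hbp ha0 hab
  have hdb : Continuous (deriv b) := hb.continuous_deriv le_rfl
  have hdp : Function.Periodic (deriv b) 1 := by
    intro t
    have h := deriv_comp_add_const b 1 t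
    rw [← h]; congr 1; ext x; exact hbp x
  obtain ⟨C, hC⟩ := isCompact_Icc.exists_bound_of_continuousOn (s := Icc (0:ℝ) 1) hdb.continuousOn
  have hC' : ∀ t, |deriv b t| ≤ C := by
    intro t
    obtain ⟨y, hy, hty⟩ := hdp.exists_mem_Ico₀ one_pos t
    rw [hty]
    exact hC y (Ico_subset_Icc_self hy)
  have h1 := field_ineq_plane hij hS hper hP ha.continuous.measurable ha0 hb.continuous
    (by
      have := hbp (-(1 / 2))
      rw [show (-(1 / 2) + 1 : ℝ) = 1 / 2 by norm_num] at this
      exact this.symm) (c := ∅) countable_empty (b' := deriv b)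
    (fun t _ => (hb.differentiable one_ne_zero t).hasDerivAt) hdb.measurable hC'
    (fun t _ => hab t)
  have hgfm := measurable_gf (i := i) (j := j) hS hper
  have i1 : IntervalIntegrable (fun t => a t * lf i j S t) volume 0 1 := by
    obtain ⟨D, hD⟩ := (lf_BP (i := i) (j := j) hS hper).bdd
    have h2 := (ha.continuous.intervalIntegrable (μ := volume) 0 1).norm.mul_const D
    refine h2.mono_fun (ha.continuous.aestronglyMeasurable.mul
      (lf_BP hS hper).meas.aestronglyMeasurable) (Eventually.of_forall fun t => ?_)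
    have hD0 : 0 ≤ D := (abs_nonneg _).trans (hD t)
    dsimp only
    rw [norm_mul, norm_mul, norm_norm, Real.norm_eq_abs D, abs_of_nonneg hD0]
    exact mul_le_mul_of_nonneg_left (hD t) (norm_nonneg _)
  have i2 : IntervalIntegrable (fun t => deriv b t * gf i j S t) volume 0 1 := by
    have h2 := (hdb.intervalIntegrable (μ := volume) 0 1).norm.mul_const 1
    refine h2.mono_fun (hdb.aestronglyMeasurable.mul hgfm.aestronglyMeasurable)
      (Eventually.of_forall fun t => ?_)
    dsimp only
    rw [norm_mul, norm_mul, norm_norm, Real.norm_eq_abs (1:ℝ), abs_one]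
    refine mul_le_mul_of_nonneg_left ?_ (norm_nonneg _)
    rw [Real.norm_eq_abs, abs_of_nonneg (gf_nonneg _)]; exact gf_le_one hS _
  rw [← intervalIntegral.integral_add i1 i2]
  have hper2 : Function.Periodic (fun t => a t * lf i j S t + deriv b t * gf i j S t) 1 := by
    intro t
    simp only [hap t, (lf_BP (i := i) (j := j) hS hper).per t, hdp t, gf_periodic hS hper t]
  rw [ZC.int_centred hper2]
  refine le_trans (le_of_eq ?_) h1
  refine intervalIntegral.integral_congr fun t _ => ?_
  simp only [lf]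
  split_ifs <;> ring

/-- far limit of the fibre lengths -/
theorem gf_far (hij : i ≠ j) (hS : MeasurableSet S) (hper : IsLatticePeriodic S)
    (hdi : SymDecAt i S) (hdj : SymDecAt j S) (h1 : ¬ Touch i j S) :
    Tendsto (gf i j S) (𝓝[<] (1 / 2)) (𝓝 0) := by
  obtain ⟨B, hB, hBle⟩ := MS.exists_left_lim (gf_BP hS hper) (gf_antitone hij hS hdi)
  have hB0 : 0 ≤ B := ge_of_tendsto hB (Eventually.of_forall fun t => gf_nonneg _)
  have hB1 : B ≤ 0 := by
    refine le_of_forall_pos_le_add fun ε hε => ?_
    have h3 : 0 < min (ε / 2) (1 / 2) := lt_min (half_pos hε) (by norm_num)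
    obtain ⟨t, ht0, ht1, ht⟩ := exists_gf_le_of_not_arm hij hS hper hdj h3.le (min_le_right _ _)
      (fun hA => h1 ⟨_, h3, min_le_right _ _, hA⟩)
    have h4 := hBle ((t + 1 / 2) / 2) ⟨by linarith, by linarith⟩
    have h5 : gf i j S ((t + 1 / 2) / 2) ≤ gf i j S t := gf_anti hS hij hdi (by
      rw [abs_of_nonneg ht0, abs_of_nonneg (by linarith)]; linarith) (by
      rw [abs_of_nonneg (by linarith)]; linarith)
    have := min_le_left (ε / 2) (1 / 2)
    linarith
  rwa [le_antisymm hB1 hB0] at hB

/-- membership from the fibre length -/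
theorem mem_of_lt_gf (hij : i ≠ j) (hS : MeasurableSet S) (hper : IsLatticePeriodic S)
    (hdi : SymDecAt i S) (hdj : SymDecAt j S) {x : EuclideanSpace ℝ (Fin 2)} {u : ℝ}
    (hu0 : |cr (x i)| ≤ |u|) (hu : |u| ≤ 1 / 2) (h : 2 * |cr (x j)| < gf i j S u) : x ∈ S := by
  by_contra hx
  have h1 : (u • ev i + |cr (x j)| • ev j : EuclideanSpace ℝ (Fin 2)) ∉ S := by
    intro h2
    have h3 : (x i • ev i + |cr (x j)| • ev j : EuclideanSpace ℝ (Fin 2)) ∈ S := by
      refine hdi _ h2 _ ?_ ?_
      · intro k hk
        have : k = j := by omega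
        subst this
        simp [hij.symm]
      · have e1 : (x i • ev i + |cr (x j)| • ev j : EuclideanSpace ℝ (Fin 2)) i = x i := by
          simp [hij]
        have e2 : (u • ev i + |cr (x j)| • ev j : EuclideanSpace ℝ (Fin 2)) i = u := by
          simp [hij]
        rw [e1, e2]
        change |cr (x i)| ≤ |cr u|
        rw [abs_cr_of_le hu]
        exact hu0
    refine hx (hdj _ h3 _ ?_ ?_)
    · intro k hk
      have : k = i := by omega
      subst this
      simp [hij]
    · have e1 : (x i • ev i + |cr (x j)| • ev j : EuclideanSpace ℝ (Fin 2)) j = |cr (x j)| := by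
        simp [hij.symm]
      rw [e1]
      change |cr (x j)| ≤ |cr (|cr (x j)|)|
      have : |(|cr (x j)|)| ≤ 1 / 2 := by rw [abs_abs]; exact abs_cr_le _
      rw [abs_cr_of_le this, abs_abs]
  have h2 : gf i j S u ≤ 2 * |cr (x j)| := by
    unfold gf
    refine flen_le_of_notMem hS hper hdj (abs_nonneg _) (abs_cr_le _) ?_
    rw [pr_smul_ev hij]
    exact h1
  linarith

theorem cr_ne_zero {t : ℝ} (ht : t ∈ Ioo (0:ℝ) 1) : 0 < |cr t| := by
  rw [abs_pos]
  intro h
  unfold cr at h
  have h1 : t = ((round t : ℤ) : ℝ) := by linarith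
  have h2 : (0:ℝ) < ((round t : ℤ) : ℝ) := by rw [← h1]; exact ht.1
  have h3 : ((round t : ℤ) : ℝ) < 1 := by rw [← h1]; exact ht.2
  have h4 : (0:ℤ) < round t := by exact_mod_cast h2
  have h5 : round t < (1:ℤ) := by exact_mod_cast h3
  omega

/-- no touch, perimeter of the disc: contains the disc -/
theorem disc_incl (hij : i ≠ j) (hS : MeasurableSet S) (hper : IsLatticePeriodic S)
    (hdi : SymDecAt i S) (hdj : SymDecAt j S) (h1 : ¬ Touch i j S) (h2 : ¬ Touch j i S)
    (hP : periodicPerimeter S ≠ ⊤) {R : ℝ} (hR : 0 < R)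
    (hPR : (periodicPerimeter S).toReal ≤ 2 * Real.pi * R)
    (hV : periodicVolume S = Real.pi * R ^ 2) {x : EuclideanSpace ℝ (Fin 2)}
    (hx : cr (x i) ^ 2 + cr (x j) ^ 2 < R ^ 2) : x ∈ S := by
  obtain ⟨A, hA, -⟩ := MS.exists_right_lim (gf_BP (i := i) (j := j) hS hper)
    (gf_antitone hij hS hdi) le_rfl (by norm_num : (0:ℝ) < 1 / 2)
  have hB := gf_far hij hS hper hdi hdj h1
  obtain ⟨-, hs, -⟩ := MS.disc_profile (gf_BP hS hper) (lf_BP hS hper) lf_nonneg
    (gf_even hij hS hper hdi) (gf_antitone hij hS hdi) (fun t _ => gf_nonneg t) hR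
    (dual_plane hij hS hper hP) hPR (by rw [integral_gf01 hij hS hper, hV])
    (by
      filter_upwards [ae_restrict_mem measurableSet_Ioo] with t ht h0
      unfold lf
      have hne : gf i j S t ≠ 1 := by
        rw [← gf_per hS hper t]
        exact (gf_lt_one_of_not_touch hij hS hper hdi hdj h2 (cr_ne_zero ht) (abs_cr_le t)).ne
      rw [if_pos ⟨h0.ne', hne⟩])
    hA hB
  -- choose `u` slightly larger than `|cr (x i)|`
  have hxi := abs_cr_le (x i)
  have hs' : ∀ u : ℝ, 0 < u → u < 1 / 2 → u ^ 2 + cr (x j) ^ 2 < R ^ 2 →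
      2 * |cr (x j)| < gf i j S u := by
    intro u h0 h5 hu
    rw [hs u ⟨h0, h5⟩]
    have huR : u < R := by
      by_contra hcon
      rw [not_lt] at hcon
      nlinarith [sq_nonneg (cr (x j))]
    rw [min_eq_left huR.le]
    have : |cr (x j)| < Real.sqrt (R ^ 2 - u ^ 2) := by
      apply Real.lt_sqrt_of_sq_lt
      rw [sq_abs]; linarith
    linarith
  rcases lt_or_eq_of_le hxi with h5 | h5
  · -- `|cr (x i)| < 1/2`
    have hc : Continuous fun u : ℝ => u ^ 2 + cr (x j) ^ 2 := by fun_prop
    have h6 : ∀ᶠ u in 𝓝 |cr (x i)|, u ^ 2 + cr (x j) ^ 2 < R ^ 2 ∧ u < 1 / 2 := by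
      refine (hc.continuousAt.eventually (gt_mem_nhds ?_)).and (gt_mem_nhds h5)
      show |cr (x i)| ^ 2 + cr (x j) ^ 2 < R ^ 2
      rw [sq_abs]; exact hx
    have h7 : ∀ᶠ u in 𝓝[>] |cr (x i)|, (u ^ 2 + cr (x j) ^ 2 < R ^ 2 ∧ u < 1 / 2) ∧
        |cr (x i)| < u := (h6.filter_mono nhdsWithin_le_nhds).and self_mem_nhdsWithin
    obtain ⟨u, ⟨hu1, hu2⟩, hu3⟩ := h7.exists
    have hu0 : 0 < u := lt_of_le_of_lt (abs_nonneg _) hu3
    exact mem_of_lt_gf hij hS hper hdi hdj (by rw [abs_of_pos hu0]; exact hu3.le)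
      (by rw [abs_of_pos hu0]; exact hu2.le) (hs' u hu0 hu2 hu1)
  · -- impossible: then `R > 1/2` and the area exceeds the area allowed by the far limit
    exfalso
    have hR2 : 1 / 2 < R := by
      have h6 : (1 / 2 : ℝ) ^ 2 < R ^ 2 := by
        have : cr (x i) ^ 2 = (1 / 2) ^ 2 := by rw [← h5, sq_abs]
        nlinarith [sq_nonneg (cr (x j))]
      exact lt_of_pow_lt_pow_left₀ 2 hR.le h6
    have h7 : ∀ᶠ u in 𝓝[<] (1 / 2 : ℝ), gf i j S u = 2 * Real.sqrt (R ^ 2 - u ^ 2) := by
      filter_upwards [Ioo_mem_nhdsLT (by norm_num : (0:ℝ) < 1 / 2)] with u hu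
      rw [hs u hu, min_eq_left (by linarith [hu.2])]
    have hc : Continuous fun u : ℝ => 2 * Real.sqrt (R ^ 2 - u ^ 2) := by fun_prop
    have h8 : Tendsto (fun u : ℝ => 2 * Real.sqrt (R ^ 2 - u ^ 2)) (𝓝[<] (1 / 2))
        (𝓝 (2 * Real.sqrt (R ^ 2 - (1 / 2) ^ 2))) :=
      (hc.tendsto _).mono_left nhdsWithin_le_nhds
    have h9 := tendsto_nhds_unique (h8.congr' (by
      filter_upwards [h7] with u hu using hu.symm)) hB
    have h10 : 0 < Real.sqrt (R ^ 2 - (1 / 2) ^ 2) := Real.sqrt_pos.2 (by nlinarith)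
    linarith


end Crest.Agent.R214.Down
end

-- ▼ part R214/SliceProof
section

/-!
Row 214, module G5 (dual slicing): proof of the slicing inequality by mollification and Fatou.
-/

set_option autoImplicit false

open MeasureTheory Set Filter Topology Crest.GeometryTopology.PeriodicPerimeter
open scoped ContDiff ENNReal

namespace Crest.Agent.R214.Slice

variable {m k N : ℕ}

/-- lower semicontinuity along sequences of smooth periodic functions -/
theorem perimeter_le_liminf {S : Set (En k)} (hS : MeasurableSet S)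
    {f : ℕ → En k → ℝ} (hf : ∀ n, ContDiff ℝ ∞ (f n)) (hp : ∀ n, IsPer (f n))
    (h0 : ∀ n y, |f n y| ≤ 1)
    (hlim : ∀ᵐ y ∂((volume : Measure (En k)).restrict (unitCell k)),
      Tendsto (fun n => f n y) atTop (𝓝 (chi S y))) :
    periodicPerimeter S ≤
      liminf (fun n => ENNReal.ofReal (∫ y in unitCell k, ‖fderiv ℝ (f n) y‖)) atTop := by
  refine iSup_le fun ψ => ?_
  have hψ := ψ.2
  have hdc := continuous_divergence hψ.1
  obtain ⟨C, hC⟩ := (IsPer.divergence hψ.2.1).exists_bound hdc
  have h1 : Tendsto (fun n => ∫ y in unitCell k, f n y * divergence ψ.1 y) atTop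
      (𝓝 (∫ y in unitCell k, chi S y * divergence ψ.1 y)) := by
    apply tendsto_integral_of_dominated_convergence (fun _ => C)
    · intro n
      exact ((hf n).continuous.mul hdc).aestronglyMeasurable
    · exact integrable_const _
    · intro n
      refine ae_of_all _ fun y => ?_
      rw [norm_mul]
      calc ‖f n y‖ * ‖divergence ψ.1 y‖ ≤ 1 * C :=
            mul_le_mul (h0 n y) (hC y) (norm_nonneg _) zero_le_one
        _ = C := one_mul C
    · filter_upwards [hlim] with y hy
      exact hy.mul_const _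
  rw [integral_chi_mul hS] at h1
  rw [← (ENNReal.tendsto_ofReal h1).liminf_eq]
  refine liminf_le_liminf (Eventually.of_forall fun n => ?_) (by isBoundedDefault)
  apply ENNReal.ofReal_le_ofReal
  rw [integral_mul_divergence ((hf n).of_le (by norm_cast)) (hp n) hψ.1 hψ.2.1]
  exact neg_integral_fderiv_apply_le (hf n) (hp n) le_rfl hψ.2.2

/-- inclusion of the fibre directions -/
noncomputable def inR (e : Fin m ⊕ Fin k ≃ Fin N) : En k →L[ℝ] En N :=
  ((joinL e : (En m × En k) →L[ℝ] En N)).comp (ContinuousLinearMap.inr ℝ (En m) (En k))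

/-- inclusion of the base directions -/
noncomputable def inL (e : Fin m ⊕ Fin k ≃ Fin N) : En m →L[ℝ] En N :=
  ((joinL e : (En m × En k) →L[ℝ] En N)).comp (ContinuousLinearMap.inl ℝ (En m) (En k))

theorem inR_apply (e : Fin m ⊕ Fin k ≃ Fin N) (y : En k) : inR e y = join e 0 y := rfl

theorem inL_apply (e : Fin m ⊕ Fin k ≃ Fin N) (x : En m) : inL e x = join e x 0 := rfl

theorem join_eq (e : Fin m ⊕ Fin k ≃ Fin N) (x : En m) (y : En k) :
    join e x y = inL e x + inR e y := by
  rw [inL_apply, inR_apply, ← base_add_join, add_zero, zero_add]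

theorem contDiff_join_right (e : Fin m ⊕ Fin k ≃ Fin N) (x : En m) :
    ContDiff ℝ ∞ (fun y : En k => join e x y) := by
  simp only [join_eq]
  exact contDiff_const.add (inR e).contDiff

theorem hasFDerivAt_slice (e : Fin m ⊕ Fin k ≃ Fin N) {f : En N → ℝ} (hf : ContDiff ℝ ∞ f)
    (x : En m) (y : En k) :
    HasFDerivAt (fun y => f (join e x y)) ((fderiv ℝ f (join e x y)).comp (inR e)) y := by
  have h1 : HasFDerivAt (fun y : En k => join e x y) (inR e) y := by
    simp only [join_eq]
    exact (inR e).hasFDerivAt.const_add _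
  exact (((hf.differentiable (by simp)) (join e x y)).hasFDerivAt).comp y h1

theorem isPer_slice (e : Fin m ⊕ Fin k ≃ Fin N) {f : En N → ℝ} (hf : IsPer f) (x : En m) :
    IsPer (fun y => f (join e x y)) := by
  intro v hv y
  have := hf (join e 0 v) (hasIntegerCoords_join e (fun _ => ⟨0, by simp⟩) hv) (join e x y)
  rw [← base_add_join, add_zero] at this
  exact this


theorem measurableEmbedding_join (e : Fin m ⊕ Fin k ≃ Fin N) :
    MeasurableEmbedding (fun p : En m × En k => join e p.1 p.2) :=
  (joinL e).toHomeomorph.measurableEmbedding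

theorem preimage_cell (e : Fin m ⊕ Fin k ≃ Fin N) :
    (fun p : En m × En k => join e p.1 p.2) ⁻¹' unitCell N = unitCell m ×ˢ unitCell k := by
  ext p
  simp [join_mem_unitCell]

theorem lintegral_cell_join (e : Fin m ⊕ Fin k ≃ Fin N) {F : En N → ℝ≥0∞} (hF : Measurable F) :
    ∫⁻ z in unitCell N, F z = ∫⁻ x in unitCell m, ∫⁻ y in unitCell k, F (join e x y) := by
  rw [← (measurePreserving_join e).setLIntegral_comp_preimage_emb (measurableEmbedding_join e),
    preimage_cell]
  rw [show (volume : Measure (En m × En k)) = volume.prod volume from rfl, ← Measure.prod_restrict]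
  rw [lintegral_prod]
  exact (hF.comp (continuous_join e).measurable).aemeasurable

theorem integral_cell_join (e : Fin m ⊕ Fin k ≃ Fin N) {F : En N → ℝ}
    (hF : IntegrableOn F (unitCell N)) :
    ∫ z in unitCell N, F z = ∫ x in unitCell m, ∫ y in unitCell k, F (join e x y) := by
  have := setIntegral_join e (E := univ) MeasurableSet.univ (F := F) (by rwa [univ_inter])
  rw [univ_inter] at this
  rw [this]
  congr 1
  ext x
  have h : slice e (univ : Set (En N)) x = univ := by ext; simp [slice]
  rw [h, univ_inter]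

theorem ae_ae_join (e : Fin m ⊕ Fin k ≃ Fin N) {p : En N → Prop} (h : ∀ᵐ z : En N, p z) :
    ∀ᵐ x : En m, ∀ᵐ y : En k, p (join e x y) := by
  have h1 : ∀ᵐ q : En m × En k ∂(volume.prod volume), p (join e q.1 q.2) :=
    (measurePreserving_join e).quasiMeasurePreserving.ae h
  exact Measure.ae_ae_of_ae_prod h1

theorem chi_join (e : Fin m ⊕ Fin k ≃ Fin N) (E : Set (En N)) (x : En m) (y : En k) :
    chi E (join e x y) = chi (slice e E x) y := by
  unfold chi
  by_cases h : join e x y ∈ E
  · have h' : y ∈ slice e E x := h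
    rw [indicator_of_mem h, indicator_of_mem h']
  · have h' : y ∉ slice e E x := h
    rw [indicator_of_notMem h, indicator_of_notMem h']

theorem integral_chi {S : Set (En k)} (hS : MeasurableSet S) :
    ∫ y in unitCell k, chi S y = periodicVolume S := by
  have := integral_chi_mul hS (fun _ => (1:ℝ))
  simp only [mul_one] at this
  rw [this, setIntegral_const, smul_eq_mul, mul_one]
  rfl

/-- a unit vector at which a functional attains its norm -/
theorem exists_dual (L : En k →L[ℝ] ℝ) : ∃ G : En k, ‖G‖ ≤ 1 ∧ L G = ‖L‖ := by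
  set g := (InnerProductSpace.toDual ℝ (En k)).symm L with hg
  have h1 : ‖g‖ = ‖L‖ := by rw [hg, LinearIsometryEquiv.norm_map]
  have h2 : L g = ‖L‖ ^ 2 := by
    have : L g = inner ℝ g g := by
      conv_lhs => rw [show L = InnerProductSpace.toDual ℝ (En k) g by rw [hg]; simp]
      rfl
    rw [this, real_inner_self_eq_norm_sq, h1]
  refine ⟨‖L‖⁻¹ • g, ?_, ?_⟩
  · rw [norm_smul, h1, norm_inv, norm_norm]
    by_cases h : ‖L‖ = 0
    · rw [h]; simp
    · rw [inv_mul_cancel₀ h]
  · rw [map_smul, h2, smul_eq_mul]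
    by_cases h : ‖L‖ = 0
    · rw [h]; simp
    · field_simp

end Crest.Agent.R214.Slice
end

-- ▼ part R214/SliceCore
section

/-!
Row 214, module G5 (dual slicing): the smooth case (dual slicing for a smooth periodic function).
-/

set_option autoImplicit false

open MeasureTheory Set Filter Topology Crest.GeometryTopology.PeriodicPerimeter
open scoped ContDiff ENNReal

namespace Crest.Agent.R214.Slice

variable {m k N : ℕ}

theorem fderiv_comp_base (e : Fin m ⊕ Fin k ≃ Fin N) (g : En m → ℝ) (z : En N) (v : En m) :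
    fderiv ℝ (fun z => g (base e z)) z (inL e v) = fderiv ℝ g (base e z) v := by
  by_cases h : DifferentiableAt ℝ g (base e z)
  · have h1 : HasFDerivAt (fun z => g (base e z)) ((fderiv ℝ g (base e z)).comp (base e)) z :=
      h.hasFDerivAt.comp z (base e).hasFDerivAt
    rw [h1.fderiv]
    simp [inL_apply]
  · rw [fderiv_zero_of_not_differentiableAt h, fderiv_zero_of_not_differentiableAt]
    · rfl
    · intro h'
      apply h
      have h1 : DifferentiableAt ℝ (fun x : En m => join e x (fib e z)) (base e z) := by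
        simp only [join_eq]
        exact ((inL e).differentiableAt).add_const _
      have h2 : DifferentiableAt ℝ (fun z => g (base e z)) (join e (base e z) (fib e z)) := by
        rw [join_base_fib]
        exact h'
      have h3 := h2.comp (base e z) h1
      have h4 : (fun z => g (base e z)) ∘ (fun x : En m => join e x (fib e z)) = g := by
        ext x
        simp
      rwa [h4] at h3

theorem isPer_comp_base (e : Fin m ⊕ Fin k ≃ Fin N) {G : Type*} {g : En m → G} (hg : IsPer g) :
    IsPer (fun z => g (base e z)) := by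
  intro v hv z
  simp only [map_add]
  exact hg _ (hasIntegerCoords_base e hv) _

theorem inL_sum (e : Fin m ⊕ Fin k ≃ Fin N) (x : En m) :
    inL e x = ∑ i, x i • inL e (EuclideanSpace.single i 1) := by
  conv_lhs => rw [show x = ∑ i, x i • (EuclideanSpace.single i (1:ℝ) : En m) by
    ext j
    simp [Finset.sum_apply, Pi.single_apply]]
  rw [map_sum]
  simp only [map_smul]

/-- integration by parts against a field depending on the base point only -/
theorem neg_integral_fderiv_base (e : Fin m ⊕ Fin k ≃ Fin N) {f : En N → ℝ}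
    (hf : ContDiff ℝ ∞ f) (hp : IsPer f) {b : En m → En m} {C : NNReal}
    (hb : LipschitzWith C b) (hbp : IsPer b) :
    -∫ z in unitCell N, fderiv ℝ f z (inL e (b (base e z))) =
      ∫ x in unitCell m, divergence b x * ∫ y in unitCell k, f (join e x y) := by
  have hf1 : ContDiff ℝ 1 f := hf.of_le (by norm_cast)
  obtain ⟨Cf, hCf⟩ := Inv.PeriodicFun.lipschitz (f := f) hp hf1
  obtain ⟨B, hB⟩ := hp.exists_bound hf.continuous
  have hcoord : ∀ i : Fin m, LipschitzWith C (fun x => b x i) := by
    intro i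
    refine LipschitzWith.of_dist_le_mul fun x y => ?_
    calc dist (b x i) (b y i) ≤ dist (b x) (b y) := by
          rw [dist_eq_norm, dist_eq_norm]
          exact PiLp.norm_apply_le (b x - b y) i
      _ ≤ C * dist x y := hb.dist_le_mul x y
  have hbase : ∃ K : NNReal, LipschitzWith K (base e) := ⟨_, (base e).lipschitz⟩
  obtain ⟨K, hK⟩ := hbase
  have hg : ∀ i : Fin m, LipschitzWith (C * K) (fun z : En N => b (base e z) i) := fun i =>
    (hcoord i).comp hK
  have hgp : ∀ i : Fin m, IsPer (fun z : En N => b (base e z) i) := fun i =>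
    isPer_comp_base e (g := fun x => b x i) fun v hv x => by simp only [hbp v hv x]
  have hibp : ∀ i : Fin m, ∫ z in unitCell N, b (base e z) i * fderiv ℝ f z (inL e (EuclideanSpace.single i 1)) =
      -∫ z in unitCell N, fderiv ℝ (fun x => b x i) (base e z) (EuclideanSpace.single i 1) * f z := by
    intro i
    have := Inv.integral_cell_mul_fderiv (f := f) (g := fun z : En N => b (base e z) i) hp (hgp i) hCf (hg i)
      (inL e (EuclideanSpace.single i 1))
    rw [this]
    congr 2
    ext z
    rw [fderiv_comp_base e (fun x => b x i)]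
  -- integrability
  have hI1 : ∀ i : Fin m, Integrable (fun z => b (base e z) i * fderiv ℝ f z (inL e (EuclideanSpace.single i 1)))
      ((volume : Measure (En N)).restrict (unitCell N)) := by
    intro i
    refine IsPer.integrableOn (F := fun z => b (base e z) i * fderiv ℝ f z (inL e (EuclideanSpace.single i 1))) ?_ ?_
    · intro v hv z
      have h1 := hp.fderiv v hv z
      simp only at h1 ⊢
      rw [h1]
      have h2 := hgp i v hv z
      simp only at h2
      rw [h2]
    · exact ((hg i).continuous).mul ((hf1.continuous_fderiv one_ne_zero).clm_apply continuous_const)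
  have hI2 : ∀ i : Fin m, Integrable
      (fun z => fderiv ℝ (fun x => b x i) (base e z) (EuclideanSpace.single i 1) * f z)
      ((volume : Measure (En N)).restrict (unitCell N)) := by
    intro i
    refine Integrable.mono' (integrable_const (C * B)) ?_ ?_
    · have h1 : Measurable (fun x : En m => fderiv ℝ (fun x => b x i) x (EuclideanSpace.single i 1)) :=
        measurable_fderiv_apply_const ℝ _ _
      exact ((h1.comp (base e).continuous.measurable).mul hf.continuous.measurable).aestronglyMeasurable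
    · refine ae_of_all _ fun z => ?_
      rw [norm_mul]
      refine mul_le_mul ?_ (hB z) (norm_nonneg _) C.2
      calc ‖fderiv ℝ (fun x => b x i) (base e z) (EuclideanSpace.single i 1)‖
          ≤ ‖fderiv ℝ (fun x => b x i) (base e z)‖ * ‖(EuclideanSpace.single i (1:ℝ) : En m)‖ :=
            ContinuousLinearMap.le_opNorm _ _
        _ ≤ C * 1 := by
            refine mul_le_mul (norm_fderiv_le_of_lipschitz ℝ (hcoord i)) ?_ (norm_nonneg _) C.2
            simp
        _ = C := mul_one _
  have h1 : ∫ z in unitCell N, fderiv ℝ f z (inL e (b (base e z))) =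
      ∑ i, ∫ z in unitCell N, b (base e z) i * fderiv ℝ f z (inL e (EuclideanSpace.single i 1)) := by
    rw [← integral_finsetSum _ (fun i _ => hI1 i)]
    congr 1
    ext z
    rw [inL_sum, map_sum]
    simp only [map_smul, smul_eq_mul]
  rw [h1]
  simp only [hibp]
  rw [Finset.sum_neg_distrib, neg_neg]
  have h2 : ∀ i : Fin m,
      ∫ z in unitCell N, fderiv ℝ (fun x => b x i) (base e z) (EuclideanSpace.single i 1) * f z =
      ∫ x in unitCell m, fderiv ℝ (fun x => b x i) x (EuclideanSpace.single i 1) *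
        ∫ y in unitCell k, f (join e x y) := by
    intro i
    rw [integral_cell_join e (hI2 i)]
    congr 1
    ext x
    simp only [base_join]
    rw [integral_const_mul]
  simp only [h2]
  rw [← integral_finsetSum]
  · have hdiff : ∀ᵐ x ∂((volume : Measure (En m)).restrict (unitCell m)), DifferentiableAt ℝ b x :=
      ae_restrict_of_ae hb.ae_differentiableAt
    apply integral_congr_ae
    filter_upwards [hdiff] with x hx
    rw [Inv.divergence_eq_sum b x hx, Finset.sum_mul]
  · intro i _
    refine Integrable.mono' (integrable_const (C * B)) ?_ ?_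
    · have h1 : Measurable (fun x : En m => fderiv ℝ (fun x => b x i) x (EuclideanSpace.single i 1)) :=
        measurable_fderiv_apply_const ℝ _ _
      have h3 : StronglyMeasurable (fun x : En m => ∫ y in unitCell k, f (join e x y)) := by
        have : StronglyMeasurable (fun p : En m × En k => f (join e p.1 p.2)) :=
          (hf.continuous.comp (continuous_join e)).stronglyMeasurable
        exact this.integral_prod_right'
      exact (h1.stronglyMeasurable.mul h3).aestronglyMeasurable
    · refine ae_of_all _ fun x => ?_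
      rw [norm_mul]
      refine mul_le_mul ?_ ?_ (norm_nonneg _) C.2
      · calc ‖fderiv ℝ (fun x => b x i) x (EuclideanSpace.single i 1)‖
            ≤ ‖fderiv ℝ (fun x => b x i) x‖ * ‖(EuclideanSpace.single i (1:ℝ) : En m)‖ :=
              ContinuousLinearMap.le_opNorm _ _
          _ ≤ C * 1 := by
              refine mul_le_mul (norm_fderiv_le_of_lipschitz ℝ (hcoord i)) ?_ (norm_nonneg _) C.2
              simp
          _ = C := mul_one _
      · have := norm_integral_le_of_norm_le_const (μ := (volume : Measure (En k)).restrict (unitCell k))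
          (f := fun y => f (join e x y)) (C := B) (ae_of_all _ fun y => hB _)
        simpa using this

/-- the smooth case of the slicing inequality -/
theorem core_smooth (e : Fin m ⊕ Fin k ≃ Fin N) {f : En N → ℝ} (hf : ContDiff ℝ ∞ f)
    (hp : IsPer f) {P : ℝ} (hP : ∫ x in unitCell N, ‖fderiv ℝ f x‖ ≤ P)
    {a : En m → ℝ} (ha : Measurable a) {b : En m → En m} {C : NNReal}
    (hb : LipschitzWith C b) (hbp : IsPer b) (hab : ∀ x, a x ^ 2 + ‖b x‖ ^ 2 ≤ 1) :
    (∫ z in unitCell N, a (base e z) * ‖(fderiv ℝ f z).comp (inR e)‖) +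
      (∫ x in unitCell m, divergence b x * ∫ y in unitCell k, f (join e x y)) ≤ P := by
  have hf1 : ContDiff ℝ 1 f := hf.of_le (by norm_cast)
  rw [← neg_integral_fderiv_base e hf hp hb hbp]
  choose G hG1 hG2 using fun z => exists_dual ((fderiv ℝ f z).comp (inR e))
  set Φ : En N → En N := fun z => join e (b (base e z)) ((-a (base e z)) • G z) with hΦ
  have hΦ1 : ∀ z, ‖Φ z‖ ≤ 1 := by
    intro z
    rw [← sq_le_one_iff₀ (norm_nonneg _), hΦ]
    simp only
    rw [norm_join_sq, norm_smul, mul_pow]
    have h1 := hab (base e z)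
    have h2 : ‖G z‖ ^ 2 ≤ 1 := by
      have := hG1 z
      have h0 := norm_nonneg (G z)
      nlinarith
    have h3 : ‖-a (base e z)‖ ^ 2 = a (base e z) ^ 2 := by
      rw [norm_neg, Real.norm_eq_abs, sq_abs]
    rw [h3]
    have h4 : a (base e z) ^ 2 * ‖G z‖ ^ 2 ≤ a (base e z) ^ 2 * 1 :=
      mul_le_mul_of_nonneg_left h2 (sq_nonneg _)
    linarith
  have key := neg_integral_fderiv_apply_le hf hp hP hΦ1
  have hcL : Continuous (fun z => (fderiv ℝ f z).comp (inR e)) :=
    (hf1.continuous_fderiv one_ne_zero).clm_comp continuous_const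
  have hpL : IsPer (fun z => (fderiv ℝ f z).comp (inR e)) := by
    intro v hv z
    have := hp.fderiv v hv z
    simp only at this ⊢
    rw [this]
  obtain ⟨B, hB⟩ := hpL.exists_bound hcL
  have hI1 : Integrable (fun z => a (base e z) * ‖(fderiv ℝ f z).comp (inR e)‖)
      ((volume : Measure (En N)).restrict (unitCell N)) := by
    refine Integrable.mono' (integrable_const (1 * B)) ?_ ?_
    · exact ((ha.comp (base e).continuous.measurable).mul hcL.norm.measurable).aestronglyMeasurable
    · refine ae_of_all _ fun z => ?_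
      rw [norm_mul, norm_norm]
      refine mul_le_mul ?_ (hB z) (norm_nonneg _) zero_le_one
      have h1 := hab (base e z)
      have h2 : a (base e z) ^ 2 ≤ 1 := by nlinarith [sq_nonneg ‖b (base e z)‖]
      rw [Real.norm_eq_abs]
      exact (sq_le_one_iff_abs_le_one _).1 h2
  have hI2 : Integrable (fun z => fderiv ℝ f z (inL e (b (base e z))))
      ((volume : Measure (En N)).restrict (unitCell N)) := by
    refine IsPer.integrableOn (F := fun z => fderiv ℝ f z (inL e (b (base e z)))) ?_ ?_
    · intro v hv z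
      have h1 := hp.fderiv v hv z
      have h2 := isPer_comp_base e hbp v hv z
      simp only at h1 h2 ⊢
      rw [h1, h2]
    · exact (hf1.continuous_fderiv one_ne_zero).clm_apply
        ((inL e).continuous.comp (hb.continuous.comp (base e).continuous))
  have hsplit : ∀ z, fderiv ℝ f z (Φ z) =
      fderiv ℝ f z (inL e (b (base e z))) - a (base e z) * ‖(fderiv ℝ f z).comp (inR e)‖ := by
    intro z
    rw [hΦ]
    simp only
    rw [join_eq, map_add, map_smul, map_smul, ← hG2 z]
    simp [sub_eq_add_neg]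
  simp only [hsplit] at key
  rw [integral_sub hI2 hI1] at key
  linarith

end Crest.Agent.R214.Slice
end

-- ▼ part R214/SliceLimit
section

/-!
Row 214, module G5 (dual slicing): the general slicing inequality.
-/

set_option autoImplicit false

open MeasureTheory Set Filter Topology Crest.GeometryTopology.PeriodicPerimeter
open scoped ContDiff ENNReal

namespace Crest.Agent.R214.Slice

variable {m k N : ℕ}

theorem abs_divergence_le {b : En m → En m} {C : NNReal} (hb : LipschitzWith C b) (x : En m) :
    |divergence b x| ≤ m * C := by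
  unfold divergence
  calc |∑ i, fderiv ℝ b x (EuclideanSpace.single i 1) i|
      ≤ ∑ i, |fderiv ℝ b x (EuclideanSpace.single i 1) i| := Finset.abs_sum_le_sum_abs _ _
    _ ≤ ∑ _i : Fin m, (C : ℝ) := by
        refine Finset.sum_le_sum fun i _ => ?_
        calc |fderiv ℝ b x (EuclideanSpace.single i 1) i|
            ≤ ‖fderiv ℝ b x (EuclideanSpace.single i 1)‖ := by
              rw [← Real.norm_eq_abs]
              exact PiLp.norm_apply_le _ i
          _ ≤ ‖fderiv ℝ b x‖ * ‖(EuclideanSpace.single i (1:ℝ) : En m)‖ :=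
              ContinuousLinearMap.le_opNorm _ _
          _ ≤ C * 1 := by
              refine mul_le_mul (norm_fderiv_le_of_lipschitz ℝ hb) ?_ (norm_nonneg _) C.2
              simp
          _ = C := mul_one _
    _ = m * C := by simp

theorem measurable_divergence (b : En m → En m) : Measurable (divergence b) := by
  unfold divergence
  refine Finset.measurable_sum _ fun i _ => ?_
  have h1 : Measurable (fun x => fderiv ℝ b x (EuclideanSpace.single i 1)) :=
    measurable_fderiv_apply_const ℝ _ _
  exact (EuclideanSpace.proj (𝕜 := ℝ) i).continuous.measurable.comp h1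

/-- a.e. convergence of the fibre integrals -/
theorem ae_tendsto_fibre (e : Fin m ⊕ Fin k ≃ Fin N) {E : Set (En N)} (hE : MeasurableSet E)
    {f : ℕ → En N → ℝ} (hf : ∀ n, ContDiff ℝ ∞ (f n))
    (h0 : ∀ n y, |f n y| ≤ 1) (hlim : ∀ᵐ z : En N, Tendsto (fun n => f n z) atTop (𝓝 (chi E z))) :
    ∀ᵐ x : En m, Tendsto (fun n => ∫ y in unitCell k, f n (join e x y)) atTop
      (𝓝 (periodicVolume (slice e E x))) := by
  filter_upwards [ae_ae_join e hlim] with x hx
  rw [← integral_chi (measurableSet_slice e hE x)]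
  apply tendsto_integral_of_dominated_convergence (fun _ => (1:ℝ))
  · intro n
    exact ((hf n).continuous.comp ((continuous_join e).comp (Continuous.prodMk_right x))).aestronglyMeasurable
  · exact integrable_const _
  · intro n
    exact ae_of_all _ fun y => h0 n _
  · refine ae_restrict_of_ae ?_
    filter_upwards [hx] with y hy
    rwa [chi_join] at hy

theorem abs_fibre_le (e : Fin m ⊕ Fin k ≃ Fin N) {f : En N → ℝ} (h0 : ∀ y, |f y| ≤ 1) (x : En m) :
    |∫ y in unitCell k, f (join e x y)| ≤ 1 := by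
  have := norm_integral_le_of_norm_le_const (μ := (volume : Measure (En k)).restrict (unitCell k))
    (f := fun y => f (join e x y)) (C := 1) (ae_of_all _ fun y => h0 _)
  simpa using this

theorem stronglyMeasurable_fibre (e : Fin m ⊕ Fin k ≃ Fin N) {f : En N → ℝ}
    (hf : Measurable f) : StronglyMeasurable (fun x : En m => ∫ y in unitCell k, f (join e x y)) := by
  have : StronglyMeasurable (fun p : En m × En k => f (join e p.1 p.2)) :=
    (hf.comp (continuous_join e).measurable).stronglyMeasurable
  exact this.integral_prod_right'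

theorem lintegral_core (e : Fin m ⊕ Fin k ≃ Fin N) {f : En N → ℝ} (hf : ContDiff ℝ ∞ f)
    (hp : IsPer f) {a : En m → ℝ} (ha : Measurable a) (ha0 : ∀ x, 0 ≤ a x) (ha1 : ∀ x, a x ≤ 1) :
    ∫⁻ x in unitCell m, ENNReal.ofReal (a x) *
        ENNReal.ofReal (∫ y in unitCell k, ‖fderiv ℝ (fun y => f (join e x y)) y‖) =
      ENNReal.ofReal (∫ z in unitCell N, a (base e z) * ‖(fderiv ℝ f z).comp (inR e)‖) := by
  have hf1 : ContDiff ℝ 1 f := hf.of_le (by norm_cast)
  have hcL : Continuous (fun z => (fderiv ℝ f z).comp (inR e)) :=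
    (hf1.continuous_fderiv one_ne_zero).clm_comp continuous_const
  have hpL : IsPer (fun z => (fderiv ℝ f z).comp (inR e)) := by
    intro v hv z
    have := hp.fderiv v hv z
    simp only at this ⊢
    rw [this]
  obtain ⟨B, hB⟩ := hpL.exists_bound hcL
  have hI1 : Integrable (fun z => a (base e z) * ‖(fderiv ℝ f z).comp (inR e)‖)
      ((volume : Measure (En N)).restrict (unitCell N)) := by
    refine Integrable.mono' (integrable_const (1 * B)) ?_ ?_
    · exact ((ha.comp (base e).continuous.measurable).mul hcL.norm.measurable).aestronglyMeasurable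
    · refine ae_of_all _ fun z => ?_
      rw [norm_mul, norm_norm]
      refine mul_le_mul ?_ (hB z) (norm_nonneg _) zero_le_one
      rw [Real.norm_eq_abs, abs_of_nonneg (ha0 _)]
      exact ha1 _
  rw [ofReal_integral_eq_lintegral_ofReal hI1
    (ae_of_all _ fun z => mul_nonneg (ha0 _) (norm_nonneg _))]
  rw [lintegral_cell_join e]
  · congr 1
    ext x
    simp only [base_join]
    have h1 : ∀ y : En k, fderiv ℝ (fun y => f (join e x y)) y = (fderiv ℝ f (join e x y)).comp (inR e) :=
      fun y => (hasFDerivAt_slice e hf x y).fderiv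
    simp only [h1]
    rw [ofReal_integral_eq_lintegral_ofReal]
    · rw [← lintegral_const_mul' _ _ ENNReal.ofReal_ne_top]
      congr 1
      ext y
      rw [ENNReal.ofReal_mul (ha0 x)]
    · refine Integrable.mono' (integrable_const B) ?_ ?_
      · exact (hcL.norm.comp ((continuous_join e).comp (Continuous.prodMk_right x))).aestronglyMeasurable
      · refine ae_of_all _ fun y => ?_
        rw [norm_norm]
        exact hB _
    · exact ae_of_all _ fun y => norm_nonneg _
  · exact ((ha.comp (base e).continuous.measurable).mul hcL.norm.measurable).ennreal_ofReal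

/-- the general dual slicing inequality -/
theorem slicing (e : Fin m ⊕ Fin k ≃ Fin N) {E : Set (En N)} (hE : MeasurableSet E)
    (hEp : IsLatticePeriodic E) (hP : periodicPerimeter E ≠ ⊤)
    {a : En m → ℝ} (ha : Measurable a) (ha0 : ∀ x, 0 ≤ a x) {b : En m → En m} {C : NNReal}
    (hb : LipschitzWith C b) (hbp : IsPer b) (hab : ∀ x, a x ^ 2 + ‖b x‖ ^ 2 ≤ 1) :
    (∫⁻ x in unitCell m, ENNReal.ofReal (a x) * periodicPerimeter (slice e E x)) ≤
      ENNReal.ofReal ((periodicPerimeter E).toReal -
        ∫ x in unitCell m, divergence b x * periodicVolume (slice e E x)) ∧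
    ∫ x in unitCell m, divergence b x * periodicVolume (slice e E x) ≤
      (periodicPerimeter E).toReal := by
  obtain ⟨f, hf, hp, hf0, hf1, hlim, hTV⟩ := exists_mollification hE hEp hP
  have h0 : ∀ n y, |f n y| ≤ 1 := fun n y => by rw [abs_of_nonneg (hf0 n y)]; exact hf1 n y
  have ha1 : ∀ x, a x ≤ 1 := by
    intro x
    have h1 := hab x
    have h2 : a x ^ 2 ≤ 1 := by nlinarith [sq_nonneg ‖b x‖]
    exact (abs_le.1 ((sq_le_one_iff_abs_le_one _).1 h2)).2
  set P := (periodicPerimeter E).toReal with hPdef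
  set X := ∫ x in unitCell m, divergence b x * periodicVolume (slice e E x) with hX
  have hfib := ae_tendsto_fibre e hE hf h0 hlim
  have hXn : Tendsto (fun n => ∫ x in unitCell m, divergence b x * ∫ y in unitCell k, f n (join e x y))
      atTop (𝓝 X) := by
    apply tendsto_integral_of_dominated_convergence (fun _ => (m * C : ℝ) * 1)
    · intro n
      exact ((measurable_divergence b).stronglyMeasurable.mul
        (stronglyMeasurable_fibre e (hf n).continuous.measurable)).aestronglyMeasurable
    · exact integrable_const _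
    · intro n
      refine ae_of_all _ fun x => ?_
      rw [norm_mul]
      exact mul_le_mul (abs_divergence_le hb x) (abs_fibre_le e (h0 n) x) (norm_nonneg _) (by positivity)
    · refine ae_restrict_of_ae ?_
      filter_upwards [hfib] with x hx
      exact hx.const_mul _
  have hcore : ∀ n, (∫ z in unitCell N, a (base e z) * ‖(fderiv ℝ (f n) z).comp (inR e)‖) +
      (∫ x in unitCell m, divergence b x * ∫ y in unitCell k, f n (join e x y)) ≤ P := fun n =>
    core_smooth e (hf n) (hp n) (hTV n) ha hb hbp hab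
  have hnn : ∀ n, 0 ≤ ∫ z in unitCell N, a (base e z) * ‖(fderiv ℝ (f n) z).comp (inR e)‖ := fun n =>
    integral_nonneg fun z => mul_nonneg (ha0 _) (norm_nonneg _)
  constructor
  · have hmeas : ∀ n, Measurable (fun x : En m => ENNReal.ofReal (a x) *
        ENNReal.ofReal (∫ y in unitCell k, ‖fderiv ℝ (fun y => f n (join e x y)) y‖)) := by
      intro n
      refine ha.ennreal_ofReal.mul ?_
      have h1 : ∀ (x : En m) (y : En k), fderiv ℝ (fun y => f n (join e x y)) y =
          (fderiv ℝ (f n) (join e x y)).comp (inR e) :=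
        fun x y => (hasFDerivAt_slice e (hf n) x y).fderiv
      simp only [h1]
      have hf1' : ContDiff ℝ 1 (f n) := (hf n).of_le (by norm_cast)
      have hcL : Continuous (fun z => ‖(fderiv ℝ (f n) z).comp (inR e)‖) :=
        ((hf1'.continuous_fderiv one_ne_zero).clm_comp continuous_const).norm
      exact (stronglyMeasurable_fibre e hcL.measurable).measurable.ennreal_ofReal
    calc (∫⁻ x in unitCell m, ENNReal.ofReal (a x) * periodicPerimeter (slice e E x))
        ≤ ∫⁻ x in unitCell m, liminf (fun n => ENNReal.ofReal (a x) *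
          ENNReal.ofReal (∫ y in unitCell k, ‖fderiv ℝ (fun y => f n (join e x y)) y‖)) atTop := by
          apply lintegral_mono_ae
          refine ae_restrict_of_ae ?_
          filter_upwards [ae_ae_join e hlim] with x hx
          rw [ENNReal.liminf_const_mul_of_ne_top ENNReal.ofReal_ne_top]
          gcongr
          refine perimeter_le_liminf (measurableSet_slice e hE x)
            (f := fun n y => f n (join e x y)) ?_ ?_ ?_ ?_
          · exact fun n => (hf n).comp (contDiff_join_right e x)
          · exact fun n => isPer_slice e (hp n) x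
          · exact fun n y => h0 n _
          · refine ae_restrict_of_ae ?_
            filter_upwards [hx] with y hy
            rwa [chi_join] at hy
      _ ≤ liminf (fun n => ∫⁻ x in unitCell m, ENNReal.ofReal (a x) *
          ENNReal.ofReal (∫ y in unitCell k, ‖fderiv ℝ (fun y => f n (join e x y)) y‖)) atTop :=
          lintegral_liminf_le hmeas
      _ ≤ liminf (fun n => ENNReal.ofReal (P - ∫ x in unitCell m, divergence b x *
            ∫ y in unitCell k, f n (join e x y))) atTop := by
          refine liminf_le_liminf (Eventually.of_forall fun n => ?_) (by isBoundedDefault)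
          rw [lintegral_core e (hf n) (hp n) ha ha0 ha1]
          exact ENNReal.ofReal_le_ofReal (by linarith [hcore n])
      _ = ENNReal.ofReal (P - X) :=
          (ENNReal.tendsto_ofReal (hXn.const_sub P)).liminf_eq
  · exact le_of_tendsto hXn (Eventually.of_forall fun n => by linarith [hcore n, hnn n])


end Crest.Agent.R214.Slice
end

-- ▼ part R214/SliceCoord
section

/-!
Row 214, module G5 (dual slicing): slices and fibres along one coordinate direction.
-/

set_option autoImplicit false

open MeasureTheory Set Filter Topology Crest.GeometryTopology.PeriodicPerimeter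
open scoped ContDiff ENNReal

namespace Crest.Agent.R214.Slice

variable {n : ℕ}

/-- coordinate `i` and the others -/
noncomputable def spl (i : Fin (n + 1)) : Fin 1 ⊕ Fin n ≃ Fin (n + 1) :=
  Equiv.ofBijective (Sum.elim (fun _ => i) i.succAbove) (by
    constructor
    · rintro (x | x) (y | y) h
      · exact congrArg _ (Subsingleton.elim _ _)
      · exact absurd h.symm (Fin.succAbove_ne i y)
      · exact absurd h (Fin.succAbove_ne i x)
      · exact congrArg _ (Fin.succAbove_right_injective h)
    · intro j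
      by_cases h : j = i
      · exact ⟨Sum.inl 0, h.symm⟩
      · obtain ⟨y, hy⟩ := Fin.exists_succAbove_eq h
        exact ⟨Sum.inr y, hy⟩)

@[simp] theorem spl_inl (i : Fin (n + 1)) (x : Fin 1) : spl i (Sum.inl x) = i := rfl

@[simp] theorem spl_inr (i : Fin (n + 1)) (x : Fin n) : spl i (Sum.inr x) = i.succAbove x := rfl

theorem join_spl (i : Fin (n + 1)) (x : En 1) (y : En n) : join (spl i) x y = ins i (x 0) y := by
  refine ext_of (spl i) (fun j => ?_) (fun j => ?_)
  · rw [join_inl, spl_inl, ins_same, Subsingleton.elim j 0]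
  · rw [join_inr, spl_inr, ins_succAbove]

theorem slice_spl (i : Fin (n + 1)) (E : Set (En (n + 1))) (x : En 1) :
    slice (spl i) E x = sliceAt i E (x 0) := by
  ext y
  simp only [slice, sliceAt, mem_ofPred_eq, join_spl]

/-- the others and coordinate `i` -/
noncomputable def spr (i : Fin (n + 1)) : Fin n ⊕ Fin 1 ≃ Fin (n + 1) :=
  (Equiv.sumComm _ _).trans (spl i)

@[simp] theorem spr_inr (i : Fin (n + 1)) (x : Fin 1) : spr i (Sum.inr x) = i := rfl

@[simp] theorem spr_inl (i : Fin (n + 1)) (x : Fin n) : spr i (Sum.inl x) = i.succAbove x := rfl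



/-! ### `En 1` and `ℝ` -/

/-- the point of `En 1` with coordinate `t` -/
noncomputable def one (t : ℝ) : En 1 := EuclideanSpace.single 0 t

@[simp] theorem one_apply (t : ℝ) : one t 0 = t := by simp [one]

theorem one_coord (x : En 1) : one (x 0) = x := by
  ext j
  rw [Subsingleton.elim j 0, one_apply]

/-- `En 1` is isometric to `ℝ` -/
noncomputable def oneL : ℝ →L[ℝ] En 1 :=
  LinearMap.toContinuousLinearMap
    { toFun := one
      map_add' := fun s t => by
        ext j
        rw [Subsingleton.elim j 0]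
        simp
      map_smul' := fun c t => by
        ext j
        rw [Subsingleton.elim j 0]
        simp }

@[simp] theorem oneL_apply (t : ℝ) : oneL t = one t := rfl

theorem norm_one' (t : ℝ) : ‖one t‖ = |t| := by
  simp [one]

theorem measurePreserving_coord : MeasurePreserving (fun x : En 1 => x 0) volume volume := by
  have h1 := PiLp.volume_preserving_ofLp (Fin 1)
  have h2 := volume_preserving_funUnique (Fin 1) ℝ
  exact h2.comp h1

theorem measurableEmbedding_coord : MeasurableEmbedding (fun x : En 1 => x 0) := by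
  have h1 : Continuous (fun x : En 1 => x 0) := (EuclideanSpace.proj (𝕜 := ℝ) (0 : Fin 1)).continuous
  have h2 : Continuous (one : ℝ → En 1) := oneL.continuous
  exact (Homeomorph.mk ⟨fun x : En 1 => x 0, one, one_coord, one_apply⟩ h1 h2).measurableEmbedding

theorem preimage_coord : (fun x : En 1 => x 0) ⁻¹' Ico (0 : ℝ) 1 = unitCell 1 := by
  ext x
  simp [unitCell]

theorem lintegral_one (F : ℝ → ℝ≥0∞) :
    ∫⁻ x in unitCell 1, F (x 0) = ∫⁻ t in Ico (0 : ℝ) 1, F t := by
  rw [← measurePreserving_coord.setLIntegral_comp_preimage_emb measurableEmbedding_coord,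
    preimage_coord]

theorem integral_one (F : ℝ → ℝ) :
    ∫ x in unitCell 1, F (x 0) = ∫ t in Ico (0 : ℝ) 1, F t := by
  rw [← measurePreserving_coord.setIntegral_preimage_emb measurableEmbedding_coord,
    preimage_coord]



theorem divergence_one (b : ℝ → ℝ) (x : En 1) :
    divergence (fun x : En 1 => one (b (x 0))) x = deriv b (x 0) := by
  unfold divergence
  rw [Fin.sum_univ_one]
  by_cases h : DifferentiableAt ℝ b (x 0)
  · have h1 : HasFDerivAt (fun x : En 1 => x 0) (EuclideanSpace.proj (𝕜 := ℝ) (0 : Fin 1)) x :=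
      (EuclideanSpace.proj (𝕜 := ℝ) (0 : Fin 1)).hasFDerivAt
    have h2 := h.hasFDerivAt.comp x h1
    have h3 : HasFDerivAt (fun x : En 1 => one (b (x 0)))
        (oneL.comp ((fderiv ℝ b (x 0)).comp (EuclideanSpace.proj (𝕜 := ℝ) (0 : Fin 1)))) x :=
      oneL.hasFDerivAt.comp x h2
    rw [h3.fderiv]
    simp
  · rw [fderiv_zero_of_not_differentiableAt, deriv_zero_of_not_differentiableAt h]
    · simp
    · intro h'
      apply h
      have h1 : DifferentiableAt ℝ (fun x : En 1 => one (b (x 0))) (oneL (x 0)) := by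
        rw [oneL_apply, one_coord]; exact h'
      have h2 := h1.comp (x 0) oneL.differentiableAt
      have h3 := (EuclideanSpace.proj (𝕜 := ℝ) (0 : Fin 1)).differentiableAt.comp (x 0) h2
      have h4 : (EuclideanSpace.proj (𝕜 := ℝ) (0 : Fin 1)) ∘
          ((fun x : En 1 => one (b (x 0))) ∘ oneL) = b := by
        ext t
        simp
      rwa [h4] at h3


theorem isPer_one {G : Type*} {b : ℝ → G} (hb : Function.Periodic b 1) :
    IsPer (fun x : En 1 => b (x 0)) := by
  intro v hv x
  obtain ⟨k, hk⟩ := hv 0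
  simp only [PiLp.add_apply, hk]
  have := hb.int_mul k (x 0)
  simpa using this



end Crest.Agent.R214.Slice
end

-- ▼ part R214/SliceVol
section

/-!
Row 214, module G5 (dual slicing): measures of slices; the one-dimensional dual inequality
`MS.DualIneq` for the slice areas and the slice perimeters.
-/

set_option autoImplicit false

open MeasureTheory Set Filter Topology Crest.GeometryTopology.PeriodicPerimeter
open scoped ContDiff ENNReal

namespace Crest.Agent.R214.Slice

variable {m k N n : ℕ}

theorem periodicVolume_nonneg {n : ℕ} (S : Set (En n)) : 0 ≤ periodicVolume S :=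
  ENNReal.toReal_nonneg

theorem periodicVolume_le_one {n : ℕ} (S : Set (En n)) : periodicVolume S ≤ 1 := by
  unfold periodicVolume
  have h : (volume (S ∩ unitCell n)) ≤ 1 := by
    rw [← volume_unitCell n]
    exact measure_mono inter_subset_right
  simpa using ENNReal.toReal_mono ENNReal.one_ne_top h

theorem periodicVolume_slice_eq (e : Fin m ⊕ Fin k ≃ Fin N) {E : Set (En N)} (hE : MeasurableSet E)
    (x : En m) : periodicVolume (slice e E x) = ∫ y in unitCell k, chi E (join e x y) := by
  rw [← integral_chi (measurableSet_slice e hE x)]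
  simp only [chi_join]

theorem measurable_periodicVolume_slice (e : Fin m ⊕ Fin k ≃ Fin N) {E : Set (En N)}
    (hE : MeasurableSet E) : Measurable (fun x : En m => periodicVolume (slice e E x)) := by
  simp only [periodicVolume_slice_eq e hE]
  exact (stronglyMeasurable_fibre e (measurable_chi hE)).measurable

theorem integrableOn_chi {E : Set (En N)} (hE : MeasurableSet E) :
    IntegrableOn (chi E) (unitCell N) := by
  refine Integrable.mono' (integrable_const (1:ℝ)) (measurable_chi hE).aestronglyMeasurable ?_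
  refine ae_of_all _ fun z => ?_
  rw [Real.norm_eq_abs, abs_of_nonneg (chi_nonneg E z)]
  exact chi_le_one E z

/-- Fubini for the volume -/
theorem integral_periodicVolume_slice (e : Fin m ⊕ Fin k ≃ Fin N) {E : Set (En N)}
    (hE : MeasurableSet E) :
    ∫ x in unitCell m, periodicVolume (slice e E x) = periodicVolume E := by
  simp only [periodicVolume_slice_eq e hE]
  rw [← integral_cell_join e (integrableOn_chi hE), integral_chi hE]

/-! ### slices `{x_i = t}` -/

theorem sliceAt_eq (i : Fin (n + 1)) (E : Set (En (n + 1))) (t : ℝ) :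
    sliceAt i E t = slice (spl i) E (one t) := by
  rw [slice_spl, one_apply]


theorem measurableSet_sliceAt (i : Fin (n + 1)) {E : Set (En (n + 1))} (hE : MeasurableSet E)
    (t : ℝ) : MeasurableSet (sliceAt i E t) := by
  rw [sliceAt_eq]; exact measurableSet_slice _ hE _


theorem sliceAt_periodic (i : Fin (n + 1)) {E : Set (En (n + 1))} (hE : IsLatticePeriodic E)
    (t : ℝ) : IsLatticePeriodic (sliceAt i E t) := by
  rw [sliceAt_eq]; exact slice_periodic _ hE _


theorem sliceAt_add_one (i : Fin (n + 1)) {E : Set (En (n + 1))} (hE : IsLatticePeriodic E)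
    (t : ℝ) : sliceAt i E (t + 1) = sliceAt i E t := by
  rw [sliceAt_eq, sliceAt_eq, show one (t + 1) = one t + one 1 from (map_add oneL t 1)]
  exact slice_add _ hE _ _ (fun j => ⟨1, by rw [Subsingleton.elim j 0]; simp⟩)


theorem measurable_area (i : Fin (n + 1)) {E : Set (En (n + 1))} (hE : MeasurableSet E) :
    Measurable (fun t : ℝ => periodicVolume (sliceAt i E t)) := by
  simp only [sliceAt_eq]
  exact (measurable_periodicVolume_slice (spl i) hE).comp oneL.continuous.measurable


theorem integral_area (i : Fin (n + 1)) {E : Set (En (n + 1))} (hE : MeasurableSet E) :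
    ∫ t in Ico (0 : ℝ) 1, periodicVolume (sliceAt i E t) = periodicVolume E := by
  rw [← integral_one (fun t => periodicVolume (sliceAt i E t))]
  simp only [← slice_spl]
  exact integral_periodicVolume_slice (spl i) hE

theorem intervalIntegral_area (i : Fin (n + 1)) {E : Set (En (n + 1))} (hE : MeasurableSet E) :
    ∫ t in (0 : ℝ)..1, periodicVolume (sliceAt i E t) = periodicVolume E := by
  rw [intervalIntegral.integral_of_le zero_le_one, ← integral_Ico_eq_integral_Ioc]
  exact integral_area i hE


theorem area_BP (i : Fin (n + 1)) {E : Set (En (n + 1))} (hE : MeasurableSet E)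
    (hEp : IsLatticePeriodic E) : MS.BP (fun t => periodicVolume (sliceAt i E t)) where
  meas := measurable_area i hE
  bdd := ⟨1, fun t => by
    rw [abs_of_nonneg (periodicVolume_nonneg _)]; exact periodicVolume_le_one _⟩
  per := fun t => by simp only [sliceAt_add_one i hEp]

/-! ### the real-valued form of the slicing inequality -/

theorem sliceReal (i : Fin (n + 1)) {E : Set (En (n + 1))} (hE : MeasurableSet E)
    (hEp : IsLatticePeriodic E) (hP : periodicPerimeter E ≠ ⊤) {a b : ℝ → ℝ} {C : NNReal}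
    (ha : Measurable a) (hb : LipschitzWith C b) (hbp : Function.Periodic b 1)
    (ha0 : ∀ t, 0 ≤ a t) (hab : ∀ t, a t ^ 2 + b t ^ 2 ≤ 1) :
    (∫⁻ t in Ico (0 : ℝ) 1, ENNReal.ofReal (a t) * periodicPerimeter (sliceAt i E t)) ≤
      ENNReal.ofReal ((periodicPerimeter E).toReal -
        ∫ t in Ico (0 : ℝ) 1, deriv b t * periodicVolume (sliceAt i E t)) ∧
    ∫ t in Ico (0 : ℝ) 1, deriv b t * periodicVolume (sliceAt i E t) ≤
      (periodicPerimeter E).toReal := by
  have hcoordL : LipschitzWith 1 (fun x : En 1 => x 0) := by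
    refine LipschitzWith.of_dist_le_mul fun x y => ?_
    rw [NNReal.coe_one, one_mul, dist_eq_norm, dist_eq_norm]
    exact PiLp.norm_apply_le (x - y) 0
  have honeL : LipschitzWith 1 (one : ℝ → En 1) := by
    refine LipschitzWith.of_dist_le_mul fun s t => ?_
    rw [NNReal.coe_one, one_mul, dist_eq_norm, dist_eq_norm, ← oneL_apply, ← oneL_apply, ← map_sub,
      oneL_apply, norm_one', Real.norm_eq_abs]
  have h := slicing (spl i) hE hEp hP (a := fun x : En 1 => a (x 0))
    (ha.comp (EuclideanSpace.proj (𝕜 := ℝ) (0 : Fin 1)).continuous.measurable) (fun x => ha0 _)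
    (b := fun x : En 1 => one (b (x 0))) (C := 1 * (C * 1)) (honeL.comp (hb.comp hcoordL))
    (fun v hv x => congrArg one (isPer_one hbp v hv x))
    (fun x => by rw [norm_one', sq_abs]; exact hab _)
  simp only [slice_spl, divergence_one] at h
  rw [lintegral_one (fun t => ENNReal.ofReal (a t) * periodicPerimeter (sliceAt i E t)),
    integral_one (fun t => deriv b t * periodicVolume (sliceAt i E t))] at h
  exact h

/-- a `C¹` periodic function is Lipschitz -/
theorem lipschitz_of_periodic {b : ℝ → ℝ} (hb : ContDiff ℝ 1 b) (hbp : Function.Periodic b 1) :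
    ∃ C : NNReal, LipschitzWith C b := by
  have hd : Continuous (deriv b) := hb.continuous_deriv le_rfl
  have hdp : Function.Periodic (deriv b) 1 := by
    intro t
    have h1 : (fun u => b (u + 1)) = b := funext hbp
    rw [← deriv_comp_add_const, h1]
  obtain ⟨C, hC⟩ := isCompact_Icc.exists_bound_of_continuousOn (s := Icc (0:ℝ) 1) hd.continuousOn
  have hC' : ∀ t, ‖deriv b t‖ ≤ C := by
    intro t
    obtain ⟨y, hy, hty⟩ := hdp.exists_mem_Ico₀ one_pos t
    rw [hty]
    exact hC y (Ico_subset_Icc_self hy)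
  have hC0 : 0 ≤ C := (norm_nonneg _).trans (hC' 0)
  refine ⟨⟨C, hC0⟩, lipschitzWith_of_nnnorm_deriv_le (hb.differentiable one_ne_zero) fun t => ?_⟩
  exact_mod_cast hC' t

/-- the hypothesis of helper937's `MS` files -/
theorem dualIneq (i : Fin (n + 1)) {E : Set (En (n + 1))} (hE : MeasurableSet E)
    (hEp : IsLatticePeriodic E) (hP : periodicPerimeter E ≠ ⊤) {l : ℝ → ℝ} (hl : MS.BP l)
    (hlE : ∀ᵐ t ∂((volume : Measure ℝ).restrict (Ico (0 : ℝ) 1)),
      ENNReal.ofReal (l t) ≤ periodicPerimeter (sliceAt i E t)) :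
    MS.DualIneq (fun t => periodicVolume (sliceAt i E t)) l (periodicPerimeter E).toReal := by
  intro a b ha hb hap hbp ha0 hab
  obtain ⟨C, hC⟩ := lipschitz_of_periodic hb hbp
  obtain ⟨h1, h2⟩ := sliceReal i hE hEp hP ha.continuous.measurable hC hbp ha0 hab
  set X := ∫ t in Ico (0 : ℝ) 1, deriv b t * periodicVolume (sliceAt i E t) with hX
  rw [intervalIntegral.integral_of_le zero_le_one, intervalIntegral.integral_of_le zero_le_one,
    ← integral_Ico_eq_integral_Ioc, ← integral_Ico_eq_integral_Ioc, ← hX]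
  have hle : ∫⁻ t in Ico (0 : ℝ) 1, ENNReal.ofReal (a t * l t) ≤
      ENNReal.ofReal ((periodicPerimeter E).toReal - X) := by
    refine le_trans (lintegral_mono_ae ?_) h1
    filter_upwards [hlE] with t ht
    rw [ENNReal.ofReal_mul (ha0 t)]
    gcongr
  obtain ⟨D, hD⟩ := hl.bdd
  have ha1 : ∀ t, a t ≤ 1 := by
    intro t
    have h3 : a t ^ 2 ≤ 1 := by nlinarith [hab t, sq_nonneg (b t)]
    exact (abs_le.1 ((sq_le_one_iff_abs_le_one _).1 h3)).2
  have hint : IntegrableOn (fun t => a t * l t) (Ico (0 : ℝ) 1) := by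
    refine Integrable.mono' (integrable_const (1 * D)) ?_ ?_
    · exact (ha.continuous.measurable.mul hl.meas).aestronglyMeasurable
    · refine ae_of_all _ fun t => ?_
      rw [norm_mul, Real.norm_eq_abs, Real.norm_eq_abs, abs_of_nonneg (ha0 t)]
      exact mul_le_mul (ha1 t) (hD t) (abs_nonneg _) zero_le_one
  have h4 : ∫ t in Ico (0 : ℝ) 1, a t * l t ≤
      (∫⁻ t in Ico (0 : ℝ) 1, ENNReal.ofReal (a t * l t)).toReal := by
    rw [integral_eq_lintegral_pos_part_sub_lintegral_neg_part hint]
    linarith [ENNReal.toReal_nonneg (a := ∫⁻ t in Ico (0 : ℝ) 1, ENNReal.ofReal (-(a t * l t)))]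
  have h5 : (∫⁻ t in Ico (0 : ℝ) 1, ENNReal.ofReal (a t * l t)).toReal ≤
      (periodicPerimeter E).toReal - X := by
    have := ENNReal.toReal_mono ENNReal.ofReal_ne_top hle
    rwa [ENNReal.toReal_ofReal (by linarith)] at this
  linarith

end Crest.Agent.R214.Slice
end

-- ▼ part R214/SliceMeas
section

/-!
Row 214, module G5 (dual slicing): the perimeter of the slices is a measurable function.
-/

set_option autoImplicit false

open MeasureTheory Set Filter Topology Crest.GeometryTopology.PeriodicPerimeter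
open scoped ContDiff ENNReal

namespace Crest.Agent.R214.Slice

variable {m k N n : ℕ}

/-- the perimeter is the limit of the total variations of the mollifications -/
theorem perimeter_eq_liminf {S : Set (En k)} (hS : MeasurableSet S) (hp : IsLatticePeriodic S) :
    periodicPerimeter S =
      liminf (fun n => ENNReal.ofReal (∫ y in unitCell k, ‖fderiv ℝ (moll S n) y‖)) atTop := by
  apply le_antisymm
  · refine perimeter_le_liminf hS (contDiff_moll hS) (moll_per hp) (fun n y => ?_)
      (ae_restrict_of_ae (ae_tendsto_moll hS))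
    rw [abs_of_nonneg (moll_nonneg S n y)]
    exact moll_le_one hS n y
  · by_cases hP : periodicPerimeter S = ⊤
    · rw [hP]; exact le_top
    · have h : ∀ n, ENNReal.ofReal (∫ y in unitCell k, ‖fderiv ℝ (moll S n) y‖) ≤
          periodicPerimeter S := fun n =>
        (ENNReal.ofReal_le_iff_le_toReal hP).2 (integral_norm_fderiv_moll_le hS hp hP n)
      calc liminf (fun n => ENNReal.ofReal (∫ y in unitCell k, ‖fderiv ℝ (moll S n) y‖)) atTop
          ≤ liminf (fun _ : ℕ => periodicPerimeter S) atTop :=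
            liminf_le_liminf (Eventually.of_forall h) (by isBoundedDefault)
        _ = periodicPerimeter S := liminf_const _

theorem norm_functional (L : En k →L[ℝ] ℝ) :
    ‖L‖ = Real.sqrt (∑ i, (L (EuclideanSpace.single i 1)) ^ 2) := by
  set g := (InnerProductSpace.toDual ℝ (En k)).symm L with hg
  have h1 : ‖g‖ = ‖L‖ := by rw [hg, LinearIsometryEquiv.norm_map]
  rw [← h1, EuclideanSpace.norm_eq]
  congr 1
  refine Finset.sum_congr rfl fun i _ => ?_
  have h2 : L (EuclideanSpace.single i 1) = g i := by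
    have : L (EuclideanSpace.single i 1) = inner ℝ g (EuclideanSpace.single i (1:ℝ)) := by
      conv_lhs => rw [show L = InnerProductSpace.toDual ℝ (En k) g by rw [hg]; simp]
      rfl
    rw [this, EuclideanSpace.inner_single_right]
    simp
  rw [h2, Real.norm_eq_abs, sq_abs]

theorem measurable_moll_slice (e : Fin m ⊕ Fin k ≃ Fin N) {E : Set (En N)} (hE : MeasurableSet E)
    (j : ℕ) : StronglyMeasurable (fun p : En m × En k => moll (slice e E p.1) j p.2) := by
  have h1 : StronglyMeasurable (fun q : (En m × En k) × En k =>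
      ker j q.2 * chi E (join e q.1.1 (q.1.2 - q.2))) := by
    refine Measurable.stronglyMeasurable ?_
    refine Measurable.mul ((continuous_ker j).measurable.comp measurable_snd) ?_
    refine (measurable_chi hE).comp ?_
    have : Continuous (fun q : (En m × En k) × En k => join e q.1.1 (q.1.2 - q.2)) :=
      (continuous_join e).comp (by fun_prop : Continuous (fun q : (En m × En k) × En k =>
        (q.1.1, q.1.2 - q.2)))
    exact this.measurable
  have h2 := h1.integral_prod_right' (ν := (volume : Measure (En k)))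
  have h3 : (fun p : En m × En k => moll (slice e E p.1) j p.2) =
      fun p : En m × En k => ∫ u, ker j u * chi E (join e p.1 (p.2 - u)) := by
    ext p
    rw [moll_apply]
    simp only [chi_join]
  rw [h3]
  exact h2

theorem measurable_norm_fderiv_moll_slice (e : Fin m ⊕ Fin k ≃ Fin N) {E : Set (En N)}
    (hE : MeasurableSet E) (j : ℕ) :
    Measurable (fun p : En m × En k => ‖fderiv ℝ (moll (slice e E p.1) j) p.2‖) := by
  simp only [norm_functional]
  refine Measurable.sqrt (Finset.measurable_sum _ fun i _ => Measurable.pow_const ?_ 2)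
  have hm := (measurable_moll_slice e hE j).measurable
  refine measurable_of_tendsto_metrizable (f := fun (l : ℕ) (p : En m × En k) =>
    ((l : ℝ) + 1) * (moll (slice e E p.1) j (p.2 + ((l : ℝ) + 1)⁻¹ • EuclideanSpace.single i 1) -
      moll (slice e E p.1) j p.2)) (fun l => ?_) (tendsto_pi_nhds.2 fun p => ?_)
  · refine measurable_const.mul (Measurable.sub ?_ hm)
    exact hm.comp (measurable_fst.prodMk (measurable_snd.add_const _))
  · exact Inv.tendsto_slope_nat (((contDiff_moll (measurableSet_slice e hE p.1) j).differentiable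
      (by simp)) p.2) _

/-- the perimeter of the slices is measurable -/
theorem measurable_perimeter_slice (e : Fin m ⊕ Fin k ≃ Fin N) {E : Set (En N)}
    (hE : MeasurableSet E) (hEp : IsLatticePeriodic E) :
    Measurable (fun x : En m => periodicPerimeter (slice e E x)) := by
  have h : ∀ x : En m, periodicPerimeter (slice e E x) =
      liminf (fun j => ENNReal.ofReal (∫ y in unitCell k, ‖fderiv ℝ (moll (slice e E x) j) y‖))
        atTop := fun x =>
    perimeter_eq_liminf (measurableSet_slice e hE x) (slice_periodic e hEp x)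
  simp only [h]
  refine Measurable.liminf fun j => Measurable.ennreal_ofReal ?_
  have h1 := (measurable_norm_fderiv_moll_slice e hE j).stronglyMeasurable
  exact (h1.integral_prod_right' (ν := (volume : Measure (En k)).restrict (unitCell k))).measurable

theorem measurable_perimeter_sliceAt (i : Fin (n + 1)) {E : Set (En (n + 1))}
    (hE : MeasurableSet E) (hEp : IsLatticePeriodic E) :
    Measurable (fun t : ℝ => periodicPerimeter (sliceAt i E t)) := by
  simp only [sliceAt_eq]
  exact (measurable_perimeter_slice (spl i) hE hEp).comp oneL.continuous.measurable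


/-- `MS.DualIneq` for the slice perimeters truncated at any level -/
theorem dualIneq_trunc (i : Fin (n + 1)) {E : Set (En (n + 1))} (hE : MeasurableSet E)
    (hEp : IsLatticePeriodic E) (hP : periodicPerimeter E ≠ ⊤) (M : ℝ) (hM : 0 ≤ M) :
    MS.BP (fun t => (min (periodicPerimeter (sliceAt i E t)) (ENNReal.ofReal M)).toReal) ∧
    MS.DualIneq (fun t => periodicVolume (sliceAt i E t))
      (fun t => (min (periodicPerimeter (sliceAt i E t)) (ENNReal.ofReal M)).toReal)
      (periodicPerimeter E).toReal := by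
  have hBP : MS.BP (fun t => (min (periodicPerimeter (sliceAt i E t)) (ENNReal.ofReal M)).toReal) := by
    refine ⟨?_, ⟨M, fun t => ?_⟩, fun t => ?_⟩
    · exact ((measurable_perimeter_sliceAt i hE hEp).min measurable_const).ennreal_toReal
    · rw [abs_of_nonneg ENNReal.toReal_nonneg]
      have := ENNReal.toReal_mono ENNReal.ofReal_ne_top
        (min_le_right (periodicPerimeter (sliceAt i E t)) (ENNReal.ofReal M))
      rwa [ENNReal.toReal_ofReal hM] at this
    · simp only [sliceAt_add_one i hEp]
  refine ⟨hBP, dualIneq i hE hEp hP hBP (ae_of_all _ fun t => ?_)⟩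
  rw [ENNReal.ofReal_toReal]
  · exact min_le_left _ _
  · exact ne_top_of_le_ne_top ENNReal.ofReal_ne_top (min_le_right _ _)

end Crest.Agent.R214.Slice
end

-- ▼ part R214/DownBase
section

/-!
# R214: symmetric decreasing sets in space, slice areas, comparison with standard regions
-/

set_option autoImplicit false

open MeasureTheory Crest.GeometryTopology.PeriodicPerimeter Filter Topology Set

namespace Crest.Agent.R214.Down

open Crest.Agent.R214 Slice Rig

theorem pv_mono {n : ℕ} {D D' : Set (En n)} (h : D ⊆ D') : periodicVolume D ≤ periodicVolume D' := by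
  unfold periodicVolume
  refine ENNReal.toReal_mono ?_ (measure_mono (inter_subset_inter_left _ h))
  exact (Inv.volume_inter_unitCell_lt_top D').ne

theorem pv_nonneg {n : ℕ} (D : Set (En n)) : 0 ≤ periodicVolume D := ENNReal.toReal_nonneg

/-- slice areas -/
noncomputable def ar (i : Fin 3) (F : Set (En 3)) (t : ℝ) : ℝ := periodicVolume (sliceAt i F t)

theorem ar_nonneg (i : Fin 3) (F : Set (En 3)) (t : ℝ) : 0 ≤ ar i F t := pv_nonneg _

theorem ar_le_one (i : Fin 3) (F : Set (En 3)) (t : ℝ) : ar i F t ≤ 1 := Slice.periodicVolume_le_one _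

theorem ar_even {i : Fin 3} {F : Set (En 3)} (hd : SymDecAt i F) (t : ℝ) :
    ar i F (-t) = ar i F t := by
  unfold ar
  rw [sliceAt_congr hd (abs_cr_neg t)]

theorem ar_anti {i : Fin 3} {F : Set (En 3)} (hd : SymDecAt i F) :
    AntitoneOn (ar i F) (Ioo 0 (1 / 2)) := by
  intro x hx y hy hxy
  refine pv_mono (sliceAt_subset hd ?_ ?_)
  · rw [abs_of_pos hx.1, abs_of_pos hy.1]; exact hxy
  · rw [abs_of_pos hy.1]; exact hy.2.le

theorem ar_BP (i : Fin 3) {F : Set (En 3)} (hF : MeasurableSet F) (hper : IsLatticePeriodic F) :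
    MS.BP (ar i F) := area_BP i hF hper

theorem ar_int (i : Fin 3) {F : Set (En 3)} (hF : MeasurableSet F) :
    ∫ t in (0:ℝ)..1, ar i F t = periodicVolume F := intervalIntegral_area i hF

/-! ### comparison through slices -/

theorem ae_notMem_of_pv {n : ℕ} {S : Set (En n)} (hp : IsLatticePeriodic S)
    (h0 : periodicVolume S = 0) : ∀ᵐ x : En n, x ∉ S := by
  have h2 : (volume : Measure (En n)) (S ∩ unitCell n) = 0 := by
    unfold periodicVolume at h0
    rw [ENNReal.toReal_eq_zero_iff] at h0
    rcases h0 with h0 | h0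
    · exact h0
    · exact absurd h0 (Inv.volume_inter_unitCell_lt_top S).ne
  exact measure_eq_zero_iff_ae_notMem.1 (null_of_periodicVolume hp h2)

theorem diff_per {n : ℕ} {A B : Set (En n)} (hA : IsLatticePeriodic A) (hB : IsLatticePeriodic B) :
    IsLatticePeriodic (A \ B) := by
  intro v hv x
  simp only [Set.mem_sdiff, hA v hv x, hB v hv x]

theorem pv_diff {n : ℕ} {A B : Set (En n)} (hB : MeasurableSet B) :
    periodicVolume (A \ B) = periodicVolume A - periodicVolume (A ∩ B) := by
  unfold periodicVolume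
  have h1 : volume (A ∩ unitCell n) = volume (A ∩ B ∩ unitCell n) + volume ((A \ B) ∩ unitCell n) := by
    have := measure_inter_add_sdiff (μ := (volume : Measure (En n))) (A ∩ unitCell n) hB
    rw [← this]
    congr 2
    · ext x; simp only [mem_inter_iff]; tauto
    · ext x; simp only [mem_inter_iff, Set.mem_sdiff]; tauto
  rw [h1, ENNReal.toReal_add (Inv.volume_inter_unitCell_lt_top _).ne
    (Inv.volume_inter_unitCell_lt_top _).ne]
  ring

theorem ae_eq_of_slices (i : Fin 3) {F S : Set (En 3)} (hF : MeasurableSet F)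
    (hFp : IsLatticePeriodic F) (hS : MeasurableSet S) (hSp : IsLatticePeriodic S)
    (hvol : periodicVolume S = periodicVolume F)
    (h : ∀ᵐ t : ℝ, t ∈ Ioo (0:ℝ) 1 → periodicVolume (sliceAt i S t \ sliceAt i F t) = 0) :
    ∀ᵐ x : En 3, x ∈ F ↔ x ∈ S := by
  have h1 : periodicVolume (S \ F) = 0 := by
    rw [← intervalIntegral_area i (hS.diff hF)]
    have : ∫ t in (0:ℝ)..1, periodicVolume (sliceAt i (S \ F) t) = ∫ t in (0:ℝ)..1, (0:ℝ) := by
      refine intervalIntegral.integral_congr_ae ?_
      filter_upwards [h, ZC.ae_ne 1] with t ht h1 htI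
      rw [uIoc_of_le zero_le_one] at htI
      exact ht ⟨htI.1, lt_of_le_of_ne htI.2 h1⟩
    rw [this]; simp
  have h2 : periodicVolume (F \ S) = 0 := by
    have e1 := pv_diff (A := F) (B := S) hS
    have e2 := pv_diff (A := S) (B := F) hF
    rw [inter_comm] at e1
    linarith
  filter_upwards [ae_notMem_of_pv (diff_per hSp hFp) h1, ae_notMem_of_pv (diff_per hFp hSp) h2]
    with x hx1 hx2
  constructor
  · intro hx
    by_contra hxS
    exact hx2 ⟨hx, hxS⟩
  · intro hx
    by_contra hxF
    exact hx1 ⟨hx, hxF⟩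

/-! ### slices of standard regions -/

theorem rho2_map (i : Fin 3) (J : Finset (Fin 2)) (t : ℝ) (y : En 2) :
    rho2 (J.map i.succAboveEmb) (ins i t y) = rho2 J y := by
  unfold rho2
  rw [Finset.sum_map]
  refine Finset.sum_congr rfl fun j _ => ?_
  rw [Fin.succAboveEmb_apply, ins_succAbove]

theorem rho2_univ (i : Fin 3) (t : ℝ) (y : En 2) :
    rho2 Finset.univ (ins i t y) = dd t ^ 2 + rho2 Finset.univ y := by
  unfold rho2
  rw [Fin.sum_univ_succAbove _ i, ins_same]
  congr 1
  refine Finset.sum_congr rfl fun j _ => ?_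
  rw [ins_succAbove]

theorem rho2_single (i : Fin 3) (t : ℝ) (y : En 2) :
    rho2 {i} (ins i t y) = dd t ^ 2 := by
  unfold rho2
  rw [Finset.sum_singleton, ins_same]

theorem rho2_two (y : En 2) : rho2 Finset.univ y = cr (y 0) ^ 2 + cr (y 1) ^ 2 := by
  unfold rho2
  rw [Fin.sum_univ_two]
  rfl

theorem mem_slice_std (i : Fin 3) (J : Finset (Fin 3)) (r t : ℝ) (y : En 2) :
    y ∈ sliceAt i (stdReg J r 0) t ↔ rho2 J (ins i t y) < r ^ 2 := by
  show ins i t y ∈ stdReg J r 0 ↔ _
  rw [mem_stdReg, sub_zero]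

theorem pv_std_ball {J : Finset (Fin 3)} (hJ : J.card = 3) {r : ℝ} (hr : 0 < r) (hr2 : r < 1 / 2) :
    periodicVolume (stdReg J r (0 : En 3)) = 4 / 3 * Real.pi * r ^ 3 :=
  vol_ball (a := 0) hJ hr hr2 (Eventually.of_forall fun _ => Iff.rfl)

theorem pv_std_tube {J : Finset (Fin 3)} (hJ : J.card = 2) {r : ℝ} (hr : 0 < r) (hr2 : r < 1 / 2) :
    periodicVolume (stdReg J r (0 : En 3)) = Real.pi * r ^ 2 :=
  vol_tube (a := 0) hJ hr hr2 (Eventually.of_forall fun _ => Iff.rfl)

theorem pv_std_slab {J : Finset (Fin 3)} (hJ : J.card = 1) {r : ℝ} (hr : 0 < r) (hr2 : r < 1 / 2) :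
    periodicVolume (stdReg J r (0 : En 3)) = 2 * r :=
  vol_slab (a := 0) hJ hr hr2 (Eventually.of_forall fun _ => Iff.rfl)

/-! ### bound valid in every direction -/

/-- (half of the) lower bound for all slices -/
noncomputable def Jany (s : ℝ) : ℝ :=
  min (Real.sqrt (Real.pi * s)) (min 1 (Real.sqrt (Real.pi * (1 - s))))

theorem Jany_pos {s : ℝ} (h0 : 0 < s) (h1 : s < 1) : 0 < Jany s := by
  have hpi := Real.pi_pos
  refine lt_min (Real.sqrt_pos.2 (by positivity)) (lt_min one_pos (Real.sqrt_pos.2 ?_))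
  have : 0 < 1 - s := by linarith
  positivity


theorem Jany_le_one (s : ℝ) : Jany s ≤ 1 := (min_le_right _ _).trans (min_le_left _ _)

theorem any_bound {F : Set (En 3)} (hF : MeasurableSet F) (hper : IsLatticePeriodic F)
    (hd : ∀ j, SymDecAt j F) (i : Fin 3) (t : ℝ) :
    ENNReal.ofReal (2 * Jany (ar i F t)) ≤ periodicPerimeter (sliceAt i F t) := by
  have hS := Slice.measurableSet_sliceAt i hF t
  have hp := Slice.sliceAt_periodic i hper t
  have hd2 : ∀ j : Fin 2, SymDecAt j (sliceAt i F t) := fun j => symDecAt_sliceAt (hd _) _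
  have h01 : (0 : Fin 2) ≠ 1 := by decide
  unfold ar
  set s := periodicVolume (sliceAt i F t) with hs
  have m1 : Jany s ≤ Real.sqrt (Real.pi * s) := min_le_left _ _
  have m2 : Jany s ≤ 1 := (min_le_right _ _).trans (min_le_left _ _)
  have m3 : Jany s ≤ Real.sqrt (Real.pi * (1 - s)) := (min_le_right _ _).trans (min_le_right _ _)
  have m4 : Jany s ≤ max 1 (Tfun (s - 1)) := m2.trans (le_max_left _ _)
  by_cases c1 : Touch 0 1 (sliceAt i F t)
  · by_cases c2 : Touch 1 0 (sliceAt i F t)
    · exact le_trans (ENNReal.ofReal_le_ofReal (by linarith))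
        (planar_type2_sqrt h01 hS hp (hd2 0) (hd2 1) c1 c2)
    · refine le_trans (ENNReal.ofReal_le_ofReal (by linarith))
        (planar_type1 h01 hS hp (hd2 0) (hd2 1) c1 c2 (q := 1) (by norm_num) ?_)
      intro h' h1' h2' hA
      linarith
  · by_cases c2 : Touch 1 0 (sliceAt i F t)
    · refine le_trans (ENNReal.ofReal_le_ofReal (by linarith))
        (planar_type1 h01.symm hS hp (hd2 1) (hd2 0) c2 c1 (q := 1) (by norm_num) ?_)
      intro h' h1' h2' hA
      linarith
    · exact le_trans (ENNReal.ofReal_le_ofReal (by linarith))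
        (planar_type0 h01 hS hp (hd2 0) (hd2 1) c1 c2)

end Crest.Agent.R214.Down
end

-- ▼ part R214/DownEq
section

/-!
# R214: equality cases for symmetric decreasing sets: ball, tube, slab
-/

set_option autoImplicit false

open MeasureTheory Crest.GeometryTopology.PeriodicPerimeter Filter Topology Set

namespace Crest.Agent.R214.Down

open Crest.Agent.R214 Slice Rig

variable {F : Set (En 3)} {i : Fin 3}

/-- a slice of minimal perimeter which does not touch contains the disc -/
theorem disc_slice (hF : MeasurableSet F) (hper : IsLatticePeriodic F)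
    (hd : ∀ j, SymDecAt j F) {t : ℝ} (c1 : ¬ Touch 0 1 (sliceAt i F t))
    (c2 : ¬ Touch 1 0 (sliceAt i F t)) (hs0 : 0 < ar i F t)
    (hP : periodicPerimeter (sliceAt i F t) ≤ ENNReal.ofReal (2 * Real.sqrt (Real.pi * ar i F t)))
    {y : En 2} (hy : cr (y 0) ^ 2 + cr (y 1) ^ 2 < ar i F t / Real.pi) : y ∈ sliceAt i F t := by
  have hpi := Real.pi_pos
  have hS := Slice.measurableSet_sliceAt i hF t
  have hp := Slice.sliceAt_periodic i hper t
  have hd2 : ∀ j : Fin 2, SymDecAt j (sliceAt i F t) := fun j => symDecAt_sliceAt (hd _) _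
  have h01 : (0 : Fin 2) ≠ 1 := by decide
  have hR : 0 < Real.sqrt (ar i F t / Real.pi) := Real.sqrt_pos.2 (by positivity)
  have hRsq : Real.sqrt (ar i F t / Real.pi) ^ 2 = ar i F t / Real.pi :=
    Real.sq_sqrt (by positivity)
  have e1 : 2 * Real.sqrt (Real.pi * ar i F t) = 2 * Real.pi * Real.sqrt (ar i F t / Real.pi) := by
    have : Real.sqrt (Real.pi * ar i F t) = Real.pi * Real.sqrt (ar i F t / Real.pi) := by
      rw [show Real.pi * ar i F t = Real.pi ^ 2 * (ar i F t / Real.pi) by field_simp,
        Real.sqrt_mul (by positivity), Real.sqrt_sq hpi.le]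
    rw [this]; ring
  refine disc_incl h01 hS hp (hd2 0) (hd2 1) c1 c2 (ne_top_of_le_ne_top ENNReal.ofReal_ne_top hP)
    hR ?_ ?_ (x := y) ?_
  · rw [← e1]
    have := ENNReal.toReal_mono ENNReal.ofReal_ne_top hP
    rwa [ENNReal.toReal_ofReal (by positivity)] at this
  · rw [hRsq]
    show ar i F t = _
    field_simp
  · rw [hRsq]; exact hy

/-- reduction of a slice to the half period -/
theorem exists_tau (hd : SymDecAt i F) {t : ℝ} (ht : t ∈ Ioo (0:ℝ) 1) (hne : t ≠ 1 / 2) :
    ∃ τ ∈ Ioo (0:ℝ) (1 / 2), |cr t| = τ ∧ sliceAt i F t = sliceAt i F τ := by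
  refine ⟨|cr t|, ⟨cr_ne_zero ht, ?_⟩, rfl, sliceAt_congr hd ?_⟩
  · refine lt_of_le_of_ne (abs_cr_le t) fun heq => hne ?_
    rcases lt_or_gt_of_ne hne with h3 | h3
    · have : cr t = t := cr_of_mem ⟨by linarith [ht.1], h3⟩
      rw [this, abs_of_pos ht.1] at heq
      exact heq
    · have : cr (t - 1) = t - 1 := cr_of_mem ⟨by linarith, by linarith [ht.2]⟩
      have h4 : cr t = t - 1 := by
        rw [← this, ← cr_add_one (t - 1), sub_add_cancel]
      rw [h4, abs_of_neg (by linarith [ht.2])] at heq
      linarith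
  · have h5 : |(|cr t|)| ≤ 1 / 2 := by rw [abs_abs]; exact abs_cr_le t
    rw [abs_cr_of_le h5, abs_abs]

/-- common part of the ball and tube cases -/
theorem std_of_slices (hF : MeasurableSet F) (hper : IsLatticePeriodic F)
    (hd : ∀ j, SymDecAt j F) {J : Finset (Fin 3)} {r : ℝ}
    (hvol : periodicVolume (stdReg J r (0 : En 3)) = periodicVolume F)
    (hPs : ∀ᵐ t : ℝ, t ∈ Ioo (0:ℝ) 1 → 0 < ar i F t →
      periodicPerimeter (sliceAt i F t) ≤ ENNReal.ofReal (2 * Real.sqrt (Real.pi * ar i F t)))
    (hnt : ∀ t : ℝ, 0 < |t| → |t| < 1 / 2 → 0 < ar i F t →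
      periodicPerimeter (sliceAt i F t) ≤ ENNReal.ofReal (2 * Real.sqrt (Real.pi * ar i F t)) →
      ¬ Touch 0 1 (sliceAt i F t) ∧ ¬ Touch 1 0 (sliceAt i F t))
    (hinc : ∀ t ∈ Ioo (0:ℝ) 1, t ≠ 1 / 2 → ∀ y : En 2, rho2 J (ins i t y) < r ^ 2 →
      0 < ar i F t ∧ cr (y 0) ^ 2 + cr (y 1) ^ 2 < ar i F t / Real.pi) :
    ∀ᵐ x : En 3, x ∈ F ↔ x ∈ stdReg J r 0 := by
  refine ae_eq_of_slices i hF hper (measurableSet_stdReg J r 0) (stdReg_per J r 0) hvol ?_
  filter_upwards [hPs, ZC.ae_ne (1 / 2)] with t ht hne htI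
  have hsub : sliceAt i (stdReg J r 0) t ⊆ sliceAt i F t := by
    intro y hy
    rw [mem_slice_std] at hy
    obtain ⟨h1, h2⟩ := hinc t htI hne y hy
    obtain ⟨τ, hτ, -, he⟩ := exists_tau (hd i) htI hne
    have hP := ht htI h1
    have har : ar i F t = ar i F τ := by unfold ar; rw [he]
    rw [he]
    rw [he, har] at hP
    rw [har] at h1 h2
    have hτa : |τ| = τ := abs_of_pos hτ.1
    obtain ⟨c1, c2⟩ := hnt τ (by rw [hτa]; exact hτ.1) (by rw [hτa]; exact hτ.2) h1 hP
    exact disc_slice hF hper hd c1 c2 h1 hP h2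
  rw [sdiff_eq_empty.2 hsub]
  simp [periodicVolume]

/-- **ball** -/
theorem ball_case (hF : MeasurableSet F) (hper : IsLatticePeriodic F)
    (hd : ∀ j, SymDecAt j F) {r : ℝ} (hr : 0 < r) (hr2 : r < 1 / 2)
    (hV : periodicVolume F = 4 / 3 * Real.pi * r ^ 3)
    (hprof : ∀ t ∈ Ioo (0:ℝ) (1 / 2), ar i F t = Real.pi * (r ^ 2 - (min t r) ^ 2))
    (hPs : ∀ᵐ t : ℝ, t ∈ Ioo (0:ℝ) 1 → 0 < ar i F t →
      periodicPerimeter (sliceAt i F t) ≤ ENNReal.ofReal (2 * Real.sqrt (Real.pi * ar i F t)))
    (hnt : ∀ t : ℝ, 0 < |t| → |t| < 1 / 2 → 0 < ar i F t →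
      periodicPerimeter (sliceAt i F t) ≤ ENNReal.ofReal (2 * Real.sqrt (Real.pi * ar i F t)) →
      ¬ Touch 0 1 (sliceAt i F t) ∧ ¬ Touch 1 0 (sliceAt i F t)) :
    ∀ᵐ x : En 3, x ∈ F ↔ x ∈ stdReg Finset.univ r 0 := by
  have hpi := Real.pi_pos
  refine std_of_slices (i := i) hF hper hd ?_ hPs hnt ?_
  · rw [pv_std_ball (by simp) hr hr2, hV]
  · intro t ht hne y hy
    obtain ⟨τ, hτ, hcr, he⟩ := exists_tau (hd i) ht hne
    have har : ar i F t = ar i F τ := by unfold ar; rw [he]
    rw [rho2_univ, rho2_two] at hy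
    have hdd : dd t ^ 2 = τ ^ 2 := by
      rw [← hcr, sq_abs]; rfl
    rw [hdd] at hy
    have h1 : τ < r := by
      by_contra hcon
      rw [not_lt] at hcon
      nlinarith [sq_nonneg (cr (y 0)), sq_nonneg (cr (y 1))]
    rw [har, hprof τ hτ, min_eq_left h1.le]
    have h2 : 0 < r ^ 2 - τ ^ 2 := by nlinarith [hτ.1]
    refine ⟨by positivity, ?_⟩
    rw [mul_div_cancel_left₀ _ hpi.ne']
    linarith

/-- **tube** -/
theorem tube_case (hF : MeasurableSet F) (hper : IsLatticePeriodic F)
    (hd : ∀ j, SymDecAt j F) {r : ℝ} (hr : 0 < r) (hr2 : r < 1 / 2)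
    (hV : periodicVolume F = Real.pi * r ^ 2)
    (hprof : ∀ t ∈ Ioo (0:ℝ) (1 / 2), ar i F t = Real.pi * r ^ 2)
    (hPs : ∀ᵐ t : ℝ, t ∈ Ioo (0:ℝ) 1 → 0 < ar i F t →
      periodicPerimeter (sliceAt i F t) ≤ ENNReal.ofReal (2 * Real.sqrt (Real.pi * ar i F t)))
    (hnt : ∀ t : ℝ, 0 < |t| → |t| < 1 / 2 → 0 < ar i F t →
      periodicPerimeter (sliceAt i F t) ≤ ENNReal.ofReal (2 * Real.sqrt (Real.pi * ar i F t)) →
      ¬ Touch 0 1 (sliceAt i F t) ∧ ¬ Touch 1 0 (sliceAt i F t)) :
    ∀ᵐ x : En 3, x ∈ F ↔ x ∈ stdReg ((Finset.univ : Finset (Fin 2)).map i.succAboveEmb) r 0 := by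
  have hpi := Real.pi_pos
  refine std_of_slices (i := i) hF hper hd ?_ hPs hnt ?_
  · rw [pv_std_tube (by simp) hr hr2, hV]
  · intro t ht hne y hy
    obtain ⟨τ, hτ, hcr, he⟩ := exists_tau (hd i) ht hne
    have har : ar i F t = ar i F τ := by unfold ar; rw [he]
    rw [rho2_map, rho2_two] at hy
    rw [har, hprof τ hτ]
    refine ⟨by positivity, ?_⟩
    rw [mul_div_cancel_left₀ _ hpi.ne']
    exact hy

/-- **slab** -/
theorem slab_case (hF : MeasurableSet F) (hper : IsLatticePeriodic F)
    (hd : ∀ j, SymDecAt j F) (hv0 : 0 < periodicVolume F) (hv : periodicVolume F < 1)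
    (h01 : ∀ᵐ t : ℝ, t ∈ Ioo (0:ℝ) 1 → ar i F t = 0 ∨ ar i F t = 1) :
    ∀ᵐ x : En 3, x ∈ F ↔ x ∈ stdReg {i} (periodicVolume F / 2) 0 := by
  set v := periodicVolume F with hvdef
  have hbp := ar_BP i hF hper
  have hanti := ar_anti (hd i)
  have hint : ∫ t in (0:ℝ)..(1 / 2), ar i F t = v / 2 := by
    have h1 := ar_int i hF
    rw [MS.half_int (hbp.intervalIntegrable _ _) hbp.per (ar_even (hd i))] at h1
    linarith
  -- the area is one for `t < v / 2`
  have hone : ∀ t ∈ Ioo (0:ℝ) (1 / 2), t < v / 2 → ar i F t = 1 := by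
    intro t ht htv
    by_contra hne
    have hlt : ar i F t < 1 := lt_of_le_of_ne (ar_le_one _ _ _) hne
    have hz : ∫ x in t..(1 / 2), ar i F x = 0 := by
      have : ∫ x in t..(1 / 2), ar i F x = ∫ x in t..(1 / 2), (0:ℝ) := by
        refine intervalIntegral.integral_congr_ae ?_
        filter_upwards [h01, ZC.ae_ne (1 / 2)] with x hx hxne hxI
        rw [uIoc_of_le ht.2.le] at hxI
        have hx2 : x < 1 / 2 := lt_of_le_of_ne hxI.2 hxne
        rcases hx ⟨ht.1.trans hxI.1, by linarith⟩ with h | h
        · exact h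
        · have := hanti ht ⟨ht.1.trans hxI.1, hx2⟩ hxI.1.le
          linarith
      rw [this]; simp
    have hle : ∫ x in (0:ℝ)..t, ar i F x ≤ ∫ x in (0:ℝ)..t, (1:ℝ) :=
      intervalIntegral.integral_mono_on ht.1.le (hbp.intervalIntegrable _ _)
        intervalIntegrable_const (fun x _ => ar_le_one _ _ _)
    rw [intervalIntegral.integral_const, smul_eq_mul, mul_one, sub_zero] at hle
    rw [← intervalIntegral.integral_add_adjacent_intervals (hbp.intervalIntegrable 0 t)
      (hbp.intervalIntegrable t (1 / 2)), hz] at hint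
    linarith
  refine ae_eq_of_slices i hF hper (measurableSet_stdReg _ _ 0) (stdReg_per _ _ 0) ?_ ?_
  · rw [pv_std_slab (by simp) (by linarith) (by linarith)]
    ring
  · filter_upwards [ZC.ae_ne (1 / 2)] with t hne ht
    obtain ⟨τ, hτ, hcr, he⟩ := exists_tau (hd i) ht hne
    by_cases hτv : τ < v / 2
    · have h1 := hone τ hτ hτv
      unfold ar at h1
      rw [he]
      have h2 := pv_diff (A := (univ : Set (En 2))) (Slice.measurableSet_sliceAt i hF τ)
      rw [univ_inter, h1] at h2
      have h3 : periodicVolume (univ : Set (En 2)) ≤ 1 := Slice.periodicVolume_le_one _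
      have h4 : periodicVolume (sliceAt i (stdReg {i} (v / 2) 0) t \ sliceAt i F τ)
          ≤ periodicVolume (univ \ sliceAt i F τ) := pv_mono (sdiff_subset_sdiff_left (subset_univ _))
      have h5 := pv_nonneg (sliceAt i (stdReg {i} (v / 2) 0) t \ sliceAt i F τ)
      linarith
    · have hem : sliceAt i (stdReg {i} (v / 2) 0) t = ∅ := by
        ext y
        rw [mem_slice_std, rho2_single]
        simp only [mem_empty_iff_false, iff_false, not_lt]
        have hdd : dd t ^ 2 = τ ^ 2 := by
          rw [← hcr, sq_abs]; rfl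
        rw [hdd]
        rw [not_lt] at hτv
        exact pow_le_pow_left₀ (by linarith) hτv 2
      rw [hem, empty_sdiff]
      simp [periodicVolume]

end Crest.Agent.R214.Down
end

-- ▼ part R214/DownMain

/-!
# R214: the isoperimetric inequality and its equality case for symmetric decreasing sets
-/

set_option autoImplicit false

open MeasureTheory Crest.GeometryTopology.PeriodicPerimeter Filter Topology Set

namespace Crest.Agent.R214.Down

open Crest.Agent.R214 Slice Rig

/-- slices of disc perimeter do not touch -/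
def NoTouch : Prop := ∀ (F : Set (En 3)), MeasurableSet F → IsLatticePeriodic F →
  (∀ j, SymDecAt j F) → ∀ i : Fin 3, GoodDir i F (1 / 20) → ∀ t : ℝ, 0 < |t| → |t| < 1 / 2 →
  0 < ar i F t → ar i F t ≤ Real.pi / 9 →
  periodicPerimeter (sliceAt i F t) ≤ ENNReal.ofReal (2 * Real.sqrt (Real.pi * ar i F t)) →
  ¬ Touch 0 1 (sliceAt i F t) ∧ ¬ Touch 1 0 (sliceAt i F t)

/-- truncated slice perimeter -/
noncomputable def lt10 (i : Fin 3) (F : Set (En 3)) (t : ℝ) : ℝ :=
  (min (periodicPerimeter (sliceAt i F t)) (ENNReal.ofReal 10)).toReal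

variable {F : Set (En 3)} {i : Fin 3}

theorem le_lt10 {t x : ℝ} (h : ENNReal.ofReal x ≤ periodicPerimeter (sliceAt i F t))
    (hx : x ≤ 10) : x ≤ lt10 i F t := by
  unfold lt10
  rcases le_or_gt 0 x with h0 | h0
  · have h1 : ENNReal.ofReal x ≤ min (periodicPerimeter (sliceAt i F t)) (ENNReal.ofReal 10) :=
      le_min h (ENNReal.ofReal_le_ofReal hx)
    have h2 := ENNReal.toReal_mono (ne_top_of_le_ne_top ENNReal.ofReal_ne_top (min_le_right _ _)) h1
    rwa [ENNReal.toReal_ofReal h0] at h2
  · exact h0.le.trans ENNReal.toReal_nonneg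

theorem perimeter_le_of_lt10 {t x : ℝ} (h : lt10 i F t ≤ x) (hx : x < 10) :
    periodicPerimeter (sliceAt i F t) ≤ ENNReal.ofReal x := by
  unfold lt10 at h
  have hne : min (periodicPerimeter (sliceAt i F t)) (ENNReal.ofReal 10) ≠ ⊤ :=
    ne_top_of_le_ne_top ENNReal.ofReal_ne_top (min_le_right _ _)
  have h1 : min (periodicPerimeter (sliceAt i F t)) (ENNReal.ofReal 10) ≤ ENNReal.ofReal x := by
    rw [← ENNReal.ofReal_toReal hne]
    exact ENNReal.ofReal_le_ofReal h
  rcases min_le_iff.1 h1 with h2 | h2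
  · exact h2
  · exfalso
    have h3 : (10:ℝ) ≤ x := by
      by_contra hcon
      rw [not_le] at hcon
      exact absurd h2 (not_le.2 ((ENNReal.ofReal_lt_ofReal_iff (by norm_num)).2 hcon))
    linarith

theorem sqrt_pi_le {s : ℝ} (hs : s ≤ 1) : Real.sqrt (Real.pi * s) ≤ 2 := by
  apply Real.sqrt_le_iff.2
  refine ⟨by norm_num, ?_⟩
  have := Real.pi_pos
  have := Real.pi_lt_four
  nlinarith

theorem Jgood_le (h : ℝ) {s : ℝ} (hs : s ≤ 1) : Jgood h s ≤ 2 :=
  (min_le_left _ _).trans (sqrt_pi_le hs)

theorem Ufun_le_five {s e : ℝ} (hs : s ≤ 1) (he : 3 / 10 ≤ e) (he1 : e ≤ 1) :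
    Ufun s e ≤ 5 := by
  unfold Ufun
  have hpi := Real.pi_lt_four
  have hpi0 := Real.pi_pos
  split_ifs
  · have h1 : s / e ≤ 10 / 3 := by
      rw [div_le_iff₀ (by linarith)]
      nlinarith
    have h2 : Real.pi * e / 4 ≤ 1 := by
      nlinarith
    linarith
  · linarith [sqrt_pi_le hs]

/-- `prof` in terms of `m0` -/
theorem prof_eq (v : ℝ) : Inv.prof v = 2 * min (m0 v) 1 := by
  have hpi := Real.pi_pos
  unfold Inv.prof m0
  have h1 : (36 * Real.pi) ^ ((1:ℝ) / 3) = 2 * (9 * Real.pi / 2) ^ ((1:ℝ) / 3) := by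
    have : (36 * Real.pi) = 2 ^ (3:ℕ) * (9 * Real.pi / 2) := by ring
    rw [this, Real.mul_rpow (by positivity) (by positivity), ← Real.rpow_natCast,
      ← Real.rpow_mul (by norm_num)]
    norm_num
  rw [h1, mul_min_of_nonneg _ _ (by norm_num : (0:ℝ) ≤ 2),
    mul_min_of_nonneg _ _ (by norm_num : (0:ℝ) ≤ 2), mul_one, mul_assoc]

/-- the data of a symmetric decreasing set -/
theorem data_of (hF : MeasurableSet F) (hper : IsLatticePeriodic F)
    (hd : ∀ j, SymDecAt j F) (hP : periodicPerimeter F ≠ ⊤)
    (hv1 : periodicVolume F ≤ 1 / 2) (i : Fin 3) :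
    ∃ A B : ℝ, ZC.Prof (ar i F) (lt10 i F) (periodicPerimeter F).toReal A B := by
  obtain ⟨hl, H⟩ := dualIneq_trunc i hF hper hP 10 (by norm_num)
  obtain ⟨A, hA, -⟩ := MS.exists_right_lim (ar_BP i hF hper) (ar_anti (hd i)) le_rfl
    (by norm_num : (0:ℝ) < 1 / 2)
  obtain ⟨B, hB, -⟩ := MS.exists_left_lim (ar_BP i hF hper) (ar_anti (hd i))
  refine ⟨A, B, ?_⟩
  exact
    { hs := ar_BP i hF hper
      hl := hl
      even := ar_even (hd i)
      anti := ar_anti (hd i)
      s01 := fun t => ⟨ar_nonneg _ _ _, ar_le_one _ _ _⟩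
      dual := H
      hA := hA
      hB := hB
      hv := by rw [ar_int i hF]; exact hv1 }

/-- the slab from the corner values -/
theorem slab_final (hF : MeasurableSet F) (hper : IsLatticePeriodic F)
    (hd : ∀ j, SymDecAt j F) (hv0 : 0 < periodicVolume F)
    (hv1 : periodicVolume F ≤ 1 / 2) {A B : ℝ}
    (D : ZC.Prof (ar i F) (lt10 i F) (periodicPerimeter F).toReal A B)
    (hA : A = 1) (hB : B = 0) (hP2 : (periodicPerimeter F).toReal ≤ 2) :
    ∃ (J : Finset (Fin 3)) (r : ℝ), J.Nonempty ∧ 0 < r ∧ r < 1 / 2 ∧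
      ∀ᵐ x : En 3, x ∈ F ↔ x ∈ stdReg J r 0 := by
  refine ⟨{i}, periodicVolume F / 2, by simp, by linarith, by linarith, ?_⟩
  refine slab_case hF hper hd hv0 (by linarith) ?_
  have h1 := MS.slab_profile D.hs D.hl (fun _ => ENNReal.toReal_nonneg) D.even D.anti D.dual
    (A := A) (B := B) (by rw [hA, hB]; linarith) D.hA D.hB
  rw [ae_restrict_iff' measurableSet_Ioo] at h1
  filter_upwards [h1] with t ht htI
  have h2 := ht htI
  have h3 : 2 * Jany (ar i F t) ≤ lt10 i F t := le_lt10 (any_bound hF hper hd i t) (by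
        linarith [Jany_le_one (ar i F t)])
  by_contra hcon
  rw [not_or] at hcon
  have h4 := Jany_pos (lt_of_le_of_ne (ar_nonneg i F t) (Ne.symm hcon.1))
    (lt_of_le_of_ne (ar_le_one i F t) hcon.2)
  linarith

/-- a.e. on `(0,1)` from a.e. in `|t| < 1/2` for periodic even data -/
theorem ae_shift {p : ℝ → Prop} (hp : ∀ t, p (t + 1) ↔ p t)
    (h : ∀ᵐ t : ℝ, |t| < 1 / 2 → p t) : ∀ᵐ t : ℝ, t ∈ Ioo (0:ℝ) 1 → p t := by
  have h2 : ∀ᵐ t : ℝ, |t - 1| < 1 / 2 → p (t - 1) := by
    have := (measurePreserving_sub_right (volume : Measure ℝ) 1).quasiMeasurePreserving.ae h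
    exact this
  filter_upwards [h, h2, ZC.ae_ne (1 / 2)] with t h1 h2 hne ht
  rcases lt_or_gt_of_ne hne with h3 | h3
  · exact h1 (by rw [abs_of_pos ht.1]; exact h3)
  · have := h2 (by rw [abs_lt]; constructor <;> linarith [ht.2])
    rw [← hp (t - 1), sub_add_cancel] at this
    exact this

theorem lt10_per (hper : IsLatticePeriodic F) (t : ℝ) : lt10 i F (t + 1) = lt10 i F t := by
  unfold lt10
  rw [Slice.sliceAt_add_one i hper]

theorem ar_per (hper : IsLatticePeriodic F) (t : ℝ) : ar i F (t + 1) = ar i F t := by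
  unfold ar
  rw [Slice.sliceAt_add_one i hper]

/-- the exact region: ball or tube -/
theorem exact_final (hN : NoTouch) (hF : MeasurableSet F) (hper : IsLatticePeriodic F)
    (hd : ∀ j, SymDecAt j F) (hg : GoodDir i F (1 / 20)) (hv0 : 0 < periodicVolume F)
    {A B : ℝ} (D : ZC.Prof (ar i F) (lt10 i F) (periodicPerimeter F).toReal A B)
    (hlow : ∀ᵐ t : ℝ, |t| < 1 / 2 → 2 * Real.sqrt (Real.pi * ar i F t) ≤ lt10 i F t)
    (hBA : B < A → B = 0 ∧ (∫ t in (0:ℝ)..1, ar i F t) =
        4 * Real.sqrt A ^ 3 / (3 * Real.sqrt Real.pi) ∧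
      (∫ t in (0:ℝ)..1, ar i F t) ≤ 4 * Real.pi / 81)
    (hPm : (periodicPerimeter F).toReal ≤ 2 * min (m0 (periodicVolume F)) 1) :
    ∃ (J : Finset (Fin 3)) (r : ℝ), J.Nonempty ∧ 0 < r ∧ r < 1 / 2 ∧
      ∀ᵐ x : En 3, x ∈ F ↔ x ∈ stdReg J r 0 := by
  have hpi := Real.pi_pos
  have hpi3 := Real.pi_gt_three
  set v := periodicVolume F with hvdef
  have hint : ∫ t in (0:ℝ)..1, ar i F t = v := ar_int i hF
  have hlow' : ∀ᵐ t : ℝ, t ∈ Ioo (0:ℝ) 1 → 2 * Real.sqrt (Real.pi * ar i F t) ≤ lt10 i F t :=
    ae_shift (fun t => by rw [lt10_per hper, ar_per hper]) hlow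
  have hAle : ∀ t ∈ Ioo (0:ℝ) (1 / 2), ar i F t ≤ A := fun t ht =>
    (ZC.range_mem D.hs D.anti D.hA D.hB ht).2
  have hBle : ∀ t ∈ Ioo (0:ℝ) (1 / 2), B ≤ ar i F t := fun t ht =>
    (ZC.range_mem D.hs D.anti D.hA D.hB ht).1
  obtain ⟨hBv, hvA⟩ := D.vol_bounds
  rw [hint] at hBv hvA
  have hBA' : B ≤ A := hBv.trans hvA
  have hPs : ∀ {c : ℝ}, c < 10 → ∀ t, lt10 i F t ≤ c → periodicPerimeter (sliceAt i F t)
      ≤ ENNReal.ofReal c := fun hc t h => perimeter_le_of_lt10 h hc
  rcases hBA'.lt_or_eq with hlt | heq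
  · -- ball
    obtain ⟨hB0, hv, hv81⟩ := hBA hlt
    rw [hint] at hv hv81
    have hA0 : 0 < A := by rw [hB0] at hlt; exact hlt
    set r : ℝ := Real.sqrt A / Real.sqrt Real.pi with hr
    have hsA : 0 < Real.sqrt A := Real.sqrt_pos.2 hA0
    have hsp : 0 < Real.sqrt Real.pi := Real.sqrt_pos.2 hpi
    have hspsq : Real.sqrt Real.pi ^ 2 = Real.pi := Real.sq_sqrt hpi.le
    have hr0 : 0 < r := by positivity
    have hv' : v = 4 / 3 * Real.pi * r ^ 3 := by
      rw [hv, hr, div_pow]
      have e : Real.sqrt Real.pi ^ 3 = Real.pi * Real.sqrt Real.pi := by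
        rw [pow_succ, hspsq]
      rw [e]
      field_simp
    have hr3 : r ≤ 1 / 3 := by
      rw [hv'] at hv81
      have h1 : r ^ 3 ≤ (1 / 3) ^ 3 := by
        have : 4 / 3 * Real.pi * r ^ 3 ≤ 4 / 3 * Real.pi * (1 / 3) ^ 3 := by
          refine hv81.trans (le_of_eq ?_)
          ring
        exact le_of_mul_le_mul_left this (by positivity)
      exact le_of_pow_le_pow_left₀ (by norm_num) (by norm_num) h1
    have hP4 : (periodicPerimeter F).toReal ≤ 4 * Real.pi * r ^ 2 := by
      have h1 : min (m0 v) 1 ≤ (9 * Real.pi / 2) ^ ((1:ℝ) / 3) * v ^ ((2:ℝ) / 3) :=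
        (min_le_left _ _).trans (min_le_left _ _)
      have h2 : (9 * Real.pi / 2) ^ ((1:ℝ) / 3) * v ^ ((2:ℝ) / 3) = 2 * Real.pi * r ^ 2 := by
        have h3 : ((9 * Real.pi / 2) ^ ((1:ℝ) / 3) * v ^ ((2:ℝ) / 3)) ^ 3
            = (2 * Real.pi * r ^ 2) ^ 3 := by
          rw [mul_pow, ← Real.rpow_natCast ((9 * Real.pi / 2) ^ ((1:ℝ) / 3)),
            ← Real.rpow_mul (by positivity), ← Real.rpow_natCast (v ^ ((2:ℝ) / 3)),
            ← Real.rpow_mul hv0.le]
          have e1 : (1:ℝ) / 3 * ((3:ℕ) : ℝ) = 1 := by norm_num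
          have e2 : (2:ℝ) / 3 * ((3:ℕ) : ℝ) = ((2:ℕ) : ℝ) := by norm_num
          rw [e1, e2, Real.rpow_one, Real.rpow_natCast, hv']
          ring
        exact (pow_left_inj₀ (by positivity) (by positivity) (by norm_num)).1 h3
      linarith
    have hB' : Tendsto (ar i F) (𝓝[<] (1 / 2)) (𝓝 0) := by
      have := D.hB
      rwa [hB0] at this
    obtain ⟨-, hprof, hl⟩ := MS.ball_profile D.hs D.hl (fun _ => ENNReal.toReal_nonneg) D.even
      D.anti (fun t _ => ar_nonneg i F t) hr0 D.dual hP4 (by rw [hint, hv'])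
      (by
        rw [ae_restrict_iff' measurableSet_Ioo]
        filter_upwards [hlow'] with t ht htI _ using ht htI) D.hA hB'
    rw [ae_restrict_iff' measurableSet_Ioo] at hl
    refine ⟨Finset.univ, r, by simp, hr0, by linarith, ?_⟩
    refine ball_case (i := i) hF hper hd hr0 (by linarith) hv' hprof ?_ ?_
    · filter_upwards [hl] with t ht htI h0
      refine hPs ?_ t (ht htI h0).le
      linarith [sqrt_pi_le (ar_le_one i F t)]
    · intro t ht0 ht1 h0 hP
      refine hN F hF hper hd i hg t ht0 ht1 h0 ?_ hP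
      have h1 : ar i F t = ar i F |t| := by
        rcases le_total 0 t with h | h
        · rw [abs_of_nonneg h]
        · rw [abs_of_nonpos h, ar_even (hd i)]
      rw [h1, hprof |t| ⟨ht0, ht1⟩]
      have h2 : Real.pi * (r ^ 2 - min |t| r ^ 2) ≤ Real.pi * (1 / 9) := by
        refine mul_le_mul_of_nonneg_left ?_ hpi.le
        nlinarith [sq_nonneg (min |t| r)]
      linarith
  · -- tube
    have hconst : ∀ t ∈ Ioo (0:ℝ) (1 / 2), ar i F t = v := fun t ht =>
      le_antisymm ((hAle t ht).trans (by rw [← heq]; exact hBv))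
        (hvA.trans (by rw [← heq]; exact hBle t ht))
    have hconst' : ∀ᵐ t : ℝ, t ∈ Ioo (0:ℝ) 1 → ar i F t = v := by
      refine ae_shift (fun t => by rw [ar_per hper]) ?_
      filter_upwards [ZC.ae_ne 0] with t hne ht
      have h1 : ar i F t = ar i F |t| := by
        rcases le_total 0 t with h | h
        · rw [abs_of_nonneg h]
        · rw [abs_of_nonpos h, ar_even (hd i)]
      rw [h1]
      exact hconst |t| ⟨abs_pos.2 hne, ht⟩
    have hIl : IntegrableOn (lt10 i F) (Ioo (0:ℝ) 1) := by
      have := D.hl.intervalIntegrable 0 1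
      rwa [intervalIntegrable_iff_integrableOn_Ioo_of_le zero_le_one] at this
    have hIle : ∫ t in (0:ℝ)..1, lt10 i F t ≤ (periodicPerimeter F).toReal := by
      have := D.dual (fun _ => 1) (fun _ => 0) contDiff_const contDiff_const (fun _ => rfl)
        (fun _ => rfl) (fun _ => zero_le_one) (fun _ => by norm_num)
      simpa using this
    set c := 2 * Real.sqrt (Real.pi * v) with hc
    have hlc : ∀ᵐ t ∂(volume.restrict (Ioo (0:ℝ) 1)), c ≤ lt10 i F t := by
      rw [ae_restrict_iff' measurableSet_Ioo]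
      filter_upwards [hlow', hconst'] with t h1 h2 htI
      have := h1 htI
      rwa [h2 htI] at this
    have hIl2 : ∫ t in (0:ℝ)..1, lt10 i F t = ∫ t in Ioo (0:ℝ) 1, lt10 i F t := by
      rw [intervalIntegral.integral_of_le zero_le_one, integral_Ioc_eq_integral_Ioo]
    have hcI : ∫ t in Ioo (0:ℝ) 1, c = c := by
      rw [setIntegral_const]; simp
    have hge : c ≤ ∫ t in Ioo (0:ℝ) 1, lt10 i F t := by
      calc c = ∫ t in Ioo (0:ℝ) 1, c := hcI.symm
        _ ≤ _ := integral_mono_ae (integrable_const c) hIl hlc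
    have hcP : (periodicPerimeter F).toReal ≤ c := by
      have h1 : min (m0 v) 1 ≤ Real.sqrt (Real.pi * v) :=
        (min_le_left _ _).trans (min_le_right _ _)
      linarith
    have hc2 : c ≤ 2 := by
      have h1 : min (m0 v) 1 ≤ 1 := min_le_right _ _
      rw [hIl2] at hIle
      linarith
    have hzero : ∀ᵐ t ∂(volume.restrict (Ioo (0:ℝ) 1)), lt10 i F t = c := by
      have h1 : ∫ t in Ioo (0:ℝ) 1, (lt10 i F t - c) = 0 := by
        rw [integral_sub hIl (integrable_const c), hcI]
        rw [hIl2] at hIle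
        linarith
      have h2 := (integral_eq_zero_iff_of_nonneg_ae (f := fun t => lt10 i F t - c) (by
        filter_upwards [hlc] with t ht
        simpa using ht) (hIl.sub (integrable_const c))).1 h1
      filter_upwards [h2] with t ht
      have : lt10 i F t - c = 0 := ht
      linarith
    rw [ae_restrict_iff' measurableSet_Ioo] at hzero
    have hv1 : Real.pi * v ≤ 1 := by
      have h1 : Real.sqrt (Real.pi * v) ≤ 1 := by linarith
      rwa [Real.sqrt_le_one] at h1
    set r : ℝ := Real.sqrt (v / Real.pi) with hr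
    have hr0 : 0 < r := Real.sqrt_pos.2 (by positivity)
    have hrsq : r ^ 2 = v / Real.pi := Real.sq_sqrt (by positivity)
    have hvr : v = Real.pi * r ^ 2 := by rw [hrsq]; field_simp
    have hr1 : r < 1 / 2 := by
      have h1 : r ^ 2 < (1 / 2) ^ 2 := by
        rw [hrsq, div_lt_iff₀ hpi]
        nlinarith
      exact lt_of_pow_lt_pow_left₀ 2 (by norm_num) h1
    refine ⟨(Finset.univ : Finset (Fin 2)).map i.succAboveEmb, r, ?_, hr0, hr1, ?_⟩
    · simp
    refine tube_case (i := i) hF hper hd hr0 hr1 hvr (fun t ht => by rw [hconst t ht, ← hvr])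
      ?_ ?_
    · filter_upwards [hzero, hconst'] with t h1 h2 htI h0
      rw [h2 htI]
      exact hPs (by linarith) t (h1 htI).le
    · intro t ht0 ht1 h0 hP
      refine hN F hF hper hd i hg t ht0 ht1 h0 ?_ hP
      have h1 : ar i F t = ar i F |t| := by
        rcases le_total 0 t with h | h
        · rw [abs_of_nonneg h]
        · rw [abs_of_nonpos h, ar_even (hd i)]
      rw [h1, hconst |t| ⟨ht0, ht1⟩]
      have h3 : v ≤ 1 / Real.pi := by
        rw [le_div_iff₀ hpi]; linarith
      refine h3.trans ?_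
      rw [div_le_div_iff₀ hpi (by norm_num)]
      nlinarith

theorem ae_abs_ne (z : ℝ) : ∀ᵐ t : ℝ, |t| ≠ z := by
  filter_upwards [ZC.ae_ne z, ZC.ae_ne (-z)] with t h1 h2 h3
  rcases abs_choice t with h | h
  · exact h1 (by rw [← h]; exact h3)
  · exact h2 (by rw [← h3, h]; ring)

/-- **The isoperimetric inequality and its equality case for symmetric decreasing sets.** -/
theorem down_main (T : ZC.Tables) (hN : NoTouch) (hF : MeasurableSet F)
    (hper : IsLatticePeriodic F) (hd : ∀ j, SymDecAt j F) (hP : periodicPerimeter F ≠ ⊤)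
    (hv0 : 0 < periodicVolume F) (hv1 : periodicVolume F ≤ 1 / 2) :
    Inv.prof (periodicVolume F) ≤ (periodicPerimeter F).toReal ∧
      ((periodicPerimeter F).toReal ≤ Inv.prof (periodicVolume F) →
        ∃ (J : Finset (Fin 3)) (r : ℝ), J.Nonempty ∧ 0 < r ∧ r < 1 / 2 ∧
          ∀ᵐ x : En 3, x ∈ F ↔ x ∈ stdReg J r 0) := by
  rw [prof_eq]
  obtain ⟨i, hA | hG⟩ := exists_direction hd (h := 1 / 20) (by norm_num) (by norm_num)
  · obtain ⟨A, B, D⟩ := data_of hF hper hd hP hv1 i
    obtain ⟨z, q, hq0, hq1, h1, h2⟩ := caseA_bound_fixed hF hper hd (h := 1 / 20) (by norm_num)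
      (by norm_num) hA
    have hU : ∀ (t q' : ℝ), 0 ≤ q' → q' ≤ 7 / 10 →
        Ufun (1 - ar i F t) (1 - q') ≤ 5 := fun t q' h3 h4 =>
      Ufun_le_five (by linarith [ar_nonneg i F t]) (by linarith) (by linarith)
    obtain ⟨h3, h4⟩ := ZC.scalar_caseA T D.hs D.hl D.even D.anti D.s01 D.dual D.hA D.hB
      (v := periodicVolume F) (ar_int i hF) hv1 hq0 hq1
      (fun q' a b c => Eventually.of_forall fun t ht => le_lt10 (h1 q' a b t ht) (by
        have := hU t q' a c
        linarith))
      (fun q' a b c => by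
        filter_upwards [ae_abs_ne z] with t hz ht
        refine le_lt10 (h2 q' a b t ht hz) ?_
        have := hU t q' a c
        have := min_le_right (Jtail q (ar i F t)) (Ufun (1 - ar i F t) (1 - q'))
        have h5 : min (Jtail q (periodicVolume (sliceAt i F t)))
          (Ufun (1 - periodicVolume (sliceAt i F t)) (1 - q')) ≤ 5 := by
          change min (Jtail q (ar i F t)) (Ufun (1 - ar i F t) (1 - q')) ≤ 5
          linarith
        linarith)
    refine ⟨by linarith, fun h5 => ?_⟩
    obtain ⟨hA1, hB0⟩ := h4 (by linarith)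
    refine slab_final hF hper hd hv0 hv1 D hA1 hB0 ?_
    have : min (m0 (periodicVolume F)) 1 ≤ 1 := min_le_right _ _
    linarith
  · obtain ⟨A, B, D⟩ := data_of hF hper hd hP hv1 i
    obtain ⟨h3, h4⟩ := ZC.scalar_good T D.hs D.hl D.even D.anti D.s01 D.dual D.hA D.hB
      (v := periodicVolume F) (ar_int i hF) hv0 hv1
      (by
        filter_upwards [ZC.ae_ne 0] with t h0 ht
        have h5 := good_bound hF hper hd (by norm_num) hG (abs_pos.2 h0) ht
        rw [show (2 * (1 / 20) : ℝ) = 1 / 10 by norm_num] at h5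
        refine le_lt10 h5 ?_
        have := Jgood_le (1 / 10) (ar_le_one i F t)
        change 2 * Jgood (1 / 10) (ar i F t) ≤ 10
        linarith)
    refine ⟨by linarith, fun h5 => ?_⟩
    rcases h4 (by linarith) with ⟨hA1, hB0⟩ | ⟨-, hlow, hcase⟩
    · refine slab_final hF hper hd hv0 hv1 D hA1 hB0 ?_
      have : min (m0 (periodicVolume F)) 1 ≤ 1 := min_le_right _ _
      linarith
    · refine exact_final hN hF hper hd hG hv0 D hlow (fun hlt => ?_) h5
      rcases hcase with h6 | ⟨h6, h7, h8⟩
      · exact absurd h6 hlt.ne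
      · rw [ar_int i hF]
        exact ⟨h6, h7, h8⟩

/-- **MAIN** -/
theorem MAIN_of (T : ZC.Tables) (hN : NoTouch) : Inv.MAIN := by
  intro E hE hper hv0 hv1
  by_cases hP : periodicPerimeter E = ⊤
  · rw [hP]; exact le_top
  have hPle := periodicPerimeter_steiner3_le hE hper
  have hvol := periodicVolume_steiner3 hE hper
  have hP3 : periodicPerimeter (steiner3 E) ≠ ⊤ := ne_top_of_le_ne_top hP hPle
  have h := (down_main T hN (measurableSet_steiner3 hE hper) (steiner3_periodic hE hper)
    (symDecAt_steiner3 hE hper) hP3 (by rw [hvol]; exact hv0) (by rw [hvol]; exact hv1)).1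
  rw [hvol] at h
  exact (ENNReal.ofReal_le_of_le_toReal h).trans hPle

/-- **EqSteiner** -/
theorem EqSteiner_of (T : ZC.Tables) (hN : NoTouch) : Rig.EqSteiner := by
  intro E hE hper hv0 hv1 hPE
  have hP : periodicPerimeter E ≠ ⊤ := by rw [hPE]; exact ENNReal.ofReal_ne_top
  have hPle := periodicPerimeter_steiner3_le hE hper
  have hvol := periodicVolume_steiner3 hE hper
  have hP3 : periodicPerimeter (steiner3 E) ≠ ⊤ := ne_top_of_le_ne_top hP hPle
  obtain ⟨h1, h2⟩ := down_main T hN (measurableSet_steiner3 hE hper) (steiner3_periodic hE hper)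
    (symDecAt_steiner3 hE hper) hP3 (by rw [hvol]; exact hv0) (by rw [hvol]; exact hv1)
  refine h2 ?_
  rw [hvol]
  rw [hvol] at h1
  have h3 := ENNReal.toReal_mono hP hPle
  have h4 : (periodicPerimeter E).toReal ≤ max (Inv.prof (periodicVolume E)) 0 := by
    rw [hPE, ENNReal.toReal_ofReal']
  have h5 : 0 ≤ Inv.prof (periodicVolume E) := by
    unfold Inv.prof
    have hpi := Real.pi_pos
    refine le_min (le_min ?_ ?_) (by norm_num)
    · positivity
    · positivity
  rw [max_eq_left h5] at h4
  exact h3.trans h4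

end Crest.Agent.R214.Down
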