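import Crest.Agent.R214.MonoSub2

-- ▼ part R214/EqVar
section

/-!
# R214: first variation at equality in the monotone substitution inequality (helper937)
-/

open MeasureTheory Set Filter Topology

namespace Crest.Agent.R214.MS

theorem sqrt_lower {u v : ℝ} (hu : 0 < u) (hv : |v| ≤ u) :
    Real.sqrt u - v / (2 * Real.sqrt u) - v ^ 2 / (2 * u * Real.sqrt u) ≤ Real.sqrt (u - v) := by
  have hs : 0 < Real.sqrt u := Real.sqrt_pos.2 hu
  have hs2 : Real.sqrt u ^ 2 = u := Real.sq_sqrt hu.le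
  obtain ⟨hv1, hv2⟩ := abs_le.1 hv
  apply Real.le_sqrt_of_sq_le
  set w := v / u with hw
  have hvw : v = w * u := by rw [hw]; field_simp
  have hw1 : -1 ≤ w := by rw [hw, le_div_iff₀ hu]; linarith
  have hw2 : w ≤ 1 := by rw [hw, div_le_one hu]; exact hv2
  have e : Real.sqrt u - v / (2 * Real.sqrt u) - v ^ 2 / (2 * u * Real.sqrt u)
      = Real.sqrt u * (1 - w / 2 - w ^ 2 / 2) := by
    rw [hvw]
    field_simp
    rw [hs2]
    ring
  rw [e, mul_pow, hs2, hvw]
  have h1 : (1 - w / 2 - w ^ 2 / 2) ^ 2 ≤ 1 - w := by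
    have : 1 - w - (1 - w / 2 - w ^ 2 / 2) ^ 2 = (1 - w) * w ^ 2 * (3 + w) / 4 := by ring
    have h2 : 0 ≤ (1 - w) * w ^ 2 * (3 + w) / 4 := by
      have := sq_nonneg w
      have h3 : 0 ≤ 1 - w := by linarith
      have h4 : 0 ≤ 3 + w := by linarith
      positivity
    linarith
  nlinarith

/-- pointwise expansion -/
theorem sqrt_var {x y ε δ M : ℝ} (hδ : 0 < δ) (hx : x ^ 2 ≤ 1 - δ) (hy : |y| ≤ M)
    (hε : |ε| * (2 * M + M ^ 2) ≤ δ) (hε1 : |ε| ≤ 1) :
    Real.sqrt (1 - x ^ 2) - ε * (x * y / Real.sqrt (1 - x ^ 2))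
      - ε ^ 2 * ((M ^ 2 + (2 * M + M ^ 2) ^ 2 / δ) / Real.sqrt δ)
      ≤ Real.sqrt (1 - (x + ε * y) ^ 2) := by
  have hM : 0 ≤ M := (abs_nonneg _).trans hy
  have hu : δ ≤ 1 - x ^ 2 := by linarith
  have hu0 : 0 < 1 - x ^ 2 := by linarith
  set u := 1 - x ^ 2 with hudef
  set v := 2 * ε * x * y + ε ^ 2 * y ^ 2 with hv
  have hx1 : |x| ≤ 1 := by
    rw [← sq_le_one_iff_abs_le_one]; linarith
  have hvb : |v| ≤ |ε| * (2 * M + M ^ 2) := by
    rw [hv]
    refine (abs_add_le _ _).trans ?_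
    rw [abs_mul, abs_mul, abs_mul, abs_mul, abs_pow, abs_pow, abs_two]
    have h1 : 2 * |ε| * |x| * |y| ≤ 2 * |ε| * 1 * M := by gcongr
    have h2 : |ε| ^ 2 * |y| ^ 2 ≤ |ε| * M ^ 2 := by
      have h3 : |ε| ^ 2 ≤ |ε| := by nlinarith [abs_nonneg ε]
      have h4 : |y| ^ 2 ≤ M ^ 2 := by gcongr
      exact mul_le_mul h3 h4 (by positivity) (abs_nonneg _)
    nlinarith
  have hvu : |v| ≤ u := hvb.trans (hε.trans hu)
  have h1 := sqrt_lower hu0 hvu
  have e1 : u - v = 1 - (x + ε * y) ^ 2 := by rw [hudef, hv]; ring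
  rw [e1] at h1
  refine le_trans ?_ h1
  have hs : 0 < Real.sqrt u := Real.sqrt_pos.2 hu0
  have hsδ : 0 < Real.sqrt δ := Real.sqrt_pos.2 hδ
  have hsle : Real.sqrt δ ≤ Real.sqrt u := Real.sqrt_le_sqrt hu
  have e2 : v / (2 * Real.sqrt u) = ε * (x * y / Real.sqrt u) + ε ^ 2 * y ^ 2 / (2 * Real.sqrt u) := by
    rw [hv]; field_simp
  have b1 : ε ^ 2 * y ^ 2 / (2 * Real.sqrt u) ≤ ε ^ 2 * (M ^ 2 / Real.sqrt δ) := by
    rw [mul_div_assoc]
    refine mul_le_mul_of_nonneg_left ?_ (sq_nonneg _)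
    have h3 : y ^ 2 ≤ M ^ 2 := by
      rw [← sq_abs y]; gcongr
    calc y ^ 2 / (2 * Real.sqrt u) ≤ M ^ 2 / (1 * Real.sqrt δ) := by
          apply div_le_div₀ (by positivity) h3 (by positivity)
          apply mul_le_mul (by norm_num) hsle hsδ.le (by norm_num)
      _ = _ := by rw [one_mul]
  have b2 : v ^ 2 / (2 * u * Real.sqrt u) ≤ ε ^ 2 * ((2 * M + M ^ 2) ^ 2 / δ / Real.sqrt δ) := by
    have h3 : v ^ 2 ≤ ε ^ 2 * (2 * M + M ^ 2) ^ 2 := by
      rw [← sq_abs v, ← sq_abs ε, ← mul_pow]; gcongr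
    have h4 : v ^ 2 / (2 * u * Real.sqrt u) ≤ (ε ^ 2 * (2 * M + M ^ 2) ^ 2) / (1 * δ * Real.sqrt δ) := by
      apply div_le_div₀ (by positivity) h3 (by positivity)
      apply mul_le_mul _ hsle hsδ.le (by positivity)
      exact mul_le_mul (by norm_num) hu hδ.le (by norm_num)
    refine h4.trans (le_of_eq ?_)
    rw [one_mul]; field_simp
  have e3 : ε ^ 2 * ((M ^ 2 + (2 * M + M ^ 2) ^ 2 / δ) / Real.sqrt δ)
      = ε ^ 2 * (M ^ 2 / Real.sqrt δ) + ε ^ 2 * ((2 * M + M ^ 2) ^ 2 / δ / Real.sqrt δ) := by ring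
  rw [e2, e3]
  linarith

/-- **first variation**: at equality the distribution identity holds -/
theorem first_var {s l : ℝ → ℝ} (hs : BP s) (hl : BP l) (hl0 : ∀ t, 0 ≤ l t)
    (hse : ∀ t, s (-t) = s t)
    {P : ℝ} (H : DualIneq s l P) {T : ℝ → ℝ} (hT : Continuous T)
    (hTb : ∀ σ, |T σ| ≤ 1) {A B : ℝ} (hA : Tendsto s (𝓝[>] 0) (𝓝 A))
    (hB : Tendsto s (𝓝[<] (1 / 2)) (𝓝 B)) (hanti : AntitoneOn s (Ioo 0 (1 / 2)))
    (heq : P ≤ (∫ t in (0:ℝ)..1, Real.sqrt (1 - T (s t) ^ 2) * l t) + 2 * (∫ x in B..A, T x))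
    {η : ℝ → ℝ} (hη : Continuous η) {M δ : ℝ} (hM : ∀ σ, |η σ| ≤ M) (hδ : 0 < δ)
    (hδ1 : δ ≤ 1) (hsupp : ∀ σ, 1 - δ < T σ ^ 2 → η σ = 0) :
    (∫ t in (0:ℝ)..1, T (s t) * η (s t) / Real.sqrt (1 - T (s t) ^ 2) * l t)
      = 2 * ∫ x in B..A, η x := by
  have hM0 : 0 ≤ M := (abs_nonneg _).trans (hM 0)
  obtain ⟨C, hC⟩ := hl.bdd
  have hC0 : 0 ≤ C := (abs_nonneg _).trans (hC 0)
  set K := (M ^ 2 + (2 * M + M ^ 2) ^ 2 / δ) / Real.sqrt δ with hK
  have hK0 : 0 ≤ K := by positivity
  set D := (∫ t in (0:ℝ)..1, T (s t) * η (s t) / Real.sqrt (1 - T (s t) ^ 2) * l t) with hD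
  -- integrability facts
  have hTm : Measurable fun t => T (s t) := hT.measurable.comp hs.meas
  have hηm : Measurable fun t => η (s t) := hη.measurable.comp hs.meas
  have hqm : Measurable fun t => Real.sqrt (1 - T (s t) ^ 2) :=
    (measurable_const.sub (hTm.pow_const 2)).sqrt
  have hbd : ∀ σ, |T σ * η σ / Real.sqrt (1 - T σ ^ 2)| ≤ M / Real.sqrt δ := by
    intro σ
    by_cases h : 1 - δ < T σ ^ 2
    · rw [hsupp σ h]; simp; positivity
    · rw [not_lt] at h
      have h1 : Real.sqrt δ ≤ Real.sqrt (1 - T σ ^ 2) := Real.sqrt_le_sqrt (by linarith)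
      have h2 : 0 < Real.sqrt δ := Real.sqrt_pos.2 hδ
      rw [abs_div, abs_mul, abs_of_nonneg (Real.sqrt_nonneg _)]
      apply div_le_div₀ hM0 _ h2 h1
      calc |T σ| * |η σ| ≤ 1 * M := mul_le_mul (hTb σ) (hM σ) (abs_nonneg _) zero_le_one
        _ = M := one_mul M
  have hint1 : IntervalIntegrable (fun t => T (s t) * η (s t) / Real.sqrt (1 - T (s t) ^ 2) * l t)
      volume 0 1 := by
    refine (intervalIntegrable_const (c := M / Real.sqrt δ * C)).mono_fun
      ((((hTm.mul hηm).div hqm).mul hl.meas).aestronglyMeasurable)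
      (Eventually.of_forall fun t => ?_)
    dsimp only
    rw [norm_mul, Real.norm_eq_abs, Real.norm_eq_abs]
    exact (mul_le_mul (hbd _) (hC t) (abs_nonneg _) (by positivity)).trans (le_abs_self _)
  have hsq : ∀ x : ℝ, Real.sqrt (1 - x ^ 2) ≤ 1 := fun x =>
    Real.sqrt_le_one.2 (by nlinarith [sq_nonneg x])
  have hint2 : ∀ f : ℝ → ℝ, Measurable f →
      IntervalIntegrable (fun t => Real.sqrt (1 - f t ^ 2) * l t) volume 0 1 := by
    intro f hf
    refine (intervalIntegrable_const (c := 1 * C)).mono_fun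
      (((measurable_const.sub (hf.pow_const 2)).sqrt).mul hl.meas).aestronglyMeasurable
      (Eventually.of_forall fun t => ?_)
    dsimp only
    rw [norm_mul, Real.norm_eq_abs, Real.norm_eq_abs, abs_of_nonneg (Real.sqrt_nonneg _)]
    exact (mul_le_mul (hsq _) (hC t) (abs_nonneg _) zero_le_one).trans (le_abs_self _)
  have key : ∀ ε : ℝ, |ε| * (2 * M + M ^ 2) ≤ δ → |ε| ≤ 1 → |ε| * (M + 1) ≤ δ / 4 →
      ε * (2 * (∫ x in B..A, η x) - D) ≤ ε ^ 2 * (K * C) := by
    intro ε h1 h2 h3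
    have hTε : ∀ σ, |T σ + ε * η σ| ≤ 1 := by
      intro σ
      by_cases h : 1 - δ < T σ ^ 2
      · rw [hsupp σ h, mul_zero, add_zero]; exact hTb σ
      · rw [not_lt] at h
        have hT1 : |T σ| ≤ 1 - δ / 2 := by
          rw [← abs_of_nonneg (by linarith : 0 ≤ 1 - δ / 2), ← sq_le_sq]
          nlinarith [sq_nonneg δ]
        calc |T σ + ε * η σ| ≤ |T σ| + |ε| * |η σ| := by
              rw [← abs_mul]; exact abs_add_le _ _
          _ ≤ (1 - δ / 2) + |ε| * M := by
              gcongr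
              exact hM σ
          _ ≤ 1 := by nlinarith [abs_nonneg ε]
    have h4 := mono_sub_one hs hl hse H (T := fun σ => T σ + ε * η σ)
      (hT.add (continuous_const.mul hη)) hTε hA hB hanti
    have h5 : (∫ x in B..A, (T x + ε * η x)) = (∫ x in B..A, T x) + ε * ∫ x in B..A, η x := by
      have hc : Continuous fun x => ε * η x := continuous_const.mul hη
      rw [intervalIntegral.integral_add (hT.intervalIntegrable _ _)
        (hc.intervalIntegrable _ _), intervalIntegral.integral_const_mul]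
    have h6 : (∫ t in (0:ℝ)..1, Real.sqrt (1 - T (s t) ^ 2) * l t) - ε * D - ε ^ 2 * (K * C)
        ≤ ∫ t in (0:ℝ)..1, Real.sqrt (1 - (T (s t) + ε * η (s t)) ^ 2) * l t := by
      have e : (∫ t in (0:ℝ)..1, Real.sqrt (1 - T (s t) ^ 2) * l t) - ε * D - ε ^ 2 * (K * C)
          = ∫ t in (0:ℝ)..1, (Real.sqrt (1 - T (s t) ^ 2) * l t
            - ε * (T (s t) * η (s t) / Real.sqrt (1 - T (s t) ^ 2) * l t) - ε ^ 2 * (K * C)) := by
        rw [intervalIntegral.integral_sub ((hint2 _ hTm).sub (hint1.const_mul ε))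
          intervalIntegrable_const, intervalIntegral.integral_sub (hint2 _ hTm)
          (hint1.const_mul ε), intervalIntegral.integral_const_mul]
        simp [hD]
      rw [e]
      refine intervalIntegral.integral_mono_on zero_le_one
        (((hint2 _ hTm).sub (hint1.const_mul ε)).sub intervalIntegrable_const)
        (hint2 (fun t => T (s t) + ε * η (s t)) (hTm.add (hηm.const_mul ε))) fun t _ => ?_
      have hlC : l t ≤ C := (le_abs_self _).trans (hC t)
      by_cases h : 1 - δ < T (s t) ^ 2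
      · rw [hsupp _ h]
        have : 0 ≤ ε ^ 2 * (K * C) := by positivity
        simp only [mul_zero, zero_div, zero_mul, add_zero, sub_zero]
        linarith
      · rw [not_lt] at h
        have h7 := sqrt_var hδ h (hM (s t)) h1 h2
        have h8 := mul_le_mul_of_nonneg_right h7 (hl0 t)
        have h9 : ε ^ 2 * K * l t ≤ ε ^ 2 * (K * C) := by
          rw [mul_assoc]
          exact mul_le_mul_of_nonneg_left (mul_le_mul_of_nonneg_left hlC hK0) (sq_nonneg _)
        rw [← hK] at h8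
        nlinarith
    rw [h5] at h4
    nlinarith
  -- conclude
  set X := 2 * (∫ x in B..A, η x) - D with hX
  have hlin : X = 0 := by
    have hε : ∀ ε : ℝ, 0 < ε → ε * (2 * M + M ^ 2) ≤ δ → ε ≤ 1 → ε * (M + 1) ≤ δ / 4 →
        |X| ≤ ε * (K * C) := by
      intro ε h0 h1 h2 h3
      have a1 := key ε (by rwa [abs_of_pos h0]) (by rwa [abs_of_pos h0]) (by rwa [abs_of_pos h0])
      have a2 := key (-ε) (by rwa [abs_neg, abs_of_pos h0]) (by rwa [abs_neg, abs_of_pos h0])
        (by rwa [abs_neg, abs_of_pos h0])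
      rw [abs_le]
      constructor
      · by_contra hcon
        rw [not_le] at hcon
        nlinarith
      · by_contra hcon
        rw [not_le] at hcon
        nlinarith
    have hlim : Tendsto (fun ε : ℝ => ε * (K * C)) (𝓝[>] 0) (𝓝 0) := by
      have : Tendsto (fun ε : ℝ => ε * (K * C)) (𝓝 0) (𝓝 (0 * (K * C))) :=
        tendsto_id.mul_const _
      rw [zero_mul] at this
      exact this.mono_left nhdsWithin_le_nhds
    have hev : ∀ᶠ ε : ℝ in 𝓝[>] 0, |X| ≤ ε * (K * C) := by
      have hpos : 0 < min (min (δ / (2 * M + M ^ 2 + 1)) 1) (δ / 4 / (M + 1)) := by positivity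
      filter_upwards [Ioo_mem_nhdsGT hpos] with ε hε'
      obtain ⟨h0, h1⟩ := hε'
      rw [lt_min_iff, lt_min_iff] at h1
      refine hε ε h0 ?_ h1.1.2.le ?_
      · have := h1.1.1
        rw [lt_div_iff₀ (by positivity)] at this
        nlinarith
      · have := h1.2
        rw [lt_div_iff₀ (by positivity)] at this
        linarith
    have := ge_of_tendsto hlim hev
    exact abs_nonpos_iff.1 this
  linarith

end Crest.Agent.R214.MS
end

-- ▼ part R214/EqProfile

/-!
# R214: identification of the slice-area profile at equality (helper937)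
-/

open MeasureTheory Set Filter Topology

namespace Crest.Agent.R214.MS

theorem ext_identity {u : ℝ → ℝ} (hu : Measurable u) {A r : ℝ} (hA : 0 < A) (hr0 : 0 < r)
    (hur : ∀ t ∈ Ioo (0:ℝ) (1 / 2), u t ∈ Icc 0 r) {s₀ : ℝ → ℝ} (hs₀ : Continuous s₀)
    (hs00 : s₀ 0 = A) (hs0r : s₀ r = 0)
    (hid : ∀ g : ℝ → ℝ, Continuous g → (∃ δ > 0, ∀ x, r - δ ≤ x → g x = 0) →
      ∫ t in (0:ℝ)..(1 / 2), u t * g (u t) = ∫ τ in (0:ℝ)..r, τ * g τ)
    (hvol : ∫ t in (0:ℝ)..(1 / 2), s₀ (u t) = ∫ τ in (0:ℝ)..r, s₀ τ)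
    {F : ℝ → ℝ} (hF : Continuous F) (hFr : F r = 0) :
    ∫ t in (0:ℝ)..(1 / 2), F (u t) = ∫ τ in (0:ℝ)..r, F τ := by
  -- integrability on `(0,1/2)` of continuous functions of `u`
  have hii : ∀ k : ℝ → ℝ, Continuous k → IntervalIntegrable (fun t => k (u t)) volume 0 (1 / 2) := by
    intro k hk
    obtain ⟨C, hC⟩ := (isCompact_Icc (a := (0:ℝ)) (b := r)).exists_bound_of_continuousOn
      hk.continuousOn
    rw [intervalIntegrable_iff_integrableOn_Ioo_of_le (by norm_num)]
    refine Measure.integrableOn_of_bounded (M := C) (by simp)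
      ((hk.measurable.comp hu).aestronglyMeasurable) ?_
    exact (ae_restrict_mem measurableSet_Ioo).mono fun t ht => hC _ (hur t ht)
  have hcongr : ∀ k k' : ℝ → ℝ, (∀ x ∈ Icc 0 r, k x = k' x) →
      ∫ t in (0:ℝ)..(1 / 2), k (u t) = ∫ t in (0:ℝ)..(1 / 2), k' (u t) := by
    intro k k' h
    rw [intervalIntegral.integral_of_le (by norm_num), intervalIntegral.integral_of_le (by norm_num),
      integral_Ioc_eq_integral_Ioo, integral_Ioc_eq_integral_Ioo]
    exact setIntegral_congr_fun measurableSet_Ioo fun t ht => h _ (hur t ht)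
  -- the reduced function
  set c := F 0 / A with hc
  set G : ℝ → ℝ := fun x => F (max 0 (min x r)) - c * s₀ (max 0 (min x r)) with hG
  have hproj : Continuous fun x : ℝ => max 0 (min x r) :=
    continuous_const.max (continuous_id.min continuous_const)
  have hGc : Continuous G := (hF.comp hproj).sub (continuous_const.mul (hs₀.comp hproj))
  have hG0 : G 0 = 0 := by
    simp only [hG]
    rw [min_eq_left hr0.le, max_self, hs00, hc]
    field_simp; ring
  have hGr : ∀ x, r ≤ x → G x = 0 := by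
    intro x hx
    simp only [hG]
    rw [min_eq_right hx, max_eq_right hr0.le, hFr, hs0r]; ring
  have hGid : ∀ x ∈ Icc 0 r, G x = F x - c * s₀ x := by
    intro x hx
    simp only [hG]
    rw [min_eq_left hx.2, max_eq_right hx.1]
  have key : ∫ t in (0:ℝ)..(1 / 2), G (u t) = ∫ τ in (0:ℝ)..r, G τ := by
    have hε : ∀ ε > 0, |(∫ t in (0:ℝ)..(1 / 2), G (u t)) - ∫ τ in (0:ℝ)..r, G τ|
        ≤ ε * (1 / 2 + r) := by
      intro ε hε
      set k : ℝ → ℝ := fun x => G x - max (-ε) (min ε (G x)) with hk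
      have hkc : Continuous k := hGc.sub (continuous_const.max (continuous_const.min hGc))
      have hkG : ∀ x, |G x - k x| ≤ ε := by
        intro x
        simp only [hk]
        rw [sub_sub_cancel, abs_le]
        exact ⟨le_max_left _ _, max_le (by linarith) (min_le_left _ _)⟩
      have hk0 : ∀ x, |G x| ≤ ε → k x = 0 := by
        intro x hx
        obtain ⟨h1, h2⟩ := abs_le.1 hx
        simp only [hk]
        rw [min_eq_right h2, max_eq_right h1, sub_self]
      -- k vanishes near 0 and near r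
      have hn0 : ∃ δ > 0, ∀ x, |x| ≤ δ → k x = 0 := by
        have := Metric.continuousAt_iff.1 (hGc.continuousAt (x := 0)) ε hε
        obtain ⟨δ, hδ, h⟩ := this
        refine ⟨δ / 2, by positivity, fun x hx => hk0 x ?_⟩
        have := h (x := x) (by rw [Real.dist_eq, sub_zero]; linarith)
        rw [hG0, Real.dist_eq, sub_zero] at this
        exact this.le
      have hnr : ∃ δ > 0, ∀ x, r - δ ≤ x → k x = 0 := by
        have := Metric.continuousAt_iff.1 (hGc.continuousAt (x := r)) ε hε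
        obtain ⟨δ, hδ, h⟩ := this
        refine ⟨δ / 2, by positivity, fun x hx => hk0 x ?_⟩
        rcases le_or_gt r x with hrx | hrx
        · rw [hGr x hrx, abs_zero]; exact hε.le
        · have := h (x := x) (by rw [Real.dist_eq, abs_lt]; constructor <;> linarith)
          rw [hGr r le_rfl, Real.dist_eq, sub_zero] at this
          exact this.le
      obtain ⟨δ₀, hδ₀, hk0'⟩ := hn0
      obtain ⟨δ₁, hδ₁, hk1'⟩ := hnr
      have hgc : Continuous fun x => k x / max x δ₀ :=
        hkc.div (continuous_id.max continuous_const) (fun x =>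
          (lt_of_lt_of_le hδ₀ (le_max_right x δ₀)).ne')
      have hx : ∀ x, 0 ≤ x → x * (k x / max x δ₀) = k x := by
        intro x hx0
        rcases le_or_gt x δ₀ with h | h
        · rw [hk0' x (by rw [abs_of_nonneg hx0]; exact h)]; simp
        · rw [max_eq_left h.le]
          have : x ≠ 0 := (hδ₀.trans h).ne'
          field_simp
      have h1 := hid (fun x => k x / max x δ₀) hgc ⟨δ₁, hδ₁, fun x hx => by
        simp only [hk1' x hx, zero_div]⟩
      have h2 : ∫ t in (0:ℝ)..(1 / 2), u t * (k (u t) / max (u t) δ₀)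
          = ∫ t in (0:ℝ)..(1 / 2), k (u t) :=
        hcongr (fun x => x * (k x / max x δ₀)) k (fun x hx' => hx x hx'.1)
      have h3 : ∫ τ in (0:ℝ)..r, τ * (k τ / max τ δ₀) = ∫ τ in (0:ℝ)..r, k τ := by
        refine intervalIntegral.integral_congr fun x hx' => ?_
        rw [uIcc_of_le hr0.le] at hx'
        exact hx x hx'.1
      have h4 : ∫ t in (0:ℝ)..(1 / 2), k (u t) = ∫ τ in (0:ℝ)..r, k τ := by
        rw [← h2, ← h3]; exact h1
      have h5 : |(∫ t in (0:ℝ)..(1 / 2), G (u t)) - ∫ t in (0:ℝ)..(1 / 2), k (u t)|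
          ≤ ε * (1 / 2) := by
        rw [← intervalIntegral.integral_sub (hii G hGc) (hii k hkc), ← Real.norm_eq_abs]
        have := intervalIntegral.norm_integral_le_of_norm_le_const (a := (0:ℝ)) (b := 1 / 2)
          (C := ε) (f := fun t => G (u t) - k (u t)) (fun t _ => by
            rw [Real.norm_eq_abs]; exact hkG (u t))
        simpa using this
      have h6 : |(∫ τ in (0:ℝ)..r, k τ) - ∫ τ in (0:ℝ)..r, G τ| ≤ ε * r := by
        rw [abs_sub_comm, ← intervalIntegral.integral_sub (hGc.intervalIntegrable _ _)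
          (hkc.intervalIntegrable _ _), ← Real.norm_eq_abs]
        have := intervalIntegral.norm_integral_le_of_norm_le_const (a := (0:ℝ)) (b := r)
          (C := ε) (f := fun t => G t - k t) (fun t _ => by
            rw [Real.norm_eq_abs]; exact hkG t)
        rwa [sub_zero, abs_of_pos hr0] at this
      rw [h4] at h5
      calc _ ≤ |(∫ t in (0:ℝ)..(1 / 2), G (u t)) - ∫ τ in (0:ℝ)..r, k τ|
            + |(∫ τ in (0:ℝ)..r, k τ) - ∫ τ in (0:ℝ)..r, G τ| := abs_sub_le _ _ _
        _ ≤ ε * (1 / 2) + ε * r := add_le_add h5 h6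
        _ = ε * (1 / 2 + r) := by ring
    have hz : |(∫ t in (0:ℝ)..(1 / 2), G (u t)) - ∫ τ in (0:ℝ)..r, G τ| ≤ 0 := by
      refine le_of_forall_pos_le_add fun ε hε' => ?_
      have := hε (ε / (1 / 2 + r)) (by positivity)
      rw [div_mul_cancel₀ _ (by positivity)] at this
      linarith
    have := abs_nonpos_iff.1 hz
    linarith
  have e1 : ∫ t in (0:ℝ)..(1 / 2), G (u t)
      = (∫ t in (0:ℝ)..(1 / 2), F (u t)) - c * ∫ t in (0:ℝ)..(1 / 2), s₀ (u t) := by
    rw [hcongr G (fun x => F x - c * s₀ x) hGid,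
      intervalIntegral.integral_sub (hii F hF) ((hii s₀ hs₀).const_mul c),
      intervalIntegral.integral_const_mul]
  have e2 : ∫ τ in (0:ℝ)..r, G τ = (∫ τ in (0:ℝ)..r, F τ) - c * ∫ τ in (0:ℝ)..r, s₀ τ := by
    have hcs : Continuous fun x => c * s₀ x := continuous_const.mul hs₀
    rw [← intervalIntegral.integral_const_mul, ← intervalIntegral.integral_sub
      (hF.intervalIntegrable _ _) (hcs.intervalIntegrable _ _)]
    refine intervalIntegral.integral_congr fun x hx' => ?_
    rw [uIcc_of_le hr0.le] at hx'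
    exact hGid x hx'
  rw [e1, e2, hvol] at key
  linarith

/-- the profile is determined -/
theorem u_eq_min {u : ℝ → ℝ} (hu : Measurable u) (hmono : MonotoneOn u (Ioo 0 (1 / 2)))
    {A r : ℝ} (hA : 0 < A) (hr0 : 0 < r)
    (hur : ∀ t ∈ Ioo (0:ℝ) (1 / 2), u t ∈ Icc 0 r) {s₀ : ℝ → ℝ} (hs₀ : Continuous s₀)
    (hs00 : s₀ 0 = A) (hs0r : s₀ r = 0)
    (hid : ∀ g : ℝ → ℝ, Continuous g → (∃ δ > 0, ∀ x, r - δ ≤ x → g x = 0) →
      ∫ t in (0:ℝ)..(1 / 2), u t * g (u t) = ∫ τ in (0:ℝ)..r, τ * g τ)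
    (hvol : ∫ t in (0:ℝ)..(1 / 2), s₀ (u t) = ∫ τ in (0:ℝ)..r, s₀ τ) :
    ∀ t ∈ Ioo (0:ℝ) (1 / 2), u t = min t r := by
  have hall : ∀ F : ℝ → ℝ, Continuous F → F r = 0 →
      ∫ t in (0:ℝ)..(1 / 2), F (u t) = ∫ τ in (0:ℝ)..r, F τ := fun F hF hFr =>
    ext_identity hu hA hr0 hur hs₀ hs00 hs0r hid hvol hF hFr
  have hii : ∀ k : ℝ → ℝ, Continuous k → ∀ a b : ℝ, 0 ≤ a → a ≤ b → b ≤ 1 / 2 →
      IntervalIntegrable (fun t => k (u t)) volume a b := by
    intro k hk a b ha hab hb
    obtain ⟨C, hC⟩ := (isCompact_Icc (a := (0:ℝ)) (b := r)).exists_bound_of_continuousOn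
      hk.continuousOn
    rw [intervalIntegrable_iff_integrableOn_Ioo_of_le hab]
    refine Measure.integrableOn_of_bounded (M := C) (by simp)
      ((hk.measurable.comp hu).aestronglyMeasurable) ?_
    exact (ae_restrict_mem measurableSet_Ioo).mono fun t ht =>
      hC _ (hur t ⟨by linarith [ht.1], by linarith [ht.2]⟩)
  intro t₁ ht₁
  set c := u t₁ with hc
  obtain ⟨hc0, hcr⟩ := hur t₁ ht₁
  -- ramp functions
  have hramp : ∀ (ε : ℝ), 0 < ε → ∀ c' : ℝ, Continuous fun x : ℝ => min 1 (max 0 ((c' - x) / ε)) :=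
    fun ε hε c' => continuous_const.min (continuous_const.max
      ((continuous_const.sub continuous_id).div_const ε))
  -- (i)
  have h1 : c ≤ t₁ := by
    refine le_of_forall_pos_le_add fun ε hε => ?_
    rcases le_or_gt c ε with hce | hce
    · linarith [ht₁.1]
    set F : ℝ → ℝ := fun x => min 1 (max 0 ((c - x) / ε)) with hF
    have hFc : Continuous F := hramp ε hε c
    have hFr : F r = 0 := by
      simp only [hF]
      rw [max_eq_left (div_nonpos_of_nonpos_of_nonneg (by linarith) hε.le)]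
      norm_num
    have e := hall F hFc hFr
    have hF0 : ∀ x, c ≤ x → F x = 0 := by
      intro x hx
      simp only [hF]
      rw [max_eq_left (div_nonpos_of_nonpos_of_nonneg (by linarith) hε.le)]
      norm_num
    have hF1 : ∀ x, x ≤ c - ε → F x = 1 := by
      intro x hx
      simp only [hF]
      rw [min_eq_left]
      refine le_max_of_le_right ?_
      rw [le_div_iff₀ hε]; linarith
    have hFle : ∀ x, F x ≤ 1 := fun x => min_le_left _ _
    have hFnn : ∀ x, 0 ≤ F x := fun x => le_min zero_le_one (le_max_left _ _)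
    have up : ∫ t in (0:ℝ)..(1 / 2), F (u t) ≤ t₁ := by
      rw [← intervalIntegral.integral_add_adjacent_intervals
        (hii F hFc 0 t₁ le_rfl ht₁.1.le ht₁.2.le) (hii F hFc t₁ (1 / 2) ht₁.1.le ht₁.2.le le_rfl)]
      have a1 : ∫ t in (0:ℝ)..t₁, F (u t) ≤ ∫ t in (0:ℝ)..t₁, (1:ℝ) :=
        intervalIntegral.integral_mono_on ht₁.1.le (hii F hFc 0 t₁ le_rfl ht₁.1.le ht₁.2.le)
          intervalIntegrable_const fun t _ => hFle _
      have a2 : ∫ t in t₁..(1 / 2), F (u t) = 0 := by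
        rw [intervalIntegral.integral_of_le ht₁.2.le, integral_Ioc_eq_integral_Ioo]
        refine setIntegral_eq_zero_of_forall_eq_zero fun t ht => hF0 _ ?_
        exact hmono ht₁ ⟨ht₁.1.trans ht.1, ht.2⟩ ht.1.le
      rw [a2]
      simpa using a1
    have lo : c - ε ≤ ∫ τ in (0:ℝ)..r, F τ := by
      rw [← intervalIntegral.integral_add_adjacent_intervals
        (hFc.intervalIntegrable 0 (c - ε)) (hFc.intervalIntegrable (c - ε) r)]
      have a1 : ∫ τ in (0:ℝ)..(c - ε), F τ = c - ε := by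
        have : ∫ τ in (0:ℝ)..(c - ε), F τ = ∫ τ in (0:ℝ)..(c - ε), (1:ℝ) := by
          refine intervalIntegral.integral_congr fun x hx => ?_
          rw [uIcc_of_le (by linarith)] at hx
          exact hF1 x hx.2
        rw [this]; simp
      have a2 : 0 ≤ ∫ τ in (c - ε)..r, F τ :=
        intervalIntegral.integral_nonneg (by linarith) fun x _ => hFnn x
      linarith
    linarith
  -- (ii)
  have h2 : c < r → t₁ ≤ c := by
    intro hcr'
    have : ∀ ε, 0 < ε → ε ≤ r - c → t₁ ≤ c + ε := by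
      intro ε hε hεr
      set F : ℝ → ℝ := fun x => min 1 (max 0 ((c + ε - x) / ε)) with hF
      have hFc : Continuous F := hramp ε hε (c + ε)
      have hFr : ∀ x, c + ε ≤ x → F x = 0 := by
        intro x hx
        simp only [hF]
        rw [max_eq_left (div_nonpos_of_nonpos_of_nonneg (by linarith) hε.le)]
        norm_num
      have e := hall F hFc (hFr r (by linarith))
      have hF1 : ∀ x, x ≤ c → F x = 1 := by
        intro x hx
        simp only [hF]
        rw [min_eq_left]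
        refine le_max_of_le_right ?_
        rw [le_div_iff₀ hε]; linarith
      have hFle : ∀ x, F x ≤ 1 := fun x => min_le_left _ _
      have hFnn : ∀ x, 0 ≤ F x := fun x => le_min zero_le_one (le_max_left _ _)
      have lo : t₁ ≤ ∫ t in (0:ℝ)..(1 / 2), F (u t) := by
        rw [← intervalIntegral.integral_add_adjacent_intervals
          (hii F hFc 0 t₁ le_rfl ht₁.1.le ht₁.2.le) (hii F hFc t₁ (1 / 2) ht₁.1.le ht₁.2.le le_rfl)]
        have a1 : ∫ t in (0:ℝ)..t₁, F (u t) = t₁ := by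
          rw [intervalIntegral.integral_of_le ht₁.1.le, integral_Ioc_eq_integral_Ioo]
          have : ∫ t in Ioo (0:ℝ) t₁, F (u t) = ∫ t in Ioo (0:ℝ) t₁, (1:ℝ) := by
            refine setIntegral_congr_fun measurableSet_Ioo fun t ht => hF1 _ ?_
            exact hmono ⟨ht.1, ht.2.trans ht₁.2⟩ ht₁ ht.2.le
          rw [this]
          simp [ht₁.1.le]
        have a2 : 0 ≤ ∫ t in t₁..(1 / 2), F (u t) :=
          intervalIntegral.integral_nonneg ht₁.2.le fun x _ => hFnn _
        linarith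
      have up : ∫ τ in (0:ℝ)..r, F τ ≤ c + ε := by
        rw [← intervalIntegral.integral_add_adjacent_intervals
          (hFc.intervalIntegrable 0 (c + ε)) (hFc.intervalIntegrable (c + ε) r)]
        have a1 : ∫ τ in (0:ℝ)..(c + ε), F τ ≤ ∫ τ in (0:ℝ)..(c + ε), (1:ℝ) :=
          intervalIntegral.integral_mono_on (by linarith) (hFc.intervalIntegrable _ _)
            intervalIntegrable_const fun t _ => hFle _
        have a2 : ∫ τ in (c + ε)..r, F τ = 0 := by
          have : ∫ τ in (c + ε)..r, F τ = ∫ τ in (c + ε)..r, (0:ℝ) := by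
            refine intervalIntegral.integral_congr fun x hx => ?_
            rw [uIcc_of_le (by linarith)] at hx
            exact hFr x hx.1
          rw [this]; simp
        rw [a2]
        simpa using a1
      linarith
    refine le_of_forall_pos_le_add fun ε hε => ?_
    have h3 := this (min ε (r - c)) (lt_min hε (by linarith)) (min_le_right _ _)
    have := min_le_left ε (r - c)
    linarith
  rcases lt_or_eq_of_le hcr with h | h
  · have h3 : c = t₁ := le_antisymm h1 (h2 h)
    rw [h3, min_eq_left (by linarith)]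
  · have h' : c = r := h
    rw [h', min_eq_right (by linarith)]

end Crest.Agent.R214.MS
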