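import Mathlib
import Crest.Agent.R214.Mollify

-- ▼ part R214/RigArc
section

set_option autoImplicit false

/-! Row 214, rigidity: one-dimensional lemmas. A periodic measurable set of the line which is an a.e.
limit of `C¹` periodic functions with total variation `< 3` along a subsequence is an arc. -/

open MeasureTheory Set Filter Topology

noncomputable section

namespace Crest.Agent.R214.Rig

/-- indicator -/
def ind (A : Set ℝ) : ℝ → ℝ := A.indicator (fun _ => (1 : ℝ))

theorem ind_of_mem {A : Set ℝ} {t : ℝ} (h : t ∈ A) : ind A t = 1 := by simp [ind, h]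
theorem ind_of_notMem {A : Set ℝ} {t : ℝ} (h : t ∉ A) : ind A t = 0 := by simp [ind, h]

/-- the open arc of length `L` centred at `c`, as a periodic subset of the line -/
def arc (c L : ℝ) : Set ℝ := {t | |t - c - round (t - c)| < L / 2}

theorem variation_le {h g : ℝ → ℝ} (hd : ContDiff ℝ 1 h) (hg : Continuous g) {a b m : ℝ}
    (hab : a ≤ b) (hm : ∀ t ∈ Icc a b, m ≤ g t) (hm0 : 0 ≤ m) :
    m * |h b - h a| ≤ ∫ t in a..b, g t * |deriv h t| := by
  have hdc : Continuous (deriv h) := hd.continuous_deriv le_rfl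
  have h1 : ∫ t in a..b, deriv h t = h b - h a :=
    intervalIntegral.integral_deriv_eq_sub (fun x _ => hd.differentiable one_ne_zero x)
      (hdc.intervalIntegrable _ _)
  have h2 : |h b - h a| ≤ ∫ t in a..b, |deriv h t| := by
    rw [← h1]
    exact intervalIntegral.abs_integral_le_integral_abs hab
  calc m * |h b - h a| ≤ m * ∫ t in a..b, |deriv h t| := mul_le_mul_of_nonneg_left h2 hm0
    _ = ∫ t in a..b, m * |deriv h t| := by rw [intervalIntegral.integral_const_mul]
    _ ≤ ∫ t in a..b, g t * |deriv h t| := by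
        apply intervalIntegral.integral_mono_on hab
        · exact (continuous_const.mul hdc.abs).intervalIntegrable _ _
        · exact (hg.mul hdc.abs).intervalIntegrable _ _
        · intro t ht
          exact mul_le_mul_of_nonneg_right (hm t ht) (abs_nonneg _)

theorem deriv_periodic {h : ℝ → ℝ} (hp : Function.Periodic h 1) :
    Function.Periodic (deriv h) 1 := by
  intro t
  have h1 : (fun s => h (s + 1)) = h := funext hp
  have h2 := deriv_comp_add_const h 1 t
  rw [h1] at h2
  exact h2.symm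

theorem integral_shift {h g : ℝ → ℝ} (hp : Function.Periodic h 1) (hgp : Function.Periodic g 1)
    (a : ℝ) : ∫ t in a..(a + 1), g t * |deriv h t| = ∫ t in (0:ℝ)..1, g t * |deriv h t| := by
  have hper : Function.Periodic (fun t => g t * |deriv h t|) 1 := by
    intro t
    simp only [hgp t, deriv_periodic hp t]
  have := hper.intervalIntegral_add_eq a 0
  simpa using this

/-- the weighted variation over a period dominates the sum over two disjoint intervals -/
theorem two_interval {h g : ℝ → ℝ} (hd : ContDiff ℝ 1 h) (hp : Function.Periodic h 1)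
    (hg : Continuous g) (hgp : Function.Periodic g 1) (hg0 : ∀ t, 0 ≤ g t)
    {t1 t2 t3 t4 m1 m2 : ℝ} (h12 : t1 ≤ t2) (h23 : t2 ≤ t3) (h34 : t3 ≤ t4) (h41 : t4 ≤ t1 + 1)
    (hm1 : ∀ t ∈ Icc t1 t2, m1 ≤ g t) (hm2 : ∀ t ∈ Icc t3 t4, m2 ≤ g t)
    (hm10 : 0 ≤ m1) (hm20 : 0 ≤ m2) :
    m1 * |h t2 - h t1| + m2 * |h t4 - h t3| ≤ ∫ t in (0:ℝ)..1, g t * |deriv h t| := by
  have hdc : Continuous (deriv h) := hd.continuous_deriv le_rfl
  have hc : Continuous (fun t => g t * |deriv h t|) := hg.mul hdc.abs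
  have hnn : ∀ t, 0 ≤ g t * |deriv h t| := fun t => mul_nonneg (hg0 t) (abs_nonneg _)
  rw [← integral_shift hp hgp t1]
  have e1 : ∫ t in t1..(t1+1), g t * |deriv h t|
      = (∫ t in t1..t2, g t * |deriv h t|) + (∫ t in t2..t3, g t * |deriv h t|)
        + (∫ t in t3..t4, g t * |deriv h t|) + (∫ t in t4..(t1+1), g t * |deriv h t|) := by
    rw [intervalIntegral.integral_add_adjacent_intervals (hc.intervalIntegrable _ _)
      (hc.intervalIntegrable _ _), intervalIntegral.integral_add_adjacent_intervals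
      (hc.intervalIntegrable _ _) (hc.intervalIntegrable _ _),
      intervalIntegral.integral_add_adjacent_intervals (hc.intervalIntegrable _ _)
      (hc.intervalIntegrable _ _)]
  rw [e1]
  have f1 := variation_le hd hg h12 hm1 hm10
  have f2 := variation_le hd hg h34 hm2 hm20
  have f3 : 0 ≤ ∫ t in t2..t3, g t * |deriv h t| :=
    intervalIntegral.integral_nonneg h23 fun t _ => hnn t
  have f4 : 0 ≤ ∫ t in t4..(t1+1), g t * |deriv h t| :=
    intervalIntegral.integral_nonneg h41 fun t _ => hnn t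
  linarith

theorem four_interval {h : ℝ → ℝ} (hd : ContDiff ℝ 1 h) (hp : Function.Periodic h 1)
    {t1 t2 t3 t4 : ℝ} (h12 : t1 ≤ t2) (h23 : t2 ≤ t3) (h34 : t3 ≤ t4) (h41 : t4 ≤ t1 + 1) :
    |h t2 - h t1| + |h t3 - h t2| + |h t4 - h t3| + |h t1 - h t4|
      ≤ ∫ t in (0:ℝ)..1, |deriv h t| := by
  have hdc : Continuous (deriv h) := hd.continuous_deriv le_rfl
  have hc : Continuous (fun t => |deriv h t|) := hdc.abs
  have e0 := integral_shift (g := fun _ => 1) hp (fun _ => rfl) t1
  simp only [one_mul] at e0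
  rw [← e0]
  have e1 : ∫ t in t1..(t1+1), |deriv h t|
      = (∫ t in t1..t2, |deriv h t|) + (∫ t in t2..t3, |deriv h t|)
        + (∫ t in t3..t4, |deriv h t|) + (∫ t in t4..(t1+1), |deriv h t|) := by
    rw [intervalIntegral.integral_add_adjacent_intervals (hc.intervalIntegrable _ _)
      (hc.intervalIntegrable _ _), intervalIntegral.integral_add_adjacent_intervals
      (hc.intervalIntegrable _ _) (hc.intervalIntegrable _ _),
      intervalIntegral.integral_add_adjacent_intervals (hc.intervalIntegrable _ _)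
      (hc.intervalIntegrable _ _)]
  rw [e1]
  have key : ∀ {a b : ℝ}, a ≤ b → |h b - h a| ≤ ∫ t in a..b, |deriv h t| := by
    intro a b hab
    have := variation_le (g := fun _ => 1) (m := 1) hd continuous_const hab
      (fun _ _ => le_rfl) zero_le_one
    simpa using this
  have f1 := key h12
  have f2 := key h23
  have f3 := key h34
  have f4 := key h41
  rw [hp t1] at f4
  linarith

section limit

variable {A : Set ℝ} {h : ℕ → ℝ → ℝ}

theorem exists_in_Ioo {Z : Set ℝ} (hZ : ∀ᵐ t, t ∈ Z) {a b : ℝ} (hab : a < b) :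
    ∃ t ∈ Ioo a b, t ∈ Z := by
  have h1 : (volume : Measure ℝ) (Ioo a b) ≠ 0 := by
    simp [hab]
  by_contra hcon
  push Not at hcon
  apply h1
  refine measure_mono_null (fun t ht => ?_) (ae_iff.1 hZ)
  exact hcon t ht

theorem two_sub_le (hd : ∀ k, ContDiff ℝ 1 (h k)) (hp : ∀ k, Function.Periodic (h k) 1)
    {p q : ℝ} (hpq : p < q) (hqp : q < p + 1)
    (hpl : Tendsto (fun k => h k p) atTop (𝓝 1)) (hql : Tendsto (fun k => h k q) atTop (𝓝 0))
    {ε : ℝ} (hε : 0 < ε) :
    ∀ᶠ k in atTop, 2 - ε ≤ ∫ t in (0:ℝ)..1, |deriv (h k) t| := by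
  have h1 : Tendsto (fun k => |h k q - h k p| + |h k q - h k q| + |h k q - h k q|
      + |h k p - h k q|) atTop (𝓝 2) := by
    have : Tendsto (fun k => |h k q - h k p| + |h k q - h k q| + |h k q - h k q|
      + |h k p - h k q|) atTop (𝓝 (|(0:ℝ) - 1| + |(0:ℝ) - 0| + |(0:ℝ) - 0| + |(1:ℝ) - 0|)) :=
      ((((hql.sub hpl).abs).add (hql.sub hql).abs).add (hql.sub hql).abs).add (hpl.sub hql).abs
    convert this using 2
    norm_num
  filter_upwards [h1.eventually (lt_mem_nhds (show 2 - ε < 2 by linarith))] with k hk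
  exact hk.le.trans (four_interval (hd k) (hp k) hpq.le le_rfl le_rfl hqp.le)

theorem no_alternation (hd : ∀ k, ContDiff ℝ 1 (h k)) (hp : ∀ k, Function.Periodic (h k) 1)
    (hfreq : ∃ᶠ k in atTop, ∫ t in (0:ℝ)..1, |deriv (h k) t| < 3)
    {t1 t2 t3 t4 : ℝ} (h12 : t1 < t2) (h23 : t2 < t3) (h34 : t3 < t4) (h41 : t4 < t1 + 1)
    (l1 : Tendsto (fun k => h k t1) atTop (𝓝 1)) (l2 : Tendsto (fun k => h k t2) atTop (𝓝 0))
    (l3 : Tendsto (fun k => h k t3) atTop (𝓝 1)) (l4 : Tendsto (fun k => h k t4) atTop (𝓝 0)) :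
    False := by
  have hl : Tendsto (fun k => |h k t2 - h k t1| + |h k t3 - h k t2| + |h k t4 - h k t3|
      + |h k t1 - h k t4|) atTop (𝓝 4) := by
    have : Tendsto (fun k => |h k t2 - h k t1| + |h k t3 - h k t2| + |h k t4 - h k t3|
      + |h k t1 - h k t4|) atTop (𝓝 (|(0:ℝ) - 1| + |(1:ℝ) - 0| + |(0:ℝ) - 1| + |(1:ℝ) - 0|)) :=
      ((((l2.sub l1).abs).add (l3.sub l2).abs).add (l4.sub l3).abs).add (l1.sub l4).abs
    convert this using 2
    norm_num
  obtain ⟨k, hk1, hk2⟩ := (hfreq.and_eventually (hl.eventually (lt_mem_nhds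
    (show (3:ℝ) < 4 by norm_num)))).exists
  have := four_interval (hd k) (hp k) h12.le h23.le h34.le h41.le
  linarith

/-- positive measure of both the set and its complement in a period produces points -/
theorem exists_points {Z : Set ℝ} (hAp : ∀ t, t + 1 ∈ A ↔ t ∈ A)
    (hZ : ∀ᵐ t, t ∈ Z) (hL0 : 0 < ∫ t in (0:ℝ)..1, ind A t)
    (hL1 : ∫ t in (0:ℝ)..1, ind A t < 1) :
    ∃ p q, p < q ∧ q < p + 1 ∧ p ∈ A ∧ p ∈ Z ∧ q ∉ A ∧ q ∈ Z := by
  have hper : Function.Periodic (ind A) 1 := by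
    intro t
    by_cases ht : t ∈ A
    · rw [ind_of_mem ht, ind_of_mem ((hAp t).2 ht)]
    · rw [ind_of_notMem ht, ind_of_notMem (fun h' => ht ((hAp t).1 h'))]
  have hp : ∃ p, p ∈ A ∧ p ∈ Z := by
    by_contra hcon
    push Not at hcon
    have : ∫ t in (0:ℝ)..1, ind A t = ∫ t in (0:ℝ)..1, (0:ℝ) := by
      apply intervalIntegral.integral_congr_ae
      filter_upwards [hZ] with t ht _
      exact ind_of_notMem (fun h' => hcon t h' ht)
    rw [this] at hL0
    simp at hL0
  obtain ⟨p, hpA, hpZ⟩ := hp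
  have hq : ∃ q ∈ Ioo p (p + 1), q ∉ A ∧ q ∈ Z := by
    by_contra hcon
    push Not at hcon
    have h1 : ∫ t in (0:ℝ)..1, ind A t = ∫ t in p..(p + 1), ind A t := by
      have := hper.intervalIntegral_add_eq 0 p
      simpa using this
    have h2 : ∫ t in p..(p + 1), ind A t = ∫ t in p..(p + 1), (1:ℝ) := by
      apply intervalIntegral.integral_congr_ae
      have hne : ∀ᵐ t : ℝ, t ≠ p + 1 := by
        simp [ae_iff, measure_singleton]
      filter_upwards [hZ, hne] with t ht hne' htI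
      rw [uIoc_of_le (by linarith)] at htI
      have hto : t ∈ Ioo p (p + 1) := ⟨htI.1, lt_of_le_of_ne htI.2 hne'⟩
      by_contra hA'
      have : t ∉ A := fun h' => hA' (ind_of_mem h')
      exact hcon t hto this ht
    rw [h1, h2] at hL1
    simp at hL1
  obtain ⟨q, hqI, hqA, hqZ⟩ := hq
  exact ⟨p, q, hqI.1, hqI.2, hpA, hpZ, hqA, hqZ⟩

/-- the limit set is an arc -/
theorem exists_arc (hA : MeasurableSet A) (hAp : ∀ t, t + 1 ∈ A ↔ t ∈ A)
    (hd : ∀ k, ContDiff ℝ 1 (h k)) (hp : ∀ k, Function.Periodic (h k) 1)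
    (hlim : ∀ᵐ t, Tendsto (fun k => h k t) atTop (𝓝 (ind A t)))
    (hfreq : ∃ᶠ k in atTop, ∫ t in (0:ℝ)..1, |deriv (h k) t| < 3)
    (hL0 : 0 < ∫ t in (0:ℝ)..1, ind A t) (hL1 : ∫ t in (0:ℝ)..1, ind A t < 1) :
    ∃ c, ∀ᵐ t, t ∈ A ↔ t ∈ arc c (∫ t in (0:ℝ)..1, ind A t) := by
  set Z : Set ℝ := {t | Tendsto (fun k => h k t) atTop (𝓝 (ind A t))} with hZdef
  have hZ : ∀ᵐ t, t ∈ Z := hlim
  have hper : Function.Periodic (ind A) 1 := by
    intro t
    by_cases ht : t ∈ A
    · rw [ind_of_mem ht, ind_of_mem ((hAp t).2 ht)]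
    · rw [ind_of_notMem ht, ind_of_notMem (fun h' => ht ((hAp t).1 h'))]
  obtain ⟨p, q, hpq, hqp, hpA, hpZ, hqA, hqZ⟩ := exists_points hAp hZ hL0 hL1
  have lA : ∀ {t}, t ∈ A → t ∈ Z → Tendsto (fun k => h k t) atTop (𝓝 1) := by
    intro t h1 h2
    have : Tendsto (fun k => h k t) atTop (𝓝 (ind A t)) := h2
    rwa [ind_of_mem h1] at this
  have lN : ∀ {t}, t ∉ A → t ∈ Z → Tendsto (fun k => h k t) atTop (𝓝 0) := by
    intro t h1 h2
    have : Tendsto (fun k => h k t) atTop (𝓝 (ind A t)) := h2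
    rwa [ind_of_notMem h1] at this
  have noalt : ∀ {t1 t2 t3 t4 : ℝ}, t1 < t2 → t2 < t3 → t3 < t4 → t4 < t1 + 1 →
      t1 ∈ A → t1 ∈ Z → t2 ∉ A → t2 ∈ Z → t3 ∈ A → t3 ∈ Z → t4 ∉ A → t4 ∈ Z → False := by
    intro t1 t2 t3 t4 h12 h23 h34 h41 a1 z1 a2 z2 a3 z3 a4 z4
    exact no_alternation hd hp hfreq h12 h23 h34 h41 (lA a1 z1) (lN a2 z2) (lA a3 z3) (lN a4 z4)
  -- the two cut points
  set S1 : Set ℝ := A ∩ Z ∩ Icc p q with hS1
  set S2 : Set ℝ := A ∩ Z ∩ Icc q (p + 1) with hS2
  have hp1A : p + 1 ∈ A := (hAp p).2 hpA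
  have hp1Z : p + 1 ∈ Z := by
    change Tendsto (fun k => h k (p + 1)) atTop (𝓝 (ind A (p + 1)))
    have : (fun k => h k (p + 1)) = fun k => h k p := funext fun k => hp k p
    rw [this, hper p]
    exact hpZ
  have hS1ne : S1.Nonempty := ⟨p, ⟨hpA, hpZ⟩, le_rfl, hpq.le⟩
  have hS2ne : S2.Nonempty := ⟨p + 1, ⟨hp1A, hp1Z⟩, hqp.le, le_rfl⟩
  have hS1bd : BddAbove S1 := ⟨q, fun t ht => ht.2.2⟩
  have hS2bd : BddBelow S2 := ⟨q, fun t ht => ht.2.1⟩
  set b := sSup S1 with hb
  set a := sInf S2 with ha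
  have hpb : p ≤ b := le_csSup hS1bd ⟨⟨hpA, hpZ⟩, le_rfl, hpq.le⟩
  have hbq : b ≤ q := csSup_le hS1ne fun t ht => ht.2.2
  have hqa : q ≤ a := le_csInf hS2ne fun t ht => ht.2.1
  have hap : a ≤ p + 1 := csInf_le hS2bd ⟨⟨hp1A, hp1Z⟩, hqp.le, le_rfl⟩
  have F1 : ∀ t ∈ Z, p < t → t < b → t ∈ A := by
    intro t htZ h1 h2
    by_contra htA
    obtain ⟨s, hs, hts⟩ := exists_lt_of_lt_csSup hS1ne h2
    have hsq : s < q := lt_of_le_of_ne hs.2.2 (fun e => hqA (e ▸ hs.1.1))
    exact noalt h1 hts hsq hqp hpA hpZ htA htZ hs.1.1 hs.1.2 hqA hqZ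
  have F2 : ∀ t ∈ Z, b < t → t < a → t ∉ A := by
    intro t htZ h1 h2 htA
    rcases le_total t q with h3 | h3
    · exact absurd (le_csSup hS1bd ⟨⟨htA, htZ⟩, by linarith, h3⟩) (not_le.2 h1)
    · exact absurd (csInf_le hS2bd ⟨⟨htA, htZ⟩, h3, by linarith⟩) (not_le.2 h2)
  have F3 : ∀ t ∈ Z, a < t → t < p + 1 → t ∈ A := by
    intro t htZ h1 h2
    by_contra htA
    obtain ⟨s, hs, hst⟩ := exists_lt_of_csInf_lt hS2ne h1
    have hqs : q < s := lt_of_le_of_ne hs.2.1 (fun e => hqA (e ▸ hs.1.1))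
    exact noalt hpq hqs hst h2 hpA hpZ hqA hqZ hs.1.1 hs.1.2 htA htZ
  -- Z is periodic
  have hZm : ∀ (m : ℤ) (t : ℝ), t - m ∈ Z ↔ t ∈ Z := by
    intro m t
    have e1 : ∀ k, h k (t - m) = h k t := fun k => by
      have := (hp k).sub_zsmul_eq m (x := t)
      simpa using this
    have e2 : ind A (t - m) = ind A t := by
      have := hper.sub_zsmul_eq m (x := t)
      simpa using this
    simp only [hZdef, mem_ofPred_eq, e1, e2]
  have hAm : ∀ (m : ℤ) (t : ℝ), t - m ∈ A ↔ t ∈ A := by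
    intro m t
    have e2 : ind A (t - m) = ind A t := by
      have := hper.sub_zsmul_eq m (x := t)
      simpa using this
    constructor
    · intro h1
      by_contra h2
      rw [ind_of_mem h1, ind_of_notMem h2] at e2
      norm_num at e2
    · intro h1
      by_contra h2
      rw [ind_of_mem h1, ind_of_notMem h2] at e2
      norm_num at e2
  -- membership on (a, a+1)
  have G1 : ∀ t ∈ Z, a < t → t < b + 1 → t ≠ p + 1 → t ∈ A := by
    intro t htZ h1 h2 h3
    rcases lt_or_gt_of_ne h3 with h4 | h4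
    · exact F3 t htZ h1 h4
    · rw [← hAm 1 t]
      refine F1 _ ((hZm 1 t).2 htZ) ?_ ?_ <;> push_cast <;> linarith
  have G2 : ∀ t ∈ Z, b + 1 < t → t < a + 1 → t ∉ A := by
    intro t htZ h1 h2
    rw [← hAm 1 t]
    refine F2 _ ((hZm 1 t).2 htZ) ?_ ?_ <;> push_cast <;> linarith
  have hLval : ∫ t in (0:ℝ)..1, ind A t = b + 1 - a := by
    have h1 : ∫ t in (0:ℝ)..1, ind A t = ∫ t in a..(a + 1), ind A t := by
      have := hper.intervalIntegral_add_eq 0 a
      simpa using this
    have hne : ∀ x : ℝ, ∀ᵐ t : ℝ, t ≠ x := fun x => by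
      simp [ae_iff, measure_singleton]
    have hint : ∀ x y : ℝ, IntervalIntegrable (ind A) volume x y := by
      intro x y
      have : IntegrableOn (ind A) (uIoc x y) := by
        apply Measure.integrableOn_of_bounded (M := 1)
        · exact measure_Ioc_lt_top.ne
        · exact (measurable_const.indicator hA).aestronglyMeasurable
        · refine Eventually.of_forall fun t => ?_
          unfold ind
          by_cases ht : t ∈ A <;> simp [ht]
      rw [intervalIntegrable_iff]
      exact this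
    rw [h1, ← intervalIntegral.integral_add_adjacent_intervals (hint a (b+1)) (hint (b+1) (a+1))]
    have h2 : ∫ t in a..(b+1), ind A t = ∫ t in a..(b+1), (1:ℝ) := by
      apply intervalIntegral.integral_congr_ae
      filter_upwards [hZ, hne (p+1), hne (b+1)] with t ht h3 h4 htI
      rw [uIoc_of_le (by linarith)] at htI
      exact ind_of_mem (G1 t ht htI.1 (lt_of_le_of_ne htI.2 h4) h3)
    have h3 : ∫ t in (b+1)..(a+1), ind A t = ∫ t in (b+1)..(a+1), (0:ℝ) := by
      apply intervalIntegral.integral_congr_ae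
      filter_upwards [hZ, hne (a+1)] with t ht h4 htI
      rw [uIoc_of_le (by linarith)] at htI
      exact ind_of_notMem (G2 t ht htI.1 (lt_of_le_of_ne htI.2 h4))
    rw [h2, h3]
    simp
  rw [hLval]
  refine ⟨(a + b + 1) / 2, ?_⟩
  set c := (a + b + 1) / 2 with hc
  have hne : ∀ x : ℝ, ∀ᵐ t : ℝ, ∀ m : ℤ, t ≠ x + m := by
    intro x
    rw [ae_all_iff]
    intro m
    simp [ae_iff, measure_singleton]
  filter_upwards [hZ, hne a, hne b, hne (p + 1), hne (c - 1/2), hne (c + 1/2)] with t ht ha' hb' hp' hc1 hc2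
  set m := round (t - c) with hm
  have hr : |t - c - m| ≤ 1 / 2 := by
    rw [hm]
    exact abs_sub_round _
  have htm : t - m ∈ Z := (hZm m t).2 ht
  have hub : t - m ≤ c + 1/2 := by linarith [(abs_le.1 hr).2]
  have hlb : c - 1/2 ≤ t - m := by linarith [(abs_le.1 hr).1]
  have hne_a : t - m ≠ a := fun e => ha' m (by linarith)
  have hne_b : t - m ≠ b := fun e => hb' m (by linarith)
  have hne_b1 : t - m ≠ b + 1 := fun e => hb' (m + 1) (by push_cast; linarith)
  have hne_p : t - m ≠ p + 1 := fun e => hp' m (by linarith)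
  have hne_c1 : t - m ≠ c - 1/2 := fun e => hc1 m (by linarith)
  have hne_c2 : t - m ≠ c + 1/2 := fun e => hc2 m (by linarith)
  rw [← hAm m t]
  change t - m ∈ A ↔ |t - c - m| < (b + 1 - a) / 2
  have e : t - c - m = (t - m) - c := by ring
  rw [e]
  set s := t - m with hs
  constructor
  · intro hsA
    rw [abs_lt]
    constructor
    · by_contra hcon
      push Not at hcon
      have h1 : s < a := lt_of_le_of_ne (by rw [hc] at hcon; linarith) hne_a
      have h2 : b ≤ s := by rw [hc] at hlb; linarith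
      exact F2 s htm (lt_of_le_of_ne h2 hne_b.symm) h1 hsA
    · by_contra hcon
      push Not at hcon
      have h1 : b + 1 < s := lt_of_le_of_ne (by rw [hc] at hcon; linarith) hne_b1.symm
      have h2 : s < a + 1 := by
        have : a ≤ p + 1 := hap
        rcases lt_or_eq_of_le (show b ≤ a by linarith) with h3 | h3
        · rw [hc] at hub; linarith
        · exfalso
          rw [hc] at hub
          have : s ≤ b + 1 := by linarith
          linarith
      exact G2 s htm h1 h2 hsA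
  · intro habs
    rw [abs_lt] at habs
    refine G1 s htm ?_ ?_ hne_p
    · have := habs.1; rw [hc] at this; linarith
    · have := habs.2; rw [hc] at this; linarith

/-- weighted lower bound for the variation when the limit set is an arc -/
theorem weighted_liminf {c L : ℝ} (hL0 : 0 < L) (hL1 : L < 1)
    (harc : ∀ᵐ t, t ∈ A ↔ t ∈ arc c L)
    (hd : ∀ k, ContDiff ℝ 1 (h k)) (hp : ∀ k, Function.Periodic (h k) 1)
    (hlim : ∀ᵐ t, Tendsto (fun k => h k t) atTop (𝓝 (ind A t)))
    {g : ℝ → ℝ} (hg : Continuous g) (hgp : Function.Periodic g 1) (hg0 : ∀ t, 0 ≤ g t)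
    {ε : ℝ} (hε : 0 < ε) :
    ∀ᶠ k in atTop, g (c - L / 2) + g (c + L / 2) - ε
      ≤ ∫ t in (0:ℝ)..1, g t * |deriv (h k) t| := by
  obtain ⟨δ1, hδ1, hδ1'⟩ := Metric.continuousAt_iff.1 (hg.continuousAt (x := c - L/2)) (ε/8) (by positivity)
  obtain ⟨δ2, hδ2, hδ2'⟩ := Metric.continuousAt_iff.1 (hg.continuousAt (x := c + L/2)) (ε/8) (by positivity)
  set δ := min (min δ1 δ2) (min (L/2) ((1-L)/2)) with hδ
  have hδ0 : 0 < δ := by
    apply lt_min (lt_min hδ1 hδ2)
    apply lt_min <;> linarith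
  have hδL : δ ≤ L / 2 := (min_le_right _ _).trans (min_le_left _ _)
  have hδL' : δ ≤ (1 - L) / 2 := (min_le_right _ _).trans (min_le_right _ _)
  have hδa : δ ≤ δ1 := (min_le_left _ _).trans (min_le_left _ _)
  have hδb : δ ≤ δ2 := (min_le_left _ _).trans (min_le_right _ _)
  set Z : Set ℝ := {t | Tendsto (fun k => h k t) atTop (𝓝 (ind A t)) ∧ (t ∈ A ↔ t ∈ arc c L)}
  have hZ : ∀ᵐ t, t ∈ Z := by
    filter_upwards [hlim, harc] with t h1 h2
    exact ⟨h1, h2⟩
  obtain ⟨t1, ht1, hz1⟩ := exists_in_Ioo hZ (show c - L/2 - δ < c - L/2 by linarith)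
  obtain ⟨t2, ht2, hz2⟩ := exists_in_Ioo hZ (show c - L/2 < c - L/2 + δ by linarith)
  obtain ⟨t3, ht3, hz3⟩ := exists_in_Ioo hZ (show c + L/2 - δ < c + L/2 by linarith)
  obtain ⟨t4, ht4, hz4⟩ := exists_in_Ioo hZ (show c + L/2 < c + L/2 + δ by linarith)
  have rnd : ∀ {t : ℝ}, |t - c| < 1/2 → (t ∈ arc c L ↔ |t - c| < L / 2) := by
    intro t ht
    have : round (t - c) = 0 := by
      rw [round_eq_zero_iff]
      rw [abs_lt] at ht
      constructor <;> linarith [ht.1, ht.2]
    simp [arc, this]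
  have m1 : t1 ∉ A := by
    rw [hz1.2, rnd (by rw [abs_lt]; constructor <;> linarith [ht1.1, ht1.2]), abs_lt]
    intro hh
    linarith [hh.1, ht1.2]
  have m2 : t2 ∈ A := by
    rw [hz2.2, rnd (by rw [abs_lt]; constructor <;> linarith [ht2.1, ht2.2]), abs_lt]
    constructor <;> linarith [ht2.1, ht2.2]
  have m3 : t3 ∈ A := by
    rw [hz3.2, rnd (by rw [abs_lt]; constructor <;> linarith [ht3.1, ht3.2]), abs_lt]
    constructor <;> linarith [ht3.1, ht3.2]
  have m4 : t4 ∉ A := by
    rw [hz4.2, rnd (by rw [abs_lt]; constructor <;> linarith [ht4.1, ht4.2]), abs_lt]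
    intro hh
    linarith [hh.2, ht4.1]
  have l1 : Tendsto (fun k => h k t1) atTop (𝓝 0) := by have := hz1.1; rwa [ind_of_notMem m1] at this
  have l2 : Tendsto (fun k => h k t2) atTop (𝓝 1) := by have := hz2.1; rwa [ind_of_mem m2] at this
  have l3 : Tendsto (fun k => h k t3) atTop (𝓝 1) := by have := hz3.1; rwa [ind_of_mem m3] at this
  have l4 : Tendsto (fun k => h k t4) atTop (𝓝 0) := by have := hz4.1; rwa [ind_of_notMem m4] at this
  set n1 := max (g (c - L/2) - ε/8) 0 with hn1
  set n2 := max (g (c + L/2) - ε/8) 0 with hn2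
  have hm1 : ∀ t ∈ Icc t1 t2, n1 ≤ g t := by
    intro t ht
    apply max_le _ (hg0 t)
    have hd1 : dist t (c - L/2) < δ1 := by
      rw [Real.dist_eq, abs_lt]
      constructor <;> linarith [ht.1, ht.2, ht1.1, ht2.2]
    have := hδ1' hd1
    rw [Real.dist_eq, abs_lt] at this
    linarith [this.1]
  have hm2 : ∀ t ∈ Icc t3 t4, n2 ≤ g t := by
    intro t ht
    apply max_le _ (hg0 t)
    have hd1 : dist t (c + L/2) < δ2 := by
      rw [Real.dist_eq, abs_lt]
      constructor <;> linarith [ht.1, ht.2, ht3.1, ht4.2]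
    have := hδ2' hd1
    rw [Real.dist_eq, abs_lt] at this
    linarith [this.1]
  have hn10 : 0 ≤ n1 := le_max_right _ _
  have hn20 : 0 ≤ n2 := le_max_right _ _
  have hlimsum : Tendsto (fun k => n1 * |h k t2 - h k t1| + n2 * |h k t4 - h k t3|) atTop
      (𝓝 (n1 + n2)) := by
    have : Tendsto (fun k => n1 * |h k t2 - h k t1| + n2 * |h k t4 - h k t3|) atTop
      (𝓝 (n1 * |(1:ℝ) - 0| + n2 * |(0:ℝ) - 1|)) :=
      (((l2.sub l1).abs).const_mul n1).add (((l4.sub l3).abs).const_mul n2)
    convert this using 2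
    norm_num
  have hlow : g (c - L/2) + g (c + L/2) - ε < n1 + n2 := by
    have h1 : g (c - L/2) - ε/8 ≤ n1 := le_max_left _ _
    have h2 : g (c + L/2) - ε/8 ≤ n2 := le_max_left _ _
    linarith
  filter_upwards [hlimsum.eventually (lt_mem_nhds hlow)] with k hk
  refine hk.le.trans ?_
  exact two_interval (hd k) (hp k) hg hgp hg0 (by linarith [ht1.2, ht2.1]) (by linarith [ht2.2, ht3.1])
    (by linarith [ht3.2, ht4.1]) (by linarith [ht4.2, ht1.1]) hm1 hm2 hn10 hn20

end limit

end Crest.Agent.R214.Rig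
end
end

-- ▼ part R214/RigTest
section

set_option autoImplicit false

/-! Row 214, rigidity: testing the perimeter with fields orthogonal to a coordinate direction. -/

open MeasureTheory Set Filter Topology Crest.GeometryTopology.PeriodicPerimeter
open scoped ContDiff

noncomputable section

namespace Crest.Agent.R214.Rig

variable {n : ℕ}

/-- standard basis vector -/
def ei (i : Fin n) : En n := EuclideanSpace.single i (1 : ℝ)

theorem norm_ei (i : Fin n) : ‖ei i‖ = 1 := by simp [ei]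

theorem ei_int (i : Fin n) (m : ℤ) : HasIntegerCoords ((m : ℝ) • ei i) := by
  intro j
  by_cases h : j = i
  · refine ⟨m, ?_⟩
    simp [ei, h]
  · refine ⟨0, ?_⟩
    simp [ei, h]

theorem inner_ei (i : Fin n) (v : En n) : inner ℝ v (ei i) = v i := by
  simp [ei, EuclideanSpace.inner_single_right]

/-- inequality (B'): horizontal test field plus the optimal vertical component -/
theorem test_ineq {E : Set (En n)} (hE : MeasurableSet E) (hp : IsLatticePeriodic E)
    (hP : periodicPerimeter E ≠ ⊤) (i : Fin n) (k : ℕ) {Ψ : En n → En n}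
    (hΨ : ContDiff ℝ 1 Ψ) (hΨp : IsPer Ψ) (hΨ1 : ∀ x, ‖Ψ x‖ ≤ 1) (hΨi : ∀ x, Ψ x i = 0) :
    (∫ x in unitCell n, Real.sqrt (1 - ‖Ψ x‖ ^ 2) * |fderiv ℝ (moll E k) x (ei i)|)
      + ∫ x in unitCell n, moll E k x * divergence Ψ x ≤ (periodicPerimeter E).toReal := by
  have hf := contDiff_moll hE k
  have hf1 : ContDiff ℝ 1 (moll E k) := hf.of_le (by norm_cast)
  have hfp := moll_per hp k
  set s : En n → ℝ := fun x => Real.sqrt (1 - ‖Ψ x‖ ^ 2) * SignType.sign (fderiv ℝ (moll E k) x (ei i)) with hs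
  set Φ : En n → En n := fun x => Ψ x - s x • ei i with hΦ
  have hΦ1 : ∀ x, ‖Φ x‖ ≤ 1 := by
    intro x
    have h1 : ‖Φ x‖ ^ 2 = ‖Ψ x‖ ^ 2 + (s x) ^ 2 := by
      rw [hΦ]
      simp only
      rw [norm_sub_sq_real, inner_smul_right, inner_ei, hΨi, norm_smul, norm_ei]
      simp
    have h2 : (s x) ^ 2 ≤ 1 - ‖Ψ x‖ ^ 2 := by
      have hnn : 0 ≤ 1 - ‖Ψ x‖ ^ 2 := by
        have := hΨ1 x
        have h0 := norm_nonneg (Ψ x)
        nlinarith
      rw [hs]
      simp only
      rw [mul_pow, Real.sq_sqrt hnn]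
      have h3 : ((SignType.sign (fderiv ℝ (moll E k) x (ei i)) : ℝ)) ^ 2 ≤ 1 := by
        rcases lt_trichotomy (fderiv ℝ (moll E k) x (ei i)) 0 with h | h | h
        · simp [h]
        · simp [h]
        · simp [h]
      nlinarith
    have h3 : ‖Φ x‖ ^ 2 ≤ 1 := by rw [h1]; linarith
    have h4 := norm_nonneg (Φ x)
    nlinarith
  have key := neg_integral_fderiv_apply_le hf hfp (integral_norm_fderiv_moll_le hE hp hP k) hΦ1
  have hpt : ∀ x, fderiv ℝ (moll E k) x (Φ x) = fderiv ℝ (moll E k) x (Ψ x)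
      - Real.sqrt (1 - ‖Ψ x‖ ^ 2) * |fderiv ℝ (moll E k) x (ei i)| := by
    intro x
    rw [hΦ]
    simp only [map_sub, map_smul, smul_eq_mul]
    rw [hs]
    simp only
    rw [mul_assoc, sign_mul_self]
  have hcd := hf1.continuous_fderiv one_ne_zero
  have i1 : Integrable (fun x => fderiv ℝ (moll E k) x (Ψ x))
      ((volume : Measure (En n)).restrict (unitCell n)) := by
    refine IsPer.integrableOn (F := fun x => fderiv ℝ (moll E k) x (Ψ x)) ?_
      (hcd.clm_apply hΨ.continuous)
    intro v hv x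
    have := hfp.fderiv v hv x
    simp only at this ⊢
    rw [this, hΨp v hv x]
  have i2 : Integrable (fun x => Real.sqrt (1 - ‖Ψ x‖ ^ 2) * |fderiv ℝ (moll E k) x (ei i)|)
      ((volume : Measure (En n)).restrict (unitCell n)) := by
    refine IsPer.integrableOn
      (F := fun x => Real.sqrt (1 - ‖Ψ x‖ ^ 2) * |fderiv ℝ (moll E k) x (ei i)|) ?_ ?_
    · intro v hv x
      have := hfp.fderiv v hv x
      simp only at this ⊢
      rw [this, hΨp v hv x]
    · exact (Real.continuous_sqrt.comp (continuous_const.sub (hΨ.continuous.norm.pow 2))).mul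
        (hcd.clm_apply continuous_const).abs
  simp only [hpt] at key
  rw [integral_sub i1 i2] at key
  rw [integral_mul_divergence hf1 hfp hΨ hΨp]
  linarith

/-- averaging over a coordinate circle -/
theorem integral_cell_line {G : En n → ℝ} (hG : Continuous G) (hp : IsPer G) (i : Fin n) :
    ∫ x in unitCell n, ∫ t in (0:ℝ)..1, G (x + t • ei i) = ∫ x in unitCell n, G x := by
  obtain ⟨C, hC⟩ := hp.exists_bound hG
  have hcont : Continuous (fun z : En n × ℝ => G (z.1 + z.2 • ei i)) :=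
    hG.comp (continuous_fst.add (continuous_snd.smul continuous_const))
  have hint : Integrable (Function.uncurry fun (x : En n) (t : ℝ) => G (x + t • ei i))
      (((volume : Measure (En n)).restrict (unitCell n)).prod
        ((volume : Measure ℝ).restrict (Ioc 0 1))) := by
    apply Integrable.of_bound (C := C)
    · exact hcont.aestronglyMeasurable
    · exact Eventually.of_forall fun z => hC _
  simp only [intervalIntegral.integral_of_le (zero_le_one (α := ℝ))]
  rw [integral_integral_swap hint]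
  have : ∀ t : ℝ, ∫ x in unitCell n, G (x + t • ei i) = ∫ x in unitCell n, G x := fun t =>
    integral_cell_add hp _
  simp only [this]
  simp

/-- for a.e. point, a.e. point of its line in direction `i` has the property -/
theorem ae_line {p : En n → Prop} (h : ∀ᵐ y, p y) (i : Fin n) :
    ∀ᵐ x : En n, ∀ᵐ t : ℝ, p (x + t • ei i) := by
  set N : Set (En n) := toMeasurable volume {y | ¬ p y} with hN
  have hN0 : (volume : Measure (En n)) N = 0 := by
    rw [hN, measure_toMeasurable]
    exact ae_iff.1 h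
  have hNm : MeasurableSet N := measurableSet_toMeasurable _ _
  have hmeas : MeasurableSet {z : En n × ℝ | z.1 + z.2 • ei i ∈ N} := by
    have : Measurable (fun z : En n × ℝ => z.1 + z.2 • ei i) :=
      (continuous_fst.add (continuous_snd.smul continuous_const)).measurable
    exact this hNm
  have h0 : ((volume : Measure (En n)).prod (volume : Measure ℝ))
      {z : En n × ℝ | z.1 + z.2 • ei i ∈ N} = 0 := by
    rw [Measure.prod_apply_symm hmeas]
    simp only [Set.preimage_ofPred_eq]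
    rw [lintegral_congr (g := fun _ => 0)]
    · simp
    · intro t
      have : (volume : Measure (En n)) ((fun x => x + t • ei i) ⁻¹' N) = 0 := by
        rw [measure_preimage_add_right]
        exact hN0
      exact this
  have h1 : ∀ᵐ z : En n × ℝ ∂((volume : Measure (En n)).prod (volume : Measure ℝ)),
      z.1 + z.2 • ei i ∉ N := by
    rw [ae_iff]
    simpa using h0
  have h2 := Measure.ae_ae_of_ae_prod h1
  filter_upwards [h2] with x hx
  filter_upwards [hx] with t ht
  by_contra hcon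
  exact ht (subset_toMeasurable _ _ hcon)

/-- the restriction of the mollification to a line -/
def lineMoll (E : Set (En n)) (i : Fin n) (x : En n) (k : ℕ) (t : ℝ) : ℝ :=
  moll E k (x + t • ei i)

theorem contDiff_line (i : Fin n) (x : En n) : ContDiff ℝ ∞ (fun t : ℝ => x + t • ei i) :=
  contDiff_const.add (contDiff_id.smul contDiff_const)

theorem contDiff_lineMoll {E : Set (En n)} (hE : MeasurableSet E) (i : Fin n) (x : En n) (k : ℕ) :
    ContDiff ℝ 1 (lineMoll E i x k) :=
  ((contDiff_moll hE k).comp (contDiff_line i x)).of_le (by norm_cast)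

theorem deriv_lineMoll {E : Set (En n)} (hE : MeasurableSet E) (i : Fin n) (x : En n) (k : ℕ)
    (t : ℝ) : deriv (lineMoll E i x k) t = fderiv ℝ (moll E k) (x + t • ei i) (ei i) := by
  have hf1 : ContDiff ℝ 1 (moll E k) := (contDiff_moll hE k).of_le (by norm_cast)
  have h1 : HasFDerivAt (moll E k) (fderiv ℝ (moll E k) (x + t • ei i)) (x + t • ei i) :=
    (hf1.differentiable one_ne_zero _).hasFDerivAt
  have h2 : HasDerivAt (fun t : ℝ => x + t • ei i) (ei i) t := by
    simpa using ((hasDerivAt_id t).smul_const (ei i)).const_add x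
  exact (h1.comp_hasDerivAt t h2).deriv

theorem periodic_line {G : Type*} {F : En n → G} (hF : IsPer F) (i : Fin n) (x : En n) :
    Function.Periodic (fun t : ℝ => F (x + t • ei i)) 1 := by
  intro t
  have h1 := hF _ (ei_int i 1) (x + t • ei i)
  simp only
  rw [← h1]
  congr 1
  push_cast
  module

/-- the fibre of `E` over `x` in direction `i` -/
def fib (E : Set (En n)) (i : Fin n) (x : En n) : Set ℝ := {t | x + t • ei i ∈ E}

theorem measurableSet_fib {E : Set (En n)} (hE : MeasurableSet E) (i : Fin n) (x : En n) :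
    MeasurableSet (fib E i x) := by
  have : Measurable (fun t : ℝ => x + t • ei i) :=
    (continuous_const.add (continuous_id.smul continuous_const)).measurable
  exact this hE

theorem fib_per {E : Set (En n)} (hp : IsLatticePeriodic E) (i : Fin n) (x : En n) (t : ℝ) :
    t + 1 ∈ fib E i x ↔ t ∈ fib E i x := by
  have h1 := hp _ (ei_int i 1) (x + t • ei i)
  have e : x + (t + 1) • ei i = x + t • ei i + ((1:ℤ):ℝ) • ei i := by
    push_cast
    module
  change x + (t + 1) • ei i ∈ E ↔ x + t • ei i ∈ E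
  rw [e]
  exact h1

theorem ind_fib (E : Set (En n)) (i : Fin n) (x : En n) (t : ℝ) :
    ind (fib E i x) t = chi E (x + t • ei i) := by
  unfold ind chi fib
  by_cases h : x + t • ei i ∈ E
  · rw [Set.indicator_of_mem h, Set.indicator_of_mem]
    exact h
  · rw [Set.indicator_of_notMem h, Set.indicator_of_notMem]
    exact h

/-- the fibre length function -/
def flen (E : Set (En n)) (i : Fin n) (x : En n) : ℝ := ∫ t in (0:ℝ)..1, ind (fib E i x) t

theorem ae_line_lim {E : Set (En n)} (hE : MeasurableSet E) (i : Fin n) :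
    ∀ᵐ x : En n, ∀ᵐ t : ℝ, Tendsto (fun k => lineMoll E i x k t) atTop (𝓝 (ind (fib E i x) t)) := by
  filter_upwards [ae_line (ae_tendsto_moll hE) i] with x hx
  filter_upwards [hx] with t ht
  rw [ind_fib]
  exact ht

/-- the weighted variation along lines -/
def tau (E : Set (En n)) (i : Fin n) (g : En n → ℝ) (k : ℕ) (x : En n) : ℝ :=
  ∫ t in (0:ℝ)..1, g (x + t • ei i) * |deriv (lineMoll E i x k) t|

theorem tau_nonneg (E : Set (En n)) (i : Fin n) {g : En n → ℝ} (hg : ∀ x, 0 ≤ g x) (k : ℕ)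
    (x : En n) : 0 ≤ tau E i g k x :=
  intervalIntegral.integral_nonneg zero_le_one fun _ _ => mul_nonneg (hg _) (abs_nonneg _)

theorem continuous_tau {E : Set (En n)} (hE : MeasurableSet E) (i : Fin n) {g : En n → ℝ}
    (hg : Continuous g) (k : ℕ) : Continuous (tau E i g k) := by
  unfold tau
  simp only [deriv_lineMoll hE]
  have hf1 : ContDiff ℝ 1 (moll E k) := (contDiff_moll hE k).of_le (by norm_cast)
  apply intervalIntegral.continuous_parametric_intervalIntegral_of_continuous'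
  have hl : Continuous (fun z : En n × ℝ => z.1 + z.2 • ei i) :=
    continuous_fst.add (continuous_snd.smul continuous_const)
  exact (hg.comp hl).mul
    (((hf1.continuous_fderiv one_ne_zero).comp hl).clm_apply continuous_const).abs

theorem integral_tau {E : Set (En n)} (hE : MeasurableSet E) (hp : IsLatticePeriodic E)
    (i : Fin n) {g : En n → ℝ} (hg : Continuous g) (hgp : IsPer g) (k : ℕ) :
    ∫ x in unitCell n, tau E i g k x
      = ∫ x in unitCell n, g x * |fderiv ℝ (moll E k) x (ei i)| := by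
  have hf1 : ContDiff ℝ 1 (moll E k) := (contDiff_moll hE k).of_le (by norm_cast)
  rw [← integral_cell_line (G := fun x => g x * |fderiv ℝ (moll E k) x (ei i)|) _ _ i]
  · unfold tau
    simp only [deriv_lineMoll hE]
  · exact hg.mul ((hf1.continuous_fderiv one_ne_zero).clm_apply continuous_const).abs
  · intro v hv x
    have := (moll_per hp k).fderiv v hv x
    simp only at this ⊢
    rw [this, hgp v hv x]

/-- the limit of the horizontal part -/
theorem tendsto_integral_moll_mul {E : Set (En n)} (hE : MeasurableSet E)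
    {D : En n → ℝ} (hD : Continuous D) (hDp : IsPer D) :
    Tendsto (fun k => ∫ x in unitCell n, moll E k x * D x) atTop
      (𝓝 (∫ x in E ∩ unitCell n, D x)) := by
  obtain ⟨C, hC⟩ := hDp.exists_bound hD
  rw [← integral_chi_mul hE]
  apply tendsto_integral_of_dominated_convergence (fun _ => C)
  · intro k
    exact ((contDiff_moll hE k).continuous.mul hD).aestronglyMeasurable
  · exact integrable_const C
  · intro k
    refine Eventually.of_forall fun x => ?_
    rw [norm_mul]
    have h1 : ‖moll E k x‖ ≤ 1 := by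
      rw [Real.norm_eq_abs, abs_of_nonneg (moll_nonneg E k x)]
      exact moll_le_one hE k x
    calc ‖moll E k x‖ * ‖D x‖ ≤ 1 * C :=
          mul_le_mul h1 (hC x) (norm_nonneg _) zero_le_one
      _ = C := one_mul C
  · have h1 : ∀ᵐ x ∂((volume : Measure (En n)).restrict (unitCell n)),
        Tendsto (fun k => moll E k x) atTop (𝓝 (chi E x)) :=
      ae_restrict_of_ae (ae_tendsto_moll hE)
    filter_upwards [h1] with x hx
    exact hx.mul tendsto_const_nhds

/-- Fatou version of (B'): pointwise asymptotic lower bounds for the line variations integrate -/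
theorem fatou_test {E : Set (En n)} (hE : MeasurableSet E) (hp : IsLatticePeriodic E)
    (hP : periodicPerimeter E ≠ ⊤) (i : Fin n) {Ψ : En n → En n}
    (hΨ : ContDiff ℝ 1 Ψ) (hΨp : IsPer Ψ) (hΨ1 : ∀ x, ‖Ψ x‖ ≤ 1) (hΨi : ∀ x, Ψ x i = 0)
    {m : En n → ℝ} (hm : IntegrableOn m (unitCell n))
    (hlow : ∀ᵐ x : En n, ∀ ε > 0, ∀ᶠ k in atTop,
      m x - ε ≤ tau E i (fun y => Real.sqrt (1 - ‖Ψ y‖ ^ 2)) k x) :
    (∫ x in unitCell n, m x) + ∫ x in E ∩ unitCell n, divergence Ψ x
      ≤ (periodicPerimeter E).toReal := by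
  set g : En n → ℝ := fun y => Real.sqrt (1 - ‖Ψ y‖ ^ 2) with hg
  have hgc : Continuous g :=
    Real.continuous_sqrt.comp (continuous_const.sub (hΨ.continuous.norm.pow 2))
  have hgp : IsPer g := by
    intro v hv x
    simp only [hg, hΨp v hv x]
  have hg0 : ∀ x, 0 ≤ g x := fun x => Real.sqrt_nonneg _
  set μ := (volume : Measure (En n)).restrict (unitCell n) with hμ
  set Q : ℝ := (periodicPerimeter E).toReal - ∫ x in E ∩ unitCell n, divergence Ψ x with hQ
  have hlimQ : Tendsto (fun k => (periodicPerimeter E).toReal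
      - ∫ x in unitCell n, moll E k x * divergence Ψ x) atTop (𝓝 Q) :=
    tendsto_const_nhds.sub (tendsto_integral_moll_mul hE (continuous_divergence hΨ)
      (IsPer.divergence hΨp))
  have hub : ∀ k, ∫ x in unitCell n, tau E i g k x ≤ (periodicPerimeter E).toReal
      - ∫ x in unitCell n, moll E k x * divergence Ψ x := by
    intro k
    rw [integral_tau hE hp i hgc hgp k]
    have := test_ineq hE hp hP i k hΨ hΨp hΨ1 hΨi
    linarith
  have hτm : ∀ k, Measurable (fun x => ENNReal.ofReal (tau E i g k x)) := fun k =>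
    (continuous_tau hE i hgc k).measurable.ennreal_ofReal
  have hτper : ∀ k, IsPer (tau E i g k) := by
    intro k v hv x
    unfold tau
    simp only [deriv_lineMoll hE]
    congr 1
    funext t
    have e : x + v + t • ei i = (x + t • ei i) + v := by abel
    have h2 := (moll_per hp k).fderiv v hv (x + t • ei i)
    simp only at h2
    rw [e, h2, hgp v hv]
  have hτi : ∀ k, IntegrableOn (tau E i g k) (unitCell n) := fun k =>
    (hτper k).integrableOn (continuous_tau hE i hgc k)
  -- the positive part of m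
  have hmp : ∫ x in unitCell n, m x ≤ (∫⁻ x, ENNReal.ofReal (m x) ∂μ).toReal := by
    have h1 : ∫ x in unitCell n, m x ≤ ∫ x in unitCell n, max (m x) 0 :=
      integral_mono hm hm.pos_part fun x => le_max_left _ _
    refine h1.trans (le_of_eq ?_)
    rw [integral_eq_lintegral_of_nonneg_ae (f := fun x => max (m x) 0)
      (Eventually.of_forall fun x => le_max_right _ _) hm.pos_part.aestronglyMeasurable]
    congr 1
    apply lintegral_congr
    intro x
    rcases le_total (m x) 0 with h | h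
    · rw [max_eq_right h, ENNReal.ofReal_of_nonpos h, ENNReal.ofReal_zero]
    · rw [max_eq_left h]
  have hF : ∫⁻ x, ENNReal.ofReal (m x) ∂μ ≤ ENNReal.ofReal Q := by
    have h1 : ∫⁻ x, ENNReal.ofReal (m x) ∂μ
        ≤ ∫⁻ x, liminf (fun k => ENNReal.ofReal (tau E i g k x)) atTop ∂μ := by
      apply lintegral_mono_ae
      have hlow' := ae_restrict_of_ae (s := unitCell n) hlow
      filter_upwards [hlow'] with x hx
      apply ENNReal.le_of_forall_pos_le_add
      intro ε hε _
      have hε' : (0:ℝ) < ε := hε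
      have h2 : ENNReal.ofReal (m x - ε)
          ≤ liminf (fun k => ENNReal.ofReal (tau E i g k x)) atTop := by
        apply le_liminf_of_le
        · isBoundedDefault
        · filter_upwards [hx ε hε'] with k hk
          exact ENNReal.ofReal_le_ofReal hk
      calc ENNReal.ofReal (m x) = ENNReal.ofReal ((m x - ε) + ε) := by congr 1; ring
        _ ≤ ENNReal.ofReal (m x - ε) + ENNReal.ofReal ε := ENNReal.ofReal_add_le
        _ ≤ liminf (fun k => ENNReal.ofReal (tau E i g k x)) atTop + ε := by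
            gcongr
            simp
    have h2 : ∫⁻ x, liminf (fun k => ENNReal.ofReal (tau E i g k x)) atTop ∂μ
        ≤ liminf (fun k => ∫⁻ x, ENNReal.ofReal (tau E i g k x) ∂μ) atTop :=
      lintegral_liminf_le hτm
    have h3 : ∀ k, ∫⁻ x, ENNReal.ofReal (tau E i g k x) ∂μ
        = ENNReal.ofReal (∫ x in unitCell n, tau E i g k x) := by
      intro k
      rw [ofReal_integral_eq_lintegral_ofReal (hτi k)
        (Eventually.of_forall fun x => tau_nonneg E i hg0 k x)]
    have h4 : liminf (fun k => ∫⁻ x, ENNReal.ofReal (tau E i g k x) ∂μ) atTop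
        ≤ liminf (fun k => ENNReal.ofReal ((periodicPerimeter E).toReal
      - ∫ x in unitCell n, moll E k x * divergence Ψ x)) atTop := by
      refine liminf_le_liminf (Eventually.of_forall fun k => ?_) (by isBoundedDefault)
        (by isBoundedDefault)
      simp only [h3]
      exact ENNReal.ofReal_le_ofReal (hub k)
    have h5 : liminf (fun k => ENNReal.ofReal ((periodicPerimeter E).toReal
      - ∫ x in unitCell n, moll E k x * divergence Ψ x)) atTop = ENNReal.ofReal Q :=
      (ENNReal.tendsto_ofReal hlimQ).liminf_eq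
    calc _ ≤ _ := h1
      _ ≤ _ := h2
      _ ≤ _ := h4
      _ = _ := h5
  have hQ0 : 0 ≤ Q := by
    have : ∀ k, 0 ≤ (periodicPerimeter E).toReal
      - ∫ x in unitCell n, moll E k x * divergence Ψ x := fun k =>
      le_trans (integral_nonneg fun x => tau_nonneg E i hg0 k x) (hub k)
    exact ge_of_tendsto' hlimQ this
  have h6 : (∫⁻ x, ENNReal.ofReal (m x) ∂μ).toReal ≤ Q := by
    have := ENNReal.toReal_mono ENNReal.ofReal_ne_top hF
    rwa [ENNReal.toReal_ofReal hQ0] at this
  linarith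

end Crest.Agent.R214.Rig
end
end

-- ▼ part R214/RigField

set_option autoImplicit false

/-! Row 214, rigidity: the periodic distance function, smooth periodic functions built from it and
the calibrating fields. -/

open MeasureTheory Set Filter Topology Crest.GeometryTopology.PeriodicPerimeter
open scoped ContDiff

noncomputable section

namespace Crest.Agent.R214.Rig

variable {n : ℕ}

/-- signed distance to the nearest integer -/
def dd (t : ℝ) : ℝ := t - round t


theorem abs_dd_le (t : ℝ) (m : ℤ) : |dd t| ≤ |t - m| := round_le t m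

theorem abs_dd_le_add (s t : ℝ) : |dd s| ≤ |s - t| + |dd t| := by
  calc |dd s| ≤ |s - round t| := abs_dd_le s _
    _ = |(s - t) + dd t| := by congr 1; unfold dd; ring
    _ ≤ |s - t| + |dd t| := abs_add_le _ _

theorem continuous_abs_dd : Continuous (fun t => |dd t|) := by
  rw [Metric.continuous_iff]
  intro t ε hε
  refine ⟨ε, hε, fun s hs => ?_⟩
  rw [Real.dist_eq] at hs ⊢
  rw [abs_lt]
  have h1 := abs_dd_le_add s t
  have h2 := abs_dd_le_add t s
  rw [abs_sub_comm t s] at h2
  constructor <;> linarith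

theorem continuous_dd_sq : Continuous (fun t => dd t ^ 2) := by
  have : (fun t => dd t ^ 2) = fun t => |dd t| ^ 2 := by
    funext t
    rw [sq_abs]
  rw [this]
  exact continuous_abs_dd.pow 2

theorem dd_add_int (t : ℝ) (m : ℤ) : dd (t + m) = dd t := by
  unfold dd
  rw [round_add_intCast]
  push_cast
  ring

theorem round_eq_of_abs_lt {t : ℝ} {m : ℤ} (h : |t - m| < 1 / 2) : round t = m := by
  have h1 : |dd t| ≤ |t - m| := abs_dd_le t m
  have h2 : |(round t : ℝ) - m| < 1 := by
    calc |(round t : ℝ) - m| = |(t - m) - dd t| := by congr 1; unfold dd; ring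
      _ ≤ |t - m| + |dd t| := abs_sub _ _
      _ < 1 := by linarith
  have h3 : |round t - m| < 1 := by
    have : ((|round t - m| : ℤ) : ℝ) < 1 := by
      push_cast
      exact h2
    exact_mod_cast this
  have h4 := Int.abs_lt_one_iff.1 h3
  linarith

theorem dd_eventually {t : ℝ} (h : |dd t| < 1 / 2) : ∀ᶠ s : ℝ in 𝓝 t, dd s = s - round t := by
  have hc : Continuous (fun s : ℝ => |s - round t|) := (continuous_id.sub continuous_const).abs
  have : ∀ᶠ s : ℝ in 𝓝 t, |s - round t| < 1 / 2 := hc.continuousAt.eventually_lt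
    continuousAt_const (by exact h)
  filter_upwards [this] with s hs
  unfold dd
  rw [round_eq_of_abs_lt hs]

/-- `φ ∘ dd` is smooth when `φ` vanishes near `±1/2` -/
theorem contDiff_comp_dd {φ : ℝ → ℝ} {m : ℕ∞} (hφ : ContDiff ℝ m φ) {b : ℝ} (hb : b < 1 / 2)
    (h0 : ∀ t, b ≤ |t| → φ t = 0) : ContDiff ℝ m (fun t => φ (dd t)) := by
  rw [contDiff_iff_contDiffAt]
  intro t
  by_cases h : |dd t| < 1 / 2
  · have h1 : (fun s => φ (dd s)) =ᶠ[𝓝 t] fun s => φ (s - round t) := by
      filter_upwards [dd_eventually h] with s hs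
      rw [hs]
    refine ContDiffAt.congr_of_eventuallyEq ?_ h1
    exact (hφ.comp (contDiff_id.sub contDiff_const)).contDiffAt
  · have h1 : (fun s => φ (dd s)) =ᶠ[𝓝 t] fun _ => 0 := by
      have h2 : b < |dd t| := by linarith
      have h3 : ∀ᶠ s in 𝓝 t, b < |dd s| :=
        continuousAt_const.eventually_lt continuous_abs_dd.continuousAt h2
      filter_upwards [h3] with s hs
      exact h0 _ hs.le
    exact contDiffAt_const.congr_of_eventuallyEq h1

/-- a smooth odd-like cutoff of the identity: `= t` for `|t| ≤ r`, `= 0` for `|t| ≥ (r + 1/2)/2` -/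
def cutId (r : ℝ) (hr : 0 < r) (hr2 : r < 1 / 2) : ℝ → ℝ :=
  fun t => t * (⟨r, (r + 1/2)/2, hr, by linarith⟩ : ContDiffBump (0:ℝ)) t

theorem contDiff_cutId {r : ℝ} (hr : 0 < r) (hr2 : r < 1 / 2) : ContDiff ℝ ∞ (cutId r hr hr2) :=
  contDiff_id.mul (ContDiffBump.contDiff _)

theorem cutId_eq {r : ℝ} (hr : 0 < r) (hr2 : r < 1 / 2) {t : ℝ} (ht : |t| ≤ r) :
    cutId r hr hr2 t = t := by
  unfold cutId
  rw [ContDiffBump.one_of_mem_closedBall, mul_one]
  simpa using ht

theorem cutId_zero {r : ℝ} (hr : 0 < r) (hr2 : r < 1 / 2) {t : ℝ} (ht : (r + 1/2)/2 ≤ |t|) :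
    cutId r hr hr2 t = 0 := by
  unfold cutId
  rw [ContDiffBump.zero_of_le_dist, mul_zero]
  simpa using ht

/-- the smooth periodic function equal to `dd` on `|dd| ≤ r` -/
def pp (r : ℝ) (hr : 0 < r) (hr2 : r < 1 / 2) (t : ℝ) : ℝ := cutId r hr hr2 (dd t)

theorem contDiff_pp {r : ℝ} (hr : 0 < r) (hr2 : r < 1 / 2) : ContDiff ℝ ∞ (pp r hr hr2) :=
  contDiff_comp_dd (m := ⊤) (contDiff_cutId hr hr2) (b := (r + 1/2)/2) (by linarith)
    (fun _ ht => cutId_zero hr hr2 ht)

theorem pp_eq {r : ℝ} (hr : 0 < r) (hr2 : r < 1 / 2) {t : ℝ} (ht : |dd t| ≤ r) :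
    pp r hr hr2 t = dd t := cutId_eq hr hr2 ht

theorem pp_add_int {r : ℝ} (hr : 0 < r) (hr2 : r < 1 / 2) (t : ℝ) (m : ℤ) :
    pp r hr hr2 (t + m) = pp r hr hr2 t := by
  unfold pp
  rw [dd_add_int]

theorem deriv_pp {r : ℝ} (hr : 0 < r) (hr2 : r < 1 / 2) {t : ℝ} (ht : |dd t| < r) :
    HasDerivAt (pp r hr hr2) 1 t := by
  have h1 : pp r hr hr2 =ᶠ[𝓝 t] fun s => s - round t := by
    have h2 : ∀ᶠ s in 𝓝 t, |dd s| < r :=
      continuous_abs_dd.continuousAt.eventually_lt continuousAt_const ht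
    filter_upwards [h2, dd_eventually (lt_trans ht hr2)] with s hs hs2
    rw [pp_eq hr hr2 hs.le, hs2]
  refine HasDerivAt.congr_of_eventuallyEq ?_ h1
  exact (hasDerivAt_id t).sub_const _

/-- squared periodic distance in the coordinates `J` -/
def rho2 (J : Finset (Fin n)) (x : En n) : ℝ := ∑ j ∈ J, dd (x j) ^ 2

theorem rho2_nonneg (J : Finset (Fin n)) (x : En n) : 0 ≤ rho2 J x :=
  Finset.sum_nonneg fun _ _ => sq_nonneg _

theorem continuous_rho2 (J : Finset (Fin n)) : Continuous (rho2 (n := n) J) := by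
  unfold rho2
  refine continuous_finsetSum _ fun j _ => ?_
  exact continuous_dd_sq.comp (EuclideanSpace.proj (𝕜 := ℝ) j).continuous

theorem rho2_per (J : Finset (Fin n)) : IsPer (rho2 (n := n) J) := by
  intro v hv x
  unfold rho2
  refine Finset.sum_congr rfl fun j _ => ?_
  obtain ⟨m, hm⟩ := hv j
  have : (x + v) j = x j + m := by rw [← hm]; rfl
  rw [this, dd_add_int]

theorem rho2_add_ei (J : Finset (Fin n)) {i : Fin n} (hi : i ∉ J) (x : En n) (t : ℝ) :
    rho2 J (x + t • ei i) = rho2 J x := by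
  unfold rho2
  refine Finset.sum_congr rfl fun j hj => ?_
  have hji : j ≠ i := fun e => hi (e ▸ hj)
  have : (x + t • ei i) j = x j := by simp [ei, hji]
  rw [this]

theorem abs_dd_le_of_rho2 {J : Finset (Fin n)} {x : En n} {r : ℝ} (hr : 0 < r)
    (h : rho2 J x < r ^ 2) {j : Fin n} (hj : j ∈ J) : |dd (x j)| < r := by
  have h1 : dd (x j) ^ 2 ≤ rho2 J x :=
    Finset.single_le_sum (f := fun j => dd (x j) ^ 2) (fun _ _ => sq_nonneg _) hj
  apply lt_of_pow_lt_pow_left₀ 2 hr.le
  rw [sq_abs]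
  linarith

/-- the smooth periodic vector `(pp (x j))_{j ∈ J}` -/
def vv (J : Finset (Fin n)) (r : ℝ) (hr : 0 < r) (hr2 : r < 1 / 2) (x : En n) : En n :=
  ∑ j ∈ J, pp r hr hr2 (x j) • ei j

theorem sum_smul_ei_apply (J : Finset (Fin n)) (c : Fin n → ℝ) (l : Fin n) :
    (∑ j ∈ J, c j • ei j : En n) l = if l ∈ J then c l else 0 := by
  have : (∑ j ∈ J, c j • ei j : En n) l = ∑ j ∈ J, (c j • (ei j : En n)) l := by
    simp
  rw [this]
  simp [ei]

theorem vv_apply (J : Finset (Fin n)) {r : ℝ} (hr : 0 < r) (hr2 : r < 1 / 2) (x : En n)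
    (l : Fin n) : vv J r hr hr2 x l = if l ∈ J then pp r hr hr2 (x l) else 0 :=
  sum_smul_ei_apply J (fun j => pp r hr hr2 (x j)) l

theorem contDiff_vv (J : Finset (Fin n)) {r : ℝ} (hr : 0 < r) (hr2 : r < 1 / 2) :
    ContDiff ℝ ∞ (vv (n := n) J r hr hr2) := by
  unfold vv
  refine ContDiff.sum fun j _ => ?_
  exact ((contDiff_pp hr hr2).comp (EuclideanSpace.proj (𝕜 := ℝ) j).contDiff).smul contDiff_const

theorem vv_per (J : Finset (Fin n)) {r : ℝ} (hr : 0 < r) (hr2 : r < 1 / 2) :
    IsPer (vv (n := n) J r hr hr2) := by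
  intro v hv x
  unfold vv
  refine Finset.sum_congr rfl fun j _ => ?_
  obtain ⟨m, hm⟩ := hv j
  have : (x + v) j = x j + m := by rw [← hm]; rfl
  rw [this, pp_add_int]

theorem vv_add_ei (J : Finset (Fin n)) {r : ℝ} (hr : 0 < r) (hr2 : r < 1 / 2) {i : Fin n}
    (hi : i ∉ J) (x : En n) (t : ℝ) : vv J r hr hr2 (x + t • ei i) = vv J r hr hr2 x := by
  unfold vv
  refine Finset.sum_congr rfl fun j hj => ?_
  have hji : j ≠ i := fun e => hi (e ▸ hj)
  have : (x + t • ei i) j = x j := by simp [ei, hji]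
  rw [this]

theorem norm_vv_sq (J : Finset (Fin n)) {r : ℝ} (hr : 0 < r) (hr2 : r < 1 / 2) (x : En n) :
    ‖vv J r hr hr2 x‖ ^ 2 = ∑ j ∈ J, pp r hr hr2 (x j) ^ 2 := by
  rw [EuclideanSpace.norm_sq_eq]
  simp only [vv_apply, Real.norm_eq_abs, sq_abs]
  rw [← Finset.sum_filter_add_sum_filter_not Finset.univ (· ∈ J)]
  have h1 : ∑ l ∈ Finset.univ.filter (· ∉ J), (if l ∈ J then pp r hr hr2 (x l) else 0) ^ 2 = 0 := by
    apply Finset.sum_eq_zero
    intro l hl
    rw [Finset.mem_filter] at hl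
    simp [hl.2]
  rw [h1, add_zero]
  have h2 : Finset.univ.filter (· ∈ J) = J := by ext; simp
  rw [h2]
  refine Finset.sum_congr rfl fun l hl => ?_
  simp [hl]

theorem norm_vv_sq_of_lt (J : Finset (Fin n)) {r : ℝ} (hr : 0 < r) (hr2 : r < 1 / 2) {x : En n}
    (h : rho2 J x < r ^ 2) : ‖vv J r hr hr2 x‖ ^ 2 = rho2 J x := by
  rw [norm_vv_sq]
  unfold rho2
  refine Finset.sum_congr rfl fun j hj => ?_
  rw [pp_eq hr hr2 (abs_dd_le_of_rho2 hr h hj).le]

/-- the normalising factor -/
def nf (lam : ℝ) (s : ℝ) : ℝ :=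
  (1 - Real.smoothTransition ((s - lam ^ 2) / (1 - lam ^ 2)))
    + Real.smoothTransition ((s - lam ^ 2) / (1 - lam ^ 2)) / (1 + s ^ 2)

theorem contDiff_nf (lam : ℝ) : ContDiff ℝ ∞ (nf lam) := by
  unfold nf
  have h1 : ContDiff ℝ ∞ (fun s : ℝ => Real.smoothTransition ((s - lam ^ 2) / (1 - lam ^ 2))) :=
    Real.smoothTransition.contDiff.comp ((contDiff_id.sub contDiff_const).div_const _)
  refine (contDiff_const.sub h1).add (h1.div ?_ fun s => by positivity)
  exact contDiff_const.add (contDiff_id.pow 2)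

theorem nf_eq_one {lam s : ℝ} (hlam : lam ^ 2 < 1) (hs : s ≤ lam ^ 2) : nf lam s = 1 := by
  unfold nf
  rw [Real.smoothTransition.zero_of_nonpos]
  · simp
  · exact div_nonpos_of_nonpos_of_nonneg (by linarith) (by linarith)

theorem nf_nonneg {lam s : ℝ} : 0 ≤ nf lam s := by
  unfold nf
  have h1 := Real.smoothTransition.nonneg ((s - lam ^ 2) / (1 - lam ^ 2))
  have h2 := Real.smoothTransition.le_one ((s - lam ^ 2) / (1 - lam ^ 2))
  have h3 : 0 ≤ Real.smoothTransition ((s - lam ^ 2) / (1 - lam ^ 2)) / (1 + s ^ 2) := by positivity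
  linarith

theorem nf_le_one {lam s : ℝ} : nf lam s ≤ 1 := by
  unfold nf
  have h1 := Real.smoothTransition.nonneg ((s - lam ^ 2) / (1 - lam ^ 2))
  have h3 : Real.smoothTransition ((s - lam ^ 2) / (1 - lam ^ 2)) / (1 + s ^ 2)
      ≤ Real.smoothTransition ((s - lam ^ 2) / (1 - lam ^ 2)) :=
    div_le_self h1 (by nlinarith [sq_nonneg s])
  linarith

theorem nf_sq_mul_le {lam s : ℝ} (hlam : lam ^ 2 < 1) (hs : 0 ≤ s) : nf lam s ^ 2 * s ≤ 1 := by
  rcases le_total s 1 with h | h
  · have h1 := nf_nonneg (lam := lam) (s := s)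
    have h2 := nf_le_one (lam := lam) (s := s)
    have h3 : nf lam s ^ 2 ≤ 1 := by nlinarith
    nlinarith
  · have h1 : nf lam s = 1 / (1 + s ^ 2) := by
      unfold nf
      rw [Real.smoothTransition.one_of_one_le]
      · simp
      · rw [one_le_div (by linarith)]
        linarith
    rw [h1, div_pow, one_pow, div_mul_eq_mul_div, one_mul, div_le_one (by positivity)]
    nlinarith [sq_nonneg s, sq_nonneg (s ^ 2)]

/-- the calibrating field `β_lam` -/
def beta (J : Finset (Fin n)) (r : ℝ) (hr : 0 < r) (hr2 : r < 1 / 2) (lam : ℝ) (x : En n) : En n :=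
  (nf lam (‖(lam / r) • vv J r hr hr2 x‖ ^ 2)) • ((lam / r) • vv J r hr hr2 x)

section beta

variable (J : Finset (Fin n)) {r : ℝ} (hr : 0 < r) (hr2 : r < 1 / 2) {lam : ℝ}

theorem contDiff_beta : ContDiff ℝ ∞ (beta (n := n) J r hr hr2 lam) := by
  unfold beta
  have h1 : ContDiff ℝ ∞ (fun x : En n => (lam / r) • vv J r hr hr2 x) :=
    (contDiff_vv J hr hr2).const_smul _
  exact ((contDiff_nf lam).comp (h1.norm_sq ℝ)).smul h1

theorem beta_per : IsPer (beta (n := n) J r hr hr2 lam) := by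
  intro v hv x
  unfold beta
  rw [vv_per J hr hr2 v hv x]

theorem beta_add_ei {i : Fin n} (hi : i ∉ J) (x : En n) (t : ℝ) :
    beta J r hr hr2 lam (x + t • ei i) = beta J r hr hr2 lam x := by
  unfold beta
  rw [vv_add_ei J hr hr2 hi]

theorem norm_beta_le (hlam : lam ^ 2 < 1) (x : En n) : ‖beta J r hr hr2 lam x‖ ≤ 1 := by
  unfold beta
  set w := (lam / r) • vv J r hr hr2 x
  rw [norm_smul, Real.norm_eq_abs, abs_of_nonneg nf_nonneg]
  have h1 := nf_sq_mul_le hlam (sq_nonneg ‖w‖)
  have h2 : (nf lam (‖w‖ ^ 2) * ‖w‖) ^ 2 ≤ 1 := by rw [mul_pow]; exact h1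
  have h3 : 0 ≤ nf lam (‖w‖ ^ 2) * ‖w‖ := mul_nonneg nf_nonneg (norm_nonneg _)
  nlinarith

theorem beta_eq (hlam : lam ^ 2 < 1) {x : En n} (h : rho2 J x < r ^ 2) :
    beta J r hr hr2 lam x = (lam / r) • vv J r hr hr2 x := by
  unfold beta
  rw [nf_eq_one hlam, one_smul]
  rw [norm_smul, mul_pow, norm_vv_sq_of_lt J hr hr2 h, Real.norm_eq_abs, sq_abs, div_pow]
  rw [div_mul_eq_mul_div, div_le_iff₀ (by positivity)]
  have := sq_nonneg lam
  nlinarith

theorem norm_beta_sq (hlam : lam ^ 2 < 1) {x : En n} (h : rho2 J x < r ^ 2) :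
    ‖beta J r hr hr2 lam x‖ ^ 2 = (lam / r) ^ 2 * rho2 J x := by
  rw [beta_eq J hr hr2 hlam h, norm_smul, mul_pow, norm_vv_sq_of_lt J hr hr2 h, Real.norm_eq_abs,
    sq_abs]

theorem beta_apply_i (x : En n) {i : Fin n} (hi : i ∉ J) : beta J r hr hr2 lam x i = 0 := by
  unfold beta
  simp [vv_apply, hi]

theorem isOpen_D : IsOpen {x : En n | rho2 J x < r ^ 2} :=
  isOpen_lt (continuous_rho2 J) continuous_const

theorem divergence_beta (hlam : lam ^ 2 < 1) {x : En n} (h : rho2 J x < r ^ 2) :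
    divergence (beta J r hr hr2 lam) x = lam / r * J.card := by
  have h1 : beta J r hr hr2 lam =ᶠ[𝓝 x] fun y => (lam / r) • vv J r hr hr2 y := by
    filter_upwards [(isOpen_D J).mem_nhds h] with y hy
    exact beta_eq J hr hr2 hlam hy
  have h2 : ∀ j ∈ J, HasFDerivAt (fun y : En n => pp r hr hr2 (y j) • (ei j : En n))
      ((((1 : ℝ) • (EuclideanSpace.proj (𝕜 := ℝ) j : En n →L[ℝ] ℝ))).smulRight (ei j)) x := by
    intro j hj
    have h3 : HasDerivAt (pp r hr hr2) 1 ((EuclideanSpace.proj (𝕜 := ℝ) j : En n →L[ℝ] ℝ) x) :=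
      deriv_pp hr hr2 (abs_dd_le_of_rho2 hr h hj)
    have h4 := h3.comp_hasFDerivAt x ((EuclideanSpace.proj (𝕜 := ℝ) j : En n →L[ℝ] ℝ).hasFDerivAt)
    exact h4.smul_const (ei j)
  have h5 : HasFDerivAt (vv J r hr hr2)
      (∑ j ∈ J, (((1 : ℝ) • (EuclideanSpace.proj (𝕜 := ℝ) j : En n →L[ℝ] ℝ))).smulRight (ei j)) x := by
    unfold vv
    exact HasFDerivAt.fun_sum h2
  have h6 := (h5.const_smul (lam / r)).congr_of_eventuallyEq h1
  unfold divergence
  rw [h6.fderiv]
  have h7 : ∀ l : Fin n, (((lam / r) • ∑ j ∈ J, (((1 : ℝ) • (EuclideanSpace.proj (𝕜 := ℝ) j :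
      En n →L[ℝ] ℝ))).smulRight (ei j)) (EuclideanSpace.single l (1:ℝ))) l
      = if l ∈ J then lam / r else 0 := by
    intro l
    simp only [smul_apply, sum_apply, ContinuousLinearMap.smulRight_apply, one_smul,
      PiLp.smul_apply, smul_eq_mul]
    rw [sum_smul_ei_apply J (fun j => (EuclideanSpace.proj (𝕜 := ℝ) j : En n →L[ℝ] ℝ)
      (EuclideanSpace.single l (1:ℝ))) l]
    split_ifs <;> simp
  simp only [h7]
  rw [Finset.sum_ite_mem]
  simp [mul_comm]

end beta

end Crest.Agent.R214.Rig
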