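import Crest.Agent.R214.DownMain
import Crest.Agent.R214.RigVar2
import Mathlib
import Crest.Prelude.Def_PeriodicPerimeter
import Crest.Agent.R214.RigField
import Crest.Agent.R214.InvBase
import Crest.Agent.R214.SteinerPer
import Crest.Agent.R214.RigStd0
import Crest.Agent.R214.SteinerAll
import Crest.Agent.R214.RigStd
import Crest.Agent.R214.CertD0
import Crest.Agent.R214.CertD1
import Crest.Agent.R214.CertD2
import Crest.Agent.R214.CertD3
import Crest.Agent.R214.CertD4
import Crest.Agent.R214.CertD5
import Crest.Agent.R214.CertD6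
import Crest.Agent.R214.CertD7
import Crest.Agent.R214.CertD8

-- ▼ part R214/DownNT
section

/-!
# R214: slices of disc perimeter in a good direction do not touch the far sides
-/

set_option autoImplicit false

open MeasureTheory Crest.GeometryTopology.PeriodicPerimeter Filter Topology Set

namespace Crest.Agent.R214.Down

open Crest.Agent.R214 Slice

theorem T_strict {s : ℝ} (h0 : 1 / Real.pi ≤ s) (h1 : s ≤ Real.pi / 9) :
    Real.sqrt (Real.pi * s) < Tfun (s - 1 / 10) := by
  have hpi := Real.pi_gt_d4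
  have hpi4 := Real.pi_lt_d4
  have hs0 : 318 / 1000 ≤ s := by
    refine le_trans ?_ h0
    rw [le_div_iff₀ (by linarith)]
    linarith
  have hs1 : s ≤ 3491 / 10000 := by linarith
  have h2 := ZC.Ifun_lower
  have h3 := le_Tfun (R := 10 / 7) (by norm_num) (s - 1 / 10)
  have h4 : (s - 1 / 10) / (10 / 7) = 7 / 10 * s - 7 / 100 := by ring
  rw [h4] at h3
  have h5 : Real.sqrt (Real.pi * s) < 838 / 1000 + 7 / 10 * s := by
    rw [Real.sqrt_lt' (by linarith)]
    nlinarith
  linarith

theorem max_T_gt {s : ℝ} (h0 : 0 < s) (h1 : s ≤ Real.pi / 9) :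
    Real.sqrt (Real.pi * s) < max 1 (Tfun (s - 1 / 10)) := by
  have hpi := Real.pi_pos
  rcases lt_or_ge s (1 / Real.pi) with h | h
  · refine lt_of_lt_of_le ?_ (le_max_left _ _)
    rw [Real.sqrt_lt' one_pos]
    rw [lt_div_iff₀ hpi] at h
    linarith
  · exact lt_of_lt_of_le (T_strict h h1) (le_max_right _ _)

theorem noTouch : NoTouch := by
  intro F hF hper hd i hg t ht0 ht1 h0 h1 hP
  have hpi := Real.pi_pos
  have hpi4 := Real.pi_lt_d4
  have hsl : sliceAt i F t = sliceAt i F |t| := sliceAt_abs (hd i) ht1.le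
  have har : ar i F t = ar i F |t| := by unfold ar; rw [hsl]
  rw [hsl] at hP ⊢
  rw [har] at h0 h1 hP
  have hS := Slice.measurableSet_sliceAt i hF |t|
  have hp := Slice.sliceAt_periodic i hper |t|
  have hd2 : ∀ j : Fin 2, SymDecAt j (sliceAt i F |t|) := fun j => symDecAt_sliceAt (hd _) _
  have h01 : (0 : Fin 2) ≠ 1 := by decide
  obtain ⟨g1, g2⟩ := hg |t| ht0 ht1
  have hmax := max_T_gt h0 h1
  have hcontr : ∀ x : ℝ, Real.sqrt (Real.pi * ar i F |t|) < x →
      ¬ ENNReal.ofReal (2 * x) ≤ periodicPerimeter (sliceAt i F |t|) := by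
    intro x hx h
    have h3 := h.trans hP
    have hx0 : 0 < x := lt_of_le_of_lt (Real.sqrt_nonneg _) hx
    exact absurd h3 (not_le.2 ((ENNReal.ofReal_lt_ofReal_iff (by linarith)).2 (by linarith)))
  have h12 : ¬ (Touch 0 1 (sliceAt i F |t|) ∧ Touch 1 0 (sliceAt i F |t|)) := by
    rintro ⟨c1, c2⟩
    refine hcontr (Real.sqrt (Real.pi * (1 - ar i F |t|))) ?_
      (planar_type2_sqrt h01 hS hp (hd2 0) (hd2 1) c1 c2)
    refine Real.sqrt_lt_sqrt (by positivity) ?_
    exact mul_lt_mul_of_pos_left (by linarith) hpi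
  constructor
  · intro c1
    have c2 : ¬ Touch 1 0 (sliceAt i F |t|) := fun c2 => h12 ⟨c1, c2⟩
    refine hcontr _ hmax
      (planar_type1 h01 hS hp (hd2 0) (hd2 1) c1 c2 (q := 1 / 10) (by norm_num) ?_)
    intro h' h1' h2' hA
    exact g1 c1 c2 (arm_mono h01 (hd2 1) (by norm_num) (by linarith) h2' hA)
  · intro c2
    have c1 : ¬ Touch 0 1 (sliceAt i F |t|) := fun c1 => h12 ⟨c1, c2⟩
    refine hcontr _ hmax
      (planar_type1 h01.symm hS hp (hd2 1) (hd2 0) c2 c1 (q := 1 / 10) (by norm_num) ?_)
    intro h' h1' h2' hA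
    exact g2 c2 c1 (arm_mono h01.symm (hd2 0) (by norm_num) (by linarith) h2' hA)

end Crest.Agent.R214.Down
end

-- ▼ part R214/RigVar3
section

set_option autoImplicit false

/-! Row 214, rigidity: the first variation identity, conclusion. -/

open MeasureTheory Set Filter Topology Crest.GeometryTopology.PeriodicPerimeter
open scoped ContDiff

noncomputable section

namespace Crest.Agent.R214.Rig

variable {n : ℕ} {E : Set (En n)} {i : Fin n} {J : Finset (Fin n)} {r : ℝ}

/-- the right-hand side of the first variation identity -/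
def Bf (E : Set (En n)) (i : Fin n) (J : Finset (Fin n)) (r : ℝ) (hr : 0 < r) (hr2 : r < 1 / 2)
    (θ : ℝ) (ζ : En n → En n) (x : En n) : ℝ :=
  bz J r hr hr2 ζ x / (uu J r x / (2 * r))
    * (2 * Real.pi * Real.cos (Real.pi * uu J r x) / Real.sin (Real.pi * uu J r x)) * WW E i θ x

theorem sin_uu_pos (hr : 0 < r) (hr2 : r < 1 / 2) {x : En n} (hx : rho2 J x < r ^ 2) :
    0 < Real.sin (Real.pi * uu J r x) := by
  have h1 := uu_pos hx
  have h2 := uu_le (J := J) hr x
  apply Real.sin_pos_of_pos_of_lt_pi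
  · have := Real.pi_pos; positivity
  · have := Real.pi_pos
    nlinarith

theorem Model.ae_Bf (h : Model E i J r) (θ : ℝ) (ζ : En n → En n) :
    ∀ᵐ x : En n, rho2 J x < r ^ 2 → ∃ c, (∀ᵐ t, t ∈ fib E i x ↔ t ∈ arc c (uu J r x)) ∧
      Bf E i J r h.hr h.hr2 θ ζ x = bz J r h.hr h.hr2 ζ x / (uu J r x / (2 * r)) *
        (Real.cos (2 * Real.pi * ((x i - θ) + (c - uu J r x / 2)))
          + Real.cos (2 * Real.pi * ((x i - θ) + (c + uu J r x / 2)))) := by
  filter_upwards [h.ae_arc] with x hx hxD
  obtain ⟨c, hc⟩ := hx hxD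
  refine ⟨c, hc, ?_⟩
  have hL1 : uu J r x < 1 := lt_of_le_of_lt (uu_le h.hr x) (by linarith [h.hr2])
  unfold Bf
  rw [WW_arc (uu_nonneg J r x) hL1 θ hc, cos_endpoints]
  have hs := (sin_uu_pos h.hr h.hr2 hxD).ne'
  have hpi := Real.pi_pos.ne'
  have key : ∀ X : ℝ, (2 * Real.pi * Real.cos (Real.pi * uu J r x) / Real.sin (Real.pi * uu J r x))
      * (Real.sin (Real.pi * uu J r x) / Real.pi * X) = 2 * Real.cos (Real.pi * uu J r x) * X := by
    intro X
    generalize Real.sin (Real.pi * uu J r x) = S at hs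
    generalize Real.cos (Real.pi * uu J r x) = T
    field_simp
  rw [mul_assoc, key]

theorem measurable_Bf (hE : MeasurableSet E) (hr : 0 < r) (hr2 : r < 1 / 2) (θ : ℝ)
    {ζ : En n → En n} (hζ : Continuous ζ) : Measurable (Bf E i J r hr hr2 θ ζ) := by
  unfold Bf bz
  have h0 : Continuous (fun x : En n => (1 / r) • vv J r hr hr2 x) :=
    (contDiff_vv J hr hr2).continuous.const_smul (1 / r)
  have h1 : Measurable (fun x : En n => (inner ℝ ((1 / r) • vv J r hr hr2 x) (ζ x) : ℝ)) :=
    (h0.inner hζ).measurable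
  have h2 : Measurable (uu (n := n) J r) := (continuous_uu J r).measurable
  have h3 : Measurable (fun x : En n => Real.cos (Real.pi * uu J r x)) :=
    Real.continuous_cos.measurable.comp (h2.const_mul _)
  have h4 : Measurable (fun x : En n => Real.sin (Real.pi * uu J r x)) :=
    Real.continuous_sin.measurable.comp (h2.const_mul _)
  exact Measurable.mul (Measurable.mul (Measurable.div h1 (h2.div_const _))
    (Measurable.div (h3.const_mul _) h4)) (measurable_WW hE i θ)

theorem norm_beta0_sq (hr : 0 < r) (hr2 : r < 1 / 2) {x : En n} (hx : rho2 J x < r ^ 2) :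
    ‖(1 / r) • vv J r hr hr2 x‖ ^ 2 = 1 - (uu J r x / (2 * r)) ^ 2 := by
  rw [norm_smul, mul_pow, norm_vv_sq_of_lt J hr hr2 hx, s0_sq hr hx.le, Real.norm_eq_abs, sq_abs]
  field_simp
  ring

/-- lower bound for the vertical component of the perturbed calibration -/
theorem endpoint_bound (hi : i ∉ J) (hr : 0 < r) (hr2 : r < 1 / 2) {lam : ℝ} (hl0 : 0 < lam)
    (hl1 : lam < 1) {ζ : En n → En n} (hinv : ∀ (x : En n) (t : ℝ), ζ (x + t • ei i) = ζ x)
    {M κ d : ℝ} (hM0 : 0 ≤ M) (hκ : 0 < κ) (hd1 : |d| ≤ 1) (θ : ℝ) {x : En n}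
    (hM : ‖ζ x‖ ≤ M) (hxD : rho2 J x < r ^ 2) (hs : ζ x ≠ 0 → κ ≤ uu J r x / (2 * r))
    (hs1 : uu J r x / (2 * r) ≤ 1) (t : ℝ) :
    uu J r x / (2 * r) - d * (bz J r hr hr2 ζ x * ew i θ (x + t • ei i)) / (uu J r x / (2 * r))
      - errC M κ * (|d| * (1 - lam) + d ^ 2)
      ≤ Real.sqrt (1 - ‖beta J r hr hr2 lam (x + t • ei i)
        + (d * ew i θ (x + t • ei i)) • ζ (x + t • ei i)‖ ^ 2) := by
  have hlam : lam ^ 2 < 1 := by nlinarith
  rw [hinv, beta_add_ei J hr hr2 hi, beta_eq J hr hr2 hlam hxD]
  set s0 := uu J r x / (2 * r) with hs0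
  have hC0 : 0 ≤ errC M κ := errC_nonneg hM0 hκ
  have herr0 : 0 ≤ errC M κ * (|d| * (1 - lam) + d ^ 2) := by
    apply mul_nonneg hC0
    have : 0 ≤ |d| * (1 - lam) := mul_nonneg (abs_nonneg d) (by linarith)
    positivity
  have e3 : ‖(1 / r) • vv J r hr hr2 x‖ ^ 2 = 1 - s0 ^ 2 := norm_beta0_sq hr hr2 hxD
  have hll : (lam / r) • vv J r hr hr2 x = lam • ((1 / r) • vv J r hr hr2 x) := by
    rw [smul_smul]; congr 1; ring
  rw [hll]
  set b := (1 / r) • vv J r hr hr2 x with hb
  have hbz : bz J r hr hr2 ζ x = inner ℝ b (ζ x) := rfl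
  rw [hbz]
  set e := ew i θ (x + t • ei i) with he
  have heabs : |e| ≤ 1 := abs_ew_le i θ _
  by_cases hz : ζ x = 0
  · rw [hz, inner_zero_right]
    simp only [zero_mul, mul_zero, zero_div, sub_zero, smul_zero, add_zero]
    have h1 : s0 ≤ Real.sqrt (1 - ‖lam • b‖ ^ 2) := by
      apply Real.le_sqrt_of_sq_le
      rw [norm_smul, mul_pow, e3, Real.norm_eq_abs, sq_abs]
      have h5 : 0 ≤ 1 - s0 ^ 2 := by rw [← e3]; positivity
      nlinarith
    linarith
  · have hb1 : ‖b‖ ≤ 1 := by
      have : ‖b‖ ^ 2 ≤ 1 := by rw [e3]; nlinarith [sq_nonneg s0]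
      nlinarith [norm_nonneg b]
    have hbM : |(inner ℝ b (ζ x) : ℝ)| ≤ M := by
      calc |(inner ℝ b (ζ x) : ℝ)| ≤ ‖b‖ * ‖ζ x‖ := abs_real_inner_le_norm _ _
        _ ≤ 1 * M := mul_le_mul hb1 hM (norm_nonneg _) zero_le_one
        _ = M := one_mul M
    have e2 : ‖lam • b + (d * e) • ζ x‖ ^ 2 = lam ^ 2 * (1 - s0 ^ 2)
        + 2 * lam * (d * e) * inner ℝ b (ζ x) + (d * e) ^ 2 * ‖ζ x‖ ^ 2 := by
      have n1 : ‖lam • b‖ ^ 2 = lam ^ 2 * (1 - s0 ^ 2) := by
        rw [norm_smul, mul_pow, e3, Real.norm_eq_abs, sq_abs]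
      have n2 : ‖(d * e) • ζ x‖ ^ 2 = (d * e) ^ 2 * ‖ζ x‖ ^ 2 := by
        rw [norm_smul, mul_pow, Real.norm_eq_abs, sq_abs]
      rw [norm_add_sq_real, n1, n2, real_inner_smul_left, real_inner_smul_right]
      ring
    have hN : e ^ 2 * ‖ζ x‖ ^ 2 ≤ M ^ 2 := by
      have h1 : e ^ 2 ≤ 1 := by rw [← sq_abs]; nlinarith [abs_nonneg e]
      have h2 : ‖ζ x‖ ^ 2 ≤ M ^ 2 := pow_le_pow_left₀ (norm_nonneg _) hM 2
      calc e ^ 2 * ‖ζ x‖ ^ 2 ≤ 1 * M ^ 2 := mul_le_mul h1 h2 (sq_nonneg _) zero_le_one
        _ = M ^ 2 := one_mul _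
    have hq : |(inner ℝ b (ζ x) : ℝ) * e| ≤ M := by
      rw [abs_mul]
      calc _ ≤ M * 1 := mul_le_mul hbM heabs (abs_nonneg _) hM0
        _ = M := mul_one M
    refine sqrt_expand (s := s0) (κ := κ) (M := M) (lam := lam) (d := d)
      (q := (inner ℝ b (ζ x) : ℝ) * e) (N := e ^ 2 * ‖ζ x‖ ^ 2) hκ (hs hz) hM0 hl0.le hl1.le hd1
      hq hN ?_ hs1
    rw [e2]
    ring

set_option maxHeartbeats 1000000 in
theorem Model.first_variation (h : Model E i J r) (θ : ℝ) {ζ : En n → En n}
    (hζ : TestField i J r ζ) :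
    ∫ x in unitCell n, WW E i θ x * divergence ζ x
      = ∫ x in unitCell n, Bf E i J r h.hr h.hr2 θ ζ x := by
  obtain ⟨r', hr'0, hr'r, hsupp⟩ := hζ.supp
  obtain ⟨M, hM⟩ := hζ.per.exists_bound hζ.smooth.continuous
  have hM0 : 0 ≤ M := (norm_nonneg _).trans (hM 0)
  have hr := h.hr
  have hr2 := h.hr2
  set κ := Real.sqrt (1 - r' ^ 2 / r ^ 2) with hκdef
  have hκ2 : 0 < 1 - r' ^ 2 / r ^ 2 := by
    have : r' ^ 2 / r ^ 2 < 1 := by
      rw [div_lt_one (by positivity)]
      nlinarith
    linarith
  have hκ : 0 < κ := Real.sqrt_pos.2 hκ2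
  set s0 : En n → ℝ := fun x => uu J r x / (2 * r) with hs0
  have hs0nn : ∀ x, 0 ≤ s0 x := by
    intro x
    have := uu_nonneg J r x
    simp only [hs0]
    positivity
  have hs0le : ∀ x, s0 x ≤ 1 := by
    intro x
    simp only [hs0]
    rw [div_le_one (by linarith)]
    exact uu_le hr x
  have hD : ∀ x, ζ x ≠ 0 → rho2 J x < r ^ 2 := by
    intro x hx
    have := hsupp x hx
    nlinarith
  have hs0κ : ∀ x, ζ x ≠ 0 → κ ≤ s0 x := by
    intro x hx
    have h1 := s0_sq hr (hD x hx).le
    have h2 : 1 - r' ^ 2 / r ^ 2 ≤ s0 x ^ 2 := by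
      simp only [hs0]
      rw [h1]
      have : rho2 J x / r ^ 2 ≤ r' ^ 2 / r ^ 2 := div_le_div_of_nonneg_right (hsupp x hx) (by positivity)
      linarith
    exact Real.sqrt_le_iff.2 ⟨hs0nn x, h2⟩
  set β0 : En n → En n := fun x => (1 / r) • vv J r hr hr2 x with hβ0
  have hβ0le : ∀ x, rho2 J x < r ^ 2 → ‖β0 x‖ ≤ 1 := by
    intro x hx
    have h1 := norm_beta0_sq hr hr2 hx
    have h2 : ‖β0 x‖ ^ 2 ≤ 1 := by
      simp only [hβ0]
      rw [h1]
      nlinarith [sq_nonneg (uu J r x / (2 * r))]
    nlinarith [norm_nonneg (β0 x)]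
  have hbz : ∀ x, ζ x ≠ 0 → |bz J r hr hr2 ζ x| ≤ M := by
    intro x hx
    calc |bz J r hr hr2 ζ x| ≤ ‖β0 x‖ * ‖ζ x‖ := abs_real_inner_le_norm _ _
      _ ≤ 1 * M := mul_le_mul (hβ0le x (hD x hx)) (hM x) (norm_nonneg _) zero_le_one
      _ = M := one_mul M
  have hbz0 : ∀ x, ζ x = 0 → bz J r hr hr2 ζ x = 0 := by
    intro x hx
    unfold bz
    rw [hx, inner_zero_right]
  set B := Bf E i J r hr hr2 θ ζ with hBdef
  have hB0 : ∀ x, ζ x = 0 → B x = 0 := by
    intro x hx
    simp only [hBdef, Bf]
    rw [hbz0 x hx]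
    simp
  have hBm : Measurable B := measurable_Bf h.meas hr hr2 θ hζ.smooth.continuous
  have hBb : ∀ᵐ x ∂((volume : Measure (En n)).restrict (unitCell n)), ‖B x‖ ≤ M / κ * 2 := by
    filter_upwards [ae_restrict_of_ae (h.ae_Bf θ ζ)] with x hx
    by_cases hz : ζ x = 0
    · rw [hB0 x hz, norm_zero]; positivity
    · obtain ⟨c, -, hc⟩ := hx (hD x hz)
      have e : B x = bz J r hr hr2 ζ x / s0 x *
        (Real.cos (2 * Real.pi * ((x i - θ) + (c - uu J r x / 2)))
          + Real.cos (2 * Real.pi * ((x i - θ) + (c + uu J r x / 2)))) := hc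
      rw [e, norm_mul, norm_div]
      have h1 : ‖bz J r hr hr2 ζ x‖ ≤ M := hbz x hz
      have h2 : κ ≤ ‖s0 x‖ := by
        rw [Real.norm_eq_abs, abs_of_nonneg (hs0nn x)]
        exact hs0κ x hz
      have h3 : ‖Real.cos (2 * Real.pi * ((x i - θ) + (c - uu J r x / 2)))
          + Real.cos (2 * Real.pi * ((x i - θ) + (c + uu J r x / 2)))‖ ≤ 2 := by
        refine (norm_add_le _ _).trans ?_
        have h4 := Real.abs_cos_le_one (2 * Real.pi * ((x i - θ) + (c - uu J r x / 2)))
        have h5 := Real.abs_cos_le_one (2 * Real.pi * ((x i - θ) + (c + uu J r x / 2)))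
        simp only [Real.norm_eq_abs]
        linarith
      apply mul_le_mul _ h3 (norm_nonneg _) (by positivity)
      exact div_le_div₀ hM0 h1 hκ h2
  have hBi : IntegrableOn B (unitCell n) := by
    refine Integrable.of_bound (C := M / κ * 2) hBm.aestronglyMeasurable hBb
  set V := ∫ x in unitCell n, uu J r x with hV
  have hV0 : 0 ≤ V := integral_nonneg fun x => uu_nonneg J r x
  set XW := ∫ x in unitCell n, WW E i θ x * divergence ζ x with hXW
  set XB := ∫ x in unitCell n, B x with hXB
  set C := errC M κ with hC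
  have hC0 : 0 ≤ C := errC_nonneg hM0 hκ
  set d0 := min 1 ((1 - r' / r) / (M + 1)) with hd0
  have hr'r1 : r' / r < 1 := (div_lt_one hr).2 hr'r
  have hd0pos : 0 < d0 := lt_min one_pos (div_pos (by linarith) (by linarith))
  have hs0i : IntegrableOn s0 (unitCell n) :=
    IsPer.integrableOn (F := s0) (fun v hv x => by simp only [hs0, uu_per J r v hv x])
      ((continuous_uu J r).div_const _)
  -- the main inequality
  have main : ∀ d : ℝ, |d| ≤ d0 → ∀ lam : ℝ, 0 < lam → lam < 1 →
      d * (XW - XB) ≤ 2 * C * (|d| * (1 - lam) + d ^ 2) + (1 - lam) * (J.card * V / r) := by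
    intro d hd lam hl0 hl1
    have hlam : lam ^ 2 < 1 := by nlinarith
    have hd1 : |d| ≤ 1 := hd.trans (min_le_left _ _)
    have hdM : |d| * M ≤ 1 - r' / r := by
      have h1 : |d| ≤ (1 - r' / r) / (M + 1) := hd.trans (min_le_right _ _)
      rw [le_div_iff₀ (by linarith)] at h1
      nlinarith [abs_nonneg d]
    set β := beta J r hr hr2 lam with hβ
    set Ψ : En n → En n := fun x => β x + (d * ew i θ x) • ζ x with hΨdef
    have hew1 : ContDiff ℝ 1 (fun x : En n => d * ew i θ x) :=
      contDiff_const.mul ((contDiff_ew i θ).of_le (by norm_cast))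
    have hβ1 : ContDiff ℝ 1 β := (contDiff_beta J hr hr2).of_le (by norm_cast)
    have hΨ : ContDiff ℝ 1 Ψ := hβ1.add (hew1.smul hζ.smooth)
    have hΨp : IsPer Ψ := by
      intro v hv x
      simp only [hΨdef, hβ, beta_per J hr hr2 v hv x, ew_per i θ v hv x, hζ.per v hv x]
    have hβsq : ∀ x, rho2 J x < r ^ 2 → ‖β x‖ ^ 2 = lam ^ 2 * (rho2 J x / r ^ 2) := by
      intro x hx
      simp only [hβ]
      rw [norm_beta_sq J hr hr2 hlam hx]
      ring
    have hΨ1 : ∀ x, ‖Ψ x‖ ≤ 1 := by
      intro x
      by_cases hz : ζ x = 0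
      · simp only [hΨdef, hz, smul_zero, add_zero]
        exact norm_beta_le J hr hr2 hlam x
      · have h1 : ‖β x‖ ≤ r' / r := by
          have h2 : ‖β x‖ ^ 2 ≤ (r' / r) ^ 2 := by
            rw [hβsq x (hD x hz), div_pow]
            have h3 : rho2 J x / r ^ 2 ≤ r' ^ 2 / r ^ 2 :=
              div_le_div_of_nonneg_right (hsupp x hz) (by positivity)
            have h4 : 0 ≤ rho2 J x / r ^ 2 := div_nonneg (rho2_nonneg J x) (by positivity)
            nlinarith
          exact abs_le_of_sq_le_sq' h2 (by positivity) |>.2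
        have h2 : ‖(d * ew i θ x) • ζ x‖ ≤ |d| * M := by
          rw [norm_smul, Real.norm_eq_abs, abs_mul]
          have h3 := abs_ew_le i θ x
          have h4 : |d| * |ew i θ x| ≤ |d| := by nlinarith [abs_nonneg d]
          exact mul_le_mul h4 (hM x) (norm_nonneg _) (abs_nonneg d)
        calc ‖Ψ x‖ ≤ ‖β x‖ + ‖(d * ew i θ x) • ζ x‖ := norm_add_le _ _
          _ ≤ r' / r + |d| * M := add_le_add h1 h2
          _ ≤ 1 := by linarith
    have hΨi : ∀ x, Ψ x i = 0 := by
      intro x
      have h1 : Ψ x i = β x i + (d * ew i θ x) * ζ x i := by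
        simp [hΨdef]
      rw [h1, hζ.hor, hβ, beta_apply_i J hr hr2 x h.hi]
      ring
    have hsm : ContDiff ℝ 1 (fun x : En n => (d * ew i θ x) • ζ x) := hew1.smul hζ.smooth
    have hdiv : ∀ x, divergence Ψ x = divergence β x + d * (ew i θ x * divergence ζ x) := by
      intro x
      rw [hΨdef, divergence_add hβ1 hsm, divergence_smul hew1 hζ.smooth]
      have h1 : fderiv ℝ (fun x : En n => d * ew i θ x) x (ζ x) = 0 := by
        have h2 : HasFDerivAt (ew i θ) (fderiv ℝ (ew i θ) x) x :=
          ((contDiff_ew (n := n) i θ).differentiable (by norm_num) x).hasFDerivAt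
        rw [(h2.const_mul d).fderiv]
        simp [fderiv_ew i θ x (ζ x) (hζ.hor x)]
      rw [h1]
      ring
    set m : En n → ℝ := fun x => 2 * s0 x - d * B x - 2 * C * (|d| * (1 - lam) + d ^ 2) with hm
    have hmi : IntegrableOn m (unitCell n) :=
      ((hs0i.const_mul 2).sub (hBi.const_mul d)).sub (integrable_const _)
    have herr0 : 0 ≤ C * (|d| * (1 - lam) + d ^ 2) := by
      apply mul_nonneg hC0
      have : 0 ≤ |d| * (1 - lam) := mul_nonneg (abs_nonneg d) (by linarith)
      positivity
    have key := fatou_test (Ψ := Ψ) h.meas h.per h.fin i hΨ hΨp hΨ1 hΨi (m := m) hmi ?_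
    · have e1 : ∫ x in E ∩ unitCell n, divergence Ψ x
          = lam * J.card * V / r + d * XW := by
        simp only [hdiv]
        have i1 : IntegrableOn (divergence β) (E ∩ unitCell n) := by
          have := (IsPer.divergence (beta_per (lam := lam) J hr hr2)).integrableOn
            (continuous_divergence hβ1)
          exact this.mono_set Set.inter_subset_right
        have i2 : IntegrableOn (fun x => ew i θ x * divergence ζ x) (E ∩ unitCell n) := by
          have : IsPer (fun x => ew i θ x * divergence ζ x) := by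
            intro v hv x
            simp only [ew_per i θ v hv x, IsPer.divergence hζ.per v hv x]
          exact (this.integrableOn ((contDiff_ew i θ).continuous.mul
            (continuous_divergence hζ.smooth))).mono_set Set.inter_subset_right
        rw [integral_add i1 (i2.const_mul d), integral_const_mul,
          ← integral_WW_mul_div h.meas h.per θ hζ, h.integral_div_beta hlam]
      have e2 : ∫ x in unitCell n, m x = V / r - d * XB - 2 * C * (|d| * (1 - lam) + d ^ 2) := by
        simp only [hm]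
        have ia : Integrable (fun x => 2 * s0 x) ((volume : Measure (En n)).restrict (unitCell n)) :=
          hs0i.const_mul 2
        have ib : Integrable (fun x => d * B x) ((volume : Measure (En n)).restrict (unitCell n)) :=
          hBi.const_mul d
        have ic : Integrable (fun x => 2 * s0 x - d * B x)
          ((volume : Measure (En n)).restrict (unitCell n)) := ia.sub ib
        rw [integral_sub ic (integrable_const _), integral_sub ia ib, integral_const_mul,
          integral_const_mul]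
        have e3 : ∫ x in unitCell n, s0 x = V / (2 * r) := by
          simp only [hs0]
          exact integral_div _ _
        rw [e3]
        simp only [integral_const, smul_eq_mul]
        have h7 : ((volume : Measure (En n)).restrict (unitCell n)).real Set.univ = 1 := by
          simp
        rw [h7]
        field_simp
        ring
      rw [e1, e2] at key
      have hle := h.le
      rw [← hV] at hle
      have e4 : (1 + (J.card : ℝ)) * V / r = V / r + J.card * V / r := by ring
      have e5 : lam * J.card * V / r = J.card * V / r - (1 - lam) * (J.card * V / r) := by ring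
      rw [e4] at hle
      rw [e5] at key
      linarith
    · -- pointwise lower bound
      filter_upwards [h.ae_Bf θ ζ, ae_line_lim h.meas i] with x hx hlim ε hε
      by_cases hxD : rho2 J x < r ^ 2
      · obtain ⟨c, harc, hc⟩ := hx hxD
        set L := uu J r x with hL
        have hL0 : 0 < L := uu_pos hxD
        have hL1 : L < 1 := lt_of_le_of_lt (uu_le hr x) (by linarith)
        set g : ℝ → ℝ := fun t => Real.sqrt (1 - ‖Ψ (x + t • ei i)‖ ^ 2) with hg
        have hlc : Continuous (fun t : ℝ => x + t • ei i) :=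
          continuous_const.add (continuous_id.smul continuous_const)
        have hgc : Continuous g :=
          Real.continuous_sqrt.comp (continuous_const.sub ((hΨ.continuous.comp hlc).norm.pow 2))
        have hgp : Function.Periodic g 1 := by
          intro t
          have := periodic_line hΨp i x t
          simp only at this
          simp only [hg, this]
        have hw := weighted_liminf hL0 hL1 harc (fun k => contDiff_lineMoll h.meas i x k)
          (fun k => periodic_line (moll_per h.per k) i x) hlim hgc hgp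
          (fun t => Real.sqrt_nonneg _) hε
        filter_upwards [hw] with k hk
        refine le_trans ?_ hk
        -- lower bounds at the endpoints
        have hend : ∀ t : ℝ, s0 x - d * (bz J r hr hr2 ζ x * ew i θ (x + t • ei i)) / s0 x
            - C * (|d| * (1 - lam) + d ^ 2) ≤ g t := fun t =>
          endpoint_bound h.hi hr hr2 hl0 hl1 hζ.inv hM0 hκ hd1 θ (hM x) hxD (hs0κ x) (hs0le x) t
        have h1 := hend (c - L / 2)
        have h2 := hend (c + L / 2)
        rw [ew_line] at h1 h2
        have e4 : B x = bz J r hr hr2 ζ x / s0 x *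
          (Real.cos (2 * Real.pi * ((x i - θ) + (c - L / 2)))
            + Real.cos (2 * Real.pi * ((x i - θ) + (c + L / 2)))) := hc
        simp only [hm]
        rw [e4]
        have e5 : ∀ a b : ℝ, d * (bz J r hr hr2 ζ x / s0 x * (a + b))
            = d * (bz J r hr hr2 ζ x * a) / s0 x + d * (bz J r hr hr2 ζ x * b) / s0 x := by
          intro a b; ring
        rw [e5]
        linarith
      · have hz : ζ x = 0 := by
          by_contra hz
          exact hxD (hD x hz)
        have hs00 : s0 x = 0 := by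
          simp only [hs0]
          rw [uu_zero (not_lt.1 hxD), zero_div]
        refine Eventually.of_forall fun k => ?_
        simp only [hm]
        rw [hB0 x hz, hs00]
        have := tau_nonneg E i (g := fun y => Real.sqrt (1 - ‖Ψ y‖ ^ 2))
            (fun _ => Real.sqrt_nonneg _) k x
        linarith
  -- conclusion: let lam → 1, then d → 0 with both signs
  have main2 : ∀ d : ℝ, |d| ≤ d0 → d * (XW - XB) ≤ 2 * C * d ^ 2 := by
    intro d hd
    have hlim : Tendsto (fun lam : ℝ => 2 * C * (|d| * (1 - lam) + d ^ 2)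
        + (1 - lam) * (J.card * V / r)) (𝓝[<] 1)
        (𝓝 (2 * C * (|d| * (1 - 1) + d ^ 2) + (1 - 1) * (J.card * V / r))) := by
      apply Tendsto.mono_left _ nhdsWithin_le_nhds
      apply Continuous.tendsto
      fun_prop
    have e : 2 * C * (|d| * (1 - 1) + d ^ 2) + (1 - 1) * (J.card * V / r) = 2 * C * d ^ 2 := by ring
    rw [e] at hlim
    refine ge_of_tendsto hlim ?_
    have h1 : ∀ᶠ lam : ℝ in 𝓝[<] 1, lam ∈ Ioo (0:ℝ) 1 :=
      Ioo_mem_nhdsLT one_pos
    filter_upwards [h1] with lam hl
    exact main d hd lam hl.1 hl.2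
  have hXle : ∀ X : ℝ, (∀ d : ℝ, |d| ≤ d0 → d * X ≤ 2 * C * d ^ 2) → X ≤ 0 := by
    intro X hX
    by_contra hcon
    push Not at hcon
    set d := min d0 (X / (2 * C + 1) / 2) with hd
    have hdpos : 0 < d := lt_min hd0pos (by positivity)
    have h1 := hX d (by rw [abs_of_pos hdpos]; exact min_le_left _ _)
    have h2 : X ≤ 2 * C * d := by
      have h3 : d * X ≤ d * (2 * C * d) := by nlinarith
      exact le_of_mul_le_mul_left h3 hdpos
    have h3 : d ≤ X / (2 * C + 1) / 2 := min_le_right _ _
    have h4 : 2 * C * d ≤ 2 * C * (X / (2 * C + 1) / 2) := mul_le_mul_of_nonneg_left h3 (by positivity)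
    have h5 : 2 * C * (X / (2 * C + 1) / 2) < X := by
      have : 2 * C * (X / (2 * C + 1) / 2) = X * (C / (2 * C + 1)) := by
        field_simp
      rw [this]
      have h6 : C / (2 * C + 1) < 1 := by
        rw [div_lt_one (by positivity)]
        linarith
      nlinarith
    linarith
  have hA : XW - XB ≤ 0 := hXle _ main2
  have hB' : -(XW - XB) ≤ 0 := by
    apply hXle
    intro d hd
    have := main2 (-d) (by rwa [abs_neg])
    have e1 : (-d) * (XW - XB) = d * -(XW - XB) := by ring
    have e2 : (-d) ^ 2 = d ^ 2 := by ring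
    rw [e1, e2] at this
    exact this
  linarith

end Crest.Agent.R214.Rig
end
end

-- ▼ part R214/RigVar4
section

set_option autoImplicit false

/-! Row 214, rigidity: the phase function has vanishing weak gradient. -/

open MeasureTheory Set Filter Topology Crest.GeometryTopology.PeriodicPerimeter
open scoped ContDiff

noncomputable section

namespace Crest.Agent.R214.Rig

variable {n : ℕ} {E : Set (En n)} {i : Fin n} {J : Finset (Fin n)} {r : ℝ}

/-- the conformal factor -/
def Qf (r s : ℝ) : ℝ := Real.pi / Real.sin (Real.pi * (2 * Real.sqrt (r ^ 2 - s)))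

theorem sin_pos_of {r s : ℝ} (hr : 0 < r) (hr2 : r < 1 / 2) (hs0 : 0 ≤ s) (hs : s < r ^ 2) :
    0 < Real.sin (Real.pi * (2 * Real.sqrt (r ^ 2 - s))) := by
  have h1 : 0 < Real.sqrt (r ^ 2 - s) := Real.sqrt_pos.2 (by linarith)
  have h2 : Real.sqrt (r ^ 2 - s) ≤ r := Real.sqrt_le_iff.2 ⟨hr.le, by linarith⟩
  apply Real.sin_pos_of_pos_of_lt_pi
  · have := Real.pi_pos; positivity
  · have := Real.pi_pos
    nlinarith

theorem contDiffAt_Qf {r s : ℝ} (hr : 0 < r) (hr2 : r < 1 / 2) (hs0 : 0 ≤ s) (hs : s < r ^ 2) :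
    ContDiffAt ℝ ∞ (Qf r) s := by
  unfold Qf
  have h1 : ContDiffAt ℝ ∞ (fun s => Real.sqrt (r ^ 2 - s)) s :=
    (contDiffAt_const.sub contDiffAt_id).sqrt (by simp only [id]; linarith)
  refine contDiffAt_const.div ?_ (sin_pos_of hr hr2 hs0 hs).ne'
  exact Real.contDiff_sin.contDiffAt.comp s (contDiffAt_const.mul (contDiffAt_const.mul h1))

theorem hasDerivAt_Qf {r s : ℝ} (hr : 0 < r) (hr2 : r < 1 / 2) (hs0 : 0 ≤ s) (hs : s < r ^ 2) :
    HasDerivAt (Qf r) (Qf r s * (2 * Real.pi / (2 * Real.sqrt (r ^ 2 - s)))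
      * (Real.cos (Real.pi * (2 * Real.sqrt (r ^ 2 - s)))
        / Real.sin (Real.pi * (2 * Real.sqrt (r ^ 2 - s))))) s := by
  have hsin := sin_pos_of hr hr2 hs0 hs
  have hq : 0 < Real.sqrt (r ^ 2 - s) := Real.sqrt_pos.2 (by linarith)
  have h1 : HasDerivAt (fun s => r ^ 2 - s) (-1) s := by
    simpa using (hasDerivAt_id s).const_sub (r ^ 2)
  have h2 : HasDerivAt (fun s => Real.sqrt (r ^ 2 - s)) (-1 / (2 * Real.sqrt (r ^ 2 - s))) s :=
    h1.sqrt (by linarith)
  have h3 : HasDerivAt (fun s => Real.pi * (2 * Real.sqrt (r ^ 2 - s)))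
      (Real.pi * (2 * (-1 / (2 * Real.sqrt (r ^ 2 - s))))) s := (h2.const_mul 2).const_mul Real.pi
  have h4 := h3.sin
  have h5 := (hasDerivAt_const s Real.pi).div h4 hsin.ne'
  have e : (0 * Real.sin (Real.pi * (2 * Real.sqrt (r ^ 2 - s))) - Real.pi *
      (Real.cos (Real.pi * (2 * Real.sqrt (r ^ 2 - s))) *
        (Real.pi * (2 * (-1 / (2 * Real.sqrt (r ^ 2 - s)))))))
      / Real.sin (Real.pi * (2 * Real.sqrt (r ^ 2 - s))) ^ 2
      = Qf r s * (2 * Real.pi / (2 * Real.sqrt (r ^ 2 - s)))
      * (Real.cos (Real.pi * (2 * Real.sqrt (r ^ 2 - s)))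
        / Real.sin (Real.pi * (2 * Real.sqrt (r ^ 2 - s)))) := by
    unfold Qf
    generalize Real.sin (Real.pi * (2 * Real.sqrt (r ^ 2 - s))) = S at hsin
    generalize Real.cos (Real.pi * (2 * Real.sqrt (r ^ 2 - s))) = T
    generalize Real.sqrt (r ^ 2 - s) = q at hq
    field_simp
    ring
  rw [e] at h5
  exact h5

theorem divergence_smul_at {f : En n → ℝ} {ζ : En n → En n} {x : En n} {f' : En n →L[ℝ] ℝ}
    (hf : HasFDerivAt f f' x) (hζ : DifferentiableAt ℝ ζ x) :
    divergence (fun y => f y • ζ y) x = f x * divergence ζ x + f' (ζ x) := by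
  have d3 := hf.smul hζ.hasFDerivAt
  unfold divergence
  have e : fderiv ℝ (fun y => f y • ζ y) x = f x • fderiv ℝ ζ x + f'.smulRight (ζ x) := by
    exact d3.fderiv
  rw [e]
  have hx : f' (ζ x) = ∑ l, ζ x l * f' (EuclideanSpace.single l 1) := by
    have h1 : ζ x = ∑ l, ζ x l • (EuclideanSpace.single l (1 : ℝ) : En n) := by
      ext j
      simp [Pi.single_apply]
    conv_lhs => rw [h1]
    rw [map_sum]
    simp
  rw [hx, Finset.mul_sum, ← Finset.sum_add_distrib]
  refine Finset.sum_congr rfl fun l _ => ?_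
  simp
  ring

theorem divergence_congr {ζ₁ ζ₂ : En n → En n} {x : En n} (h : ζ₁ =ᶠ[𝓝 x] ζ₂) :
    divergence ζ₁ x = divergence ζ₂ x := by
  unfold divergence
  rw [h.fderiv_eq]

/-- derivative of `rho2` inside the cylinder -/
theorem hasFDerivAt_rho2 (hr : 0 < r) (hr2 : r < 1 / 2) {x : En n} (hx : rho2 J x < r ^ 2) :
    ∃ L : En n →L[ℝ] ℝ, HasFDerivAt (rho2 J) L x ∧ ∀ v : En n,
      L v = 2 * r * inner ℝ ((1 / r) • vv J r hr hr2 x) v := by
  have h1 : rho2 J =ᶠ[𝓝 x] fun y => ‖vv J r hr hr2 y‖ ^ 2 := by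
    filter_upwards [(isOpen_D J).mem_nhds hx] with y hy
    exact (norm_vv_sq_of_lt J hr hr2 hy).symm
  have h2 : ∀ j ∈ J, HasFDerivAt (fun y : En n => pp r hr hr2 (y j) • (ei j : En n))
      ((((1 : ℝ) • (EuclideanSpace.proj (𝕜 := ℝ) j : En n →L[ℝ] ℝ))).smulRight (ei j)) x := by
    intro j hj
    have h3 : HasDerivAt (pp r hr hr2) 1 ((EuclideanSpace.proj (𝕜 := ℝ) j : En n →L[ℝ] ℝ) x) :=
      deriv_pp hr hr2 (abs_dd_le_of_rho2 hr hx hj)
    have h4 := h3.comp_hasFDerivAt x ((EuclideanSpace.proj (𝕜 := ℝ) j : En n →L[ℝ] ℝ).hasFDerivAt)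
    exact h4.smul_const (ei j)
  have h5 : HasFDerivAt (vv J r hr hr2)
      (∑ j ∈ J, (((1 : ℝ) • (EuclideanSpace.proj (𝕜 := ℝ) j : En n →L[ℝ] ℝ))).smulRight (ei j)) x := by
    unfold vv
    exact HasFDerivAt.fun_sum h2
  have h6 := h5.norm_sq
  refine ⟨_, h6.congr_of_eventuallyEq h1, fun v => ?_⟩
  have h7 : (∑ j ∈ J, (((1 : ℝ) • (EuclideanSpace.proj (𝕜 := ℝ) j :
      En n →L[ℝ] ℝ))).smulRight (ei j)) v = ∑ j ∈ J, v j • (ei j : En n) := by
    simp [sum_apply]
  have h8 : inner ℝ (vv J r hr hr2 x) (∑ j ∈ J, v j • (ei j : En n)) = inner ℝ (vv J r hr hr2 x) v := by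
    rw [inner_sum]
    have h9 : ∀ j ∈ J, inner ℝ (vv J r hr hr2 x) (v j • (ei j : En n)) = v j * vv J r hr hr2 x j := by
      intro j _
      rw [real_inner_smul_right, inner_ei]
    rw [Finset.sum_congr rfl h9, PiLp.inner_apply]
    simp only [vv_apply]
    have h10 : ∀ l : Fin n, inner ℝ (if l ∈ J then pp r hr hr2 (x l) else 0) (v l)
        = if l ∈ J then v l * pp r hr hr2 (x l) else 0 := by
      intro l
      split_ifs <;> simp
    simp only [h10]
    rw [Finset.sum_ite_mem, Finset.univ_inter]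
    refine Finset.sum_congr rfl fun j hj => ?_
    rw [if_pos hj]
  have h11 : (2 • (innerSL ℝ (vv J r hr hr2 x)).comp (∑ j ∈ J, (((1 : ℝ) • (EuclideanSpace.proj
      (𝕜 := ℝ) j : En n →L[ℝ] ℝ))).smulRight (ei j))) v = 2 * inner ℝ (vv J r hr hr2 x) v := by
    simp only [smul_apply, ContinuousLinearMap.comp_apply, h7, innerSL_apply_apply, h8]
    simp
  rw [h11, real_inner_smul_left]
  have := hr.ne'
  field_simp

/-- the weight function -/
def wt (E : Set (En n)) (i : Fin n) (J : Finset (Fin n)) (r θ : ℝ) (x : En n) : ℝ :=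
  if rho2 J x < r ^ 2 then Qf r (rho2 J x) * WW E i θ x else 0

theorem TestField.near {η : En n → En n} (hη : TestField i J r η) {x : En n}
    (hx : ¬ rho2 J x < r ^ 2) : η =ᶠ[𝓝 x] fun _ => 0 := by
  obtain ⟨r', hr'0, hr'r, hsupp⟩ := hη.supp
  have h1 : r' ^ 2 < rho2 J x := by
    have := not_lt.1 hx
    nlinarith
  have h2 : ∀ᶠ y in 𝓝 x, r' ^ 2 < rho2 J y :=
    continuousAt_const.eventually_lt (continuous_rho2 J).continuousAt h1
  filter_upwards [h2] with y hy
  by_contra hne
  exact absurd (hsupp y hne) (not_le.2 hy)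

theorem TestField.mulQ (hr : 0 < r) (hr2 : r < 1 / 2) {η : En n → En n} (hi : i ∉ J)
    (hη : TestField i J r η) : TestField i J r (fun x => Qf r (rho2 J x) • η x) where
  smooth := by
    rw [contDiff_iff_contDiffAt]
    intro x
    by_cases hx : rho2 J x < r ^ 2
    · have h1 : (fun y => Qf r (rho2 J y) • η y)
          =ᶠ[𝓝 x] fun y => Qf r (‖vv J r hr hr2 y‖ ^ 2) • η y := by
        filter_upwards [(isOpen_D J).mem_nhds hx] with y hy
        rw [norm_vv_sq_of_lt J hr hr2 hy]
      refine ContDiffAt.congr_of_eventuallyEq ?_ h1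
      have h2 : ContDiffAt ℝ ∞ (Qf r) (‖vv J r hr hr2 x‖ ^ 2) := by
        rw [norm_vv_sq_of_lt J hr hr2 hx]
        exact contDiffAt_Qf hr hr2 (rho2_nonneg J x) hx
      have h3 : ContDiffAt ℝ ∞ (fun y => ‖vv J r hr hr2 y‖ ^ 2) x :=
        ((contDiff_vv J hr hr2).norm_sq ℝ).contDiffAt
      have h4 : ContDiffAt ℝ ∞ ((Qf r) ∘ (fun y => ‖vv J r hr hr2 y‖ ^ 2)) x :=
        ContDiffAt.comp (g := Qf r) (f := fun y => ‖vv J r hr hr2 y‖ ^ 2) x h2 h3
      exact (h4.of_le (by norm_cast)).smul hη.smooth.contDiffAt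
    · have h1 : (fun y => Qf r (rho2 J y) • η y) =ᶠ[𝓝 x] fun _ => 0 := by
        filter_upwards [hη.near hx] with y hy
        rw [hy, smul_zero]
      exact contDiffAt_const.congr_of_eventuallyEq h1
  per := by
    intro v hv x
    simp only [rho2_per J v hv x, hη.per v hv x]
  hor := by
    intro x
    simp [hη.hor x]
  inv := by
    intro x t
    simp only [rho2_add_ei J hi, hη.inv]
  supp := by
    obtain ⟨r', hr'0, hr'r, hsupp⟩ := hη.supp
    refine ⟨r', hr'0, hr'r, fun x hx => hsupp x fun h0 => hx ?_⟩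
    rw [h0, smul_zero]

/-- pointwise identity -/
theorem pointwise_identity (hr : 0 < r) (hr2 : r < 1 / 2) (θ : ℝ) {η : En n → En n}
    (hη : TestField i J r η) (x : En n) :
    WW E i θ x * divergence (fun y => Qf r (rho2 J y) • η y) x
      = Bf E i J r hr hr2 θ (fun y => Qf r (rho2 J y) • η y) x + wt E i J r θ x * divergence η x := by
  by_cases hx : rho2 J x < r ^ 2
  · obtain ⟨L, hL, hLv⟩ := hasFDerivAt_rho2 hr hr2 hx
    have hQ := (hasDerivAt_Qf hr hr2 (rho2_nonneg J x) hx).comp_hasFDerivAt x hL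
    have hdiv := divergence_smul_at (ζ := η) hQ (hη.smooth.differentiable one_ne_zero x)
    have e1 : divergence (fun y => Qf r (rho2 J y) • η y) x
        = Qf r (rho2 J x) * divergence η x + ((Qf r (rho2 J x) * (2 * Real.pi / (2 * Real.sqrt (r ^ 2 - rho2 J x)))
      * (Real.cos (Real.pi * (2 * Real.sqrt (r ^ 2 - rho2 J x)))
        / Real.sin (Real.pi * (2 * Real.sqrt (r ^ 2 - rho2 J x))))) • L) (η x) := hdiv
    rw [e1]
    have e2 : ∀ a : ℝ, (a • L) (η x) = a * (2 * r * inner ℝ ((1 / r) • vv J r hr hr2 x) (η x)) := by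
      intro a
      rw [smul_apply, hLv, smul_eq_mul]
    rw [e2]
    unfold wt Bf bz
    rw [if_pos hx]
    simp only
    rw [real_inner_smul_right]
    have e3 : uu J r x = 2 * Real.sqrt (r ^ 2 - rho2 J x) := rfl
    rw [e3]
    have hq : 0 < Real.sqrt (r ^ 2 - rho2 J x) := Real.sqrt_pos.2 (by linarith)
    have hsin := sin_pos_of hr hr2 (rho2_nonneg J x) hx
    generalize inner ℝ ((1 / r) • vv J r hr hr2 x) (η x) = b
    generalize Real.sin (Real.pi * (2 * Real.sqrt (r ^ 2 - rho2 J x))) = S at hsin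
    generalize Real.cos (Real.pi * (2 * Real.sqrt (r ^ 2 - rho2 J x))) = T
    generalize Real.sqrt (r ^ 2 - rho2 J x) = q at hq
    generalize Qf r (rho2 J x) = Q
    generalize WW E i θ x = W
    field_simp
    ring
  · have h1 := hη.near hx
    have h2 : (fun y => Qf r (rho2 J y) • η y) =ᶠ[𝓝 x] fun _ => 0 := by
      filter_upwards [h1] with y hy
      rw [hy, smul_zero]
    have h3 : η x = 0 := h1.self_of_nhds
    rw [divergence_congr h2, divergence_congr h1]
    have h4 : divergence (fun _ : En n => (0 : En n)) x = 0 := by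
      unfold divergence
      simp
    rw [h4]
    unfold Bf bz
    simp only [h3]
    simp

theorem measurable_wt (hE : MeasurableSet E) (θ : ℝ) : Measurable (wt E i J r θ) := by
  unfold wt
  have h1 : Measurable (fun x : En n => Qf r (rho2 J x)) := by
    unfold Qf
    have h2 : Measurable (fun x : En n => Real.sqrt (r ^ 2 - rho2 J x)) :=
      (Real.continuous_sqrt.comp (continuous_const.sub (continuous_rho2 J))).measurable
    exact Measurable.div measurable_const
      (Real.continuous_sin.measurable.comp ((h2.const_mul 2).const_mul Real.pi))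
  exact Measurable.ite (isOpen_D J).measurableSet (h1.mul (measurable_WW hE i θ)) measurable_const

theorem WW_per (hp : IsLatticePeriodic E) (θ : ℝ) : IsPer (WW E i θ) := by
  intro v hv x
  unfold WW
  congr 1
  funext t
  have e : x + v + t • ei i = (x + t • ei i) + v := by abel
  rw [e, chi_per hp v hv, ew_per i θ v hv]

theorem WW_inv (hp : IsLatticePeriodic E) (θ : ℝ) (x : En n) (s : ℝ) :
    WW E i θ (x + s • ei i) = WW E i θ x := by
  unfold WW
  have hper : Function.Periodic (fun t : ℝ => chi E (x + t • ei i) * ew i θ (x + t • ei i)) 1 := by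
    have := periodic_line (F := fun y => chi E y * ew i θ y) (fun v hv y => by
      simp only [chi_per hp v hv, ew_per i θ v hv]) i x
    exact this
  have h1 : ∫ t in (0:ℝ)..1, chi E (x + s • ei i + t • ei i) * ew i θ (x + s • ei i + t • ei i)
      = ∫ t in (0:ℝ)..1, (fun t : ℝ => chi E (x + t • ei i) * ew i θ (x + t • ei i)) (t + s) := by
    congr 1
    funext t
    have e : x + s • ei i + t • ei i = x + (t + s) • ei i := by module
    rw [e]
  rw [h1, intervalIntegral.integral_comp_add_right
    (fun t : ℝ => chi E (x + t • ei i) * ew i θ (x + t • ei i)) s]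
  have h2 := hper.intervalIntegral_add_eq (0 + s) 0
  have e1 : (0:ℝ) + s + 1 = 1 + s := by ring
  rw [e1, zero_add (1:ℝ)] at h2
  exact h2

theorem wt_per (hp : IsLatticePeriodic E) (θ : ℝ) : IsPer (wt E i J r θ) := by
  intro v hv x
  unfold wt
  rw [rho2_per J v hv x, WW_per hp θ v hv x]

theorem wt_inv (hp : IsLatticePeriodic E) (hi : i ∉ J) (θ : ℝ) (x : En n) (s : ℝ) :
    wt E i J r θ (x + s • ei i) = wt E i J r θ x := by
  unfold wt
  rw [rho2_add_ei J hi, WW_inv hp]

/-- a.e. value of the weight function -/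
theorem Model.ae_wt (h : Model E i J r) : ∀ᵐ x : En n, rho2 J x < r ^ 2 →
    ∃ c, (∀ᵐ t, t ∈ fib E i x ↔ t ∈ arc c (uu J r x)) ∧
      ∀ θ, wt E i J r θ x = Real.cos (2 * Real.pi * ((x i - θ) + c)) := by
  filter_upwards [h.ae_arc] with x hx hxD
  obtain ⟨c, hc⟩ := hx hxD
  refine ⟨c, hc, fun θ => ?_⟩
  have hL1 : uu J r x < 1 := lt_of_le_of_lt (uu_le h.hr x) (by linarith [h.hr2])
  unfold wt
  rw [if_pos hxD, WW_arc (uu_nonneg J r x) hL1 θ hc]
  have hsin := sin_pos_of h.hr h.hr2 (rho2_nonneg J x) hxD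
  have hpi := Real.pi_pos
  unfold Qf uu
  generalize Real.sin (Real.pi * (2 * Real.sqrt (r ^ 2 - rho2 J x))) = S at hsin
  field_simp

theorem Model.ae_abs_wt_le (h : Model E i J r) (θ : ℝ) : ∀ᵐ x : En n, |wt E i J r θ x| ≤ 1 := by
  filter_upwards [h.ae_wt] with x hx
  by_cases hxD : rho2 J x < r ^ 2
  · obtain ⟨c, -, hc⟩ := hx hxD
    rw [hc]
    exact Real.abs_cos_le_one _
  · unfold wt
    rw [if_neg hxD]
    simp

/-- the phase has vanishing weak gradient -/
theorem Model.weak_zero (h : Model E i J r) (θ : ℝ) {η : En n → En n} (hη : TestField i J r η) :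
    ∫ x in unitCell n, wt E i J r θ x * divergence η x = 0 := by
  have hζ := hη.mulQ h.hr h.hr2 h.hi
  have h1 := h.first_variation θ hζ
  have i1 : IntegrableOn (fun x => wt E i J r θ x * divergence η x) (unitCell n) := by
    obtain ⟨C, hC⟩ := (IsPer.divergence hη.per).exists_bound (continuous_divergence hη.smooth)
    refine Integrable.of_bound (C := 1 * C)
      ((measurable_wt h.meas θ).mul (continuous_divergence hη.smooth).measurable).aestronglyMeasurable ?_
    filter_upwards [ae_restrict_of_ae (h.ae_abs_wt_le θ)] with x hx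
    rw [norm_mul]
    exact mul_le_mul hx (hC x) (norm_nonneg _) zero_le_one
  have i2 : IntegrableOn (fun x => WW E i θ x * divergence (fun y => Qf r (rho2 J y) • η y) x)
      (unitCell n) := by
    obtain ⟨C, hC⟩ := (IsPer.divergence hζ.per).exists_bound (continuous_divergence hζ.smooth)
    refine Integrable.of_bound (C := 1 * C)
      ((measurable_WW h.meas i θ).mul (continuous_divergence hζ.smooth).measurable).aestronglyMeasurable ?_
    refine Eventually.of_forall fun x => ?_
    rw [norm_mul]
    exact mul_le_mul (abs_WW_le E i θ x) (hC x) (norm_nonneg _) zero_le_one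
  have e1 : ∀ x, Bf E i J r h.hr h.hr2 θ (fun y => Qf r (rho2 J y) • η y) x
      = WW E i θ x * divergence (fun y => Qf r (rho2 J y) • η y) x
        - wt E i J r θ x * divergence η x := by
    intro x
    rw [pointwise_identity h.hr h.hr2 θ hη x]
    ring
  simp only [e1] at h1
  rw [integral_sub i2 i1] at h1
  linarith

end Crest.Agent.R214.Rig
end
end

-- ▼ part R214/RigMain
section

set_option autoImplicit false

/-! Row 214, rigidity of Steiner symmetrisation for the model regions. -/

open MeasureTheory Set Filter Topology Crest.GeometryTopology.PeriodicPerimeter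
open scoped ContDiff

noncomputable section

namespace Crest.Agent.R214.Rig

variable {n : ℕ}

/-- the statement `const_of_weak` -/
def ConstOfWeak (n : ℕ) : Prop :=
  ∀ (w : En n → ℝ), Measurable w → ∀ (C : ℝ), (∀ x, |w x| ≤ C) → IsPer w →
    ∀ (i : Fin n), (∀ (x : En n) (t : ℝ), w (x + t • ei i) = w x) →
    ∀ (J : Finset (Fin n)), i ∉ J → ∀ (r : ℝ), 0 < r → r < 1 / 2 →
    (∀ η : En n → En n, ContDiff ℝ ∞ η → IsPer η → (∀ x, η x i = 0) →
      (∀ (x : En n) (t : ℝ), η (x + t • ei i) = η x) →
      (∃ r', 0 ≤ r' ∧ r' < r ∧ ∀ x, η x ≠ 0 → rho2 J x ≤ r' ^ 2) →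
      ∫ x in unitCell n, w x * divergence η x = 0) →
    ∃ c0, ∀ᵐ x : En n, rho2 J x < r ^ 2 → w x = c0

/-- a property holding at a.e. point of a.e. line holds a.e. (periodic measurable version) -/
theorem ae_of_ae_line {S : Set (En n)} (hS : MeasurableSet S) (hp : IsLatticePeriodic S) (i : Fin n)
    (h : ∀ᵐ x : En n, ∀ᵐ t : ℝ, x + t • ei i ∉ S) : ∀ᵐ x : En n, x ∉ S := by
  have h1 : ∀ᵐ x : En n, flen S i x = 0 := by
    filter_upwards [h] with x hx
    unfold flen
    have : ∫ t in (0:ℝ)..1, ind (fib S i x) t = ∫ t in (0:ℝ)..1, (0:ℝ) := by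
      apply intervalIntegral.integral_congr_ae
      filter_upwards [hx] with t ht _
      exact ind_of_notMem ht
    rw [this]
    simp
  have h0 : periodicVolume S = 0 := by
    rw [← integral_flen hS hp i]
    have : ∫ x in unitCell n, flen S i x = ∫ x in unitCell n, (0:ℝ) :=
      integral_congr_ae (ae_restrict_of_ae h1)
    rw [this]
    simp
  have h2 : (volume : Measure (En n)) (S ∩ unitCell n) = 0 := by
    unfold periodicVolume at h0
    rw [ENNReal.toReal_eq_zero_iff] at h0
    rcases h0 with h0 | h0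
    · exact h0
    · exact absurd h0 (ne_top_of_le_ne_top (volume_unitCell_lt_top n).ne
        (measure_mono Set.inter_subset_right))
  exact measure_eq_zero_iff_ae_notMem.1 (null_of_periodicVolume hp h2)

theorem dd_zero : dd 0 = 0 := by simp [dd]



/-- the model region centred at `c` in direction `i` -/
def region (i : Fin n) (J : Finset (Fin n)) (r c : ℝ) : Set (En n) :=
  {y | dd (y i - c) ^ 2 + rho2 J y < r ^ 2}

theorem measurableSet_region (i : Fin n) (J : Finset (Fin n)) (r c : ℝ) :
    MeasurableSet (region i J r c) := by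
  unfold region
  have h1 : Continuous (fun y : En n => dd (y i - c) ^ 2) :=
    continuous_dd_sq.comp ((EuclideanSpace.proj (𝕜 := ℝ) i).continuous.sub continuous_const)
  exact (isOpen_lt (h1.add (continuous_rho2 J)) continuous_const).measurableSet

theorem region_per (i : Fin n) (J : Finset (Fin n)) (r c : ℝ) :
    IsLatticePeriodic (region i J r c) := by
  intro v hv x
  obtain ⟨m, hm⟩ := hv i
  unfold region
  simp only [Set.mem_ofPred_eq]
  have : (x + v) i - c = (x i - c) + m := by
    have : (x + v) i = x i + m := by rw [← hm]; rfl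
    rw [this]; ring
  rw [this, dd_add_int, rho2_per J v hv x]

theorem Model.rigid {E : Set (En n)} {i : Fin n} {J : Finset (Fin n)} {r : ℝ} (h : Model E i J r)
    (hC : ConstOfWeak n) :
    ∃ c0 : ℝ, ∀ᵐ y : En n, y ∈ E ↔ y ∈ region i J r c0 := by
  -- the clipped phase functions are a.e. constant
  have hconst : ∀ θ : ℝ, ∃ c0, ∀ᵐ x : En n, rho2 J x < r ^ 2 → wt E i J r θ x = c0 := by
    intro θ
    set w : En n → ℝ := fun x => max (-1) (min 1 (wt E i J r θ x)) with hw
    have hae : ∀ᵐ x : En n, w x = wt E i J r θ x := by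
      filter_upwards [h.ae_abs_wt_le θ] with x hx
      have := abs_le.1 hx
      simp only [hw]
      rw [min_eq_right this.2, max_eq_right this.1]
    have hm : Measurable w := measurable_const.max (measurable_const.min (measurable_wt h.meas θ))
    have hb : ∀ x, |w x| ≤ 1 := by
      intro x
      rw [abs_le]
      exact ⟨le_max_left _ _, max_le (by norm_num) (min_le_left _ _)⟩
    have hp : IsPer w := by
      intro v hv x
      simp only [hw, wt_per h.per θ v hv x]
    have hinv : ∀ (x : En n) (t : ℝ), w (x + t • ei i) = w x := by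
      intro x t
      simp only [hw, wt_inv h.per h.hi]
    obtain ⟨c0, hc0⟩ := hC w hm 1 hb hp i hinv J h.hi r h.hr h.hr2 (by
      intro η hη hηp hηi hηinv hηs
      have hT : TestField i J r η := ⟨hη.of_le (by norm_cast), hηp, hηi, hηinv, hηs⟩
      rw [← h.weak_zero θ hT]
      apply integral_congr_ae
      filter_upwards [ae_restrict_of_ae hae] with x hx
      rw [hx])
    refine ⟨c0, ?_⟩
    filter_upwards [hc0, hae] with x hx1 hx2 hxD
    rw [← hx2]
    exact hx1 hxD
  obtain ⟨A, hA⟩ := hconst 0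
  obtain ⟨B, hB⟩ := hconst (1 / 4)
  -- the disc has positive measure, so that A² + B² = 1
  have hpos : (volume : Measure (En n)) {x | rho2 J x < r ^ 2} ≠ 0 := by
    have hne : ({x : En n | rho2 J x < r ^ 2}).Nonempty := by
      refine ⟨0, ?_⟩
      change rho2 J 0 < r ^ 2
      have : rho2 J (0 : En n) = 0 := by
        unfold rho2
        apply Finset.sum_eq_zero
        intro j _
        have : (0 : En n) j = 0 := rfl
        rw [this, dd_zero]
        simp
      rw [this]
      have := h.hr
      positivity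
    exact ((isOpen_D J).measure_pos volume hne).ne'
  have hAB : A ^ 2 + B ^ 2 = 1 := by
    have h1 : ∀ᵐ x : En n, rho2 J x < r ^ 2 → A ^ 2 + B ^ 2 = 1 := by
      filter_upwards [h.ae_wt, hA, hB] with x hx hxA hxB hxD
      obtain ⟨c, -, hc⟩ := hx hxD
      rw [← hxA hxD, ← hxB hxD, hc, hc]
      have e : 2 * Real.pi * ((x i - 1 / 4) + c) = 2 * Real.pi * ((x i - 0) + c) - Real.pi / 2 := by ring
      rw [e, Real.cos_sub_pi_div_two]
      exact Real.cos_sq_add_sin_sq _
    by_contra hcon
    apply hpos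
    rw [ae_iff] at h1
    refine measure_mono_null ?_ h1
    intro x hx
    simp only [Classical.not_imp, Set.mem_ofPred_eq]
    exact ⟨hx, hcon⟩
  -- the common phase
  obtain ⟨φ, hφ1, hφ2⟩ : ∃ φ : ℝ, Real.cos φ = A ∧ Real.sin φ = B := by
    have hn : ‖(⟨A, B⟩ : ℂ)‖ = 1 := by
      rw [Complex.norm_def, Complex.normSq_mk]
      have : A * A + B * B = 1 := by nlinarith
      rw [this, Real.sqrt_one]
    have h0 : (⟨A, B⟩ : ℂ) ≠ 0 := by
      intro h0
      rw [h0] at hn
      simp at hn
    refine ⟨Complex.arg ⟨A, B⟩, ?_, ?_⟩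
    · rw [Complex.cos_arg h0, hn]; simp
    · rw [Complex.sin_arg, hn]; simp
  set c0 := φ / (2 * Real.pi) with hc0
  have hpi := Real.pi_pos
  have hφ : φ = 2 * Real.pi * c0 := by rw [hc0]; field_simp
  refine ⟨c0, ?_⟩
  -- a.e. line
  have hline : ∀ᵐ x : En n, ∀ᵐ t : ℝ, (x + t • ei i ∈ E ↔ x + t • ei i ∈ region i J r c0) := by
    filter_upwards [h.ae_wt, hA, hB, h.len, ae_line h.ae_mem i] with x hx hxA hxB hlen hmem
    by_cases hxD : rho2 J x < r ^ 2
    · obtain ⟨c, harc, hc⟩ := hx hxD
      have e0 : wt E i J r 0 x = A := hxA hxD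
      have e1 : wt E i J r (1/4) x = B := hxB hxD
      rw [hc] at e0 e1
      have e : 2 * Real.pi * ((x i - 1 / 4) + c) = 2 * Real.pi * ((x i - 0) + c) - Real.pi / 2 := by ring
      rw [e, Real.cos_sub_pi_div_two] at e1
      have hone : Real.cos (2 * Real.pi * (x i - 0 + c) - 2 * Real.pi * c0) = 1 := by
        rw [Real.cos_sub, e0, e1, ← hφ, hφ1, hφ2]
        nlinarith
      rw [Real.cos_eq_one_iff] at hone
      obtain ⟨m, hm⟩ := hone
      have hcc : c = c0 - x i + m := by
        have h2 : (2 * Real.pi) * (x i + c - c0 - m) = 0 := by linarith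
        have h3 : x i + c - c0 - m = 0 := by
          rcases mul_eq_zero.1 h2 with h4 | h4
          · linarith
          · exact h4
        linarith
      filter_upwards [harc] with t ht
      have h5 : x + t • ei i ∈ E ↔ t ∈ arc c (uu J r x) := ht
      rw [h5]
      unfold arc region
      simp only [Set.mem_ofPred_eq]
      rw [rho2_add_ei J h.hi]
      have h6 : (x + t • ei i) i = x i + t := by simp [ei]
      rw [h6]
      have h7 : |t - c - round (t - c)| = |dd (x i + t - c0)| := by
        have : t - c = (x i + t - c0) + ((-m : ℤ) : ℝ) := by rw [hcc]; push_cast; ring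
        change |dd (t - c)| = _
        rw [this, dd_add_int]
      rw [h7]
      have h8 : uu J r x / 2 = Real.sqrt (r ^ 2 - rho2 J x) := by unfold uu; ring
      rw [h8, Real.lt_sqrt (abs_nonneg _), sq_abs]
      constructor <;> intro h9 <;> linarith
    · filter_upwards [hmem] with t ht
      constructor
      · intro h1
        have := ht h1
        rw [rho2_add_ei J h.hi] at this
        exact absurd this hxD
      · intro h1
        unfold region at h1
        simp only [Set.mem_ofPred_eq] at h1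
        rw [rho2_add_ei J h.hi] at h1
        have := sq_nonneg (dd ((x + t • ei i) i - c0))
        exact absurd (by linarith) hxD
  -- conclude
  set S1 : Set (En n) := E \ region i J r c0 with hS1
  set S2 : Set (En n) := region i J r c0 \ E with hS2
  have hRm := measurableSet_region i J r c0
  have hRp := region_per i J r c0
  have k1 : ∀ᵐ x : En n, x ∉ S1 := by
    apply ae_of_ae_line (h.meas.diff hRm) _ i
    · filter_upwards [hline] with x hx
      filter_upwards [hx] with t ht h1
      exact h1.2 (ht.1 h1.1)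
    · intro v hv x
      simp only [Set.mem_sdiff, h.per v hv x, hRp v hv x]
  have k2 : ∀ᵐ x : En n, x ∉ S2 := by
    apply ae_of_ae_line (hRm.diff h.meas) _ i
    · filter_upwards [hline] with x hx
      filter_upwards [hx] with t ht h1
      exact h1.2 (ht.2 h1.1)
    · intro v hv x
      simp only [Set.mem_sdiff, h.per v hv x, hRp v hv x]
  filter_upwards [k1, k2] with x h1 h2
  constructor
  · intro h3
    by_contra h4
    exact h1 ⟨h3, h4⟩
  · intro h3
    by_contra h4
    exact h2 ⟨h3, h4⟩

end Crest.Agent.R214.Rig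
end
end

-- ▼ part R214/RigConst
section

/-!
# R214: a bounded periodic function with vanishing weak gradient on a tube is constant there
-/

set_option autoImplicit false

open MeasureTheory Set Filter Topology Crest.GeometryTopology.PeriodicPerimeter
open scoped ContDiff Pointwise

noncomputable section

namespace Crest.Agent.R214.Rig

variable {n : ℕ}

/-! ### averages of smooth functions are smooth -/

theorem hasFDerivAt_avg {F : Type} [NormedAddCommGroup F] [NormedSpace ℝ F] [CompleteSpace F]
    (e : En n) {g : En n → F} (hg : ContDiff ℝ 1 g) (x : En n) :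
    HasFDerivAt (fun x => ∫ t in (0:ℝ)..1, g (x + t • e))
      (∫ t in (0:ℝ)..1, fderiv ℝ g (x + t • e)) x := by
  have hgc := hg.continuous
  have hfc : Continuous (fderiv ℝ g) := hg.continuous_fderiv (by norm_num)
  have hfc2 : Continuous fun p : En n × ℝ => fderiv ℝ g (p.1 + p.2 • e) := hfc.comp (by fun_prop)
  obtain ⟨C, hC⟩ := ((isCompact_closedBall x 1).prod (isCompact_uIcc (a := (0:ℝ)) (b := 1)))
    |>.exists_bound_of_continuousOn hfc2.continuousOn
  refine intervalIntegral.hasFDerivAt_integral_of_dominated_of_fderiv_le (bound := fun _ => C)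
    (F := fun x t => g (x + t • e)) (F' := fun x t => fderiv ℝ g (x + t • e))
    (Metric.closedBall_mem_nhds x zero_lt_one) ?_ ?_ ?_ ?_ ?_ ?_
  · exact Eventually.of_forall fun y => (hgc.comp (by fun_prop)).aestronglyMeasurable
  · apply Continuous.intervalIntegrable
    exact hgc.comp (by fun_prop)
  · exact (hfc.comp (by fun_prop)).aestronglyMeasurable
  · exact Eventually.of_forall fun t ht y hy => hC (y, t) ⟨hy, uIoc_subset_uIcc ht⟩
  · exact _root_.intervalIntegrable_const
  · refine Eventually.of_forall fun t _ y _ => ?_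
    have h1 := (hg.differentiable (by norm_num) (y + t • e)).hasFDerivAt
    have h2 : HasFDerivAt (fun y : En n => y + t • e) (ContinuousLinearMap.id ℝ (En n)) y :=
      (hasFDerivAt_id y).add_const _
    have h3 := h1.comp y h2
    rw [ContinuousLinearMap.comp_id] at h3
    exact h3

theorem contDiff_avg_nat (e : En n) (m : ℕ) : ∀ {F : Type} [NormedAddCommGroup F]
    [NormedSpace ℝ F] [CompleteSpace F] {g : En n → F}, ContDiff ℝ m g →
    ContDiff ℝ m (fun x => ∫ t in (0:ℝ)..1, g (x + t • e)) := by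
  induction m with
  | zero =>
    intro F _ _ _ g hg
    rw [Nat.cast_zero, contDiff_zero] at hg ⊢
    apply intervalIntegral.continuous_parametric_intervalIntegral_of_continuous'
    exact hg.comp (by fun_prop)
  | succ m ih =>
    intro F _ _ _ g hg
    have hg1 : ContDiff ℝ 1 g := hg.of_le (by
      push_cast
      exact le_add_self)
    rw [Nat.cast_succ, contDiff_succ_iff_fderiv] at hg ⊢
    refine ⟨fun x => (hasFDerivAt_avg e hg1 x).differentiableAt, by simp, ?_⟩
    have : fderiv ℝ (fun x => ∫ t in (0:ℝ)..1, g (x + t • e))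
        = fun x => ∫ t in (0:ℝ)..1, fderiv ℝ g (x + t • e) := by
      ext1 x
      exact (hasFDerivAt_avg e hg1 x).fderiv
    rw [this]
    exact ih hg.2.2

theorem contDiff_avg (e : En n) {g : En n → ℝ} (hg : ContDiff ℝ ∞ g) :
    ContDiff ℝ ∞ (fun x => ∫ t in (0:ℝ)..1, g (x + t • e)) := by
  rw [contDiff_infty] at hg ⊢
  intro m
  exact contDiff_avg_nat e m (hg m)

theorem contDiff_fav (i : Fin n) {g : En n → ℝ} (hg : ContDiff ℝ ∞ g) :
    ContDiff ℝ ∞ (fav i g) := contDiff_avg (ev i) hg

theorem fderiv_fav (i : Fin n) {g : En n → ℝ} (hg : ContDiff ℝ 1 g) (x h : En n) :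
    fderiv ℝ (fav i g) x h = fav i (fun y => fderiv ℝ g y h) x := by
  have h1 := (hasFDerivAt_avg (ev i) hg x).fderiv
  have h2 : fderiv ℝ (fav i g) x = ∫ t in (0:ℝ)..1, fderiv ℝ g (x + t • ev i) := h1
  rw [h2]
  unfold fav
  have hfc : Continuous (fderiv ℝ g) := hg.continuous_fderiv (by norm_num)
  have hi : IntervalIntegrable (fun t : ℝ => fderiv ℝ g (x + t • ev i)) volume 0 1 := by
    apply Continuous.intervalIntegrable
    exact hfc.comp (by fun_prop)
  rw [ContinuousLinearMap.intervalIntegral_apply hi]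

/-! ### periodisation of a function with small support -/

/-- representative of `x` in the cell centred at `x₀` -/
def rep (x₀ x : En n) : En n := x₀ + WithLp.toLp 2 (fun j => dd (x j - x₀ j))

@[simp] theorem rep_apply (x₀ x : En n) (j : Fin n) : rep x₀ x j = x₀ j + dd (x j - x₀ j) := rfl

/-- periodisation -/
def perz (x₀ : En n) (g : En n → ℝ) (x : En n) : ℝ := g (rep x₀ x)

theorem rep_add_int (x₀ x v : En n) (hv : HasIntegerCoords v) : rep x₀ (x + v) = rep x₀ x := by
  ext j
  obtain ⟨m, hm⟩ := hv j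
  simp only [rep_apply, PiLp.add_apply, hm]
  rw [show x j + (m : ℝ) - x₀ j = (x j - x₀ j) + m by ring, dd_add_int]

theorem perz_per (x₀ : En n) (g : En n → ℝ) : IsPer (perz x₀ g) := by
  intro v hv x
  unfold perz
  rw [rep_add_int x₀ x v hv]

theorem rep_sub (x₀ x : En n) : ∃ v : En n, HasIntegerCoords v ∧ rep x₀ x = x + v := by
  refine ⟨WithLp.toLp 2 (fun j => -((round (x j - x₀ j) : ℤ) : ℝ)), ?_, ?_⟩
  · intro j
    exact ⟨-round (x j - x₀ j), by simp⟩
  · ext j
    simp only [rep_apply, PiLp.add_apply]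
    unfold dd
    ring

theorem contDiff_perz {x₀ : En n} {g : En n → ℝ} (hg : ContDiff ℝ ∞ g) {δ : ℝ} (hδ : δ < 1 / 2)
    (hs : ∀ x, g x ≠ 0 → ∀ j, |x j - x₀ j| ≤ δ) : ContDiff ℝ ∞ (perz x₀ g) := by
  rw [contDiff_iff_contDiffAt]
  intro x
  by_cases h : ∀ j, |dd (x j - x₀ j)| < 1 / 2
  · have he : perz x₀ g =ᶠ[𝓝 x] fun y => g (y + WithLp.toLp 2
        (fun j => -((round (x j - x₀ j) : ℤ) : ℝ))) := by
      have h1 : ∀ j, ∀ᶠ y : En n in 𝓝 x, dd (y j - x₀ j) = y j - x₀ j - round (x j - x₀ j) := by
        intro j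
        have hc : Tendsto (fun y : En n => y j - x₀ j) (𝓝 x) (𝓝 (x j - x₀ j)) := by
          have : Continuous fun y : En n => y j - x₀ j := by fun_prop
          exact this.tendsto x
        exact hc.eventually (dd_eventually (h j))
      filter_upwards [eventually_all.2 h1] with y hy
      unfold perz
      congr 1
      ext j
      simp only [rep_apply, PiLp.add_apply, hy j]
      ring
    exact ContDiffAt.congr_of_eventuallyEq (by
      apply ContDiff.contDiffAt
      exact hg.comp (contDiff_id.add contDiff_const)) he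
  · push Not at h
    obtain ⟨j, hj⟩ := h
    have he : perz x₀ g =ᶠ[𝓝 x] fun _ => 0 := by
      have hc : Continuous fun y : En n => |dd (y j - x₀ j)| :=
        continuous_abs_dd.comp (by fun_prop)
      have : ∀ᶠ y : En n in 𝓝 x, δ < |dd (y j - x₀ j)| :=
        hc.continuousAt.eventually_const_lt (hδ.trans_le hj)
      filter_upwards [this] with y hy
      unfold perz
      by_contra hne
      have := hs _ hne j
      simp only [rep_apply] at this
      rw [show x₀ j + dd (y j - x₀ j) - x₀ j = dd (y j - x₀ j) by ring] at this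
      linarith
    exact ContDiffAt.congr_of_eventuallyEq contDiffAt_const he

/-- unfolding -/
theorem integral_mul_perz {x₀ : En n} {g f : En n → ℝ} (hf : IsPer f) {δ : ℝ} (hδ : δ < 1 / 2)
    (hs : ∀ x, g x ≠ 0 → ∀ j, |x j - x₀ j| ≤ δ) :
    ∫ x in unitCell n, f x * perz x₀ g x = ∫ x, f x * g x := by
  set c : En n := x₀ - WithLp.toLp 2 (fun _ => (1/2 : ℝ)) with hc
  have h1 : ∫ x in unitCell n, f x * perz x₀ g x
      = ∫ x in Inv.cellAt c, f x * perz x₀ g x := by
    refine (Inv.isCell_unitCell n).setIntegral_eq (Inv.isCell_cellAt c) ?_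
    intro v hv x
    show f (x + v) * perz x₀ g (x + v) = f x * perz x₀ g x
    rw [hf v hv, perz_per x₀ g v hv]
  rw [h1]
  have h2 : ∫ x in Inv.cellAt c, f x * perz x₀ g x = ∫ x in Inv.cellAt c, f x * g x := by
    refine setIntegral_congr_fun (Inv.measurableSet_cellAt c) ?_
    intro x hx
    have : rep x₀ x = x := by
      ext j
      have hxj := hx j
      have e : c j = x₀ j - 1/2 := by simp [hc]
      rw [e] at hxj
      have hr : round (x j - x₀ j) = 0 := round_of_mem ⟨by linarith [hxj.1], by linarith [hxj.2]⟩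
      simp only [rep_apply]
      unfold dd
      rw [hr]; push_cast; ring
    simp only [perz, this]
  rw [h2]
  refine setIntegral_eq_integral_of_forall_compl_eq_zero fun x hx => ?_
  by_cases hgx : g x = 0
  · rw [hgx, mul_zero]
  · exfalso
    apply hx
    intro j
    have := abs_le.1 (hs x hgx j)
    have e : c j = x₀ j - 1/2 := by simp [hc]
    rw [e]
    constructor <;> linarith [this.1, this.2]


/-! ### the main argument -/

theorem integral_mul_fav' (i : Fin n) {a g : En n → ℝ} (ha : BMP a) (hai : FInv i a)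
    (hg : BMP g) : ∫ x in unitCell n, a x * g x = ∫ x in unitCell n, a x * fav i g x := by
  rw [cell_avg (ha.mul hg) i]
  congr 1
  ext x
  unfold fav
  rw [← intervalIntegral.integral_const_mul]
  congr 1
  ext t
  rw [hai x t]

theorem fderiv_eq_sum' (f : En n → ℝ) (x v : En n) :
    fderiv ℝ f x v = ∑ j, v j * fderiv ℝ f x (ev j) := by
  have hv : v = ∑ j, v j • ev j := by
    ext k
    simp [ev_apply, Finset.sum_apply]
  conv_lhs => rw [hv]
  rw [map_sum]
  simp

theorem divergence_smul_const {g : En n → ℝ} (hg : ContDiff ℝ 1 g) (c x : En n) :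
    divergence (fun y => g y • c) x = fderiv ℝ g x c := by
  unfold divergence
  rw [fderiv_eq_sum' g x c]
  refine Finset.sum_congr rfl fun j _ => ?_
  have h1 := (hg.differentiable (by norm_num) x).hasFDerivAt.smul_const c
  rw [h1.fderiv]
  simp only [ContinuousLinearMap.smulRight_apply, PiLp.smul_apply, smul_eq_mul]
  rw [mul_comm]
  rfl

section main

variable {w : En n → ℝ} (hm : Measurable w) {C : ℝ} (hb : ∀ x, |w x| ≤ C) (hper : IsPer w)
  {i : Fin n} (hinv : ∀ x (t : ℝ), w (x + t • ei i) = w x)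
  {J : Finset (Fin n)} (hi : i ∉ J) {r : ℝ} (hr : 0 < r)
  (hw : ∀ η : En n → En n, ContDiff ℝ ∞ η → IsPer η → (∀ x, η x i = 0) →
    (∀ x (t : ℝ), η (x + t • ei i) = η x) →
    (∃ r', 0 ≤ r' ∧ r' < r ∧ ∀ x, η x ≠ 0 → rho2 J x ≤ r' ^ 2) →
    ∫ x in unitCell n, w x * divergence η x = 0)

include hm hb hper hinv hi hw in
theorem weak_grad_zero {G : En n → ℝ} (hG : ContDiff ℝ ∞ G) (hGp : IsPer G) {r' : ℝ}
    (h0 : 0 ≤ r') (hr' : r' < r) (hs : ∀ x, G x ≠ 0 → rho2 J x ≤ r' ^ 2) (h : En n) :
    ∫ x in unitCell n, w x * fderiv ℝ G x h = 0 := by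
  have hG1 : ContDiff ℝ 1 G := hG.of_le (by norm_cast)
  have hfc : Continuous (fderiv ℝ G) := hG1.continuous_fderiv (by norm_num)
  have hwB : BMP w := ⟨hm, ⟨C, hb⟩, hper⟩
  have hwI : FInv i w := hinv
  have hgB : BMP (fun x => fderiv ℝ G x h) := BMP.of_continuous
    (hfc.clm_apply continuous_const) (fun v hv x => by rw [fderiv_periodic hGp v hv x])
  rw [integral_mul_fav' i hwB hwI hgB]
  set c : En n := pr i h with hc
  set η : En n → En n := fun x => fav i G x • c with hη
  have hη1 : ContDiff ℝ ∞ η := (contDiff_fav i hG).smul contDiff_const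
  have hηp : IsPer η := fun v hv x => by
    simp only [hη]; rw [fav_per i hGp v hv x]
  have hηi : ∀ x, η x i = 0 := fun x => by simp [hη, hc]
  have hηinv : ∀ x (t : ℝ), η (x + t • ei i) = η x := fun x t => by
    simp only [hη]
    rw [show fav i G (x + t • ei i) = fav i G x from fav_inv i hGp x t]
  have hηs : ∃ r', 0 ≤ r' ∧ r' < r ∧ ∀ x, η x ≠ 0 → rho2 J x ≤ r' ^ 2 := by
    refine ⟨r', h0, hr', fun x hx => ?_⟩
    by_contra hcon
    apply hx
    have hz : ∀ t : ℝ, G (x + t • ev i) = 0 := by
      intro t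
      by_contra hne
      apply hcon
      have := hs _ hne
      rwa [show x + t • ev i = x + t • ei i from rfl, rho2_add_ei J hi x t] at this
    simp only [hη]
    have : fav i G x = 0 := by
      unfold fav
      simp_rw [hz]
      simp
    rw [this, zero_smul]
  have key := hw η hη1 hηp hηi hηinv hηs
  rw [← key]
  congr 1
  ext x
  congr 1
  have hfav1 : ContDiff ℝ 1 (fav i G) := (contDiff_fav i hG).of_le (by norm_cast)
  have e1 : divergence η x = fderiv ℝ (fav i G) x c := divergence_smul_const hfav1 c x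
  rw [e1, hc]
  have e2 : fderiv ℝ (fav i G) x (ev i) = 0 := by
    rw [fderiv_fav i hG1 x (ev i)]
    unfold fav
    have hder : ∀ t : ℝ, HasDerivAt (fun t : ℝ => G (x + t • ev i))
        (fderiv ℝ G (x + t • ev i) (ev i)) t := by
      intro t
      apply hasDerivAt_line hG1
      simpa using ((hasDerivAt_id t).smul_const (ev i)).const_add x
    rw [intervalIntegral.integral_eq_sub_of_hasDerivAt (fun t _ => hder t)]
    · have := hGp _ (hasIntegerCoords_ev i) x
      simp [this]
    · apply Continuous.intervalIntegrable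
      exact (hfc.comp (by fun_prop)).clm_apply continuous_const
  unfold pr
  rw [map_sub, map_smul, e2, smul_zero, sub_zero, fderiv_fav i hG1 x h]

include hm hb hper hinv hi hw in
theorem translate_zero {G : En n → ℝ} (hG : ContDiff ℝ ∞ G) (hGp : IsPer G) {r' : ℝ}
    (h0 : 0 ≤ r') (hr' : r' < r) (h : En n)
    (hs : ∀ t ∈ Icc (0:ℝ) 1, ∀ x, G (x - t • h) ≠ 0 → rho2 J x ≤ r' ^ 2) :
    ∫ x in unitCell n, (w (x + h) - w x) * G x = 0 := by
  have hG1 : ContDiff ℝ 1 G := hG.of_le (by norm_cast)
  have hGc : Continuous G := hG.continuous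
  have hfc : Continuous (fderiv ℝ G) := hG1.continuous_fderiv (by norm_num)
  have hwB : BMP w := ⟨hm, ⟨C, hb⟩, hper⟩
  have hGB : BMP G := BMP.of_continuous hGc hGp
  have hfB : BMP (fun x => fderiv ℝ G x h) := BMP.of_continuous
    (hfc.clm_apply continuous_const) (fun v hv x => by rw [fderiv_periodic hGp v hv x])
  have e1 : ∫ x in unitCell n, (w (x + h) - w x) * G x
      = ∫ x in unitCell n, w x * (G (x - h) - G x) := by
    have a1 : ∫ x in unitCell n, w (x + h) * G x = ∫ x in unitCell n, w x * G (x - h) := by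
      have hb1 : BMP (fun x => w x * G (x - h)) := by
        refine hwB.mul ?_
        have := hGB.translate (-h)
        simpa [sub_eq_add_neg] using this
      have := hb1.integral_translate h
      rw [← this]
      congr 1
      ext x
      rw [add_sub_cancel_right]
    simp_rw [sub_mul, mul_sub]
    rw [integral_sub ((hwB.translate h).mul hGB).integrableOn (hwB.mul hGB).integrableOn,
      integral_sub _ (hwB.mul hGB).integrableOn, a1]
    have hb1 : BMP (fun x => w x * G (x - h)) := by
      refine hwB.mul ?_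
      have := hGB.translate (-h)
      simpa [sub_eq_add_neg] using this
    exact hb1.integrableOn
  have e2 : ∀ x, G (x - h) - G x = ∫ t in (0:ℝ)..1, -(fderiv ℝ G (x - t • h) h) := by
    intro x
    have hder : ∀ t : ℝ, HasDerivAt (fun t : ℝ => G (x - t • h))
        (-(fderiv ℝ G (x - t • h) h)) t := by
      intro t
      have h1 : HasDerivAt (fun t : ℝ => x - t • h) (-h) t := by
        simpa using ((hasDerivAt_id t).smul_const h).const_sub x
      have := hasDerivAt_line hG1 h1
      rwa [map_neg] at this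
    rw [intervalIntegral.integral_eq_sub_of_hasDerivAt (fun t _ => hder t)]
    · simp
    · apply Continuous.intervalIntegrable
      exact ((hfc.comp (by fun_prop)).clm_apply continuous_const).neg
  rw [e1]
  simp_rw [e2]
  have e3 : ∀ x, w x * ∫ t in (0:ℝ)..1, -(fderiv ℝ G (x - t • h) h)
      = ∫ t in Ioc (0:ℝ) 1, w x * -(fderiv ℝ G (x - t • h) h) := by
    intro x
    rw [← intervalIntegral.integral_const_mul, intervalIntegral.integral_of_le zero_le_one]
  simp_rw [e3]
  obtain ⟨C', hC'⟩ := hfB.bdd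
  rw [integral_integral_swap]
  · have e4 : ∀ t ∈ Ioc (0:ℝ) 1, ∫ x in unitCell n, w x * -(fderiv ℝ G (x - t • h) h) = 0 := by
      intro t ht
      have e5 := weak_grad_zero hm hb hper hinv hi hw (G := fun x => G (x - t • h)) (r' := r')
        (hG.comp (contDiff_id.sub contDiff_const)) (fun v hv x => by
          show G (x + v - t • h) = G (x - t • h)
          rw [show x + v - t • h = (x - t • h) + v by abel, hGp v hv]) h0 hr'
        (fun x hx => hs t ⟨ht.1.le, ht.2⟩ x hx) h
      have e6 : ∀ x, fderiv ℝ (fun x => G (x - t • h)) x h = fderiv ℝ G (x - t • h) h := by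
        intro x
        rw [fderiv_comp_sub (f := G)]
      simp_rw [e6] at e5
      simp_rw [mul_neg]
      rw [integral_neg, e5, neg_zero]
    rw [setIntegral_congr_fun measurableSet_Ioc e4]
    simp
  · apply Integrable.of_bound (C := C * C')
    · apply Measurable.aestronglyMeasurable
      have m1 : Measurable fun p : En n × ℝ => w p.1 := hm.comp measurable_fst
      have m2 : Continuous fun p : En n × ℝ => fderiv ℝ G (p.1 - p.2 • h) h :=
        (hfc.comp (by fun_prop)).clm_apply continuous_const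
      exact m1.mul m2.measurable.neg
    · refine Eventually.of_forall fun p => ?_
      simp only [Function.uncurry]
      rw [norm_mul, norm_neg, Real.norm_eq_abs, Real.norm_eq_abs]
      exact mul_le_mul (hb _) (hC' _) (abs_nonneg _) ((abs_nonneg _).trans (hb 0))

end main

/-! ### from vanishing translations to constancy -/

/-- projection to the coordinates in `J` -/
def pJ (J : Finset (Fin n)) (x : En n) : En n := WithLp.toLp 2 (fun j => if j ∈ J then x j else 0)

theorem pJ_add (J : Finset (Fin n)) (x y : En n) : pJ J (x + y) = pJ J x + pJ J y := by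
  ext j
  simp only [pJ, PiLp.add_apply]
  split_ifs <;> simp

theorem pJ_smul (J : Finset (Fin n)) (t : ℝ) (x : En n) : pJ J (t • x) = t • pJ J x := by
  ext j
  simp only [pJ, PiLp.smul_apply, smul_eq_mul]
  split_ifs <;> simp

theorem norm_pJ_sq (J : Finset (Fin n)) (x : En n) : ‖pJ J x‖ ^ 2 = ∑ j ∈ J, x j ^ 2 := by
  rw [EuclideanSpace.norm_sq_eq]
  have : ∀ j, ‖pJ J x j‖ ^ 2 = if j ∈ J then x j ^ 2 else 0 := by
    intro j
    simp only [pJ]
    split_ifs <;> simp
  simp_rw [this]
  simp

theorem norm_pJ_le (J : Finset (Fin n)) {x : En n} {δ : ℝ} (hδ : 0 ≤ δ) (h : ∀ j, |x j| ≤ δ) :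
    ‖pJ J x‖ ≤ Real.sqrt n * δ := by
  have h1 : ‖pJ J x‖ ^ 2 ≤ n * δ ^ 2 := by
    rw [norm_pJ_sq]
    calc ∑ j ∈ J, x j ^ 2 ≤ ∑ j ∈ J, δ ^ 2 := Finset.sum_le_sum fun j _ => by
          rw [← sq_abs]; exact pow_le_pow_left₀ (abs_nonneg _) (h j) 2
      _ = J.card * δ ^ 2 := by simp
      _ ≤ n * δ ^ 2 := by
        gcongr
        simpa using J.card_le_univ
  have h2 : Real.sqrt n * δ = Real.sqrt (n * δ ^ 2) := by
    rw [Real.sqrt_mul (Nat.cast_nonneg n), Real.sqrt_sq hδ]
  rw [h2]
  exact Real.le_sqrt_of_sq_le h1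

theorem continuous_pJ (J : Finset (Fin n)) : Continuous (pJ (n := n) J) := by
  unfold pJ
  refine (PiLp.continuous_toLp 2 _).comp ?_
  refine continuous_pi fun j => ?_
  by_cases hj : j ∈ J
  · simp only [if_pos hj]; fun_prop
  · simp only [if_neg hj]; exact continuous_const

/-- the convex set in the universal cover -/
def CJ (J : Finset (Fin n)) (r : ℝ) : Set (En n) := {x | ‖pJ J x‖ < r}

theorem isOpen_CJ (J : Finset (Fin n)) (r : ℝ) : IsOpen (CJ (n := n) J r) :=
  isOpen_lt (continuous_pJ J).norm continuous_const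

theorem rho2_le_norm_pJ (J : Finset (Fin n)) (x : En n) : rho2 J x ≤ ‖pJ J x‖ ^ 2 := by
  rw [norm_pJ_sq]
  unfold rho2
  refine Finset.sum_le_sum fun j _ => ?_
  rw [← sq_abs, ← sq_abs (x j)]
  have := abs_dd_le (x j) 0
  simp only [Int.cast_zero, sub_zero] at this
  exact pow_le_pow_left₀ (abs_nonneg _) this 2

section main2

variable {w : En n → ℝ} (hm : Measurable w) {C : ℝ} (hb : ∀ x, |w x| ≤ C) (hper : IsPer w)
  {i : Fin n} (hinv : ∀ x (t : ℝ), w (x + t • ei i) = w x)
  {J : Finset (Fin n)} (hi : i ∉ J) {r : ℝ} (hr : 0 < r)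
  (hw : ∀ η : En n → En n, ContDiff ℝ ∞ η → IsPer η → (∀ x, η x i = 0) →
    (∀ x (t : ℝ), η (x + t • ei i) = η x) →
    (∃ r', 0 ≤ r' ∧ r' < r ∧ ∀ x, η x ≠ 0 → rho2 J x ≤ r' ^ 2) →
    ∫ x in unitCell n, w x * divergence η x = 0)

include hm hb hper hinv hi hw in
theorem local_translate {h x₁ : En n} (hx1 : x₁ ∈ CJ J r) (hx2 : x₁ + h ∈ CJ J r) :
    ∃ U : Set (En n), IsOpen U ∧ x₁ ∈ U ∧ ∀ᵐ x, x ∈ U → w (x + h) - w x = 0 := by
  set M := max ‖pJ J x₁‖ ‖pJ J (x₁ + h)‖ with hM
  have hMr : M < r := max_lt hx1 hx2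
  have hM0 : 0 ≤ M := (norm_nonneg _).trans (le_max_left _ _)
  set δ := min (1/4) ((r - M) / (2 * (Real.sqrt n + 1))) with hδ
  have hsn : 0 ≤ Real.sqrt n := Real.sqrt_nonneg _
  have hδ0 : 0 < δ := lt_min (by norm_num) (div_pos (by linarith) (by positivity))
  have hδ1 : δ < 1/2 := (min_le_left _ _).trans_lt (by norm_num)
  have hδ2 : Real.sqrt n * δ ≤ (r - M) / 2 := by
    have h1 : δ ≤ (r - M) / (2 * (Real.sqrt n + 1)) := min_le_right _ _
    have h2 : (Real.sqrt n + 1) * δ ≤ (r - M) / 2 := by
      rw [le_div_iff₀ (by positivity)] at h1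
      linarith
    nlinarith
  set r' := (M + r) / 2 with hr'
  refine ⟨{y | ∀ j, |y j - x₁ j| < δ}, ?_, ?_, ?_⟩
  · have : {y : En n | ∀ j, |y j - x₁ j| < δ} = ⋂ j, {y : En n | |y j - x₁ j| < δ} := by
      ext y; simp
    rw [this]
    refine isOpen_iInter_of_finite fun j => isOpen_lt (by fun_prop) continuous_const
  · intro j; simpa using hδ0
  · have hU : IsOpen {y : En n | ∀ j, |y j - x₁ j| < δ} := by
      have : {y : En n | ∀ j, |y j - x₁ j| < δ} = ⋂ j, {y : En n | |y j - x₁ j| < δ} := by
        ext y; simp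
      rw [this]
      refine isOpen_iInter_of_finite fun j => isOpen_lt (by fun_prop) continuous_const
    have hwB : BMP w := ⟨hm, ⟨C, hb⟩, hper⟩
    have hfB : BMP (fun x => w (x + h) - w x) := (hwB.translate h).sub hwB
    have hloc : LocallyIntegrable (fun x => w (x + h) - w x) (volume : Measure (En n)) := by
      obtain ⟨C', hC'⟩ := hfB.bdd
      have h1 : LocallyIntegrable (fun _ : En n => C') volume := locallyIntegrable_const _
      exact h1.mono hfB.meas.aestronglyMeasurable (Eventually.of_forall fun x => by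
        rw [Real.norm_eq_abs, Real.norm_eq_abs]
        exact (hC' x).trans (le_abs_self _))
    refine hU.ae_eq_zero_of_integral_contDiff_smul_eq_zero (hloc.locallyIntegrableOn _) ?_
    intro g hg hgc hgs
    have hsupp : ∀ x, g x ≠ 0 → ∀ j, |x j - x₁ j| ≤ δ := fun x hx j => by
      have : x ∈ tsupport g := subset_tsupport g hx
      exact (hgs this j).le
    have e1 : ∫ x, g x • (w (x + h) - w x) = ∫ x, (w (x + h) - w x) * g x := by
      congr 1; ext x; rw [smul_eq_mul, mul_comm]
    rw [e1]
    refine (integral_mul_perz (f := fun x => w (x + h) - w x) (x₀ := x₁) (g := g) hfB.per hδ1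
      hsupp).symm.trans ?_
    refine translate_zero hm hb hper hinv hi hw (contDiff_perz hg hδ1 hsupp) (perz_per x₁ g)
      (r' := r') (by linarith) (by linarith) h ?_
    intro t ht x hx
    obtain ⟨v, hv, hrep⟩ := rep_sub x₁ (x - t • h)
    have h3 := hsupp (rep x₁ (x - t • h)) hx
    set z := rep x₁ (x - t • h) with hz
    have h4 : x + v = z + t • h := by rw [hrep]; abel
    have h5 : rho2 J x = rho2 J (z + t • h) := by
      rw [← h4]; exact (rho2_per J v hv x).symm
    rw [h5]
    refine (rho2_le_norm_pJ J _).trans ?_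
    have h6 : z + t • h = ((1 - t) • x₁ + t • (x₁ + h)) + (z - x₁) := by
      rw [sub_smul, one_smul, smul_add]; abel
    have h7 : ‖pJ J (z + t • h)‖ ≤ r' := by
      rw [h6, pJ_add, pJ_add, pJ_smul, pJ_smul]
      have a1 : ‖(1 - t) • pJ J x₁ + t • pJ J (x₁ + h)‖ ≤ M := by
        refine (norm_add_le _ _).trans ?_
        rw [norm_smul, norm_smul, Real.norm_of_nonneg (by linarith [ht.2]),
          Real.norm_of_nonneg ht.1]
        have b1 : ‖pJ J x₁‖ ≤ M := le_max_left _ _
        have b2 : ‖pJ J (x₁ + h)‖ ≤ M := le_max_right _ _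
        nlinarith [ht.1, ht.2]
      have a2 : ‖pJ J (z - x₁)‖ ≤ Real.sqrt n * δ := by
        apply norm_pJ_le J hδ0.le
        intro j
        exact h3 j
      refine (norm_add_le _ _).trans ?_
      rw [hr']
      linarith
    exact pow_le_pow_left₀ (norm_nonneg _) h7 2

include hm hb hper hinv hi hw in
theorem ae_translate (h : En n) :
    ∀ᵐ x, ¬ (x ∈ CJ J r ∧ x + h ∈ CJ J r ∧ w x ≠ w (x + h)) := by
  rw [ae_iff]
  simp only [not_not]
  apply measure_null_of_locally_null
  rintro x₁ ⟨h1, h2, -⟩
  obtain ⟨U, hU, hxU, hae⟩ := local_translate hm hb hper hinv hi hw h1 h2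
  rw [ae_iff] at hae
  refine ⟨{x | ¬ (x ∈ U → w (x + h) - w x = 0)}, ?_, hae⟩
  have : U ∈ 𝓝[{x | x ∈ CJ J r ∧ x + h ∈ CJ J r ∧ w x ≠ w (x + h)}] x₁ :=
    mem_nhdsWithin_of_mem_nhds (hU.mem_nhds hxU)
  filter_upwards [this, self_mem_nhdsWithin] with x hx hx2
  rw [Classical.not_imp]
  exact ⟨hx, fun h0 => hx2.2.2 (by linarith)⟩

include hm hb hper hinv hi hw hr in
theorem const_on_CJ : ∃ c0, ∀ᵐ x : En n, x ∈ CJ J r → w x = c0 := by
  have hCm : MeasurableSet (CJ (n := n) J r) := (isOpen_CJ J r).measurableSet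
  set N : Set (En n × En n) := {p | p.1 ∈ CJ J r ∧ p.2 ∈ CJ J r ∧ w p.1 ≠ w p.2} with hN
  have hNm : MeasurableSet N := by
    have a1 : MeasurableSet {p : En n × En n | p.1 ∈ CJ J r} := measurable_fst hCm
    have a2 : MeasurableSet {p : En n × En n | p.2 ∈ CJ J r} := measurable_snd hCm
    have a3 : MeasurableSet {p : En n × En n | w p.1 ≠ w p.2} :=
      (measurableSet_eq_fun (hm.comp measurable_fst) (hm.comp measurable_snd)).compl
    exact a1.inter (a2.inter a3)
  have hmp := measurePreserving_prod_add (volume : Measure (En n)) (volume : Measure (En n))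
  have hN0 : ((volume : Measure (En n)).prod volume) N = 0 := by
    rw [← hmp.measure_preimage hNm.nullMeasurableSet]
    rw [Measure.prod_apply_symm (hmp.measurable hNm)]
    rw [lintegral_eq_zero_iff]
    · refine Eventually.of_forall fun h => ?_
      have := ae_translate hm hb hper hinv hi hw h
      rw [ae_iff] at this
      simp only [not_not] at this
      exact this
    · exact measurable_measure_prodMk_right (hmp.measurable hNm)
  have hae := (Measure.measure_prod_null hNm).1 hN0
  -- pick a good point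
  have hpos : (volume : Measure (En n)) (CJ J r) ≠ 0 := by
    refine ((isOpen_CJ J r).measure_pos volume ⟨0, ?_⟩).ne'
    show ‖pJ J (0 : En n)‖ < r
    have : pJ J (0 : En n) = 0 := by
      have := pJ_smul J 0 (0 : En n)
      simpa using this
    rw [this, norm_zero]; exact hr
  have hex : ∃ x₀ ∈ CJ (n := n) J r, volume (Prod.mk x₀ ⁻¹' N) = 0 := by
    by_contra hcon
    push Not at hcon
    apply hpos
    refine measure_mono_null ?_ (ae_iff.1 hae)
    intro x hx
    exact hcon x hx
  obtain ⟨x₀, hx₀, h0⟩ := hex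
  refine ⟨w x₀, ?_⟩
  rw [ae_iff]
  refine measure_mono_null ?_ h0
  intro y hy
  rw [mem_ofPred_eq, Classical.not_imp] at hy
  exact ⟨hx₀, hy.1, fun h => hy.2 h.symm⟩

include hm hb hper hinv hi hw hr in
/-- a bounded periodic function, invariant in direction `i`, with vanishing weak gradient on the
tube `{rho2 J < r²}`, is constant there. -/
theorem const_of_weak (_hr2 : r < 1/2) : ∃ c0, ∀ᵐ x : En n, rho2 J x < r ^ 2 → w x = c0 := by
  obtain ⟨c0, hc⟩ := const_on_CJ hm hb hper hinv hi hr hw
  refine ⟨c0, ?_⟩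
  have h1 : ∀ v : latt n, ∀ᵐ x : En n, x + (v : En n) ∈ CJ J r → w (x + (v : En n)) = c0 := by
    intro v
    have := (measurePreserving_add_right (volume : Measure (En n)) (v : En n)).quasiMeasurePreserving
    exact this.ae hc
  filter_upwards [ae_all_iff.2 h1] with x hx hlt
  obtain ⟨v, hv, hrep⟩ := rep_sub 0 x
  have hv' : v ∈ latt n := (mem_latt v).2 hv
  have h2 := hx ⟨v, hv'⟩
  have h3 : x + v ∈ CJ J r := by
    show ‖pJ J (x + v)‖ < r
    rw [← hrep]
    have h4 : ‖pJ J (rep 0 x)‖ ^ 2 = rho2 J x := by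
      rw [norm_pJ_sq]
      unfold rho2
      refine Finset.sum_congr rfl fun j _ => ?_
      simp
    have h5 : ‖pJ J (rep 0 x)‖ ^ 2 < r ^ 2 := by rw [h4]; exact hlt
    exact lt_of_pow_lt_pow_left₀ 2 hr.le h5
  have h4 := h2 h3
  rw [← h4]
  exact (hper v hv x).symm

end main2

end Crest.Agent.R214.Rig
end
end

-- ▼ part R214/RigChain
section

set_option autoImplicit false

/-! Row 214, rigidity: undoing the three Steiner symmetrisations. -/

open MeasureTheory Set Filter Topology Crest.GeometryTopology.PeriodicPerimeter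
open scoped ContDiff

noncomputable section

namespace Crest.Agent.R214.Rig

variable {n : ℕ}

theorem constOfWeak (n : ℕ) : ConstOfWeak n := by
  intro w hm C hb hper i hinv J hi r hr hr2 hw
  exact const_of_weak hm hb hper hinv hi hr hw hr2

/-! ### translations -/

/-- translated set -/
def shiftSet (A : Set (En n)) (a : En n) : Set (En n) := {x | x + a ∈ A}

theorem measurableSet_shiftSet {A : Set (En n)} (hA : MeasurableSet A) (a : En n) :
    MeasurableSet (shiftSet A a) := (measurable_add_const a) hA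

theorem shiftSet_per {A : Set (En n)} (hp : IsLatticePeriodic A) (a : En n) :
    IsLatticePeriodic (shiftSet A a) := by
  intro v hv x
  change x + v + a ∈ A ↔ x + a ∈ A
  have : x + v + a = (x + a) + v := by abel
  rw [this]
  exact hp v hv _

theorem chi_shiftSet (A : Set (En n)) (a x : En n) : chi (shiftSet A a) x = chi A (x + a) := by
  unfold chi shiftSet
  by_cases h : x + a ∈ A
  · rw [Set.indicator_of_mem h, Set.indicator_of_mem]
    exact h
  · rw [Set.indicator_of_notMem h, Set.indicator_of_notMem]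
    exact h

theorem perimeter_shiftSet_le {A : Set (En n)} (hA : MeasurableSet A) (hp : IsLatticePeriodic A)
    (a : En n) : periodicPerimeter (shiftSet A a) ≤ periodicPerimeter A := by
  refine iSup_le fun φ => ?_
  have hadm := IsAdmissibleField.translate φ.2 (-a)
  have h1 : ∫ x in shiftSet A a ∩ unitCell n, divergence φ.1 x
      = ∫ x in A ∩ unitCell n, divergence (fun y => φ.1 (y + -a)) x := by
    rw [← integral_chi_mul (measurableSet_shiftSet hA a), ← integral_chi_mul hA]
    have hG : IsPer (fun x => chi A x * divergence (fun y => φ.1 (y + -a)) x) := by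
      intro v hv x
      have h2 : IsPer (divergence (fun y => φ.1 (y + -a))) := IsPer.divergence hadm.2.1
      simp only [chi_per hp v hv x, h2 v hv x]
    rw [← integral_cell_add hG a]
    congr 1
    funext x
    rw [chi_shiftSet, divergence_translate]
    simp
  rw [h1]
  exact le_iSup (fun φ : {φ : En n → En n // IsAdmissibleField φ} =>
      ENNReal.ofReal (∫ x in A ∩ unitCell n, divergence φ.1 x)) ⟨_, hadm⟩

theorem periodicVolume_shiftSet {A : Set (En n)} (hA : MeasurableSet A)
    (hp : IsLatticePeriodic A) (a : En n) : periodicVolume (shiftSet A a) = periodicVolume A := by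
  have key : ∀ {B : Set (En n)}, MeasurableSet B → periodicVolume B = ∫ x in unitCell n, chi B x := by
    intro B hB
    have := integral_chi_mul hB (fun _ => (1:ℝ))
    simp only [mul_one] at this
    rw [this, periodicVolume]
    simp [Measure.real]
  rw [key (measurableSet_shiftSet hA a), key hA, ← integral_cell_add (chi_per hp) a]
  exact integral_congr_ae (Eventually.of_forall fun x => chi_shiftSet A a x)

theorem flen_shiftSet (A : Set (En n)) (i : Fin n) (a x : En n) :
    flen (shiftSet A a) i x = flen A i (x + a) := by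
  rw [flen_eq, flen_eq]
  congr 1
  funext t
  rw [chi_shiftSet]
  congr 1
  abel

/-! ### fibre lengths of the model -/

theorem rho2_erase {J : Finset (Fin n)} {i : Fin n} (hi : i ∈ J) (y : En n) :
    rho2 J y = dd (y i) ^ 2 + rho2 (J.erase i) y := by
  unfold rho2
  rw [Finset.add_sum_erase J (fun j => dd (y j) ^ 2) hi]

theorem rho2_erase_sub_smul {J : Finset (Fin n)} {i : Fin n} (y : En n) (c : ℝ) :
    rho2 (J.erase i) (y - c • ei i) = rho2 (J.erase i) y := by
  have := rho2_add_ei (J.erase i) (Finset.notMem_erase i J) y (-c)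
  rw [neg_smul, ← sub_eq_add_neg] at this
  exact this

theorem flen_stdReg {J : Finset (Fin n)} {i : Fin n} (hi : i ∈ J) {r : ℝ} (hr : 0 < r)
    (hr2 : r < 1 / 2) (x : En n) : flen (stdReg J r 0) i x = uu (J.erase i) r x := by
  have hfib : fib (stdReg J r 0) i x = arc (-(x i)) (uu (J.erase i) r x) := by
    ext t
    change rho2 J (x + t • ei i - 0) < r ^ 2 ↔ _
    rw [sub_zero, rho2_erase hi, rho2_add_ei (J.erase i) (Finset.notMem_erase i J)]
    have h6 : (x + t • ei i) i = x i + t := by simp [ei]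
    rw [h6]
    unfold arc
    simp only [Set.mem_ofPred_eq]
    have h7 : |t - -(x i) - round (t - -(x i))| = |dd (x i + t)| := by
      have : t - -(x i) = x i + t := by ring
      rw [this]
      rfl
    have h8 : uu (J.erase i) r x / 2 = Real.sqrt (r ^ 2 - rho2 (J.erase i) x) := by unfold uu; ring
    rw [h7, h8, Real.lt_sqrt (abs_nonneg _), sq_abs]
    constructor <;> intro h9 <;> linarith
  unfold flen
  rw [hfib]
  have h := arc_integral (φ := fun _ => (1:ℝ)) continuous_const (fun _ => rfl) (-(x i))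
    (uu_nonneg (J.erase i) r x) (lt_of_le_of_lt (uu_le hr x) (by linarith))
  simp only [mul_one] at h
  rw [h]
  simp

/-! ### the step -/

theorem ae_notMem_of_flen {S : Set (En n)} (hS : MeasurableSet S) (hp : IsLatticePeriodic S)
    (i : Fin n) (h1 : ∀ᵐ x : En n, flen S i x = 0) : ∀ᵐ x : En n, x ∉ S := by
  have h0 : periodicVolume S = 0 := by
    rw [← integral_flen hS hp i]
    have : ∫ x in unitCell n, flen S i x = ∫ x in unitCell n, (0:ℝ) :=
      integral_congr_ae (ae_restrict_of_ae h1)
    rw [this]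
    simp
  have h2 : (volume : Measure (En n)) (S ∩ unitCell n) = 0 := by
    unfold periodicVolume at h0
    rw [ENNReal.toReal_eq_zero_iff] at h0
    rcases h0 with h0 | h0
    · exact h0
    · exact absurd h0 (ne_top_of_le_ne_top (volume_unitCell_lt_top n).ne
        (measure_mono Set.inter_subset_right))
  exact measure_eq_zero_iff_ae_notMem.1 (null_of_periodicVolume hp h2)

/-- undo one symmetrisation -/
theorem step {A : Set (En n)} (hA : MeasurableSet A) (hp : IsLatticePeriodic A)
    (hP : periodicPerimeter A ≠ ⊤) {J : Finset (Fin n)} {r : ℝ} (hr : 0 < r) (hr2 : r < 1 / 2)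
    (a : En n) (i : Fin n)
    (hlen : ∀ᵐ x : En n, flen A i x = flen (stdReg J r a) i x)
    (hle : (periodicPerimeter A).toReal ≤ J.card * periodicVolume A / r) :
    ∃ c : ℝ, ∀ᵐ x : En n, x ∈ A ↔ x ∈ stdReg J r (a + c • ei i) := by
  by_cases hi : i ∈ J
  · -- translate to the origin
    have hmodel : Model (shiftSet A a) i (J.erase i) r := by
      have hstd : ∀ x : En n, flen (stdReg J r a) i (x + a) = uu (J.erase i) r x := by
        intro x
        have : shiftSet (stdReg J r a) a = stdReg J r 0 := by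
          ext y
          change rho2 J (y + a - a) < r ^ 2 ↔ rho2 J (y - 0) < r ^ 2
          simp
        rw [← flen_shiftSet, this, flen_stdReg hi hr hr2]
      have hlen' : ∀ᵐ x : En n, flen (shiftSet A a) i x = uu (J.erase i) r x := by
        have h1 := (measurePreserving_add_right (volume : Measure (En n)) a).quasiMeasurePreserving.ae hlen
        filter_upwards [h1] with x hx
        rw [flen_shiftSet, hx, hstd]
      have hvol : periodicVolume A = ∫ x in unitCell n, uu (J.erase i) r x := by
        rw [← periodicVolume_shiftSet hA hp a,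
          ← integral_flen (measurableSet_shiftSet hA a) (shiftSet_per hp a) i]
        exact integral_congr_ae (ae_restrict_of_ae hlen')
      have hPle := perimeter_shiftSet_le hA hp a
      refine ⟨measurableSet_shiftSet hA a, shiftSet_per hp a, ne_top_of_le_ne_top hP hPle,
        Finset.notMem_erase i J, hr, hr2, hlen', ?_⟩
      have h2 := ENNReal.toReal_mono hP hPle
      refine h2.trans (hle.trans (le_of_eq ?_))
      rw [hvol]
      have hcard : (J.card : ℝ) = 1 + ((J.erase i).card : ℝ) := by
        have := Finset.card_erase_add_one hi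
        rw [← this]
        push_cast
        ring
      rw [hcard]
    obtain ⟨c, hc⟩ := hmodel.rigid (constOfWeak n)
    refine ⟨c, ?_⟩
    have h1 := (measurePreserving_add_right (volume : Measure (En n)) (-a)).quasiMeasurePreserving.ae hc
    filter_upwards [h1] with x hx
    have e1 : x + -a ∈ shiftSet A a ↔ x ∈ A := by
      change x + -a + a ∈ A ↔ x ∈ A
      simp
    rw [e1] at hx
    rw [hx]
    unfold region
    simp only [Set.mem_ofPred_eq, mem_stdReg]
    rw [rho2_erase hi (x - (a + c • ei i))]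
    have e2 : x - (a + c • ei i) = (x + -a) - c • ei i := by abel
    rw [e2, rho2_erase_sub_smul]
    have e3 : (x + -a - c • ei i) i = (x + -a) i - c := by simp [ei]
    rw [e3]
  · refine ⟨0, ?_⟩
    rw [zero_smul, add_zero]
    have hR := measurableSet_stdReg J r a
    have hRp := stdReg_per J r a
    have hmem : ∀ (x : En n) (t : ℝ), x + t • ei i ∈ stdReg J r a ↔ x ∈ stdReg J r a := by
      intro x t
      rw [mem_stdReg, mem_stdReg]
      have : x + t • ei i - a = (x - a) + t • ei i := by abel
      rw [this, rho2_add_ei J hi]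
    have hf1 : ∀ x ∈ stdReg J r a, flen (stdReg J r a) i x = 1 := by
      intro x hx
      unfold flen
      have : ∀ t : ℝ, ind (fib (stdReg J r a) i x) t = 1 := fun t => ind_of_mem ((hmem x t).2 hx)
      simp [this]
    have hf0 : ∀ x ∉ stdReg J r a, flen (stdReg J r a) i x = 0 := by
      intro x hx
      unfold flen
      have : ∀ t : ℝ, ind (fib (stdReg J r a) i x) t = 0 :=
        fun t => ind_of_notMem fun h => hx ((hmem x t).1 h)
      simp [this]
    have k1 : ∀ᵐ x : En n, x ∉ A \ stdReg J r a := by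
      apply ae_notMem_of_flen (hA.diff hR) _ i
      · filter_upwards [hlen] with x hx
        by_cases hxR : x ∈ stdReg J r a
        · unfold flen
          have : ∀ t : ℝ, ind (fib (A \ stdReg J r a) i x) t = 0 :=
            fun t => ind_of_notMem fun h => h.2 ((hmem x t).2 hxR)
          simp [this]
        · rw [hf0 x hxR] at hx
          have : fib (A \ stdReg J r a) i x = fib A i x := by
            ext t
            exact ⟨fun h => h.1, fun h => ⟨h, fun h' => hxR ((hmem x t).1 h')⟩⟩
          unfold flen at hx ⊢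
          rw [this, hx]
      · intro v hv x
        simp only [Set.mem_sdiff, hp v hv x, hRp v hv x]
    have k2 : ∀ᵐ x : En n, x ∉ stdReg J r a \ A := by
      apply ae_notMem_of_flen (hR.diff hA) _ i
      · filter_upwards [hlen] with x hx
        by_cases hxR : x ∈ stdReg J r a
        · rw [hf1 x hxR] at hx
          have h1 : ∀ t : ℝ, ind (fib (stdReg J r a \ A) i x) t = 1 - ind (fib A i x) t := by
            intro t
            by_cases ht : t ∈ fib A i x
            · rw [ind_of_mem ht, ind_of_notMem (fun h => h.2 ht)]; ring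
            · have h2 : t ∈ fib (stdReg J r a \ A) i x := ⟨(hmem x t).2 hxR, ht⟩
              rw [ind_of_notMem ht, ind_of_mem h2]; ring
          unfold flen at hx ⊢
          simp only [h1]
          have hint : IntervalIntegrable (ind (fib A i x)) volume 0 1 := by
            rw [intervalIntegrable_iff]
            apply Measure.integrableOn_of_bounded (M := 1)
            · rw [uIoc_of_le zero_le_one]; exact measure_Ioc_lt_top.ne
            · exact (measurable_const.indicator (measurableSet_fib hA i x)).aestronglyMeasurable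
            · refine Eventually.of_forall fun t => ?_
              unfold ind
              by_cases ht : t ∈ fib A i x <;> simp [ht]
          rw [intervalIntegral.integral_sub (intervalIntegrable_const) hint, hx]
          simp
        · unfold flen
          have : ∀ t : ℝ, ind (fib (stdReg J r a \ A) i x) t = 0 :=
            fun t => ind_of_notMem fun h => hxR ((hmem x t).1 h.1)
          simp [this]
      · intro v hv x
        simp only [Set.mem_sdiff, hp v hv x, hRp v hv x]
    filter_upwards [k1, k2] with x h1 h2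
    constructor
    · intro h3
      by_contra h4
      exact h1 ⟨h3, h4⟩
    · intro h3
      by_contra h4
      exact h2 ⟨h3, h4⟩

/-- the two fibre length functions agree -/
theorem flen_eq_flen (S : Set (En n)) (i : Fin n) (x : En n) : flen S i x = R214.flen i S x := by
  rw [flen_eq]
  rfl

theorem flen_congr_ae {A B : Set (En n)} (h : ∀ᵐ x : En n, x ∈ A ↔ x ∈ B) (i : Fin n) :
    ∀ᵐ x : En n, flen A i x = flen B i x := by
  filter_upwards [ae_line h i] with x hx
  unfold flen
  apply intervalIntegral.integral_congr_ae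
  filter_upwards [hx] with t ht _
  by_cases h1 : t ∈ fib A i x
  · rw [ind_of_mem h1, ind_of_mem (show t ∈ fib B i x from ht.1 h1)]
  · rw [ind_of_notMem h1, ind_of_notMem (fun h2 => h1 (ht.2 h2))]

theorem step_steiner {A : Set (En n)} (hA : MeasurableSet A) (hp : IsLatticePeriodic A)
    (hP : periodicPerimeter A ≠ ⊤) {J : Finset (Fin n)} {r : ℝ} (hr : 0 < r) (hr2 : r < 1 / 2)
    (a : En n) (i : Fin n) (h : ∀ᵐ x : En n, x ∈ steiner i A ↔ x ∈ stdReg J r a)
    (hle : (periodicPerimeter A).toReal ≤ J.card * periodicVolume A / r) :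
    ∃ a' : En n, ∀ᵐ x : En n, x ∈ A ↔ x ∈ stdReg J r a' := by
  have hlen : ∀ᵐ x : En n, flen A i x = flen (stdReg J r a) i x := by
    filter_upwards [flen_congr_ae h i] with x hx
    rw [← hx, flen_eq_flen, flen_eq_flen, R214.flen_steiner i hA hp]
  obtain ⟨c, hc⟩ := step hA hp hP hr hr2 a i hlen hle
  exact ⟨_, hc⟩

/-- undoing the three symmetrisations -/
theorem chain3 {E : Set (En 3)} (hE : MeasurableSet E) (hp : IsLatticePeriodic E)
    (hP : periodicPerimeter E ≠ ⊤) {J : Finset (Fin 3)} {r : ℝ} (hr : 0 < r) (hr2 : r < 1 / 2)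
    (h : ∀ᵐ x : En 3, x ∈ steiner3 E ↔ x ∈ stdReg J r 0)
    (hle : (periodicPerimeter E).toReal ≤ J.card * periodicVolume E / r) :
    ∃ a : En 3, ∀ᵐ x : En 3, x ∈ E ↔ x ∈ stdReg J r a := by
  have m0 := hE
  have p0 := hp
  have m1 := measurableSet_steiner 0 hE hp
  have p1 := steiner_periodic 0 hE hp
  have m2 := measurableSet_steiner 1 m1 p1
  have p2 := steiner_periodic 1 m1 p1
  have v1 : periodicVolume (steiner 0 E) = periodicVolume E := periodicVolume_steiner 0 hE hp
  have v2 : periodicVolume (steiner 1 (steiner 0 E)) = periodicVolume E := by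
    rw [periodicVolume_steiner 1 m1 p1, v1]
  have P1 : periodicPerimeter (steiner 0 E) ≤ periodicPerimeter E :=
    periodicPerimeter_steiner_le 0 hE hp
  have P2 : periodicPerimeter (steiner 1 (steiner 0 E)) ≤ periodicPerimeter E :=
    (periodicPerimeter_steiner_le 1 m1 p1).trans P1
  obtain ⟨a2, h2⟩ := step_steiner m2 p2 (ne_top_of_le_ne_top hP P2) hr hr2 0 2 h (by
    rw [v2]
    exact (ENNReal.toReal_mono hP P2).trans hle)
  obtain ⟨a1, h1⟩ := step_steiner m1 p1 (ne_top_of_le_ne_top hP P1) hr hr2 a2 1 h2 (by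
    rw [v1]
    exact (ENNReal.toReal_mono hP P1).trans hle)
  exact step_steiner m0 p0 hP hr hr2 a1 0 h1 hle

end Crest.Agent.R214.Rig
end
end

-- ▼ part R214/RigEnd
section

set_option autoImplicit false

/-! Row 214: `RIGID` from the equality case for the symmetrised sets. -/

open MeasureTheory Set Filter Topology Crest.GeometryTopology.PeriodicPerimeter

noncomputable section

namespace Crest.Agent.R214.Rig

theorem chain3_holds : Chain3 :=
  fun _ hE hp hP _ _ hr hr2 h hle => chain3 hE hp hP hr hr2 h hle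

/-- **RIGID** from the equality case for symmetrised sets. -/
theorem RIGID_of_EqSteiner (hEq : EqSteiner) : Inv.RIGID := RIGID_of hEq chain3_holds

end Crest.Agent.R214.Rig
end
end

-- ▼ part R214/FinalFiles
section

/-!
# Row 214: composition of the two statements from the scalar tables
-/

set_option autoImplicit false

namespace Crest.Agent.R214.Fin214

theorem main_of_tables (T : ZC.Tables) : Inv.MAIN := Down.MAIN_of T Down.noTouch

theorem rigid_of_tables (T : ZC.Tables) : Inv.RIGID :=
  Rig.RIGID_of_EqSteiner (Down.EqSteiner_of T Down.noTouch)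

end Crest.Agent.R214.Fin214
end

-- ▼ part R214/Tables

/-!
# Row 214: all certificate tables
-/

namespace Crest.Agent.R214.Cert

theorem tables : ZC.Tables :=
  ⟨c0_table, c1_table, c2_table, c3_table, c4_table, c5_table, c6_table, c7_table, c8_table⟩

end Crest.Agent.R214.Cert
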